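import Crest.Agent.R106.Chr

/-!
# Row 106: derivative estimates for the transport equation
-/

set_option autoImplicit false
set_option linter.unusedVariables false
set_option linter.unusedSectionVars false

open MeasureTheory Metric Set Filter Topology
open scoped ContDiff ENNReal RealInnerProductSpace
open Crest.AnalysisR.VecCalc3 Crest.AnalysisR.PDE.RVM

noncomputable section

namespace Crest.Agent.R106

section
variable {X : Type} [NormedAddCommGroup X] [NormedSpace ℝ X]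

/-- derivative in the non-time variables -/
def TrEst_sl {F : Type} [NormedAddCommGroup F] [NormedSpace ℝ F] (u : ℝ × X → F) (p : ℝ × X) :
    X →L[ℝ] F := (fderiv ℝ u p).comp (ContinuousLinearMap.inr ℝ ℝ X)

/-- iterated derivative in the non-time variables -/
def TrEst_D {F : Type} [NormedAddCommGroup F] [NormedSpace ℝ F] (k : ℕ) (u : ℝ × X → F)
    (p : ℝ × X) : X [×k]→L[ℝ] F := iteratedFDeriv ℝ k (fun y => u (p.1, y)) p.2

variable {F : Type} [NormedAddCommGroup F] [NormedSpace ℝ F]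

theorem TrEst_sl_cd {u : ℝ × X → F} (hu : ContDiff ℝ ∞ u) : ContDiff ℝ ∞ (TrEst_sl u) :=
  (hu.fderiv_right (m := ∞) (by simp)).clm_comp contDiff_const

theorem TrEst_sl_eq {u : ℝ × X → F} (hu : ContDiff ℝ ∞ u) (s : ℝ) :
    (fun y => TrEst_sl u (s, y)) = fderiv ℝ (fun y => u (s, y)) := by
  funext y
  ext w
  exact congrFun (CalcC_slice hu s w) y

theorem TrEst_slice (s : ℝ) (y : X) :
    HasFDerivAt (fun y : X => ((s, y) : ℝ × X)) (ContinuousLinearMap.inr ℝ ℝ X) y :=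
  hasFDerivAt_prodMk_right s y

/-- the differentiated transport equation -/
theorem TrEst_eq {u g : ℝ × X → F} {b : ℝ × X → X} (hu : ContDiff ℝ ∞ u) (hg : ContDiff ℝ ∞ g)
    (hb : ContDiff ℝ ∞ b) {s : ℝ} (h : ∀ y, fderiv ℝ u (s, y) (1, b (s, y)) = g (s, y)) (y : X) :
    fderiv ℝ (TrEst_sl u) (s, y) (1, b (s, y)) =
      TrEst_sl g (s, y) - (TrEst_sl u (s, y)).comp (TrEst_sl b (s, y)) := by
  have hu1 : ContDiff ℝ ∞ (fderiv ℝ u) := hu.fderiv_right (m := ∞) (by simp)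
  have d1 := (hu1.differentiable (by simp) (s, y)).hasFDerivAt
  have db := (hb.differentiable (by simp) (s, y)).hasFDerivAt
  have dg := (hg.differentiable (by simp) (s, y)).hasFDerivAt
  have e1 : HasFDerivAt (fun y : X => fderiv ℝ u (s, y) (1, b (s, y))) _ y :=
    (d1.comp y (TrEst_slice s y)).clm_apply
      ((hasFDerivAt_const (1 : ℝ) y).prodMk (db.comp y (TrEst_slice s y)))
  have e2 : HasFDerivAt (fun y : X => g (s, y)) _ y := dg.comp y (TrEst_slice s y)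
  rw [show (fun y : X => fderiv ℝ u (s, y) (1, b (s, y))) = fun y : X => g (s, y) from
    funext h] at e1
  have e3 := e1.unique e2
  have e4 : HasFDerivAt (TrEst_sl u) _ (s, y) :=
    d1.clm_comp (hasFDerivAt_const (ContinuousLinearMap.inr ℝ ℝ X) (s, y))
  have sy : IsSymmSndFDerivAt ℝ u (s, y) :=
    hu.contDiffAt.isSymmSndFDerivAt (by
      rw [minSmoothness_of_isRCLikeNormedField]; exact WithTop.coe_le_coe.2 le_top)
  rw [e4.fderiv]
  ext w
  have e5 := congrArg (fun L : X →L[ℝ] F => L w) e3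
  have e6 := sy (1, b (s, y)) (0, w)
  simp [TrEst_sl] at e5 ⊢
  rw [e6, ← e5]
  simp

theorem TrEst_D_succ {u : ℝ × X → F} (hu : ContDiff ℝ ∞ u) (k : ℕ) :
    TrEst_D (k + 1) u =
      (continuousMultilinearCurryRightEquiv' ℝ k X F).symm ∘ TrEst_D k (TrEst_sl u) := by
  funext p
  simp only [TrEst_D, Function.comp_apply]
  rw [iteratedFDeriv_succ_eq_comp_right, TrEst_sl_eq hu]
  rfl

theorem TrEst_D_norm {u : ℝ × X → F} (hu : ContDiff ℝ ∞ u) (k : ℕ) (p : ℝ × X) :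
    ‖TrEst_D k (TrEst_sl u) p‖ = ‖TrEst_D (k + 1) u p‖ := by
  rw [TrEst_D_succ hu]
  exact (LinearIsometryEquiv.norm_map _ _).symm

theorem TrEst_D_zero (u : ℝ × X → F) :
    TrEst_D 0 u = (continuousMultilinearCurryFin0 ℝ X F).symm ∘ u := by
  funext p
  simp only [TrEst_D, Function.comp_apply]
  rw [iteratedFDeriv_zero_eq_comp]
  rfl

theorem TrEst_D_cd (k : ℕ) : ∀ (F : Type) [NormedAddCommGroup F] [NormedSpace ℝ F]
    (u : ℝ × X → F), ContDiff ℝ ∞ u → ContDiff ℝ ∞ (TrEst_D k u) := by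
  induction k with
  | zero =>
    intro F _ _ u hu
    rw [TrEst_D_zero]
    exact (LinearIsometryEquiv.contDiff _).comp hu
  | succ k ih =>
    intro F _ _ u hu
    rw [TrEst_D_succ hu]
    exact (LinearIsometryEquiv.contDiff _).comp (ih _ _ (TrEst_sl_cd hu))

theorem TrEst_iso {G G' : Type} [NormedAddCommGroup G] [NormedSpace ℝ G] [NormedAddCommGroup G']
    [NormedSpace ℝ G'] (e : G ≃ₗᵢ[ℝ] G') (U : ℝ × X → G) (p w : ℝ × X) :
    ‖fderiv ℝ (e ∘ U) p w‖ = ‖fderiv ℝ U p w‖ := by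
  rw [LinearIsometryEquiv.comp_fderiv]
  simp

theorem TrEst_D_fd {u : ℝ × X → F} (hu : ContDiff ℝ ∞ u) (k : ℕ) (p w : ℝ × X) :
    ‖fderiv ℝ (TrEst_D (k + 1) u) p w‖ = ‖fderiv ℝ (TrEst_D k (TrEst_sl u)) p w‖ := by
  have h := TrEst_iso (G := X [×k]→L[ℝ] X →L[ℝ] F) (G' := X [×(k + 1)]→L[ℝ] F)
    (continuousMultilinearCurryRightEquiv' ℝ k X F).symm (TrEst_D k (TrEst_sl u)) p w
  have e := congrArg (fun U : ℝ × X → X [×(k + 1)]→L[ℝ] F => ‖fderiv ℝ U p w‖) (TrEst_D_succ hu k)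
  exact e.trans h

/-- the pointwise estimate for the `k`-times differentiated transport equation -/
theorem TrEst_pt {b : ℝ × X → X} (hb : ContDiff ℝ ∞ b) (s : ℝ) (y : X) (k : ℕ) :
    ∀ (F : Type) [NormedAddCommGroup F] [NormedSpace ℝ F] (u g : ℝ × X → F),
      ContDiff ℝ ∞ u → ContDiff ℝ ∞ g → (∀ y, fderiv ℝ u (s, y) (1, b (s, y)) = g (s, y)) →
      ∀ M : ℝ, 0 ≤ M → (∀ i j : ℕ, i + j + 1 = k →
        ‖TrEst_D (i + 1) u (s, y)‖ * ‖TrEst_D (j + 1) b (s, y)‖ ≤ M) →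
      ‖fderiv ℝ (TrEst_D k u) (s, y) (1, b (s, y))‖ ≤ ‖TrEst_D k g (s, y)‖ + 2 ^ k * M := by
  induction k with
  | zero =>
    intro F _ _ u g hu hg h M hM _
    rw [TrEst_D_zero, TrEst_iso, h, TrEst_D_zero]
    simpa using hM
  | succ k ih =>
    intro F _ _ u g hu hg h M hM hij
    have c1 := TrEst_sl_cd hu
    have c2 := TrEst_sl_cd hg
    have c3 := TrEst_sl_cd hb
    have h1 := ih _ (TrEst_sl u) (fun p => TrEst_sl g p - (TrEst_sl u p).comp (TrEst_sl b p)) c1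
      (c2.sub (c1.clm_comp c3)) (TrEst_eq hu hg hb h) M hM fun i j hk => by
        rw [TrEst_D_norm hu]
        exact hij (i + 1) j (by omega)
    rw [TrEst_D_fd hu]
    refine h1.trans ?_
    have h2 := (ContinuousLinearMap.compL ℝ X X F).norm_iteratedFDeriv_le_of_bilinear_of_le_one
      (CalcC_cd c1 s) (CalcC_cd c3 s) y (n := k) (by exact_mod_cast le_top)
      (ContinuousLinearMap.norm_compL_le _ _ _ _)
    have h3 := h2.trans (CalcC_sum (M := M) fun i hi => by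
      have := hij i (k - i) (by omega)
      rw [← TrEst_D_norm hu, ← TrEst_D_norm hb] at this
      exact this)
    have h4 := iteratedFDeriv_sub_apply (i := k) (x := y)
      ((CalcC_cd c2 s).of_le (by exact_mod_cast le_top)).contDiffAt
      ((CalcC_cd (c1.clm_comp c3) s).of_le (by exact_mod_cast le_top)).contDiffAt
    have h5 := (congrArg norm h4).trans_le (norm_sub_le _ _)
    rw [← TrEst_D_norm hg]
    have h6 : ‖TrEst_D k (fun p => TrEst_sl g p - (TrEst_sl u p).comp (TrEst_sl b p)) (s, y)‖ ≤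
        ‖TrEst_D k (TrEst_sl g) (s, y)‖ + 2 ^ k * M := h5.trans (add_le_add le_rfl h3)
    rw [pow_succ]
    linarith

end

/-- the transport field -/
def TrEst_b (E' B' : ST → R3) (p : PS) : R3 × R3 :=
  (relVel p.2.2, lor (E' (p.1, p.2.1)) (B' (p.1, p.2.1)) p.2.2)

theorem TrEst_lor_cd {E' B' : ST → R3} (hE : ContDiff ℝ ∞ E') (hB : ContDiff ℝ ∞ B') :
    ContDiff ℝ ∞ fun p : PS => lor (E' (p.1, p.2.1)) (B' (p.1, p.2.1)) p.2.2 :=
  contDiff_lor.comp (f := fun p : PS => (E' (p.1, p.2.1), B' (p.1, p.2.1), p.2.2))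
    ((hE.comp (by fun_prop)).prodMk ((hB.comp (by fun_prop)).prodMk (by fun_prop)))

theorem TrEst_b_cd {E' B' : ST → R3} (hE : ContDiff ℝ ∞ E') (hB : ContDiff ℝ ∞ B') :
    ContDiff ℝ ∞ (TrEst_b E' B') :=
  (contDiff_relVel.comp (by fun_prop)).prodMk (TrEst_lor_cd hE hB)

theorem TrEst_bx (k : ℕ) : ∃ C : ℝ, 0 ≤ C ∧ ∀ (E' B' : ST → R3), ContDiff ℝ ∞ E' →
    ContDiff ℝ ∞ B' → ∀ s A b : ℝ, 0 ≤ A → (∀ j < k, Bx j B' s A) → Bx k E' s b → Bx k B' s b →
    Bx k (TrEst_b E' B') s (C * (1 + A + b)) := by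
  obtain ⟨C, hC0, hC⟩ := bx_lor k
  obtain ⟨r, hr⟩ := relVel_bdd k
  have hr0 : 0 ≤ r := (norm_nonneg _).trans (hr 0)
  refine ⟨C + r, by positivity, fun E' B' hE hB s A b hA h1 h2 h3 y => ?_⟩
  have hb := h2.nonneg
  have c3 : ContDiff ℝ ∞ fun y : R3 × R3 => relVel y.2 := contDiff_relVel.comp (by fun_prop)
  have h4 := iteratedFDeriv_prodMk (x := y) c3.contDiffAt
    (CalcC_cd (TrEst_lor_cd hE hB) s).contDiffAt (i := k) (by exact_mod_cast le_top)
  refine (congrArg norm h4).trans_le ?_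
  rw [ContinuousMultilinearMap.opNorm_prod]
  refine max_le (((CalcC_comp (ContinuousLinearMap.snd ℝ R3 R3)
    (ContinuousLinearMap.norm_snd_le ..) contDiff_relVel k y).trans (hr _)).trans ?_)
    ((hC E' B' hE hB s A b hA h1 h2 h3 y).trans ?_)
  · nlinarith [mul_nonneg hC0 hA, mul_nonneg hC0 hb, mul_nonneg hr0 hA, mul_nonneg hr0 hb]
  · nlinarith [mul_nonneg hC0 hA, mul_nonneg hC0 hb, mul_nonneg hr0 hA, mul_nonneg hr0 hb]

theorem TrEst_f {T : ℝ} {E' B' : ST → R3} {f : PS → ℝ} {E B : ST → R3}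
    (h : Step T E' B' f E B) (k : ℕ) (p : PS) (hp : p.1 ∈ Icc 0 T) (M : ℝ) (hM : 0 ≤ M)
    (hij : ∀ i j : ℕ, i + j + 1 = k →
      ‖TrEst_D (i + 1) f p‖ * ‖TrEst_D (j + 1) (TrEst_b E' B') p‖ ≤ M) :
    ‖fderiv ℝ (TrEst_D k f) p (1, relVel p.2.2, lor (E' (p.1, p.2.1)) (B' (p.1, p.2.1)) p.2.2)‖ ≤
      2 ^ k * M := by
  have := TrEst_pt (TrEst_b_cd h.sE' h.sB') p.1 p.2 k ℝ f (fun _ => 0) h.sf contDiff_const
    (fun y => h.vl (p.1, y) hp) M hM hij
  simpa [TrEst_D, TrEst_b] using this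

theorem tr_one : ∃ C : ℝ, 0 ≤ C ∧ ∀ (T : ℝ) (E' B' : ST → R3) (f : PS → ℝ) (E B : ST → R3),
    Step T E' B' f E B → ∀ (B₀ D : ℝ) (L : ℝ → ℝ), Continuous L →
    (∀ s ∈ Icc 0 T, Bx 0 B' s B₀ ∧ Bx 1 E' s (L s) ∧ Bx 1 B' s (L s)) → Bx 1 f 0 D →
    ∀ t ∈ Icc 0 T, Bx 1 f t (D * Real.exp (C * ∫ s in (0 : ℝ)..t, (1 + B₀ + L s))) := by
  obtain ⟨C, hC0, hC⟩ := TrEst_bx 1
  refine ⟨2 * C, by positivity, fun T E' B' f E B h B₀ D L hL hB hD t ht y => ?_⟩
  have hb : ∀ s ∈ Icc 0 T, Bx 1 (TrEst_b E' B') s (C * (1 + B₀ + L s)) := fun s hs =>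
    hC E' B' h.sE' h.sB' s B₀ (L s) (hB s hs).1.nonneg
      (fun j hj => by obtain rfl : j = 0 := by omega
                      exact (hB s hs).1) (hB s hs).2.1 (hB s hs).2.2
  have := h.gronwall (u := TrEst_D 1 f) ((TrEst_D_cd 1 ℝ f h.sf).of_le (by exact_mod_cast le_top))
    (L := fun s => 2 * C * (1 + B₀ + L s)) (m := fun _ => 0) (by fun_prop) continuous_const
    (fun s hs => by have := (hb s hs).nonneg; nlinarith) (fun _ _ => le_rfl)
    (fun p hp => by
      refine (TrEst_f h 1 p hp (‖TrEst_D 1 f p‖ * (C * (1 + B₀ + L p.1)))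
        (mul_nonneg (norm_nonneg _) (hb _ hp).nonneg) fun i j hij => ?_).trans (le_of_eq ?_)
      · obtain rfl : i = 0 := by omega
        obtain rfl : j = 0 := by omega
        exact mul_le_mul_of_nonneg_left (hb _ hp p.2) (norm_nonneg _)
      · ring) (D := D) hD (t, y) ht
  rw [intervalIntegral.integral_const_mul] at this
  simpa [mul_comm, TrEst_D] using this

theorem tr_high (k : ℕ) (hk : 2 ≤ k) (T A : ℝ) : ∃ C : ℝ, 0 ≤ C ∧ ∀ T' ≤ T,
    ∀ (E' B' : ST → R3) (f : PS → ℝ) (E B : ST → R3), Step T' E' B' f E B →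
    (∀ s ∈ Icc 0 T', ∀ j < k, Bx j E' s A ∧ Bx j B' s A ∧ Bx j f s A) →
    ∀ (D : ℝ) (m : ℝ → ℝ), Continuous m → Bx k f 0 D →
    (∀ s ∈ Icc 0 T', Bx k E' s (m s) ∧ Bx k B' s (m s)) →
    ∀ t ∈ Icc 0 T', Bx k f t (C * (D + 1 + ∫ s in (0 : ℝ)..t, m s)) := by
  obtain ⟨C, hC0, hC⟩ := CalcC_unif (P := fun k C => ∀ (E' B' : ST → R3), ContDiff ℝ ∞ E' →
      ContDiff ℝ ∞ B' → ∀ s A b : ℝ, 0 ≤ A → (∀ j < k, Bx j B' s A) → Bx k E' s b → Bx k B' s b →
      Bx k (TrEst_b E' B') s (C * (1 + A + b))) TrEst_bx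
    (fun j C C' h1 h2 E' B' hE hB s A b hA h3 h4 h5 => (h2 E' B' hE hB s A b hA h3 h4 h5).mono
      (mul_le_mul_of_nonneg_right h1 (by have := h4.nonneg; positivity))) k
  set L : ℝ := 2 ^ k * (C * (1 + |A| + |A|)) with hL
  set K : ℝ := 2 ^ k * (|A| * C) with hK
  have hL0 : 0 ≤ L := by positivity
  have hK0 : 0 ≤ K := by positivity
  refine ⟨Real.exp (L * |T|) * (1 + K * (1 + |A| + |A|) * |T| + K), by positivity,
    fun T' hT E' B' f E B h hA D m hm hD hmm t ht y => ?_⟩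
  have hA0 : 0 ≤ A := (hA t ht 0 (by omega)).1.nonneg
  have hAA : |A| = A := abs_of_nonneg hA0
  have hlow : ∀ s ∈ Icc 0 T', ∀ j < k, Bx j (TrEst_b E' B') s (C * (1 + A + A)) := fun s hs j hj =>
    hC j hj.le E' B' h.sE' h.sB' s A A hA0 (fun i hi => (hA s hs i (hi.trans hj)).2.1)
      (hA s hs j hj).1 (hA s hs j hj).2.1
  have htop : ∀ s ∈ Icc 0 T', Bx k (TrEst_b E' B') s (C * (1 + A + m s)) := fun s hs =>
    hC k le_rfl E' B' h.sE' h.sB' s A (m s) hA0 (fun i hi => (hA s hs i hi).2.1)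
      (hmm s hs).1 (hmm s hs).2
  have hm0 : ∀ s ∈ Icc 0 T', 0 ≤ m s := fun s hs => (hmm s hs).1.nonneg
  have := h.gronwall (u := TrEst_D k f) ((TrEst_D_cd k ℝ f h.sf).of_le (by exact_mod_cast le_top))
    (L := fun s => L) (m := fun s => K * ((1 + A + A) + m s)) continuous_const (by fun_prop)
    (fun s hs => hL0) (fun s hs => by have := hm0 s hs; positivity)
    (fun p hp => by
      have hmp := hm0 _ hp
      have hn := norm_nonneg (TrEst_D k f p)
      have q1 : 0 ≤ ‖TrEst_D k f p‖ * (C * (1 + A + A)) := by positivity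
      have q2 : 0 ≤ A * (C * (1 + A + A)) := by positivity
      have q3 : 0 ≤ A * (C * m p.1) := by positivity
      have q4 : 0 ≤ A * (C * A) := by positivity
      refine (TrEst_f h k p hp
        (‖TrEst_D k f p‖ * (C * (1 + A + A)) + A * (C * ((1 + A + A) + m p.1)))
        (by positivity) fun i j hij => ?_).trans (le_of_eq ?_)
      · by_cases hi : i + 1 = k
        · have := mul_le_mul_of_nonneg_left (hlow _ hp (j + 1) (by omega) p.2) hn
          rw [hi]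
          refine le_trans this ?_
          nlinarith
        · have hf : ‖TrEst_D (i + 1) f p‖ ≤ A := (hA _ hp (i + 1) (by omega)).2.2 p.2
          by_cases hj : j + 1 = k
          · have := mul_le_mul hf (htop _ hp p.2) (norm_nonneg _) hA0
            rw [hj]
            refine le_trans this ?_
            nlinarith
          · have := mul_le_mul hf (hlow _ hp (j + 1) (by omega) p.2) (norm_nonneg _) hA0
            refine le_trans this ?_
            nlinarith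
      · rw [hL, hK, hAA]; ring) (D := D) hD (t, y) ht
  refine le_trans this ?_
  have hI : 0 ≤ ∫ s in (0 : ℝ)..t, m s :=
    intervalIntegral.integral_nonneg ht.1 fun s hs => hm0 s ⟨hs.1, hs.2.trans ht.2⟩
  have htT : t ≤ |T| := (ht.2.trans hT).trans (le_abs_self T)
  have hD0 := hD.nonneg
  have ht0 := ht.1
  rw [intervalIntegral.integral_const_mul K, intervalIntegral.integral_add (by simp)
    (hm.intervalIntegrable _ _)]
  clear_value L K
  simp only [intervalIntegral.integral_const, sub_zero, smul_eq_mul]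
  rw [mul_assoc (Real.exp _), hAA]
  refine mul_le_mul (Real.exp_le_exp.2 (by nlinarith)) ?_ (by positivity) (by positivity)
  have q1 : K * (t * (1 + A + A)) ≤ K * (1 + A + A) * |T| := by
    rw [mul_comm t, ← mul_assoc]
    exact mul_le_mul_of_nonneg_left htT (by positivity)
  have q2 : 0 ≤ K * (1 + A + A) * |T| := by positivity
  nlinarith [mul_nonneg q2 hD0, mul_nonneg q2 hI, mul_nonneg hK0 hD0]

end Crest.Agent.R106
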