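import Crest.Agent.R106.GSB
import Crest.Agent.R106.TrEst

/-!
# Row 106: higher derivatives
-/

set_option autoImplicit false
set_option linter.unusedVariables false
set_option linter.unusedSectionVars false

open MeasureTheory Metric Set Filter Topology
open scoped ContDiff ENNReal RealInnerProductSpace
open Crest.AnalysisR.VecCalc3 Crest.AnalysisR.PDE.RVM

noncomputable section

namespace Crest.Agent.R106

theorem Higher_int {c μ : ℝ} (hc : 0 ≤ c) (hμ : 0 < μ) (t : ℝ) :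
    ∫ s in (0 : ℝ)..t, c * Real.exp (μ * s) ≤ c / μ * Real.exp (μ * t) := by
  have h : ∀ s ∈ uIcc 0 t, HasDerivAt (fun s => c / μ * Real.exp (μ * s))
      (c * Real.exp (μ * s)) s := fun s _ => by
    have h1 := (((hasDerivAt_id' s).const_mul μ).exp).const_mul (c / μ)
    refine h1.congr_deriv ?_
    field_simp
  rw [intervalIntegral.integral_eq_sub_of_hasDerivAt h
    ((by fun_prop : Continuous fun s => c * Real.exp (μ * s)).intervalIntegrable _ _)]
  have : 0 ≤ c / μ * Real.exp (μ * 0) := by positivity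
  linarith

/-- the linear step for derivatives of order `k ≥ 2` in exponentially weighted norms -/
theorem higher_step (k : ℕ) (hk : 2 ≤ k) (T R A D : ℝ) : ∃ C μ : ℝ, 0 ≤ C ∧ 0 < μ ∧ ∀ T' ≤ T,
    ∀ (E' B' : ST → R3) (f : PS → ℝ) (E B : ST → R3), Step T' E' B' f E B →
    (∀ s ∈ Icc 0 T', VS f s R ∧ ∀ j < k, Bx j E' s A ∧ Bx j B' s A ∧ Bx j f s A) →
    DBd (k + 3) f E B 0 D → ∀ Λ : ℝ, 0 ≤ Λ →
    (∀ s ∈ Icc 0 T', Bx k E' s (Λ * Real.exp (μ * s)) ∧ Bx k B' s (Λ * Real.exp (μ * s))) →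
    ∀ s ∈ Icc 0 T', Bx k f s ((C + Λ) * Real.exp (μ * s)) ∧
      Bx k E s ((C + Λ / 2) * Real.exp (μ * s)) ∧ Bx k B s ((C + Λ / 2) * Real.exp (μ * s)) := by
  obtain ⟨C₁, c₁, h₁⟩ := tr_high k hk T A
  obtain ⟨C₂, c₂, h₂⟩ := bx_frc k (by omega)
  obtain ⟨C₃, c₃, h₃⟩ := gs_bound T R R k
  set Cf : ℝ := C₁ * (|D| + 1) with hCf
  set K₀ : ℝ := Cf + C₂ * |A| * (|A| + Cf) with hK₀
  set K₁ : ℝ := 1 + 2 * (C₂ * |A|) with hK₁
  have cf : 0 ≤ Cf := by positivity
  have k₀ : 0 ≤ K₀ := by positivity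
  have k₁ : 0 ≤ K₁ := by positivity
  set μ : ℝ := 1 + C₁ + 2 * (C₃ * K₁) with hμ
  have c₃k : 0 ≤ C₃ * K₁ := by positivity
  have μ1 : 1 ≤ μ := by linarith
  have μ0 : 0 < μ := by linarith
  have cg : 0 ≤ C₃ * (|D| + K₀) := by positivity
  refine ⟨Cf + C₃ * (|D| + K₀), μ, by positivity, μ0, ?_⟩
  intro T' hT E' B' f E B hS hA hD Λ hΛ hb
  have he : ∀ s ∈ Icc 0 T', 1 ≤ Real.exp (μ * s) := fun s hs =>
    Real.one_le_exp (mul_nonneg μ0.le hs.1)
  have hf : ∀ s ∈ Icc 0 T', Bx k f s ((Cf + Λ) * Real.exp (μ * s)) := fun s hs => by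
    refine (h₁ T' hT E' B' f E B hS (fun s hs => (hA s hs).2) D
      (fun s => Λ * Real.exp (μ * s)) (by fun_prop) (hD k (by omega)).1 hb s hs).mono ?_
    have i1 := Higher_int hΛ μ0 s
    have e1 := he s hs
    have i2 : C₁ * (Λ / μ) ≤ Λ := by
      rw [← mul_div_assoc, div_le_iff₀ μ0]
      nlinarith
    have i3 : C₁ * (D + 1) ≤ Cf := mul_le_mul_of_nonneg_left (by linarith [le_abs_self D]) c₁
    calc C₁ * (D + 1 + ∫ s in (0 : ℝ)..s, Λ * Real.exp (μ * s))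
        ≤ C₁ * (D + 1 + Λ / μ * Real.exp (μ * s)) := mul_le_mul_of_nonneg_left (by linarith) c₁
      _ = C₁ * (D + 1) + C₁ * (Λ / μ) * Real.exp (μ * s) := by ring
      _ ≤ Cf * Real.exp (μ * s) + Λ * Real.exp (μ * s) := by
        refine add_le_add (i3.trans (le_mul_of_one_le_right cf e1)) ?_
        exact mul_le_mul_of_nonneg_right i2 (by positivity)
      _ = _ := by ring
  intro t ht
  have h0 : (0 : ℝ) ∈ Icc 0 T' := ⟨le_rfl, ht.1.trans ht.2⟩
  have hA0 : 0 ≤ A := ((hA 0 h0).2 0 (by omega)).1.nonneg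
  have hm : ∀ s ∈ Icc 0 T', Bx k f s ((K₀ + K₁ * Λ) * Real.exp (μ * s)) ∧
      Bx k (frc E' B' f) s ((K₀ + K₁ * Λ) * Real.exp (μ * s)) := fun s hs => by
    have e1 := he s hs
    have ca : 0 ≤ C₂ * |A| := by positivity
    refine ⟨(hf s hs).mono (mul_le_mul_of_nonneg_right ?_ (by positivity)),
      (h₂ E' B' f hS.sE' hS.sB' hS.sf s A _ _ (hA s hs).2 (hf s hs) (hb s hs).1
        (hb s hs).2).mono ?_⟩
    · have : 0 ≤ C₂ * |A| * (|A| + Cf) := by positivity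
      have : 0 ≤ C₂ * |A| * Λ := by positivity
      rw [hK₀, hK₁]
      nlinarith
    · have j1 : A ≤ |A| * Real.exp (μ * s) :=
        (le_abs_self A).trans (le_mul_of_one_le_right (abs_nonneg A) e1)
      have j2 : 0 ≤ (Cf + Λ) * Real.exp (μ * s) := by positivity
      calc C₂ * A * (A + (Cf + Λ) * Real.exp (μ * s) + Λ * Real.exp (μ * s))
          ≤ C₂ * |A| * (|A| * Real.exp (μ * s) + (Cf + Λ) * Real.exp (μ * s) +
            Λ * Real.exp (μ * s)) := by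
            rw [abs_of_nonneg hA0] at j1 ⊢
            exact mul_le_mul_of_nonneg_left (by linarith) (by positivity)
        _ = (K₀ + K₁ * Λ) * Real.exp (μ * s) - (Cf + Λ) * Real.exp (μ * s) := by
            rw [hK₀, hK₁]; ring
        _ ≤ _ := by linarith
  have hv : ∀ s ∈ Icc 0 T', VS f s R ∧ VS (frc E' B' f) s R := fun s hs =>
    ⟨(hA s hs).1, fun y v hv => by simp only [frc, (hA s hs).1 y v hv, zero_smul]⟩
  have hg := h₃ T' hT f (frc E' B' f) E B hS.lin (hA 0 h0).1 hv D hD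
    (fun s => (K₀ + K₁ * Λ) * Real.exp (μ * s)) (by fun_prop) hm t ht
  have hfin : C₃ * (D + ∫ s in (0 : ℝ)..t, (K₀ + K₁ * Λ) * Real.exp (μ * s)) ≤
      (Cf + C₃ * (|D| + K₀) + Λ / 2) * Real.exp (μ * t) := by
    have i1 := Higher_int (c := K₀ + K₁ * Λ) (by positivity) μ0 t
    have e1 := he t ht
    have i2 : D ≤ |D| * Real.exp (μ * t) :=
      (le_abs_self D).trans (le_mul_of_one_le_right (abs_nonneg D) e1)
    have i3 : C₃ * ((K₀ + K₁ * Λ) / μ) ≤ C₃ * K₀ + Λ / 2 := by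
      rw [← mul_div_assoc, div_le_iff₀ μ0]
      have a1 : C₃ * K₀ ≤ C₃ * K₀ * μ := le_mul_of_one_le_right (by positivity) μ1
      have a2 : C₃ * K₁ * Λ ≤ μ / 2 * Λ := mul_le_mul_of_nonneg_right (by linarith) hΛ
      nlinarith
    calc _ ≤ C₃ * (|D| * Real.exp (μ * t) + (K₀ + K₁ * Λ) / μ * Real.exp (μ * t)) :=
          mul_le_mul_of_nonneg_left (by linarith) c₃
      _ = (C₃ * |D| + C₃ * ((K₀ + K₁ * Λ) / μ)) * Real.exp (μ * t) := by ring
      _ ≤ _ := mul_le_mul_of_nonneg_right (by nlinarith) (by positivity)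
  exact ⟨(hf t ht).mono (mul_le_mul_of_nonneg_right (by linarith) (by positivity)),
    hg.1.mono hfin, hg.2.mono hfin⟩

end Crest.Agent.R106
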