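import Crest.Agent.R106.GradLog
import Crest.Agent.R106.Higher

/-!
# Row 106: the Glassey–Strauss continuation criterion
-/

set_option autoImplicit false
set_option linter.unusedVariables false
set_option linter.unusedSectionVars false

open MeasureTheory Metric Set Filter Topology
open scoped ContDiff ENNReal RealInnerProductSpace
open Crest.AnalysisR.VecCalc3 Crest.AnalysisR.PDE.RVM

noncomputable section

namespace Crest.Agent.R106

/-- the weighted trick -/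
theorem Apri_boot {T μ C : ℝ} {k : ℕ} {f : PS → ℝ} {E B : ST → R3} (hs : Sol T f E B)
    (hμ : 0 ≤ μ) (hC : 0 ≤ C)
    (hstep : ∀ Λ : ℝ, 0 ≤ Λ →
      (∀ s ∈ Icc 0 T, Bx k E s (Λ * Real.exp (μ * s)) ∧ Bx k B s (Λ * Real.exp (μ * s))) →
      ∀ s ∈ Icc 0 T, Bx k E s ((C + Λ / 2) * Real.exp (μ * s)) ∧
        Bx k B s ((C + Λ / 2) * Real.exp (μ * s))) :
    ∀ s ∈ Icc 0 T, Bx k E s (2 * C * Real.exp (μ * s)) ∧ Bx k B s (2 * C * Real.exp (μ * s)) := by
  obtain ⟨Λ, hΛ⟩ := hs.step.bd' T k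
  have hn : ∀ n : ℕ, ∀ s ∈ Icc 0 T,
      Bx k E s ((2 * C + |Λ| * (1 / 2) ^ n) * Real.exp (μ * s)) ∧
        Bx k B s ((2 * C + |Λ| * (1 / 2) ^ n) * Real.exp (μ * s)) := by
    intro n
    induction n with
    | zero =>
      intro s hs'
      have h1 : Λ ≤ (2 * C + |Λ| * (1 / 2) ^ 0) * Real.exp (μ * s) := by
        have h2 : 1 ≤ Real.exp (μ * s) := Real.one_le_exp (mul_nonneg hμ hs'.1)
        have h3 := le_abs_self Λ
        have h4 := abs_nonneg Λ
        rw [pow_zero, mul_one]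
        nlinarith
      have := hΛ s hs' (by rw [abs_of_nonneg hs'.1]; exact hs'.2)
      exact ⟨this.1.mono h1, this.2.mono h1⟩
    | succ n ih =>
      have := hstep _ (by positivity) ih
      have e : C + (2 * C + |Λ| * (1 / 2) ^ n) / 2 = 2 * C + |Λ| * (1 / 2) ^ (n + 1) := by ring
      rwa [e] at this
  intro s hs'
  have hlim : Tendsto (fun n : ℕ => (2 * C + |Λ| * (1 / 2) ^ n) * Real.exp (μ * s)) atTop
      (𝓝 (2 * C * Real.exp (μ * s))) := by
    have h1 : Tendsto (fun n : ℕ => (1 / 2 : ℝ) ^ n) atTop (𝓝 0) :=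
      tendsto_pow_atTop_nhds_zero_of_lt_one (by norm_num) (by norm_num)
    have h2 := ((h1.const_mul |Λ|).const_add (2 * C)).mul_const (Real.exp (μ * s))
    simpa using h2
  exact ⟨fun y => ge_of_tendsto' hlim fun n => (hn n s hs').1 y,
    fun y => ge_of_tendsto' hlim fun n => (hn n s hs').2 y⟩

theorem Apri_int {a b μ t T : ℝ} (ha : 0 ≤ a) (hb : 0 ≤ b) (hμ : 0 < μ) (ht : t ≤ T) :
    ∫ s in (0 : ℝ)..t, (a + b * Real.exp (μ * s)) ≤ a * T + b / μ * Real.exp (μ * t) := by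
  have hd : ∀ s ∈ uIcc (0 : ℝ) t, HasDerivAt (fun s => a * s + b / μ * Real.exp (μ * s))
      (a + b * Real.exp (μ * s)) s := by
    intro s _
    have h1 := ((hasDerivAt_id s).const_mul a).add
      (((hasDerivAt_id s).const_mul μ).exp.const_mul (b / μ))
    refine h1.congr_deriv ?_
    simp only [id]
    field_simp
  rw [intervalIntegral.integral_eq_sub_of_hasDerivAt hd
    (Continuous.intervalIntegrable (by fun_prop) _ _)]
  have h1 : 0 ≤ b / μ * Real.exp (μ * 0) := by positivity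
  have h2 := mul_le_mul_of_nonneg_left ht ha
  linarith

/-- the bound at level `k` -/
def Apri_G (T R D : ℝ) (k : ℕ) : Prop := ∃ A : ℝ, 0 ≤ A ∧ ∀ T' ≤ T, ∀ (f : PS → ℝ) (E B : ST → R3),
    Sol T' f E B → (∀ s ∈ Icc 0 T', VS f s R) → DBd 7 f E B 0 D →
    ∀ s ∈ Icc 0 T', DBd k f E B s A

theorem Apri_exp {μ s T : ℝ} (hμ : 0 ≤ μ) (hs : s ≤ T) : Real.exp (μ * s) ≤ Real.exp (μ * T) :=
  Real.exp_le_exp.2 (mul_le_mul_of_nonneg_left hs hμ)

theorem Apri_zero {T R D : ℝ} (hT : 0 ≤ T) (hD : 1 ≤ D) : Apri_G T R D 0 := by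
  obtain ⟨C, hC, hgs⟩ := gs_bound T R R 0
  have hD0 : 0 ≤ D := by linarith
  set μ : ℝ := 4 * C * D + 1 with hμ
  have hμ0 : 0 < μ := by positivity
  refine ⟨D + 2 * (C * (D + D * T)) * Real.exp (μ * T), by positivity, ?_⟩
  intro T' hT' f E B hs hv hd t ht
  have hf : ∀ s ∈ Icc 0 T', ∀ y, ‖f (s, y)‖ ≤ D := fun s hs' y =>
    abs_le.2 (Step.range hs.step (lo := -D) (hi := D)
      (fun y => abs_le.1 (bx_zero.1 (hd 0 (by norm_num)).1 y)) (s, y) hs')
  have hb := Apri_boot (k := 0) (C := C * (D + D * T)) hs hμ0.le (by positivity) (by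
    intro Λ hΛ hL s hs'
    have h1 := hgs T' hT' f (frc E B f) E B (Step.lin hs.step) (hv 0 ⟨le_rfl, hs'.1.trans hs'.2⟩)
      (fun s hs' => ⟨hv s hs', fun y v hR => by
        show f (s, y, v) • _ = 0
        rw [hv s hs' y v hR, zero_smul]⟩) D (fun k hk => hd k (by omega))
      (fun s => D + 2 * D * Λ * Real.exp (μ * s)) (by fun_prop) (fun s hs' => by
        have h2 : 0 ≤ 2 * D * Λ * Real.exp (μ * s) := by positivity
        refine ⟨bx_zero.2 fun y => (hf s hs' y).trans (by linarith), bx_zero.2 fun y => ?_⟩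
        have h3 := norm_lor_le (E (s, y.1)) (B (s, y.1)) y.2
        have h4 := bx_zero.1 (hL s hs').1 y.1
        have h5 := bx_zero.1 (hL s hs').2 y.1
        have h6 : ‖frc E B f (s, y)‖ ≤ D * (2 * (Λ * Real.exp (μ * s))) := by
          show ‖f (s, y) • lor (E (s, y.1)) (B (s, y.1)) y.2‖ ≤ _
          rw [norm_smul]
          exact mul_le_mul (hf s hs' y) (by linarith) (norm_nonneg _) hD0
        nlinarith) s hs'
    have h2 := Apri_int (b := 2 * D * Λ) hD0 (by positivity) hμ0 (hs'.2.trans hT')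
    have h3 : 1 ≤ Real.exp (μ * s) := Real.one_le_exp (mul_nonneg hμ0.le hs'.1)
    have h4 : C * (2 * D * Λ / μ) ≤ Λ / 2 := by
      rw [← mul_div_assoc, div_le_iff₀ hμ0, hμ]
      nlinarith
    have h5 : C * (D + ∫ s in (0 : ℝ)..s, (D + 2 * D * Λ * Real.exp (μ * s))) ≤
        (C * (D + D * T) + Λ / 2) * Real.exp (μ * s) := by
      have h6 := mul_le_mul_of_nonneg_left h2 hC
      have h7 := mul_le_mul_of_nonneg_right h4 (Real.exp_pos (μ * s)).le
      have h8 : 0 ≤ C * (D + D * T) := by positivity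
      nlinarith
    exact ⟨h1.1.mono h5, h1.2.mono h5⟩) t ht
  have h8 : 0 ≤ 2 * (C * (D + D * T)) := by positivity
  have h9 := mul_le_mul_of_nonneg_left (Apri_exp hμ0.le (ht.2.trans hT')) h8
  have h10 : 0 ≤ 2 * (C * (D + D * T)) * Real.exp (μ * T) := by positivity
  intro k hk
  obtain rfl : k = 0 := by omega
  exact ⟨bx_zero.2 fun y => (hf t ht y).trans (by linarith), hb.1.mono (by linarith),
    hb.2.mono (by linarith)⟩

theorem Apri_one {T R D : ℝ} (hT : 0 ≤ T) (hD : 1 ≤ D) : Apri_G T R D 1 := by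
  obtain ⟨B₀, hB₀, h0⟩ := Apri_zero (R := R) hT hD
  obtain ⟨C₁, hC₁, htr⟩ := tr_one
  obtain ⟨C₂, hC₂, hgl⟩ := grad_log T R B₀ D
  have hD0 : 0 < D := by linarith
  have hlog : 0 ≤ Real.log D := Real.log_nonneg hD
  set μ : ℝ := 2 * (C₂ * (C₁ + 1)) + 1 with hμ
  have hμ0 : 0 < μ := by positivity
  set C : ℝ := C₂ * (1 + Real.log D + C₁ * ((1 + B₀) * T)) with hC
  have hC0 : 0 ≤ C := by positivity
  set K : ℝ := D * Real.exp (C₁ * ((1 + B₀) * T + 2 * C / μ * Real.exp (μ * T))) with hK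
  have hK0 : 0 ≤ K := by positivity
  have hE0 : 0 ≤ 2 * C * Real.exp (μ * T) := by positivity
  refine ⟨B₀ + K + 2 * C * Real.exp (μ * T), by positivity, ?_⟩
  intro T' hT' f E B hs hv hd
  have hz := h0 T' hT' f E B hs hv hd
  have hf : ∀ Λ : ℝ, 0 ≤ Λ →
      (∀ s ∈ Icc 0 T', Bx 1 E s (Λ * Real.exp (μ * s)) ∧ Bx 1 B s (Λ * Real.exp (μ * s))) →
      ∀ t, ∀ s ∈ Icc 0 T', s ≤ t →
        Bx 1 f s (D * Real.exp (C₁ * ((1 + B₀) * T + Λ / μ * Real.exp (μ * t)))) := by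
    intro Λ hΛ hL t s hs' hst
    refine (htr T' E B f E B hs.step B₀ D (fun s => Λ * Real.exp (μ * s)) (by fun_prop)
      (fun s hs' => ⟨(hz s hs' 0 le_rfl).2.2, hL s hs'⟩) (hd 1 (by norm_num)).1 s hs').mono ?_
    have h1 := Apri_int (a := 1 + B₀) (by positivity) hΛ hμ0 (hs'.2.trans hT')
    have h2 := mul_le_mul_of_nonneg_left (Apri_exp hμ0.le hst) (by positivity : 0 ≤ Λ / μ)
    gcongr
    linarith
  have hb := Apri_boot (k := 1) (C := C) hs hμ0.le hC0 (by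
    intro Λ hΛ hL t ht
    have hsub : ∀ s ∈ Icc 0 t, s ∈ Icc 0 T' := fun s hs' => ⟨hs'.1, hs'.2.trans ht.2⟩
    have hx : 0 ≤ C₁ * ((1 + B₀) * T + Λ / μ * Real.exp (μ * t)) := by positivity
    have h1 := hgl t (ht.2.trans hT') f E B (hs.mono ht.2)
      (fun s hs' => ⟨hv s (hsub s hs'), hz s (hsub s hs')⟩) (fun k hk => hd k (by omega))
      (fun s => Λ * Real.exp (μ * s)) _ (by fun_prop)
      (one_le_mul_of_one_le_of_one_le hD (Real.one_le_exp hx))
      (fun s hs' => ⟨(hL s (hsub s hs')).1, (hL s (hsub s hs')).2,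
        hf Λ hΛ hL t s (hsub s hs') hs'.2⟩) t ⟨ht.1, le_rfl⟩
    rw [Real.log_mul hD0.ne' (Real.exp_pos _).ne', Real.log_exp] at h1
    have h2 := Apri_int (a := 0) le_rfl hΛ hμ0 (ht.2.trans hT')
    simp only [zero_add, zero_mul] at h2
    have h3 : 1 ≤ Real.exp (μ * t) := Real.one_le_exp (mul_nonneg hμ0.le ht.1)
    have h4 : C₂ * (C₁ + 1) * (Λ / μ) ≤ Λ / 2 := by
      rw [← mul_div_assoc, div_le_iff₀ hμ0, hμ]
      nlinarith
    have h5 : C₂ * (1 + (Real.log D + C₁ * ((1 + B₀) * T + Λ / μ * Real.exp (μ * t))) +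
        ∫ s in (0 : ℝ)..t, Λ * Real.exp (μ * s)) ≤ (C + Λ / 2) * Real.exp (μ * t) := by
      have h6 := mul_le_mul_of_nonneg_left h2 hC₂
      have h7 := mul_le_mul_of_nonneg_right h4 (Real.exp_pos (μ * t)).le
      have h8 := mul_le_mul_of_nonneg_left h3 hC0
      have h9 : C₂ * (1 + (Real.log D + C₁ * ((1 + B₀) * T + Λ / μ * Real.exp (μ * t))) +
          ∫ s in (0 : ℝ)..t, Λ * Real.exp (μ * s)) = C + C₂ * C₁ * (Λ / μ * Real.exp (μ * t)) +
          C₂ * ∫ s in (0 : ℝ)..t, Λ * Real.exp (μ * s) := by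
        rw [hC]; ring
      rw [h9]
      nlinarith
    exact ⟨h1.1.mono h5, h1.2.mono h5⟩)
  intro t ht k hk
  have h9 := mul_le_mul_of_nonneg_left (Apri_exp hμ0.le (ht.2.trans hT'))
    (by positivity : 0 ≤ 2 * C)
  rcases Nat.le_one_iff_eq_zero_or_eq_one.1 hk with rfl | rfl
  · obtain ⟨a1, a2, a3⟩ := hz t ht 0 le_rfl
    exact ⟨a1.mono (by linarith), a2.mono (by linarith), a3.mono (by linarith)⟩
  · exact ⟨(hf (2 * C) (by positivity) hb T t ht (ht.2.trans hT')).mono (by linarith),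
      (hb t ht).1.mono (by linarith), (hb t ht).2.mono (by linarith)⟩

theorem Apri_succ {T R D : ℝ} {k : ℕ} (hk : 1 ≤ k) (hk' : k ≤ 3) (h : Apri_G T R D k) :
    Apri_G T R D (k + 1) := by
  obtain ⟨A, hA, h0⟩ := h
  obtain ⟨C, μ, hC, hμ, hst⟩ := higher_step (k + 1) (by omega) T R A D
  have hE0 : 0 ≤ C * Real.exp (μ * T) := by positivity
  refine ⟨A + 3 * (C * Real.exp (μ * T)), by positivity, ?_⟩
  intro T' hT' f E B hs hv hd
  have hz := h0 T' hT' f E B hs hv hd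
  have h1 := hst T' hT' E B f E B hs.step (fun s hs' => ⟨hv s hs', fun j hj =>
    ⟨(hz s hs' j (by omega)).2.1, (hz s hs' j (by omega)).2.2, (hz s hs' j (by omega)).1⟩⟩)
    (fun j hj => hd j (by omega))
  have hb := Apri_boot (k := k + 1) (C := C) hs hμ.le hC
    fun Λ hΛ hL s hs' => (h1 Λ hΛ hL s hs').2
  intro t ht j hj
  have h9 := mul_le_mul_of_nonneg_left (Apri_exp hμ.le (ht.2.trans hT')) hC
  rcases Nat.lt_or_ge j (k + 1) with hj' | hj'
  · obtain ⟨a1, a2, a3⟩ := hz t ht j (by omega)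
    exact ⟨a1.mono (by linarith), a2.mono (by linarith), a3.mono (by linarith)⟩
  · obtain rfl : j = k + 1 := by omega
    have h2 : 0 ≤ C * Real.exp (μ * t) := by positivity
    exact ⟨(h1 (2 * C) (by positivity) hb t ht).1.mono (by linarith),
      (hb t ht).1.mono (by linarith), (hb t ht).2.mono (by linarith)⟩

theorem apriori_of_vs (T R D : ℝ) : ∃ A : ℝ, ∀ T' ≤ T, ∀ (f : PS → ℝ) (E B : ST → R3),
    Sol T' f E B → (∀ s ∈ Icc 0 T', VS f s R) → DBd 7 f E B 0 D →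
    ∀ s ∈ Icc 0 T', DBd 4 f E B s A := by
  obtain ⟨A, -, h⟩ := Apri_succ (k := 3) (by norm_num) le_rfl (Apri_succ (k := 2) (by norm_num)
    (by norm_num) (Apri_succ (k := 1) le_rfl (by norm_num)
      (Apri_one (R := R) (le_max_right T 0) (le_max_right D 1))))
  refine ⟨A, fun T' hT' f E B hs hv hd => h T' (hT'.trans (le_max_left _ _)) f E B hs hv ?_⟩
  intro k hk
  obtain ⟨a1, a2, a3⟩ := hd k hk
  exact ⟨a1.mono (le_max_left _ _), a2.mono (le_max_left _ _), a3.mono (le_max_left _ _)⟩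

end Crest.Agent.R106
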