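import Crest.Agent.R106.CalcA

/-!
# Row 106: integration of axisymmetric functions on `ℝ³`
-/

set_option autoImplicit false
set_option linter.unusedVariables false
set_option linter.unusedSectionVars false

open MeasureTheory Metric Set Filter Topology
open scoped ContDiff ENNReal RealInnerProductSpace
open Crest.AnalysisR.VecCalc3 Crest.AnalysisR.PDE.RVM

noncomputable section

namespace Crest.Agent.R106

/-- reduction to coordinates -/
theorem Axi_coord {e : R3} (he : ‖e‖ = 1) {φ : ℝ × ℝ → ℝ≥0∞} (hφ : Measurable φ) :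
    ∫⁻ z : R3, φ (⟪e, z⟫, ‖z‖) =
      ∫⁻ p : ℝ × (ℝ × ℝ), φ (p.1, √(p.1 ^ 2 + (p.2.1 ^ 2 + p.2.2 ^ 2))) := by
  have ho : Orthonormal ℝ (({0} : Set (Fin 3)).domRestrict fun _ : Fin 3 => e) := by
    constructor
    · intro i; simpa using he
    · intro i j hij
      exact absurd (Subsingleton.elim i j) hij
  obtain ⟨b, hb⟩ := ho.exists_orthonormalBasis_extension_of_card_eq (ι := Fin 3) (by simp)
  have hb0 : b 0 = e := hb 0 rfl
  have m1 : MeasurePreserving (fun z : R3 => b.repr z) volume volume := b.measurePreserving_repr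
  have m2 := PiLp.volume_preserving_ofLp (Fin 3)
  have m3 := volume_preserving_piFinSuccAbove (fun _ : Fin 3 => ℝ) 0
  have m4 : MeasurePreserving (Prod.map (id : ℝ → ℝ) (@MeasurableEquiv.finTwoArrow ℝ _))
      volume volume := (MeasurePreserving.id volume).prod (volume_preserving_finTwoArrow ℝ)
  have m := m4.comp (m3.comp (m2.comp m1))
  have hF : Measurable fun p : ℝ × (ℝ × ℝ) => φ (p.1, √(p.1 ^ 2 + (p.2.1 ^ 2 + p.2.2 ^ 2))) :=
    hφ.comp (by fun_prop)
  rw [← m.lintegral_comp hF]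
  refine lintegral_congr fun z => ?_
  have h0 : b.repr z 0 = ⟪e, z⟫ := by rw [b.repr_apply_apply, hb0]
  have hn : ‖z‖ = √(b.repr z 0 ^ 2 + (b.repr z 1 ^ 2 + b.repr z 2 ^ 2)) := by
    rw [← b.repr.norm_map z, EuclideanSpace.norm_eq, Fin.sum_univ_three]
    simp only [Real.norm_eq_abs, sq_abs, add_assoc]
  rw [hn, ← h0]
  rfl

/-- polar coordinates in the plane -/
theorem Axi_plane {ψ : ℝ → ℝ≥0∞} (hψ : Measurable ψ) :
    ∫⁻ y : ℝ × ℝ, ψ (y.1 ^ 2 + y.2 ^ 2) =
      ∫⁻ ρ in Ioi (0 : ℝ), ENNReal.ofReal (2 * Real.pi * ρ) * ψ (ρ ^ 2) := by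
  rw [← lintegral_comp_polarCoord_symm, polarCoord_target]
  have h1 : ∀ p : ℝ × ℝ, ENNReal.ofReal p.1 •
      ψ ((polarCoord.symm p).1 ^ 2 + (polarCoord.symm p).2 ^ 2) =
      ENNReal.ofReal p.1 * ψ (p.1 ^ 2) := by
    intro p
    rw [smul_eq_mul, polarCoord_symm_apply]
    congr 2
    have := Real.cos_sq_add_sin_sq p.2
    dsimp only
    nlinarith
  simp only [h1]
  rw [Measure.volume_eq_prod, ← Measure.prod_restrict, lintegral_prod _ (by fun_prop)]
  refine setLIntegral_congr_fun measurableSet_Ioi fun ρ hρ => ?_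
  simp only [lintegral_const, MeasurableSet.univ, Measure.restrict_apply, univ_inter,
    Real.volume_Ioo]
  rw [mul_right_comm, ← ENNReal.ofReal_mul (le_of_lt hρ)]
  congr 2
  ring

/-- from the cylinder radius to the distance -/
theorem Axi_rad (h : ℝ) (G : ℝ → ℝ≥0∞) :
    ∫⁻ ρ in Ioi (0 : ℝ), ENNReal.ofReal (2 * Real.pi * ρ) * G (√(h ^ 2 + ρ ^ 2)) =
      ∫⁻ r in Ioi |h|, ENNReal.ofReal (2 * Real.pi * r) * G r := by
  have him : (fun ρ : ℝ => √(h ^ 2 + ρ ^ 2)) '' Ioi 0 = Ioi |h| := by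
    ext r
    simp only [mem_image, mem_Ioi]
    constructor
    · rintro ⟨ρ, hρ, rfl⟩
      refine Real.lt_sqrt_of_sq_lt ?_
      rw [sq_abs]; nlinarith
    · intro hr
      have h0 : 0 ≤ r := (abs_nonneg h).trans hr.le
      have h1 : h ^ 2 < r ^ 2 := by
        rw [← sq_abs h]; exact pow_lt_pow_left₀ hr (abs_nonneg h) two_ne_zero
      refine ⟨√(r ^ 2 - h ^ 2), Real.sqrt_pos.2 (by linarith), ?_⟩
      rw [Real.sq_sqrt (by linarith), add_sub_cancel, Real.sqrt_sq h0]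
  have hd : ∀ ρ ∈ Ioi (0 : ℝ), HasDerivWithinAt (fun ρ : ℝ => √(h ^ 2 + ρ ^ 2))
      (ρ / √(h ^ 2 + ρ ^ 2)) (Ioi 0) ρ := by
    intro ρ hρ
    have hρ' : (0 : ℝ) < ρ := hρ
    have h1 : HasDerivAt (fun ρ : ℝ => h ^ 2 + ρ ^ 2) (2 * ρ) ρ := by
      simpa using (hasDerivAt_pow 2 ρ).const_add (h ^ 2)
    have h2 := h1.sqrt (by positivity)
    refine (h2.congr_deriv ?_).hasDerivWithinAt
    field_simp
  have hinj : InjOn (fun ρ : ℝ => √(h ^ 2 + ρ ^ 2)) (Ioi 0) := by
    intro a ha c hc hac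
    have ha' : (0 : ℝ) < a := ha
    have hc' : (0 : ℝ) < c := hc
    have h1 : h ^ 2 + a ^ 2 = h ^ 2 + c ^ 2 :=
      (Real.sqrt_inj (by positivity) (by positivity)).1 hac
    have h2 : a ^ 2 = c ^ 2 := by linarith
    exact (pow_left_inj₀ ha'.le hc'.le two_ne_zero).1 h2
  rw [← him, lintegral_image_eq_lintegral_abs_deriv_mul measurableSet_Ioi hd hinj]
  refine setLIntegral_congr_fun measurableSet_Ioi fun ρ hρ => ?_
  have hρ' : (0 : ℝ) < ρ := hρ
  have hs : 0 < √(h ^ 2 + ρ ^ 2) := Real.sqrt_pos.2 (by positivity)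
  rw [← mul_assoc, ← ENNReal.ofReal_mul (abs_nonneg _), abs_of_pos (div_pos hρ' hs)]
  congr 2
  field_simp

/-- from the height to the angle variable -/
theorem Axi_ang {r : ℝ} (hr : 0 < r) (G : ℝ → ℝ≥0∞) :
    ∫⁻ h in Ioo (-r) r, G h = ∫⁻ q in Ioo (0 : ℝ) 2, ENNReal.ofReal r * G (r * (1 - q)) := by
  have him : (fun q : ℝ => r * (1 - q)) '' Ioo 0 2 = Ioo (-r) r := by
    ext h
    simp only [mem_image, mem_Ioo]
    constructor
    · rintro ⟨q, ⟨h0, h2⟩, rfl⟩
      constructor <;> nlinarith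
    · rintro ⟨h0, h2⟩
      refine ⟨1 - h / r, ⟨?_, ?_⟩, by field_simp; ring⟩
      · have : h / r < 1 := (div_lt_one hr).2 h2
        linarith
      · have : -1 < h / r := by rw [lt_div_iff₀ hr]; linarith
        linarith
  have hd : ∀ q ∈ Ioo (0 : ℝ) 2, HasDerivWithinAt (fun q : ℝ => r * (1 - q)) (-r) (Ioo 0 2) q := by
    intro q _
    have h1 : HasDerivAt (fun q : ℝ => r * (1 - q)) (r * (-1)) q :=
      ((hasDerivAt_id q).const_sub 1).const_mul r
    exact (h1.congr_deriv (by ring)).hasDerivWithinAt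
  have hinj : InjOn (fun q : ℝ => r * (1 - q)) (Ioo 0 2) := by
    intro a _ c _ hac
    have := mul_left_cancel₀ hr.ne' hac
    linarith
  rw [← him, lintegral_image_eq_lintegral_abs_deriv_mul measurableSet_Ioo hd hinj]
  simp only [abs_neg, abs_of_pos hr]

/-- spherical coordinates `(r, q)`, `q = 1 - e·z/|z| ∈ (0,2)` -/
theorem lintegral_axi {e : R3} (he : ‖e‖ = 1) {g : ℝ × ℝ → ℝ≥0∞} (hg : Measurable g) :
    ∫⁻ z : R3, g (‖z‖, qq e z) =
      ∫⁻ r in Ioi (0 : ℝ), ∫⁻ q in Ioo (0 : ℝ) 2,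
        ENNReal.ofReal (2 * Real.pi * r ^ 2) * g (r, q) := by
  set φ : ℝ × ℝ → ℝ≥0∞ := fun p => g (p.2, 1 - p.2⁻¹ * p.1) with hφd
  have hφ : Measurable φ := hg.comp (by fun_prop)
  have h1 : ∀ z : R3, g (‖z‖, qq e z) = φ (⟪e, z⟫, ‖z‖) := by
    intro z
    simp only [hφd, qq, ang, nz, real_inner_smul_right]
  simp only [h1]
  have hF : Measurable fun p : ℝ × (ℝ × ℝ) => φ (p.1, √(p.1 ^ 2 + (p.2.1 ^ 2 + p.2.2 ^ 2))) :=
    hφ.comp (by fun_prop)
  rw [Axi_coord he hφ, Measure.volume_eq_prod, lintegral_prod _ hF.aemeasurable]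
  have h2 : ∀ h : ℝ, ∫⁻ y : ℝ × ℝ, φ (h, √(h ^ 2 + (y.1 ^ 2 + y.2 ^ 2))) =
      ∫⁻ r, {p : ℝ × ℝ | |p.1| < p.2}.indicator
        (fun p => ENNReal.ofReal (2 * Real.pi * p.2) * φ p) (h, r) := by
    intro h
    rw [Axi_plane (ψ := fun u => φ (h, √(h ^ 2 + u))) (hφ.comp (by fun_prop)),
      Axi_rad h fun r => φ (h, r), ← lintegral_indicator measurableSet_Ioi]
    refine lintegral_congr fun r => ?_
    simp only [indicator, mem_Ioi, Set.mem_ofPred_eq]
  simp only [h2]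
  have hS : MeasurableSet {p : ℝ × ℝ | |p.1| < p.2} :=
    measurableSet_lt (by fun_prop) (by fun_prop)
  have hI : Measurable ({p : ℝ × ℝ | |p.1| < p.2}.indicator
      fun p => ENNReal.ofReal (2 * Real.pi * p.2) * φ p) :=
    ((show Measurable fun p : ℝ × ℝ => ENNReal.ofReal (2 * Real.pi * p.2) by fun_prop).mul
      hφ).indicator hS
  rw [lintegral_lintegral_swap (f := fun h r : ℝ => {p : ℝ × ℝ | |p.1| < p.2}.indicator
      (fun p => ENNReal.ofReal (2 * Real.pi * p.2) * φ p) (h, r)) hI.aemeasurable,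
    ← lintegral_indicator measurableSet_Ioi]
  refine lintegral_congr fun r => ?_
  by_cases hr : 0 < r
  · rw [indicator_of_mem (show r ∈ Ioi (0 : ℝ) from hr)]
    have h3 : ∀ h : ℝ, {p : ℝ × ℝ | |p.1| < p.2}.indicator
        (fun p => ENNReal.ofReal (2 * Real.pi * p.2) * φ p) (h, r) =
        (Ioo (-r) r).indicator (fun h => ENNReal.ofReal (2 * Real.pi * r) * φ (h, r)) h := by
      intro h
      simp only [indicator, mem_Ioo, Set.mem_ofPred_eq, abs_lt]
    simp only [h3]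
    rw [lintegral_indicator measurableSet_Ioo, Axi_ang hr]
    refine lintegral_congr fun q => ?_
    rw [← mul_assoc, ← ENNReal.ofReal_mul hr.le]
    congr 1
    · congr 1; ring
    · simp only [hφd]
      congr 2
      field_simp
      ring
  · rw [indicator_of_notMem (show r ∉ Ioi (0 : ℝ) from hr)]
    have h3 : ∀ h : ℝ, {p : ℝ × ℝ | |p.1| < p.2}.indicator
        (fun p => ENNReal.ofReal (2 * Real.pi * p.2) * φ p) (h, r) = 0 := by
      intro h
      refine indicator_of_notMem ?_ _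
      simp only [Set.mem_ofPred_eq, not_lt]
      exact (not_lt.1 hr).trans (abs_nonneg h)
    simp only [h3, lintegral_zero]

theorem lintegral_radial {g : ℝ → ℝ≥0∞} (hg : Measurable g) :
    ∫⁻ z : R3, g ‖z‖ = ∫⁻ r in Ioi (0 : ℝ), ENNReal.ofReal (4 * Real.pi * r ^ 2) * g r := by
  have he : ‖(EuclideanSpace.single 0 1 : R3)‖ = 1 := by simp
  have h := lintegral_axi he (g := fun p => g p.1) (hg.comp measurable_fst)
  refine h.trans (setLIntegral_congr_fun measurableSet_Ioi fun r _ => ?_)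
  simp only [lintegral_const, MeasurableSet.univ, Measure.restrict_apply, univ_inter,
    Real.volume_Ioo]
  rw [mul_right_comm, ← ENNReal.ofReal_mul (by positivity)]
  congr 2
  ring

theorem Axi_ball {n : ℝ → ℝ} (hn : Continuous n) (h0 : ∀ s, 0 ≤ n s) {t : ℝ} (ht : 0 ≤ t) :
    ∫⁻ z in ball (0 : R3) t, ENNReal.ofReal (n (t - ‖z‖) / ‖z‖ ^ 2) =
      ENNReal.ofReal (4 * Real.pi * ∫ s in (0 : ℝ)..t, n s) := by
  have hg : Measurable ((Iio t).indicator fun r : ℝ => ENNReal.ofReal (n (t - r) / r ^ 2)) :=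
    (show Measurable fun r : ℝ => ENNReal.ofReal (n (t - r) / r ^ 2) from
      ((hn.measurable.comp (by fun_prop)).div (by fun_prop)).ennreal_ofReal).indicator
      measurableSet_Iio
  have h1 := lintegral_radial hg
  have h2 : ∀ z : R3, (Iio t).indicator (fun r : ℝ => ENNReal.ofReal (n (t - r) / r ^ 2)) ‖z‖ =
      (ball (0 : R3) t).indicator (fun z => ENNReal.ofReal (n (t - ‖z‖) / ‖z‖ ^ 2)) z := by
    intro z
    simp only [indicator, mem_Iio, mem_ball_zero_iff]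
  simp only [h2] at h1
  rw [← lintegral_indicator measurableSet_ball, h1]
  have h3 : ∫⁻ r in Ioi (0 : ℝ), ENNReal.ofReal (4 * Real.pi * r ^ 2) *
      (Iio t).indicator (fun r : ℝ => ENNReal.ofReal (n (t - r) / r ^ 2)) r =
      ∫⁻ r in Ioo (0 : ℝ) t, ENNReal.ofReal (4 * Real.pi * n (t - r)) := by
    rw [← Ioi_inter_Iio, inter_comm, ← Measure.restrict_restrict measurableSet_Iio,
      ← lintegral_indicator measurableSet_Iio]
    refine setLIntegral_congr_fun measurableSet_Ioi fun r hr => ?_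
    have hr' : (0 : ℝ) < r := hr
    by_cases hrt : r ∈ Iio t
    · rw [indicator_of_mem hrt, indicator_of_mem hrt, ← ENNReal.ofReal_mul (by positivity)]
      congr 1
      field_simp
    · rw [indicator_of_notMem hrt, indicator_of_notMem hrt, mul_zero]
  have hc : Continuous fun r : ℝ => 4 * Real.pi * n (t - r) := by fun_prop
  rw [h3, ← ofReal_integral_eq_lintegral_ofReal
    ((hc.integrableOn_Icc (a := 0) (b := t)).mono_set Ioo_subset_Icc_self)
    (Eventually.of_forall fun r => mul_nonneg (by positivity) (h0 _))]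
  congr 1
  rw [← integral_Ioc_eq_integral_Ioo, ← intervalIntegral.integral_of_le ht,
    intervalIntegral.integral_const_mul, intervalIntegral.integral_comp_sub_left n t]
  simp

theorem Axi_ball' {n : ℝ → ℝ} (hn : Continuous n) (h0 : ∀ s, 0 ≤ n s) {t : ℝ} (ht : 0 ≤ t) :
    IntegrableOn (fun z : R3 => n (t - ‖z‖) / ‖z‖ ^ 2) (ball 0 t) ∧
    ∫ z in ball (0 : R3) t, n (t - ‖z‖) / ‖z‖ ^ 2 = 4 * Real.pi * ∫ s in (0 : ℝ)..t, n s := by
  have hm : Measurable fun z : R3 => n (t - ‖z‖) / ‖z‖ ^ 2 :=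
    (hn.measurable.comp (by fun_prop)).div (by fun_prop)
  have hp : 0 ≤ᵐ[volume.restrict (ball (0 : R3) t)] fun z : R3 => n (t - ‖z‖) / ‖z‖ ^ 2 :=
    Eventually.of_forall fun z => div_nonneg (h0 _) (sq_nonneg _)
  have h := Axi_ball hn h0 ht
  constructor
  · refine ⟨hm.aestronglyMeasurable, ?_⟩
    rw [hasFiniteIntegral_iff_ofReal hp, h]
    exact ENNReal.ofReal_lt_top
  · rw [integral_eq_lintegral_of_nonneg_ae hp hm.aestronglyMeasurable, h, ENNReal.toReal_ofReal]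
    exact mul_nonneg (by positivity) (intervalIntegral.integral_nonneg ht fun s _ => h0 s)

/-- retarded integrals of functions of time -/
theorem integral_ball_retarded {m : ℝ → ℝ} (hm : Continuous m) {t : ℝ} (ht : 0 ≤ t) :
    IntegrableOn (fun z : R3 => m (t - ‖z‖) / ‖z‖ ^ 2) (ball 0 t) ∧
    ∫ z in ball (0 : R3) t, m (t - ‖z‖) / ‖z‖ ^ 2 = 4 * Real.pi * ∫ s in (0 : ℝ)..t, m s := by
  have hp : Continuous fun s => max (m s) 0 := hm.max continuous_const
  have hq : Continuous fun s => max (-m s) 0 := hm.neg.max continuous_const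
  obtain ⟨i1, e1⟩ := Axi_ball' hp (fun s => le_max_right _ _) ht
  obtain ⟨i2, e2⟩ := Axi_ball' hq (fun s => le_max_right _ _) ht
  have hd : ∀ s, m s = max (m s) 0 - max (-m s) 0 := fun s => (max_zero_sub_max_neg_zero_eq_self _).symm
  have h1 : (fun z : R3 => m (t - ‖z‖) / ‖z‖ ^ 2) = fun z : R3 =>
      max (m (t - ‖z‖)) 0 / ‖z‖ ^ 2 - max (-m (t - ‖z‖)) 0 / ‖z‖ ^ 2 := by
    funext z
    rw [← sub_div, ← hd]
  have h2 : ∫ s in (0 : ℝ)..t, m s =
      (∫ s in (0 : ℝ)..t, max (m s) 0) - ∫ s in (0 : ℝ)..t, max (-m s) 0 := by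
    rw [← intervalIntegral.integral_sub (hp.intervalIntegrable _ _) (hq.intervalIntegrable _ _)]
    exact intervalIntegral.integral_congr fun s _ => hd s
  refine ⟨h1 ▸ i1.sub i2, ?_⟩
  rw [h1, integral_sub i1 i2, e1, e2, h2]
  ring

end Crest.Agent.R106
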