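import Crest.Agent.R106.CalcC

/-!
# Row 106: characteristics
-/

set_option autoImplicit false
set_option linter.unusedVariables false
set_option linter.unusedSectionVars false

open MeasureTheory Metric Set Filter Topology
open scoped ContDiff ENNReal RealInnerProductSpace
open Crest.AnalysisR.VecCalc3 Crest.AnalysisR.PDE.RVM

noncomputable section

namespace Crest.Agent.R106

theorem Chr_lip {X F : Type*} [NormedAddCommGroup X] [NormedSpace ℝ X] [NormedAddCommGroup F]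
    [NormedSpace ℝ F] {g : X → F} (hg : Differentiable ℝ g) {C : ℝ}
    (h : ∀ y, ‖iteratedFDeriv ℝ 1 g y‖ ≤ C) (y y' : X) : ‖g y - g y'‖ ≤ C * ‖y - y'‖ :=
  convex_univ.norm_image_sub_le_of_norm_fderiv_le (𝕜 := ℝ) (fun z _ => hg z)
    (fun z _ => by simpa only [norm_iteratedFDeriv_one] using h z) (mem_univ _) (mem_univ _)

theorem Chr_mvt {F : Type*} [NormedAddCommGroup F] [NormedSpace ℝ F] {φ φ' : ℝ → F} {a b C : ℝ}
    (hab : a ≤ b) (hc : Continuous φ) (hd : ∀ s ∈ Ioo a b, HasDerivAt φ (φ' s) s)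
    (hC : ∀ s ∈ Ioo a b, ‖φ' s‖ ≤ C) : ‖φ b - φ a‖ ≤ C * (b - a) := by
  have := norm_sub_le_integral_of_norm_deriv_le_of_le (B := fun _ => C) hab hc.continuousOn
    (fun s hs => (hd s hs).differentiableAt.differentiableWithinAt)
    (Eventually.of_forall fun s hs => by rw [(hd s hs).deriv]; exact hC s hs)
    intervalIntegrable_const
  simpa [mul_comm] using this

theorem Chr_exists {E B : ST → R3} (hE : ContDiff ℝ ∞ E) (hB : ContDiff ℝ ∞ B) {a b A : ℝ}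
    (hbd : ∀ s ∈ Icc a b, Bx 0 E s A ∧ Bx 0 B s A ∧ Bx 1 E s A ∧ Bx 1 B s A)
    {t : ℝ} (ht : t ∈ Icc a b) (x v : R3) :
    ∃ γ : ℝ → R3 × R3, Continuous γ ∧ γ t = (x, v) ∧ ∀ s ∈ Icc a b, HasDerivWithinAt γ
      (relVel (γ s).2, lor (E (s, (γ s).1)) (B (s, (γ s).1)) (γ s).2) (Icc a b) s := by
  have hab : a ≤ b := ht.1.trans ht.2
  have hA : 0 ≤ A := (hbd t ht).1.nonneg
  obtain ⟨C₁, hC₁⟩ := relVel_bdd 1
  have hC₁0 : 0 ≤ C₁ := (norm_nonneg _).trans (hC₁ 0)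
  obtain ⟨C₂, hC₂0, hC₂⟩ := bx_lor 1
  have hsm : ContDiff ℝ ∞ fun p : PS => lor (E (p.1, p.2.1)) (B (p.1, p.2.1)) p.2.2 :=
    contDiff_lor.comp ((hE.comp (by fun_prop)).prodMk ((hB.comp (by fun_prop)).prodMk (by fun_prop)))
  let G : ℝ → R3 × R3 → R3 × R3 := fun s y => (relVel y.2, lor (E (s, y.1)) (B (s, y.1)) y.2)
  let L : NNReal := ⟨1 + 2 * A, by positivity⟩
  let K : NNReal := ⟨C₁ + C₂ * (A + A), by positivity⟩
  have hPL : IsPicardLindelof G (⟨t, ht⟩ : Icc a b) (x, v) (L * ⟨b - a, sub_nonneg.2 hab⟩) 0 L K := by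
    refine ⟨fun s hs => LipschitzWith.lipschitzOnWith ?_, fun y _ => Continuous.continuousOn ?_,
      fun s hs y _ => ?_, ?_⟩
    · refine LipschitzWith.of_dist_le_mul fun y y' => ?_
      have h1 := Chr_lip (contDiff_relVel.differentiable (by simp)) hC₁ y.2 y'.2
      have h2 := Chr_lip (g := fun y : R3 × R3 => lor (E (s, y.1)) (B (s, y.1)) y.2)
        ((hsm.differentiable (by simp)).comp (g := fun p : PS =>
          lor (E (p.1, p.2.1)) (B (p.1, p.2.1)) p.2.2) (f := fun y : R3 × R3 => (s, y))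
          (by fun_prop))
        (hC₂ E B hE hB s A A hA (fun j hj => by
          obtain rfl : j = 0 := by omega
          exact (hbd s hs).2.1) (hbd s hs).2.2.1 (hbd s hs).2.2.2) y y'
      have h3 : ‖y.2 - y'.2‖ ≤ ‖y - y'‖ := norm_snd_le (y - y')
      have h4 : 0 ≤ C₂ * (A + A) := by positivity
      rw [dist_eq_norm, dist_eq_norm]
      change _ ≤ (C₁ + C₂ * (A + A)) * _
      refine max_le ?_ ?_
      · refine h1.trans ?_
        gcongr
        linarith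
      · refine h2.trans ?_
        gcongr
        linarith
    · exact continuous_const.prodMk (hsm.continuous.comp (f := fun s : ℝ => (s, y)) (by fun_prop))
    · change _ ≤ 1 + 2 * A
      refine max_le ((norm_relVel_lt_one _).le.trans (by linarith)) ?_
      have h1 := norm_lor_le (E (s, y.1)) (B (s, y.1)) y.2
      have h2 := bx_zero.1 (hbd s hs).1 y.1
      have h3 := bx_zero.1 (hbd s hs).2.1 y.1
      change ‖lor (E (s, y.1)) (B (s, y.1)) y.2‖ ≤ _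
      linarith
    · change (1 + 2 * A) * max (b - t) (t - a) ≤ (1 + 2 * A) * (b - a) - 0
      rw [sub_zero]
      gcongr
      exact max_le (by linarith [ht.1]) (by linarith [ht.2])
  obtain ⟨γ, h0, hd⟩ := hPL.exists_eq_forall_mem_Icc_hasDerivWithinAt₀
  have hc : ContinuousOn γ (Icc a b) := fun s hs => (hd s hs).continuousWithinAt
  have he : ∀ s ∈ Icc a b, γ (projIcc a b hab s) = γ s := fun s hs => by
    rw [projIcc_of_mem hab hs]
  refine ⟨fun s => γ (projIcc a b hab s), hc.comp_continuous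
    (continuous_subtype_val.comp continuous_projIcc) fun s => (projIcc a b hab s).2,
    (he t ht).trans h0, fun s hs => ?_⟩
  simp only [he s hs]
  exact (hd s hs).congr he (he s hs)

theorem exists_char {E B : ST → R3} (hE : ContDiff ℝ ∞ E) (hB : ContDiff ℝ ∞ B) {a b A : ℝ}
    (hbd : ∀ s ∈ Icc a b, Bx 0 E s A ∧ Bx 0 B s A ∧ Bx 1 E s A ∧ Bx 1 B s A)
    {t : ℝ} (ht : t ∈ Icc a b) (x v : R3) :
    ∃ X V : ℝ → R3, Char E B a b X V ∧ X t = x ∧ V t = v := by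
  obtain ⟨γ, hc, h0, hd⟩ := Chr_exists hE hB hbd ht x v
  refine ⟨fun s => (γ s).1, fun s => (γ s).2, ⟨hc.fst, hc.snd, fun s hs => ?_, fun s hs => ?_⟩,
    by simp [h0], by simp [h0]⟩
  · exact (ContinuousLinearMap.fst ℝ R3 R3).hasFDerivAt.comp_hasDerivAt s
      ((hd s (Ioo_subset_Icc_self hs)).hasDerivAt (Icc_mem_nhds hs.1 hs.2))
  · exact (ContinuousLinearMap.snd ℝ R3 R3).hasFDerivAt.comp_hasDerivAt s
      ((hd s (Ioo_subset_Icc_self hs)).hasDerivAt (Icc_mem_nhds hs.1 hs.2))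

theorem Char.mono {E B : ST → R3} {a b a' b' : ℝ} {X V : ℝ → R3} (h : Char E B a b X V)
    (ha : a ≤ a') (hb : b' ≤ b) : Char E B a' b' X V :=
  { h with dX := fun t ht => h.dX t (Ioo_subset_Ioo ha hb ht)
           dV := fun t ht => h.dV t (Ioo_subset_Ioo ha hb ht) }

section
variable {T : ℝ} {E' B' : ST → R3} {f : PS → ℝ} {E B : ST → R3}

theorem Chr_bd (h : Step T E' B' f E B) :
    ∃ A, ∀ s ∈ Icc 0 T, Bx 0 E' s A ∧ Bx 0 B' s A ∧ Bx 1 E' s A ∧ Bx 1 B' s A := by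
  obtain ⟨C₀, h₀⟩ := h.bd' T 0
  obtain ⟨C₁, h₁⟩ := h.bd' T 1
  refine ⟨max C₀ C₁, fun s hs => ?_⟩
  have hs' : |s| ≤ T := by rw [abs_of_nonneg hs.1]; exact hs.2
  exact ⟨(h₀ s hs hs').1.mono (le_max_left _ _), (h₀ s hs hs').2.mono (le_max_left _ _),
    (h₁ s hs hs').1.mono (le_max_right _ _), (h₁ s hs hs').2.mono (le_max_right _ _)⟩

/-- `f` is constant along characteristics -/
theorem Step.exists_char (h : Step T E' B' f E B) {t : ℝ} (ht : t ∈ Icc 0 T) (x v : R3) :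
    ∃ X V : ℝ → R3, Char E' B' 0 T X V ∧ X t = x ∧ V t = v ∧
      ∀ s ∈ Icc 0 T, f (s, X s, V s) = f (t, x, v) := by
  obtain ⟨A, hA⟩ := Chr_bd h
  obtain ⟨X, V, hc, hX, hV⟩ := Crest.Agent.R106.exists_char h.sE' h.sB' hA ht x v
  refine ⟨X, V, hc, hX, hV, ?_⟩
  have key : ∀ s ∈ Icc 0 T, f (s, X s, V s) = f (0, X 0, V 0) := by
    intro s hs
    have := Chr_mvt (φ := fun s => f (s, X s, V s)) (φ' := fun _ => 0) (C := 0) hs.1
      (h.sf.continuous.comp (continuous_id.prodMk (hc.cX.prodMk hc.cV))) (fun r hr => by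
        have hr' : r ∈ Ioo 0 T := ⟨hr.1, hr.2.trans_le hs.2⟩
        have h1 := (h.sf.differentiable (by simp) (r, X r, V r)).hasFDerivAt.comp_hasDerivAt r
          ((hasDerivAt_id r).prodMk ((hc.dX r hr').prodMk (hc.dV r hr')))
        have h2 := h.vl (r, X r, V r) (Ioo_subset_Icc_self hr')
        rw [VlAt] at h2
        exact h2 ▸ h1) (fun _ _ => by simp)
    simpa [sub_eq_zero] using this
  intro s hs
  rw [key s hs, ← key t ht, hX, hV]

theorem Step.range (h : Step T E' B' f E B) {lo hi : ℝ}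
    (h0 : ∀ y, lo ≤ f (0, y) ∧ f (0, y) ≤ hi) (p : PS) (hp : p.1 ∈ Icc 0 T) :
    lo ≤ f p ∧ f p ≤ hi := by
  obtain ⟨X, V, -, -, -, hf⟩ := h.exists_char hp p.2.1 p.2.2
  have := hf 0 ⟨le_rfl, hp.1.trans hp.2⟩
  rw [show p = (p.1, p.2.1, p.2.2) from rfl, ← this]
  exact h0 _

/-- growth of the momentum support between two times -/
theorem Step.vs (h : Step T E' B' f E B) {t₁ t R A : ℝ} (h₁ : 0 ≤ t₁) (h₂ : t₁ ≤ t) (h₃ : t ≤ T)
    (h0 : VS f t₁ R) (hA : ∀ s ∈ Icc t₁ t, Bx 0 E' s A ∧ Bx 0 B' s A) :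
    VS f t (R + 2 * A * (t - t₁)) := by
  intro y v hv
  obtain ⟨X, V, hc, -, hV, hf⟩ := h.exists_char ⟨h₁.trans h₂, h₃⟩ y v
  rw [← hf t₁ ⟨h₁, h₂.trans h₃⟩]
  refine h0 _ _ ?_
  have h1 := Chr_mvt (C := 2 * A) h₂ hc.cV
    (fun s hs => hc.dV s ⟨h₁.trans_lt hs.1, hs.2.trans_le h₃⟩) fun s hs => by
      have h1 := norm_lor_le (E' (s, X s)) (B' (s, X s)) (V s)
      have h2 := bx_zero.1 (hA s (Ioo_subset_Icc_self hs)).1 (X s)
      have h3 := bx_zero.1 (hA s (Ioo_subset_Icc_self hs)).2 (X s)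
      linarith
  have h2 := norm_sub_norm_le (V t) (V t₁)
  rw [hV] at h1 h2
  linarith

theorem Step.xs (h : Step T E' B' f E B) {R : ℝ} (h0 : ∀ y v : R3, R < ‖y‖ → f (0, y, v) = 0)
    {t : ℝ} (ht : t ∈ Icc 0 T) (y v : R3) (hy : R + t < ‖y‖) : f (t, y, v) = 0 := by
  obtain ⟨X, V, hc, hX, -, hf⟩ := h.exists_char ht y v
  rw [← hf 0 ⟨le_rfl, ht.1.trans ht.2⟩]
  refine h0 _ _ ?_
  have h1 := Chr_mvt (C := 1) ht.1 hc.cX (fun s hs => hc.dX s ⟨hs.1, hs.2.trans_le ht.2⟩)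
    fun s _ => (norm_relVel_lt_one _).le
  have h2 := norm_sub_norm_le (X t) (X 0)
  rw [hX] at h1 h2
  linarith

theorem Chr_gronwall {F : Type*} [NormedAddCommGroup F] [NormedSpace ℝ F] {φ φ' : ℝ → F} {t D : ℝ}
    (ht : 0 ≤ t) (hc : ContinuousOn φ (Icc 0 t))
    (hd : ∀ s ∈ Ico 0 t, HasDerivWithinAt φ (φ' s) (Ici s) s) {L m : ℝ → ℝ} (hL : Continuous L)
    (hm : Continuous m) (hL0 : ∀ s ∈ Icc 0 t, 0 ≤ L s) (hm0 : ∀ s ∈ Icc 0 t, 0 ≤ m s)
    (hb : ∀ s ∈ Ico 0 t, ‖φ' s‖ ≤ L s * ‖φ s‖ + m s) (hD : ‖φ 0‖ ≤ D) :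
    ‖φ t‖ ≤ Real.exp (∫ s in (0 : ℝ)..t, L s) * (D + ∫ s in (0 : ℝ)..t, m s) := by
  have key : ∀ ε : ℝ, 0 < ε →
      ‖φ t‖ ≤ Real.exp (∫ s in (0 : ℝ)..t, L s) * (D + ε * t + ∫ s in (0 : ℝ)..t, m s) := by
    intro ε hε
    refine image_norm_le_of_norm_deriv_right_lt_deriv_boundary hc hd
      (B := fun r => Real.exp (∫ s in (0 : ℝ)..r, L s) * (D + ε * r + ∫ s in (0 : ℝ)..r, m s))
      (B' := fun r => Real.exp (∫ s in (0 : ℝ)..r, L s) * L r * (D + ε * r + ∫ s in (0 : ℝ)..r, m s)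
        + Real.exp (∫ s in (0 : ℝ)..r, L s) * (ε * 1 + m r)) (by simpa using hD) (fun r => ?_)
      (fun r hr e => ?_) ⟨ht, le_rfl⟩
    · exact (hL.integral_hasStrictDerivAt 0 r).hasDerivAt.exp.mul
        ((((hasDerivAt_id r).const_mul ε).const_add D).add
          (hm.integral_hasStrictDerivAt 0 r).hasDerivAt)
    · have h1 : 1 ≤ Real.exp (∫ s in (0 : ℝ)..r, L s) :=
        Real.one_le_exp (intervalIntegral.integral_nonneg hr.1
          fun s hs => hL0 s ⟨hs.1, hs.2.trans hr.2.le⟩)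
      have h2 := hb r hr
      have h3 := hm0 r (Ico_subset_Icc_self hr)
      rw [e] at h2
      have h4 : ε * 1 + m r ≤ Real.exp (∫ s in (0 : ℝ)..r, L s) * (ε * 1 + m r) :=
        le_mul_of_one_le_left (by positivity) h1
      linarith
  have hcont : Tendsto (fun ε : ℝ => Real.exp (∫ s in (0 : ℝ)..t, L s) *
      (D + ε * t + ∫ s in (0 : ℝ)..t, m s)) (𝓝[>] 0)
      (𝓝 (Real.exp (∫ s in (0 : ℝ)..t, L s) * (D + 0 * t + ∫ s in (0 : ℝ)..t, m s))) :=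
    (Continuous.tendsto (by fun_prop) 0).mono_left nhdsWithin_le_nhds
  have := ge_of_tendsto hcont (eventually_nhdsWithin_of_forall key)
  simpa using this

/-- Gronwall's inequality along characteristics -/
theorem Step.gronwall (h : Step T E' B' f E B) {F : Type*} [NormedAddCommGroup F]
    [NormedSpace ℝ F] {u : PS → F} (hu : ContDiff ℝ 1 u) {L m : ℝ → ℝ} (hL : Continuous L)
    (hm : Continuous m) (hL0 : ∀ s ∈ Icc 0 T, 0 ≤ L s) (hm0 : ∀ s ∈ Icc 0 T, 0 ≤ m s)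
    (heq : ∀ p : PS, p.1 ∈ Icc 0 T →
      ‖fderiv ℝ u p (1, relVel p.2.2, lor (E' (p.1, p.2.1)) (B' (p.1, p.2.1)) p.2.2)‖ ≤
        L p.1 * ‖u p‖ + m p.1)
    {D : ℝ} (hD : ∀ y, ‖u (0, y)‖ ≤ D) (p : PS) (hp : p.1 ∈ Icc 0 T) :
    ‖u p‖ ≤ Real.exp (∫ s in (0 : ℝ)..p.1, L s) * (D + ∫ s in (0 : ℝ)..p.1, m s) := by
  obtain ⟨A, hA⟩ := Chr_bd h
  obtain ⟨t, y⟩ := p
  obtain ⟨γ, hc, h0, hd⟩ := Chr_exists h.sE' h.sB' hA hp y.1 y.2
  have h0' : γ t = y := h0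
  have key := Chr_gronwall (φ := fun s => u (s, γ s)) (φ' := fun s => fderiv ℝ u (s, γ s)
      (1, relVel (γ s).2, lor (E' (s, (γ s).1)) (B' (s, (γ s).1)) (γ s).2)) (t := t) hp.1
    (hu.continuous.comp (continuous_id.prodMk hc)).continuousOn (fun s hs => by
      have hs' : s ∈ Ico 0 T := ⟨hs.1, hs.2.trans_le hp.2⟩
      exact (hu.differentiable one_ne_zero (s, γ s)).hasFDerivAt.comp_hasDerivWithinAt s
        ((hasDerivWithinAt_id s _).prodMk ((hd s (Ico_subset_Icc_self hs')).mono_of_mem_nhdsWithin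
          (Icc_mem_nhdsGE_of_mem hs')))) hL hm
    (fun s hs => hL0 s ⟨hs.1, hs.2.trans hp.2⟩) (fun s hs => hm0 s ⟨hs.1, hs.2.trans hp.2⟩)
    (fun s hs => heq (s, γ s) ⟨hs.1, hs.2.le.trans hp.2⟩) (hD _)
  simpa only [h0'] using key

end

end Crest.Agent.R106
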