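import Crest.Agent.R106.Improve
import Crest.Agent.R106.Chr

/-!
# Row 106: the momentum cannot double in time `c / log P`
-/

set_option autoImplicit false
set_option linter.unusedVariables false
set_option linter.unusedSectionVars false

open MeasureTheory Metric Set Filter Topology
open scoped ContDiff ENNReal RealInnerProductSpace
open Crest.AnalysisR.VecCalc3 Crest.AnalysisR.PDE.RVM

noncomputable section

namespace Crest.Agent.R106

/-- a smooth function is bounded and Lipschitz in `e` along a compact piece of trajectory -/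
theorem BMain_lip {Ψ : ℝ × R3 × R3 → R3} (hΨ : ContDiff ℝ ∞ Ψ) {X : ℝ → R3} (hX : Continuous X)
    (t₁ t₂ : ℝ) : ∃ (K : ℝ) (L : NNReal), ∀ t ∈ Icc t₁ t₂, ∀ e : R3, ‖e‖ ≤ 1 →
      ‖Ψ (t, X t, e)‖ ≤ K ∧ ∀ e' : R3, ‖e'‖ ≤ 1 →
        ‖Ψ (t, X t, e) - Ψ (t, X t, e')‖ ≤ L * ‖e - e'‖ := by
  obtain ⟨R, hR⟩ := (isCompact_Icc (a := t₁) (b := t₂)).exists_bound_of_continuousOn
    (f := fun t => (t, X t)) (by fun_prop)
  have hmem : ∀ t ∈ Icc t₁ t₂, ∀ e : R3, ‖e‖ ≤ 1 →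
      (t, X t, e) ∈ closedBall (0 : ℝ × R3 × R3) (max R 1) := by
    intro t ht e he
    have h := hR t ht
    rw [Prod.norm_mk, max_le_iff] at h
    rw [mem_closedBall_zero_iff, Prod.norm_mk, Prod.norm_mk]
    exact max_le (h.1.trans (le_max_left _ _))
      (max_le (h.2.trans (le_max_left _ _)) (he.trans (le_max_right _ _)))
  obtain ⟨K, hK⟩ := (isCompact_closedBall (0 : ℝ × R3 × R3) (max R 1)).exists_bound_of_continuousOn
    hΨ.continuous.continuousOn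
  obtain ⟨L, hL⟩ := (hΨ.contDiffOn (s := closedBall (0 : ℝ × R3 × R3) (max R 1))
    ).exists_lipschitzOnWith (by simp) (convex_closedBall _ _) (isCompact_closedBall _ _)
  refine ⟨K, L, fun t ht e he => ⟨hK _ (hmem t ht e he), fun e' he' => ?_⟩⟩
  have h := hL.norm_sub_le (hmem t ht e he) (hmem t ht e' he')
  simpa [Prod.norm_mk] using h

theorem BMain_proj_nz {u : R3} (hu : u ≠ 0) : proj (nz u) u = 0 := by
  have h : ‖u‖ ≠ 0 := norm_ne_zero_iff.2 hu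
  unfold proj nz
  rw [real_inner_smul_left, real_inner_self_eq_norm_sq, smul_smul]
  rw [show ‖u‖⁻¹ * ‖u‖ ^ 2 * ‖u‖⁻¹ = 1 by field_simp, one_smul, sub_self]

theorem BMain_large (C : ℝ) : ∃ P₀ : ℝ, ∀ P, P₀ ≤ P →
    C * P ^ (41 / 100 : ℝ) < P ^ (17 / 40 : ℝ) := by
  have h := (tendsto_rpow_atTop (y := 3 / 200) (by norm_num)).eventually_gt_atTop C
  obtain ⟨P₀, hP₀⟩ := eventually_atTop.1 h
  refine ⟨max P₀ 1, fun P hP => ?_⟩
  have hP0 : 0 < P := lt_of_lt_of_le one_pos ((le_max_right _ _).trans hP)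
  rw [show (17 / 40 : ℝ) = 3 / 200 + 41 / 100 by norm_num, Real.rpow_add hP0]
  exact mul_lt_mul_of_pos_right (hP₀ P ((le_max_left _ _).trans hP)) (by positivity)

theorem no_doubling (M 𝓔 T t₀ Cd : ℝ) (hM : 0 ≤ M) (h𝓔 : 0 ≤ 𝓔) (hT : 0 ≤ T) (h₀ : 0 < t₀) :
    ∃ c P₀ : ℝ, 0 < c ∧ ∀ P, P₀ ≤ P → ∀ T' ≤ T, ∀ (f : PS → ℝ) (E B : ST → R3),
    Apri T' M 𝓔 f E B → GSRem T' Cd f (frc E B f) E B →
    ∀ (t₁ t₂ : ℝ), t₀ ≤ t₁ → t₁ ≤ t₂ → t₂ - t₁ ≤ c / Real.log P → t₂ ≤ T' →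
    (∀ p : PS, p.1 ∈ Icc 0 t₂ → P < en p.2.2 → f p = 0) →
    ∀ X V : ℝ → R3, Char E B t₁ t₂ X V → P / 2 ≤ ‖V t₁‖ →
    ∀ t ∈ Icc t₁ t₂, ‖V t - V t₁‖ ≤ P / 8 := by
  set r₂ : ℝ := min (t₀ / 4) (1 / 4) with hr₂
  have r0 : 0 < r₂ := lt_min (by positivity) (by norm_num)
  have r1 : r₂ ≤ 1 / 4 := min_le_right _ _
  have r2 : 4 * r₂ ≤ t₀ := by
    have : r₂ ≤ t₀ / 4 := min_le_left _ _
    linarith
  obtain ⟨Cc, -, hcut⟩ := exists_cut
  obtain ⟨c, hc, P₁, himp⟩ := improve M 𝓔 T r₂ Cc Cd hM h𝓔 hT r0 r1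
  obtain ⟨C, P₂, hC, hsup⟩ := psi_sup M 𝓔 Cc h𝓔
  obtain ⟨P₃, hP₃⟩ := BMain_large ((4 * Real.pi)⁻¹ * C)
  obtain ⟨π, sπ, bπ, eπ, Lπ, lπ⟩ := exists_retr
  refine ⟨c, max (max P₁ P₂) (max P₃ 4), hc,
    fun P hP T' hT' f E B hA hG t₁ t₂ h₁ h₁₂ hlen h₂ hsupp X V hch hV => ?_⟩
  have hP1 : P₁ ≤ P := (le_max_left _ _).trans ((le_max_left _ _).trans hP)
  have hP2 : P₂ ≤ P := (le_max_right _ _).trans ((le_max_left _ _).trans hP)
  have hP3 : P₃ ≤ P := (le_max_left _ _).trans ((le_max_right _ _).trans hP)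
  have hP4 : 4 ≤ P := (le_max_right _ _).trans ((le_max_right _ _).trans hP)
  have hP0 : 0 < P := by linarith
  obtain ⟨χ₀, χ₁, hχ⟩ := hcut P r₂ (by linarith) r0
  have hΨ := contDiff_PsiH hχ hP0 hA.sol.step.sf hA.sol.step.vf
  obtain ⟨K, L, hKL⟩ := BMain_lip hΨ hch.cX t₁ t₂
  obtain ⟨K', hK'⟩ := (isCompact_Icc (a := t₁) (b := t₂)).exists_bound_of_continuousOn
    hch.cV.continuousOn
  set Φ : ℝ → R3 → R3 := fun t u => V t - (4 * Real.pi)⁻¹ • PsiH P χ₀ χ₁ f (t, X t, π u) with hΦ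
  have cΦ : Continuous fun p : ℝ × R3 => Φ p.1 p.2 := by
    have h1 := hΨ.continuous
    have h2 := sπ.continuous
    have h3 := hch.cX
    have h4 := hch.cV
    simp only [hΦ]
    fun_prop
  have h4π : 0 ≤ (4 * Real.pi)⁻¹ := by positivity
  obtain ⟨U, cU, hU1, dU⟩ := ode_exists cΦ h₁₂ (K := K' + (4 * Real.pi)⁻¹ * K)
    (L := (4 * Real.pi)⁻¹.toNNReal * (L * Lπ)) (fun t ht u => by
      refine (norm_sub_le _ _).trans (add_le_add (hK' t ht) ?_)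
      rw [norm_smul, Real.norm_of_nonneg h4π]
      exact mul_le_mul_of_nonneg_left (hKL t ht _ (bπ u)).1 h4π)
    (fun t ht => LipschitzWith.of_dist_le_mul fun u u' => by
      rw [dist_eq_norm, dist_eq_norm]
      simp only [hΦ]
      rw [sub_sub_sub_cancel_left, ← smul_sub, norm_smul, Real.norm_of_nonneg h4π, norm_sub_rev]
      have h1 := (hKL t ht _ (bπ u)).2 _ (bπ u')
      have h2 := lπ.norm_sub_le u u'
      rw [NNReal.coe_mul, NNReal.coe_mul, Real.coe_toNNReal _ h4π, mul_assoc ((4 * Real.pi)⁻¹),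
        mul_assoc (L : ℝ)]
      refine mul_le_mul_of_nonneg_left (h1.trans ?_) h4π
      exact mul_le_mul_of_nonneg_left h2 L.2)
    (h := P ^ (-(29 / 25 : ℝ))) (by positivity) (V t₁)
  have hQ : 0 < P ^ (17 / 40 : ℝ) := by positivity
  set φ : ℝ → ℝ := fun t => max (8 * ‖V t - V t₁‖ / P) (max (4 * ‖U t - V t₁‖ / P)
    (‖proj (π (U t)) (Φ t (U t))‖ / P ^ (17 / 40 : ℝ))) with hφ
  have cφ : Continuous φ := by
    have h1 : Continuous fun t => Φ t (U t) := cΦ.comp (continuous_id.prodMk cU)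
    have h2 := sπ.continuous
    have h4 := hch.cV
    simp only [hφ, proj]
    fun_prop
  have hφ1 : φ t₁ < 1 := by
    have hV1 : 1 ≤ ‖V t₁‖ := by linarith
    have hV0 : V t₁ ≠ 0 := norm_pos_iff.1 (by linarith)
    simp only [hφ, hU1, sub_self, norm_zero, mul_zero, zero_div, max_lt_iff, zero_lt_one, true_and]
    rw [div_lt_one hQ]
    simp only [hΦ]
    rw [eπ _ hV1, sub_eq_add_neg, KerA_proj_add, BMain_proj_nz hV0, zero_add]
    refine (norm_proj_le (norm_nz hV0) _).trans_lt ?_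
    rw [norm_neg, norm_smul, Real.norm_of_nonneg h4π]
    refine lt_of_le_of_lt ?_ (hP₃ P hP3)
    rw [mul_assoc]
    exact mul_le_mul_of_nonneg_left (hsup P hP2 T' r₂ f E B χ₀ χ₁ hA hχ r0 r1 t₁ _ _ (by linarith)
      (h₁₂.trans h₂) (norm_nz hV0) fun p hp => hsupp p ⟨hp.1, hp.2.trans h₁₂⟩) h4π
  have key := cont_method (t₂ := t₂) cφ.continuousOn hφ1 fun t ht hs => by
    have hb : ∀ s ∈ Icc t₁ t, ‖V s - V t₁‖ ≤ P / 8 ∧ ‖U s - V t₁‖ ≤ P / 4 ∧
        ‖proj (π (U s)) (Φ s (U s))‖ ≤ P ^ (17 / 40 : ℝ) := by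
      intro s hs'
      have h := hs s hs'
      simp only [hφ, max_le_iff] at h
      obtain ⟨a, b, d⟩ := h
      rw [div_le_one hP0] at a b
      rw [div_le_one hQ] at d
      exact ⟨by linarith, by linarith, d⟩
    have hπ : ∀ s ∈ Icc t₁ t, π (U s) = nz (U s) := by
      intro s hs'
      refine eπ _ ?_
      have h1 := (hb s hs').2.1
      have h2 := norm_sub_norm_le (V t₁) (U s)
      rw [norm_sub_rev] at h2
      linarith
    have hW : ∀ s ∈ Icc t₁ t, Φ s (U s) = Wv P χ₀ χ₁ f X V U s := by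
      intro s hs'
      simp only [hΦ, Wv, hπ s hs']
    have h := himp P hP1 T' hT' f E B χ₀ χ₁ hA hG hχ t₁ t (by linarith) ht.1.le
      (by linarith [ht.2]) (ht.2.trans h₂) (fun p hp => hsupp p ⟨hp.1, hp.2.trans ht.2⟩) X V U
      (hch.mono le_rfl ht.2) hV cU hU1
      (fun s hs' => by
        rw [← hW s (Ioo_subset_Icc_self hs')]
        exact dU s ⟨hs'.1, hs'.2.trans_le ht.2⟩)
      (fun s hs' => by
        rw [← hW s hs', ← hπ s hs']
        exact hb s hs') t ⟨ht.1.le, le_rfl⟩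
    rw [← hW t ⟨ht.1.le, le_rfl⟩, ← hπ t ⟨ht.1.le, le_rfl⟩] at h
    simp only [hφ, max_lt_iff]
    rw [div_lt_one hP0, div_lt_one hP0, div_lt_one hQ]
    obtain ⟨a, b, d⟩ := h
    exact ⟨by linarith, by linarith, by linarith⟩
  intro t ht
  have h := key t ht
  simp only [hφ, max_lt_iff] at h
  have a := h.1
  rw [div_lt_one hP0] at a
  linarith

end Crest.Agent.R106
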