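import Crest.Agent.R106.CalcA

/-!
# Row 106: calculus of the predicate `Bd`
-/

set_option autoImplicit false
set_option linter.unusedVariables false
set_option linter.unusedSectionVars false

open MeasureTheory Metric Set Filter Topology
open scoped ContDiff ENNReal RealInnerProductSpace
open Crest.AnalysisR.VecCalc3 Crest.AnalysisR.PDE.RVM

noncomputable section

namespace Crest.Agent.R106

section
variable {α : Type*} [MeasureSpace α]

theorem Bd.mono {g g' : α → ℝ} {C C' : ℝ} (h : Bd g C) (hg : ∀ᵐ a, g' a ≤ g a) (hC : C ≤ C') :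
    Bd g' C' := by
  refine le_trans (lintegral_mono_ae ?_) (h.trans (ENNReal.ofReal_le_ofReal hC))
  filter_upwards [hg] with a ha using ENNReal.ofReal_le_ofReal ha

theorem Bd.add {g g' : α → ℝ} {C C' : ℝ} (h : Bd g C) (h' : Bd g' C') (hm : AEMeasurable g)
    (hC : 0 ≤ C) (hC' : 0 ≤ C') : Bd (fun a => g a + g' a) (C + C') := by
  refine le_trans (lintegral_mono fun a => ENNReal.ofReal_add_le) ?_
  rw [lintegral_add_left' hm.ennreal_ofReal, ENNReal.ofReal_add hC hC']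
  exact add_le_add h h'

theorem Bd.const_mul {g : α → ℝ} {C c : ℝ} (h : Bd g C) (hc : 0 ≤ c) :
    Bd (fun a => c * g a) (c * C) := by
  unfold Bd
  simp only [ENNReal.ofReal_mul hc]
  rw [lintegral_const_mul' _ _ ENNReal.ofReal_ne_top]
  exact mul_le_mul_right h _

/-- Hölder with two weights -/
theorem Bd.holder2 {g w u : α → ℝ} {W U σ : ℝ} (hw : Bd w W) (hu : Bd u U)
    (mw : AEMeasurable w) (mu : AEMeasurable u) (hW : 0 ≤ W) (hU : 0 ≤ U) (h0 : 0 ≤ σ)
    (h1 : σ ≤ 1) (w0 : ∀ᵐ a, 0 ≤ w a) (u0 : ∀ᵐ a, 0 ≤ u a)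
    (hg : ∀ᵐ a, g a ≤ w a ^ σ * u a ^ (1 - σ)) : Bd g (W ^ σ * U ^ (1 - σ)) := by
  have h2 : 0 ≤ 1 - σ := sub_nonneg.2 h1
  have h3 := ENNReal.lintegral_mul_norm_pow_le mw.ennreal_ofReal mu.ennreal_ofReal h0 h2
    (by ring)
  refine le_trans (lintegral_mono_ae ?_) (h3.trans ?_)
  · filter_upwards [w0, u0, hg] with a a1 a2 a3
    rw [ENNReal.ofReal_rpow_of_nonneg a1 h0, ENNReal.ofReal_rpow_of_nonneg a2 h2,
      ← ENNReal.ofReal_mul (Real.rpow_nonneg a1 _)]
    exact ENNReal.ofReal_le_ofReal a3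
  · rw [ENNReal.ofReal_mul (Real.rpow_nonneg hW _), ← ENNReal.ofReal_rpow_of_nonneg hW h0,
      ← ENNReal.ofReal_rpow_of_nonneg hU h2]
    exact mul_le_mul' (ENNReal.rpow_le_rpow hw h0) (ENNReal.rpow_le_rpow hu h2)

/-- Cauchy–Schwarz -/
theorem Bd.cs {g w u : α → ℝ} {W U : ℝ} (hw : Bd w W) (hu : Bd u U)
    (mw : AEMeasurable w) (mu : AEMeasurable u) (hW : 0 ≤ W) (hU : 0 ≤ U)
    (hg : ∀ᵐ a, g a ≤ √(w a) * √(u a)) : Bd g (√W * √U) := by
  have e : ∀ x : ℝ, √x = max x 0 ^ (1 / 2 : ℝ) := fun x => by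
    rw [← Real.sqrt_eq_rpow]
    rcases le_total x 0 with h | h
    · rw [max_eq_right h, Real.sqrt_eq_zero_of_nonpos h, Real.sqrt_zero]
    · rw [max_eq_left h]
  have b : ∀ {w : α → ℝ} {W : ℝ}, Bd w W → Bd (fun a => max (w a) 0) W := fun h => by
    simpa only [Bd, ENNReal.ofReal_max, ENNReal.ofReal_zero, zero_le, sup_of_le_left] using h
  have h := Bd.holder2 (g := g) (σ := 1 / 2) (b hw) (b hu) (mw.max aemeasurable_const)
    (mu.max aemeasurable_const) hW hU (by norm_num) (by norm_num)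
    (.of_forall fun _ => le_max_right _ _) (.of_forall fun _ => le_max_right _ _) (by
      filter_upwards [hg] with a ha
      rwa [show (1 : ℝ) - 1 / 2 = 1 / 2 by norm_num, ← e, ← e])
  rwa [show (1 : ℝ) - 1 / 2 = 1 / 2 by norm_num, ← Real.sqrt_eq_rpow, ← Real.sqrt_eq_rpow] at h

/-- Hölder with three weights -/
theorem Bd.holder3 {g w₁ w₂ u : α → ℝ} {W₁ W₂ U σ₁ σ₂ : ℝ} (h₁ : Bd w₁ W₁) (h₂ : Bd w₂ W₂)
    (hu : Bd u U) (m₁ : AEMeasurable w₁) (m₂ : AEMeasurable w₂) (mu : AEMeasurable u)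
    (hW₁ : 0 ≤ W₁) (hW₂ : 0 ≤ W₂) (hU : 0 ≤ U) (s₁ : 0 ≤ σ₁) (s₂ : 0 ≤ σ₂) (s₃ : σ₁ + σ₂ ≤ 1)
    (w₁0 : ∀ᵐ a, 0 ≤ w₁ a) (w₂0 : ∀ᵐ a, 0 ≤ w₂ a) (u0 : ∀ᵐ a, 0 ≤ u a)
    (hg : ∀ᵐ a, g a ≤ w₁ a ^ σ₁ * w₂ a ^ σ₂ * u a ^ (1 - σ₁ - σ₂)) :
    Bd g (W₁ ^ σ₁ * W₂ ^ σ₂ * U ^ (1 - σ₁ - σ₂)) := by
  have s₄ : 0 ≤ 1 - σ₁ - σ₂ := by linarith
  have h3 := ENNReal.lintegral_prod_norm_pow_le (μ := (volume : Measure α))
    (Finset.univ : Finset (Fin 3))
    (f := ![fun a => ENNReal.ofReal (w₁ a), fun a => ENNReal.ofReal (w₂ a),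
      fun a => ENNReal.ofReal (u a)])
    (fun i _ => by
      fin_cases i
      exacts [m₁.ennreal_ofReal, m₂.ennreal_ofReal, mu.ennreal_ofReal])
    (p := ![σ₁, σ₂, 1 - σ₁ - σ₂]) (by simp [Fin.sum_univ_three])
    (fun i _ => by
      fin_cases i
      exacts [s₁, s₂, s₄])
  simp only [Fin.prod_univ_three, Matrix.cons_val_zero, Matrix.cons_val_one,
    Matrix.cons_val] at h3
  refine le_trans (lintegral_mono_ae ?_) (h3.trans ?_)
  · filter_upwards [w₁0, w₂0, u0, hg] with a a1 a2 a3 a4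
    rw [ENNReal.ofReal_rpow_of_nonneg a1 s₁, ENNReal.ofReal_rpow_of_nonneg a2 s₂,
      ENNReal.ofReal_rpow_of_nonneg a3 s₄, ← ENNReal.ofReal_mul (Real.rpow_nonneg a1 _),
      ← ENNReal.ofReal_mul (mul_nonneg (Real.rpow_nonneg a1 _) (Real.rpow_nonneg a2 _))]
    exact ENNReal.ofReal_le_ofReal a4
  · rw [ENNReal.ofReal_mul (mul_nonneg (Real.rpow_nonneg hW₁ _) (Real.rpow_nonneg hW₂ _)),
      ENNReal.ofReal_mul (Real.rpow_nonneg hW₁ _), ← ENNReal.ofReal_rpow_of_nonneg hW₁ s₁,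
      ← ENNReal.ofReal_rpow_of_nonneg hW₂ s₂, ← ENNReal.ofReal_rpow_of_nonneg hU s₄]
    exact mul_le_mul' (mul_le_mul' (ENNReal.rpow_le_rpow h₁ s₁) (ENNReal.rpow_le_rpow h₂ s₂))
      (ENNReal.rpow_le_rpow hu s₄)

theorem Bd.norm_integral_le {F : Type*} [NormedAddCommGroup F] [NormedSpace ℝ F] {H : α → F}
    {g : α → ℝ} {C : ℝ} (h : Bd g C) (hC : 0 ≤ C) (hH : ∀ᵐ a, ‖H a‖ ≤ g a) : ‖∫ a, H a‖ ≤ C := by
  refine (norm_integral_le_lintegral_norm H).trans (ENNReal.toReal_le_of_le_ofReal hC ?_)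
  exact (h.mono hH le_rfl :)

theorem Bd.of_integrable {g : α → ℝ} {C : ℝ} (hg : Integrable g) (h0 : ∀ᵐ a, 0 ≤ g a)
    (hC : ∫ a, g a ≤ C) : Bd g C := by
  unfold Bd
  rw [← ofReal_integral_eq_lintegral_ofReal hg h0]
  exact ENNReal.ofReal_le_ofReal hC

theorem Bd.integrable {g : α → ℝ} {C : ℝ} (h : Bd g C) (hm : AEMeasurable g)
    (h0 : ∀ᵐ a, 0 ≤ g a) (hC : 0 ≤ C) : Integrable g ∧ ∫ a, g a ≤ C := by
  have hi : Integrable g := ⟨hm.aestronglyMeasurable,
    (hasFiniteIntegral_iff_ofReal h0).2 (lt_of_le_of_lt h ENNReal.ofReal_lt_top)⟩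
  refine ⟨hi, (ENNReal.ofReal_le_ofReal_iff hC).1 ?_⟩
  rw [ofReal_integral_eq_lintegral_ofReal hi h0]
  exact h

end

/-- Tonelli: first integrate in `v` -/
theorem Bd.of_inner {g : R3 × R3 → ℝ} {G : R3 → ℝ} {C : ℝ} (hm : AEMeasurable g)
    (hi : ∀ᵐ z, Bd (fun v => g (z, v)) (G z)) (hG : Bd G C) : Bd g C := by
  unfold Bd
  rw [Measure.volume_eq_prod] at hm ⊢
  rw [lintegral_prod _ hm.ennreal_ofReal]
  exact (lintegral_mono_ae hi).trans hG

/-- the inner integral as a function of `z` -/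
theorem Bd.exists_inner {g : R3 × R3 → ℝ} {C : ℝ} (hm : Measurable g) (h : Bd g C) :
    ∃ G : R3 → ℝ, Measurable G ∧ (∀ z, 0 ≤ G z) ∧ (∀ᵐ z, Bd (fun v => g (z, v)) (G z)) ∧
      Bd G C := by
  have h1 : Measurable fun z : R3 => ∫⁻ v : R3, ENNReal.ofReal (g (z, v)) :=
    hm.ennreal_ofReal.lintegral_prod_right'
  unfold Bd at h
  rw [Measure.volume_eq_prod, lintegral_prod _ hm.ennreal_ofReal.aemeasurable] at h
  refine ⟨fun z => (∫⁻ v : R3, ENNReal.ofReal (g (z, v))).toReal, h1.ennreal_toReal,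
    fun z => ENNReal.toReal_nonneg, ?_,
    (lintegral_mono fun z => ENNReal.ofReal_toReal_le).trans h⟩
  filter_upwards [ae_lt_top h1 (h.trans_lt ENNReal.ofReal_lt_top).ne] with z hz
  exact (ENNReal.ofReal_toReal hz.ne).ge

theorem ae_fst_ne_zero : ∀ᵐ q : R3 × R3, q.1 ≠ 0 := by
  rw [Measure.volume_eq_prod]
  exact Measure.quasiMeasurePreserving_fst.ae (Measure.ae_ne volume (0 : R3))

theorem ae_qq_pos {e : R3} (he : ‖e‖ = 1) : ∀ᵐ z : R3, z ≠ 0 ∧ 0 < qq e z := by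
  have h1 : (ℝ ∙ e) ≠ ⊤ := by
    intro h
    have h2 := finrank_span_singleton (K := ℝ) (norm_ne_zero_iff.1 (he ▸ one_ne_zero))
    rw [h, finrank_top, finrank_euclideanSpace_fin] at h2
    norm_num at h2
  filter_upwards [measure_eq_zero_iff_ae_notMem.1 (Measure.addHaar_submodule volume _ h1)] with z hz
  have hz0 : z ≠ 0 := fun h => hz (h ▸ Submodule.zero_mem _)
  refine ⟨hz0, sub_pos.2 ((inner_lt_one_iff_real_of_norm_eq_one he (norm_nz hz0)).2 fun h => hz ?_)⟩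
  refine Submodule.mem_span_singleton.2 ⟨‖z‖, ?_⟩
  rw [h, nz, smul_smul, mul_inv_cancel₀ (norm_ne_zero_iff.2 hz0), one_smul]

theorem measurable_en : Measurable en := contDiff_en.continuous.measurable

theorem measurable_pp : Measurable fun q : R3 × R3 => pp q.1 q.2 := by
  exact measurable_const.sub ((contDiff_relVel.continuous.measurable.comp measurable_snd).inner
    (measurable_nz.comp measurable_fst))

theorem measurable_qq (e : R3) : Measurable (qq e) := by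
  exact measurable_const.sub (measurable_const.inner measurable_nz)

theorem measurable_gg (e : R3) : Measurable (gg e) := by
  exact measurable_const.sub (contDiff_relVel.continuous.measurable.inner measurable_const)

theorem measurable_lam (e : R3) : Measurable (lam e) := by
  exact measurable_norm.sub (measurable_const.inner measurable_id)

theorem BdLem_xb (P : ℝ) (e : R3) : Measurable (xb P e) :=
  ((measurable_lam e).const_mul P).div measurable_norm.sqrt

theorem measurableSet_RI (P r₂ : ℝ) (e : R3) : MeasurableSet (RI P r₂ e) := by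
  exact (measurableSet_le measurable_const (BdLem_xb P e)).inter
    (measurableSet_le measurable_norm measurable_const)

theorem measurableSet_RD (P r₂ : ℝ) (e : R3) : MeasurableSet (RD P r₂ e) := by
  exact (measurableSet_le (BdLem_xb P e) measurable_const).inter
    (measurableSet_le measurable_norm measurable_const)

theorem measurableSet_RF (r₂ t : ℝ) : MeasurableSet (RF r₂ t) := by
  exact (measurableSet_le measurable_const measurable_norm).inter
    (measurableSet_lt measurable_norm measurable_const)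

theorem measurableSet_RL (P τ : ℝ) (e : R3) : MeasurableSet (RL P τ e) := by
  exact (measurableSet_le measurable_const (measurable_lam e)).inter
    (measurableSet_le (measurable_norm.pow_const 2) ((measurable_lam e).const_mul τ))

theorem measurableSet_RE (η r₃ : ℝ) (e : R3) : MeasurableSet (RE η r₃ e) := by
  exact (measurableSet_le measurable_const (measurable_lam e)).inter
    (measurableSet_le measurable_norm measurable_const)

theorem measurable_cf {Ez Bz : R3 → R3} (hE : Measurable Ez) (hB : Measurable Bz) :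
    Measurable fun z => Tf (Ez z) (Bz z) 1 0 1 (nz z) := by
  obtain ⟨L, hL⟩ := exists_crossL
  have h1 : Continuous fun p : R3 × R3 × R3 => Tf p.1 p.2.1 1 0 1 p.2.2 := by
    simp only [Tf, ef, ← hL]
    fun_prop
  have h2 : Measurable fun z : R3 => (Ez z, Bz z, nz z) := hE.prodMk (hB.prodMk measurable_nz)
  have h3 := h1.measurable.comp h2
  simpa only [Function.comp_def] using h3

/-- logarithms are absorbed by powers -/
theorem log_pow_le (m : ℝ) {ε : ℝ} (hε : 0 < ε) :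
    ∃ P₀ : ℝ, ∀ P, P₀ ≤ P → 1 ≤ Real.log P ∧ Real.log P ^ m ≤ P ^ ε := by
  have h1 := (isLittleO_log_rpow_rpow_atTop m hε).bound one_pos
  obtain ⟨P₀, h⟩ := eventually_atTop.1 (h1.and ((Real.tendsto_log_atTop.eventually_ge_atTop 1).and
    (eventually_ge_atTop 0)))
  refine ⟨P₀, fun P hP => ⟨(h P hP).2.1, (le_abs_self _).trans ((h P hP).1.trans_eq ?_)⟩⟩
  rw [one_mul, Real.norm_of_nonneg (Real.rpow_nonneg (h P hP).2.2 _)]

end Crest.Agent.R106
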