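import Crest.Agent.R106.CalcB

/-!
# Row 106: the wave equation for the force
-/

set_option autoImplicit false
set_option linter.unusedVariables false
set_option linter.unusedSectionVars false

open MeasureTheory Metric Set Filter Topology
open scoped ContDiff ENNReal RealInnerProductSpace
open Crest.AnalysisR.VecCalc3 Crest.AnalysisR.PDE.RVM

noncomputable section

namespace Crest.Agent.R106

theorem BoxF_d2 {u : ST → R3} (hu : ContDiff ℝ ∞ u) (p a : ST) (i : Fin 3) :
    HasFDerivAt (fun q => fderiv ℝ u q a i) ((EuclideanSpace.proj i : R3 →L[ℝ] ℝ).comp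
      ((ContinuousLinearMap.apply ℝ R3 a).comp (fderiv ℝ (fderiv ℝ u) p))) p :=
  (EuclideanSpace.proj i : R3 →L[ℝ] ℝ).hasFDerivAt.comp p
    ((ContinuousLinearMap.apply ℝ R3 a).hasFDerivAt.comp p
      (((hu.fderiv_right (m := ∞) (by simp)).differentiable (by simp)) p).hasFDerivAt)

theorem BoxF_d2' {u : ST → R3} (hu : ContDiff ℝ ∞ u) (p a b : ST) :
    fderiv ℝ (fun q => fderiv ℝ u q a) p b = fderiv ℝ (fderiv ℝ u) p b a := by
  have h1 : HasFDerivAt (fun q => fderiv ℝ u q a)
      ((ContinuousLinearMap.apply ℝ R3 a).comp (fderiv ℝ (fderiv ℝ u) p)) p :=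
    (ContinuousLinearMap.apply ℝ R3 a).hasFDerivAt.comp p
      (((hu.fderiv_right (m := ∞) (by simp)).differentiable (by simp)) p).hasFDerivAt
  rw [h1.fderiv]
  rfl

theorem BoxF_symm {u : ST → R3} (hu : ContDiff ℝ ∞ u) (p a b : ST) :
    fderiv ℝ (fderiv ℝ u) p a b = fderiv ℝ (fderiv ℝ u) p b a :=
  (hu.contDiffAt.isSymmSndFDerivAt (by
    simp only [minSmoothness_of_isRCLikeNormedField]
    exact WithTop.coe_le_coe.2 le_top)) a b

theorem BoxF_pd {u : ST → R3} (hu : ContDiff ℝ ∞ u) (q : ST) (i k : Fin 3) :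
    pderiv (fun y => u (q.1, y) i) k q.2 = fderiv ℝ u q (0, EuclideanSpace.single k 1) i := by
  have hd := hu.differentiable (by simp)
  have h1 : HasFDerivAt (fun q => u q i) ((EuclideanSpace.proj i : R3 →L[ℝ] ℝ).comp
      (fderiv ℝ u q)) q :=
    (EuclideanSpace.proj i : R3 →L[ℝ] ℝ).hasFDerivAt.comp q (hd q).hasFDerivAt
  have h2 : Differentiable ℝ fun q => u q i :=
    (EuclideanSpace.proj i : R3 →L[ℝ] ℝ).differentiable.comp hd
  unfold pderiv
  rw [CalcB_sliceX h2, h1.fderiv]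
  rfl

theorem BoxF_box {E B : ST → R3} (hE : ContDiff ℝ ∞ E) (hB : ContDiff ℝ ∞ B) (W : R3) (p : ST) :
    box (fun q => E q + cross3 W (B q)) p = box E p + cross3 W (box B p) := by
  obtain ⟨L, hL⟩ := exists_crossL
  have h1 : ∀ a q, fderiv ℝ (fun q => E q + cross3 W (B q)) q a =
      fderiv ℝ E q a + L W (fderiv ℝ B q a) := by
    intro a q
    have h2 : HasFDerivAt (fun q => E q + L W (B q))
        (fderiv ℝ E q + (L W).comp (fderiv ℝ B q)) q :=
      (hE.differentiable (by simp) q).hasFDerivAt.add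
        ((L W).hasFDerivAt.comp q (hB.differentiable (by simp) q).hasFDerivAt)
    simp only [← hL]
    rw [h2.fderiv]
    rfl
  have h3 : ∀ a b, fderiv ℝ (fun q => fderiv ℝ E q a + L W (fderiv ℝ B q a)) p b =
      fderiv ℝ (fun q => fderiv ℝ E q a) p b + L W (fderiv ℝ (fun q => fderiv ℝ B q a) p b) := by
    intro a b
    have dE : DifferentiableAt ℝ (fun q => fderiv ℝ E q a) p :=
      (((hE.fderiv_right (m := ∞) (by simp)).differentiable (by simp)) p).clm_apply
        (differentiableAt_const _)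
    have dB : DifferentiableAt ℝ (fun q => fderiv ℝ B q a) p :=
      (((hB.fderiv_right (m := ∞) (by simp)).differentiable (by simp)) p).clm_apply
        (differentiableAt_const _)
    have h2 := dE.hasFDerivAt.add ((L W).hasFDerivAt.comp p dB.hasFDerivAt)
    exact DFunLike.congr_fun h2.fderiv b
  simp only [box, h1, h3]
  simp only [← hL, map_sub, map_sum, Finset.sum_add_distrib]
  abel

/-- wave equations from Maxwell's equations in a neighbourhood -/
theorem BoxF_wave {E B j : ST → R3} {ρ : ST → ℝ} (hE : ContDiff ℝ ∞ E) (hB : ContDiff ℝ ∞ B)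
    (hj : ContDiff ℝ ∞ j) (hρ : ContDiff ℝ ∞ ρ) {p : ST} (hm : ∀ᶠ q in 𝓝 p, MaxAt E B ρ j q) :
    (∀ i, box E p i = -fderiv ℝ ρ p (0, EuclideanSpace.single i 1) - fderiv ℝ j p (1, 0) i) ∧
    box B p = curl3 (fun y => j (p.1, y)) p.2 := by
  have dj : ∀ i, HasFDerivAt (fun q => j q i) ((EuclideanSpace.proj i : R3 →L[ℝ] ℝ).comp
      (fderiv ℝ j p)) p := fun i =>
    (EuclideanSpace.proj i : R3 →L[ℝ] ℝ).hasFDerivAt.comp p
      (hj.differentiable (by simp) p).hasFDerivAt
  have dρ := (hρ.differentiable (by simp) p).hasFDerivAt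
  set e : Fin 3 → ST := fun k => (0, EuclideanSpace.single k 1) with he
  set A := fderiv ℝ (fderiv ℝ E) p with hA
  set M := fderiv ℝ (fderiv ℝ B) p with hM
  set J := fderiv ℝ j p with hJ
  have amp : ∀ (i k l : Fin 3), (∀ q, curl3 (fun y => B (q.1, y)) q.2 i =
      fderiv ℝ B q (e k) l - fderiv ℝ B q (e l) k) → ∀ b,
      A b (1, 0) i = M b (e k) l - M b (e l) k - J b i := by
    intro i k l hc b
    have h1 := (((BoxF_d2 hB p (e k) l).sub (BoxF_d2 hB p (e l) k)).sub (dj i)).congr_of_eventuallyEq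
      (f₁ := fun q => fderiv ℝ E q (1, 0) i) (hm.mono fun q hq => by
        simp only [hq.amp, PiLp.sub_apply, hc, Pi.sub_apply])
    exact DFunLike.congr_fun ((BoxF_d2 hE p (1, 0) i).unique h1) b
  have far : ∀ (i k l : Fin 3), (∀ q, curl3 (fun y => E (q.1, y)) q.2 i =
      fderiv ℝ E q (e k) l - fderiv ℝ E q (e l) k) → ∀ b,
      M b (1, 0) i = A b (e l) k - A b (e k) l := by
    intro i k l hc b
    have h1 := ((BoxF_d2 hE p (e l) k).sub (BoxF_d2 hE p (e k) l)).congr_of_eventuallyEq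
      (f₁ := fun q => fderiv ℝ B q (1, 0) i) (hm.mono fun q hq => by
        simp only [hq.far, PiLp.neg_apply, hc, Pi.sub_apply, neg_sub])
    exact DFunLike.congr_fun ((BoxF_d2 hB p (1, 0) i).unique h1) b
  have gE : ∀ b, A b (e 0) 0 + A b (e 1) 1 + A b (e 2) 2 = fderiv ℝ ρ p b := by
    intro b
    have h1 := dρ.congr_of_eventuallyEq (f₁ := (fun q => fderiv ℝ E q (e 0) 0) +
      (fun q => fderiv ℝ E q (e 1) 1) + fun q => fderiv ℝ E q (e 2) 2) (hm.mono fun q hq => by
        simp only [← hq.gE, div3, BoxF_pd hE, Fin.sum_univ_three, Pi.add_apply, he])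
    exact DFunLike.congr_fun ((((BoxF_d2 hE p (e 0) 0).add (BoxF_d2 hE p (e 1) 1)).add
      (BoxF_d2 hE p (e 2) 2)).unique h1) b
  have gB : ∀ b, M b (e 0) 0 + M b (e 1) 1 + M b (e 2) 2 = 0 := by
    intro b
    have h1 := (hasFDerivAt_const (𝕜 := ℝ) (0 : ℝ) p).congr_of_eventuallyEq
      (f₁ := (fun q => fderiv ℝ B q (e 0) 0) +
      (fun q => fderiv ℝ B q (e 1) 1) + fun q => fderiv ℝ B q (e 2) 2) (hm.mono fun q hq => by
        have := hq.gB
        simpa only [div3, BoxF_pd hB, Fin.sum_univ_three, Pi.add_apply, he] using this)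
    exact DFunLike.congr_fun ((((BoxF_d2 hB p (e 0) 0).add (BoxF_d2 hB p (e 1) 1)).add
      (BoxF_d2 hB p (e 2) 2)).unique h1) b
  have c0 : ∀ {u : ST → R3}, ContDiff ℝ ∞ u → ∀ q : ST, curl3 (fun y => u (q.1, y)) q.2 0 =
      fderiv ℝ u q (e 1) 2 - fderiv ℝ u q (e 2) 1 := fun hu q => by
    simp only [curl3, BoxF_pd hu, he]
    rfl
  have c1 : ∀ {u : ST → R3}, ContDiff ℝ ∞ u → ∀ q : ST, curl3 (fun y => u (q.1, y)) q.2 1 =
      fderiv ℝ u q (e 2) 0 - fderiv ℝ u q (e 0) 2 := fun hu q => by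
    simp only [curl3, BoxF_pd hu, he]
    rfl
  have c2 : ∀ {u : ST → R3}, ContDiff ℝ ∞ u → ∀ q : ST, curl3 (fun y => u (q.1, y)) q.2 2 =
      fderiv ℝ u q (e 0) 1 - fderiv ℝ u q (e 1) 0 := fun hu q => by
    simp only [curl3, BoxF_pd hu, he]
    rfl
  have a0 := amp 0 1 2 (c0 hB)
  have a1 := amp 1 2 0 (c1 hB)
  have a2 := amp 2 0 1 (c2 hB)
  have f0 := far 0 1 2 (c0 hE)
  have f1 := far 1 2 0 (c1 hE)
  have f2 := far 2 0 1 (c2 hE)
  have sA : ∀ a b i, A a b i = A b a i := fun a b i => by rw [BoxF_symm hE p a b]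
  have sM : ∀ a b i, M a b i = M b a i := fun a b i => by rw [BoxF_symm hB p a b]
  have bE : ∀ i, box E p i = A (1, 0) (1, 0) i - (A (e 0) (e 0) i + A (e 1) (e 1) i +
      A (e 2) (e 2) i) := fun i => by
    simp only [box, BoxF_d2' hE, Fin.sum_univ_three, PiLp.sub_apply, PiLp.add_apply]
    rfl
  have bB : ∀ i, box B p i = M (1, 0) (1, 0) i - (M (e 0) (e 0) i + M (e 1) (e 1) i +
      M (e 2) (e 2) i) := fun i => by
    simp only [box, BoxF_d2' hB, Fin.sum_univ_three, PiLp.sub_apply, PiLp.add_apply]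
    rfl
  refine ⟨fun i => ?_, ?_⟩
  · rw [bE]
    change _ = -fderiv ℝ ρ p (e i) - J (1, 0) i
    rw [← gE]
    fin_cases i
    · have := a0 (1, 0); have := f2 (e 1); have := f1 (e 2)
      have := sM (1, 0) (e 1) 2; have := sM (1, 0) (e 2) 1
      have := sA (e 0) (e 1) 1; have := sA (e 0) (e 2) 2
      simp only [Fin.zero_eta]
      linarith
    · have := a1 (1, 0); have := f0 (e 2); have := f2 (e 0)
      have := sM (1, 0) (e 2) 0; have := sM (1, 0) (e 0) 2
      have := sA (e 1) (e 2) 2; have := sA (e 1) (e 0) 0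
      simp only [Fin.mk_one]
      linarith
    · have := a2 (1, 0); have := f1 (e 0); have := f0 (e 1)
      have := sM (1, 0) (e 0) 1; have := sM (1, 0) (e 1) 0
      have := sA (e 2) (e 0) 0; have := sA (e 2) (e 1) 1
      simp only [Fin.reduceFinMk]
      linarith
  · ext i
    rw [bB]
    fin_cases i
    · have := f0 (1, 0); have := a2 (e 1); have := a1 (e 2)
      have := sA (1, 0) (e 1) 2; have := sA (1, 0) (e 2) 1
      have := sM (e 0) (e 1) 1; have := sM (e 0) (e 2) 2
      have := gB (e 0); have := c0 hj p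
      simp only [Fin.zero_eta]
      linarith
    · have := f1 (1, 0); have := a0 (e 2); have := a2 (e 0)
      have := sA (1, 0) (e 2) 0; have := sA (1, 0) (e 0) 2
      have := sM (e 1) (e 2) 2; have := sM (e 1) (e 0) 0
      have := gB (e 1); have := c1 hj p
      simp only [Fin.mk_one]
      linarith
    · have := f2 (1, 0); have := a1 (e 0); have := a0 (e 1)
      have := sA (1, 0) (e 0) 1; have := sA (1, 0) (e 1) 0
      have := sM (e 2) (e 0) 0; have := sM (e 2) (e 1) 1
      have := gB (e 2); have := c2 hj p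
      simp only [Fin.reduceFinMk]
      linarith

theorem BoxF_cur {h : PS → ℝ} (hs : ContDiff ℝ ∞ h) (hv : VSupp h) (p w : ST) :
    fderiv ℝ (cur h) p w = ∫ v, fderiv ℝ h (p.1, p.2, v) (w.1, w.2, 0) • relVel v := by
  have h1 : ContDiff ℝ ∞ fun z : PS => relVel z.2.2 := contDiff_relVel.comp (by fun_prop)
  refine (fderiv_moment (h := fun z => h z • relVel z.2.2) (hs.smul h1)
    (fun T₁ => (hv T₁).imp fun R hR s y v h1 h2 => by simp only [hR s y v h1 h2, zero_smul])
    p w).trans (integral_congr_ae (.of_forall fun v => ?_))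
  have h3 : HasFDerivAt (fun z : PS => relVel z.2.2) ((fderiv ℝ relVel v).comp
      ((ContinuousLinearMap.snd ℝ R3 R3).comp (ContinuousLinearMap.snd ℝ ℝ (R3 × R3))))
      (p.1, p.2, v) :=
    HasFDerivAt.comp (g := relVel) (f := fun z : PS => z.2.2) (p.1, p.2, v)
      (contDiff_relVel.differentiable (by simp) v).hasFDerivAt
      ((ContinuousLinearMap.snd ℝ R3 R3).comp (ContinuousLinearMap.snd ℝ ℝ (R3 × R3))).hasFDerivAt
  have h4 := DFunLike.congr_fun
    ((hs.differentiable (by simp) (p.1, p.2, v)).hasFDerivAt.smul h3).fderiv (w.1, w.2, 0)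
  refine h4.trans ?_
  simp

/-- the wave equation satisfied by `E + W × B` -/
theorem Lin.box_force {T : ℝ} {h : PS → ℝ} {H : PS → R3} {E B : ST → R3} (hL : Lin T h H E B)
    (W : R3) (p : ST) (hp : p.1 ∈ Ioo 0 T) :
    box (fun q => E q + cross3 W (B q)) p =
      ∫ v, (-(ang (relVel v) W) • (WithLp.toLp 2 fun i =>
          fderiv ℝ h (p.1, p.2, v) (0, EuclideanSpace.single i 1, 0) : R3)
        - fderiv ℝ h (p.1, p.2, v) (1, W, 0) • relVel v) := by
  have hm : ∀ᶠ q in 𝓝 p, MaxAt E B (rho h) (cur h) q := by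
    have h1 : ∀ᶠ q : ST in 𝓝 p, q.1 ∈ Ioo 0 T :=
      continuous_fst.continuousAt.eventually (isOpen_Ioo.mem_nhds hp)
    exact h1.mono fun q hq => hL.mx q (Ioo_subset_Icc_self hq)
  have hj := contDiff_cur hL.sh hL.vh
  obtain ⟨bE, bB⟩ := BoxF_wave hL.sE hL.sB hj (contDiff_rho hL.sh hL.vh) hm
  have hi : ∀ w : PS, Integrable fun v => fderiv ℝ h (p.1, p.2, v) w := fun w =>
    integrable_slice (h := fun z => fderiv ℝ h z w)
      ((hL.sh.continuous_fderiv (by simp)).clm_apply continuous_const) (hL.vh.fderiv w) p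
  have hi' : ∀ w : PS, Integrable fun v => fderiv ℝ h (p.1, p.2, v) w • relVel v := fun w =>
    integrable_slice (h := fun z => fderiv ℝ h z w • relVel z.2.2)
      (((hL.sh.continuous_fderiv (by simp)).clm_apply continuous_const).smul
        (contDiff_relVel.continuous.comp (by fun_prop)))
      (fun T₁ => (hL.vh.fderiv w T₁).imp fun R hR s y v h1 h2 => by
        simp only [hR s y v h1 h2, zero_smul]) p
  have hF : ∀ v, (-(ang (relVel v) W) • (WithLp.toLp 2 fun i =>
      fderiv ℝ h (p.1, p.2, v) (0, EuclideanSpace.single i 1, 0) : R3)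
        - fderiv ℝ h (p.1, p.2, v) (1, W, 0) • relVel v) =
      ∑ i : Fin 3, (⟪W, fderiv ℝ h (p.1, p.2, v) (0, EuclideanSpace.single i 1, 0) • relVel v⟫ -
        fderiv ℝ h (p.1, p.2, v) (0, EuclideanSpace.single i 1, 0)) •
          EuclideanSpace.single i (1 : ℝ) - fderiv ℝ h (p.1, p.2, v) (1, W, 0) • relVel v := by
    intro v
    congr 1
    rw [← CalcB_sum (-(ang (relVel v) W) • _)]
    refine Finset.sum_congr rfl fun i _ => ?_
    congr 1
    rw [real_inner_smul_right, real_inner_comm, PiLp.smul_apply, ang, smul_eq_mul]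
    ring
  have hi2 : ∀ i : Fin 3, Integrable fun v =>
      ⟪W, fderiv ℝ h (p.1, p.2, v) (0, EuclideanSpace.single i 1, 0) • relVel v⟫ -
        fderiv ℝ h (p.1, p.2, v) (0, EuclideanSpace.single i 1, 0) := fun i =>
    ((hi' _).const_inner W).sub (hi _)
  have hI : ∀ i : Fin 3, ∫ v,
      (⟪W, fderiv ℝ h (p.1, p.2, v) (0, EuclideanSpace.single i 1, 0) • relVel v⟫ -
        fderiv ℝ h (p.1, p.2, v) (0, EuclideanSpace.single i 1, 0)) =
      ⟪W, fderiv ℝ (cur h) p (0, EuclideanSpace.single i 1)⟫ -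
        fderiv ℝ (rho h) p (0, EuclideanSpace.single i 1) := fun i => by
    rw [integral_sub ((hi' _).const_inner W) (hi _), integral_inner (hi' _),
      BoxF_cur hL.sh hL.vh]
    congr 1
    exact (fderiv_moment hL.sh hL.vh p (0, EuclideanSpace.single i 1)).symm
  simp only [hF]
  rw [integral_sub (integrable_finsetSum _ fun i _ => (hi2 i).smul_const _) (hi' _),
    integral_finsetSum _ fun i _ => (hi2 i).smul_const _]
  simp only [integral_smul_const, hI]
  rw [← BoxF_cur hL.sh hL.vh p (1, W), BoxF_box hL.sE hL.sB, bB]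
  have hW : ((1, W) : ST) = (1, 0) + ∑ i, W i • ((0, EuclideanSpace.single i 1) : ST) := by
    refine Prod.ext ?_ ?_
    · simp [Prod.fst_sum]
    · simp only [Prod.snd_add, Prod.snd_sum, Prod.smul_snd, CalcB_sum, zero_add]
  rw [hW, map_add, map_sum]
  ext i
  simp only [PiLp.add_apply, PiLp.sub_apply, bE, map_smul, Fin.sum_univ_three, PiLp.smul_apply,
    smul_eq_mul, CalcA_inner3, cross3, curl3, BoxF_pd hj]
  fin_cases i <;> simp <;> ring

end Crest.Agent.R106
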