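import Crest.Agent.R106.Unique

/-!
# Row 106: smooth solutions are classical solutions
-/

set_option autoImplicit false
set_option linter.unusedVariables false
set_option linter.unusedSectionVars false

open MeasureTheory Metric Set Filter Topology
open scoped ContDiff ENNReal RealInnerProductSpace
open Crest.AnalysisR.VecCalc3 Crest.AnalysisR.PDE.RVM

noncomputable section

namespace Crest.Agent.R106

theorem Bridge_sum (g : R3 → ℝ) (x u : R3) :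
    ∑ i, u i * Crest.AnalysisR.VecCalc3.pderiv g i x = fderiv ℝ g x u := by
  conv_rhs => rw [← Unique_vec u, map_sum]
  exact Finset.sum_congr rfl fun i _ => (map_smul (fderiv ℝ g x) (u i) _).symm

theorem Bridge_time {E : ST → R3} (hE : ContDiff ℝ ∞ E) (t : ℝ) (x : R3) (i : Fin 3) :
    deriv (fun s => E (s, x) i) t = fderiv ℝ E (t, x) (1, 0) i :=
  ((EuclideanSpace.proj i : R3 →L[ℝ] ℝ).hasFDerivAt.comp_hasDerivAt t
    (Unique_time (hE.differentiable (by simp) (t, x)).hasFDerivAt)).deriv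

theorem Sol.eqs {T : ℝ} {f : PS → ℝ} {E B : ST → R3} (h : Sol T f E B) {t : ℝ}
    (ht : t ∈ Icc 0 T) (x : R3) :
    EquationsHoldAt (fun t x v => f (t, x, v)) (fun t x => E (t, x)) (fun t x => B (t, x)) t x := by
  have hm := h.step.mx (t, x) ht
  refine ⟨fun v => ?_, fun i => ?_, fun i => ?_, hm.gE, hm.gB⟩
  · have hD := (h.step.sf.differentiable (by simp) (t, x, v)).hasFDerivAt
    have h1 : HasFDerivAt (fun y : R3 => f (t, y, v)) _ x :=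
      hD.comp x ((hasFDerivAt_const t x).prodMk (hasFDerivAt_prodMk_left x v))
    have h2 : HasFDerivAt (fun w : R3 => f (t, x, w)) _ v :=
      hD.comp v ((hasFDerivAt_const t v).prodMk (hasFDerivAt_prodMk_right x v))
    have h3 : fderiv ℝ f (t, x, v) (1, relVel v, lor (E (t, x)) (B (t, x)) v) = 0 :=
      h.step.vl (t, x, v) ht
    refine Eq.trans ?_ h3
    refine (congrArg₂ (· + ·) (congrArg₂ (· + ·) (Unique_time hD).deriv (Bridge_sum _ _ _))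
      (Bridge_sum _ _ (lor (E (t, x)) (B (t, x)) v))).trans ?_
    rw [h1.fderiv, h2.fderiv, ContinuousLinearMap.comp_apply, ContinuousLinearMap.comp_apply,
      ← map_add, ← map_add]
    simp
  · rw [Bridge_time h.step.sE, hm.amp]
    exact sub_sub_cancel_left _ _
  · rw [Bridge_time h.step.sB, hm.far]
    exact neg_add_cancel _

theorem Sol.cl {T : ℝ} {f : PS → ℝ} {E B : ST → R3} (h : Sol T f E B) :
    Cl T (fun t x v => f (t, x, v)) (fun t x => E (t, x)) (fun t x => B (t, x)) := by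
  refine ⟨(h.step.sf.of_le (by simp)).contDiffOn, (h.step.sE.of_le (by simp)).contDiffOn,
    (h.step.sB.of_le (by simp)).contDiffOn, fun t h0 h1 => h.eqs ⟨h0.le, h1.le⟩, fun T' h0 h1 => ?_⟩
  obtain ⟨R₁, hR₁⟩ := h.xs
  obtain ⟨R₂, hR₂⟩ := h.step.vf T'
  refine ⟨max R₁ R₂, fun t ht x v hx => hx.elim (fun hx => ?_) fun hv => ?_⟩
  · exact hR₁ t ⟨ht.1, ht.2.trans h1.le⟩ x v ((le_max_left _ _).trans_lt hx)
  · exact hR₂ t x v ((abs_of_nonneg ht.1).trans_le ht.2) ((le_max_right _ _).trans_lt hv)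

theorem Bridge_cl {X F : Type*} [TopologicalSpace X] [TopologicalSpace F] [T2Space F]
    {u u' : ℝ × X → F} (hu : Continuous u) (hu' : Continuous u') (h0 : ∀ y, u' (0, y) = u (0, y))
    {T t : ℝ} (h : ∀ s ∈ Ico 0 T, ∀ y, u' (s, y) = u (s, y)) (ht : t ∈ Icc 0 T) (y : X) :
    u' (t, y) = u (t, y) := by
  rcases ht.1.eq_or_lt with rfl | h1
  · exact h0 y
  · rw [← closure_Ico (h1.trans_le ht.2).ne] at ht
    exact closure_minimal (t := {s | u' (s, y) = u (s, y)}) (fun s hs => h s hs y)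
      (isClosed_eq (by fun_prop) (by fun_prop)) ht

theorem Sol.unique {T : ℝ} {f f' : PS → ℝ} {E B E' B' : ST → R3} (h : Sol T f E B)
    (h' : Sol T f' E' B') (hf : ∀ y, f' (0, y) = f (0, y)) (hE : ∀ x, E' (0, x) = E (0, x))
    (hB : ∀ x, B' (0, x) = B (0, x)) {t : ℝ} (ht : t ∈ Icc 0 T) :
    (∀ y, f' (t, y) = f (t, y)) ∧ (∀ x, E' (t, x) = E (t, x)) ∧ ∀ x, B' (t, x) = B (t, x) := by
  have h1 := h.cl.unique h'.cl (funext fun x => funext fun v => hf (x, v)) (funext hE) (funext hB)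
  exact ⟨Bridge_cl h.step.sf.continuous h'.step.sf.continuous hf
      (fun s hs y => congrFun (congrFun (h1 s hs).1 y.1) y.2) ht,
    Bridge_cl h.step.sE.continuous h'.step.sE.continuous hE
      (fun s hs => congrFun (h1 s hs).2.1) ht,
    Bridge_cl h.step.sB.continuous h'.step.sB.continuous hB
      (fun s hs => congrFun (h1 s hs).2.2) ht⟩

section glue

variable {X F : Type*} [NormedAddCommGroup X] [NormedSpace ℝ X] [NormedAddCommGroup F]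
  [NormedSpace ℝ F] {u u₂ : ℝ × X → F} {U : Set ℝ} {τ : ℝ}

theorem Bridge_ev (hU : IsOpen U) (h : ∀ s ∈ U, ∀ y, u₂ (s, y) = u (τ + s, y)) {p : ℝ × X}
    (hp : p.1 ∈ U) : u₂ =ᶠ[𝓝 p] fun q => u ((τ, 0) + q) :=
  eventually_of_mem ((hU.preimage continuous_fst).mem_nhds hp) fun q hq =>
    (h q.1 hq q.2).trans (congrArg u (Prod.ext rfl (zero_add _).symm))

theorem Bridge_fd (hU : IsOpen U) (h : ∀ s ∈ U, ∀ y, u₂ (s, y) = u (τ + s, y)) {p : ℝ × X}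
    (hp : p.1 ∈ U) : fderiv ℝ u₂ p = fderiv ℝ u (τ + p.1, p.2) := by
  rw [(Bridge_ev hU h hp).fderiv_eq, fderiv_comp_add_left]
  exact congrArg _ (Prod.ext rfl (zero_add _))

theorem Bridge_bx {s s' C : ℝ} {k : ℕ} (h : ∀ y, u₂ (s, y) = u (s', y)) (hb : Bx k u s' C) :
    Bx k u₂ s C := fun y => by
  rw [funext h]
  exact hb y

theorem Bridge_glue {u' : ℝ × X → F} (hu : ContDiff ℝ ∞ u) (hu' : ContDiff ℝ ∞ u') {t₁ η : ℝ}
    (hη : 0 < η) (h : ∀ s ∈ Icc 0 η, ∀ y, u' (s, y) = u (t₁ + s, y)) :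
    ∃ u₂ : ℝ × X → F, ContDiff ℝ ∞ u₂ ∧ (∀ s ∈ Iio (t₁ + η), ∀ y, u₂ (s, y) = u (0 + s, y)) ∧
      ∀ s ∈ Ioi t₁, ∀ y, u₂ (s, y) = u' (-t₁ + s, y) := by
  obtain ⟨u₂, h1, h2⟩ : ∃ u₂ : ℝ × X → F, (∀ s ∈ Iio (t₁ + η), ∀ y, u₂ (s, y) = u (0 + s, y)) ∧
      ∀ s ∈ Ioi t₁, ∀ y, u₂ (s, y) = u' (-t₁ + s, y) := by
    refine ⟨fun p => if p.1 ≤ t₁ then u p else u' (-t₁ + p.1, p.2), fun s hs y => ?_,
      fun s hs y => if_neg (not_le.2 hs)⟩
    rw [zero_add]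
    by_cases h3 : s ≤ t₁
    · exact if_pos h3
    · refine (if_neg h3).trans ((h _ ⟨?_, ?_⟩ y).trans (by rw [add_neg_cancel_left])) <;>
        linarith [not_le.1 h3, mem_Iio.1 hs]
  refine ⟨u₂, contDiff_iff_contDiffAt.2 fun p => ?_, h1, h2⟩
  rcases lt_or_ge p.1 (t₁ + η) with h3 | h3
  · exact (hu.comp (contDiff_const.add contDiff_id)).contDiffAt.congr_of_eventuallyEq
      (Bridge_ev isOpen_Iio h1 h3)
  · exact (hu'.comp (contDiff_const.add contDiff_id)).contDiffAt.congr_of_eventuallyEq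
      (Bridge_ev isOpen_Ioi h2 (show t₁ < p.1 by linarith))

end glue

theorem Bridge_eqs {U : Set ℝ} {τ : ℝ} {f f₂ : PS → ℝ} {E B E₂ B₂ : ST → R3} (hU : IsOpen U)
    (hf : ∀ s ∈ U, ∀ y, f₂ (s, y) = f (τ + s, y)) (hE : ∀ s ∈ U, ∀ y, E₂ (s, y) = E (τ + s, y))
    (hB : ∀ s ∈ U, ∀ y, B₂ (s, y) = B (τ + s, y)) :
    (∀ p : PS, p.1 ∈ U → VlAt E B f (τ + p.1, p.2) → VlAt E₂ B₂ f₂ p) ∧
      ∀ p : ST, p.1 ∈ U → MaxAt E B (rho f) (cur f) (τ + p.1, p.2) →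
        MaxAt E₂ B₂ (rho f₂) (cur f₂) p := by
  refine ⟨fun p hp h => ?_, fun p hp h => ?_⟩
  · show fderiv ℝ f₂ p (1, relVel p.2.2, lor (E₂ (p.1, p.2.1)) (B₂ (p.1, p.2.1)) p.2.2) = 0
    rw [Bridge_fd hU hf hp, hE _ hp, hB _ hp]
    exact h
  · have h1 : rho f₂ p = rho f (τ + p.1, p.2) := integral_congr_ae (.of_forall fun v => hf _ hp _)
    have h2 : cur f₂ p = cur f (τ + p.1, p.2) :=
      integral_congr_ae (.of_forall fun v => congrArg (· • relVel v) (hf _ hp _))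
    refine ⟨?_, ?_, ?_, ?_⟩
    · rw [Bridge_fd hU hE hp, funext (hB _ hp), h2]
      exact h.amp
    · rw [Bridge_fd hU hB hp, funext (hE _ hp)]
      exact h.far
    · rw [funext (hE _ hp), h1]
      exact h.gE
    · rw [funext (hB _ hp)]
      exact h.gB

/-- continuation of a solution by a solution started at an earlier time -/
theorem Sol.glue {T T₀ t₁ : ℝ} {f g : PS → ℝ} {E B E' B' : ST → R3} (h : Sol T f E B)
    (h' : Sol T₀ g E' B') (h₁ : 0 ≤ t₁) (h₂ : t₁ < T) (hT₀ : 0 < T₀)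
    (hi : Init g E' B' (fun y => f (t₁, y)) (fun x => E (t₁, x)) (fun x => B (t₁, x))) :
    ∃ (f₂ : PS → ℝ) (E₂ B₂ : ST → R3), Sol (t₁ + T₀) f₂ E₂ B₂ ∧
      Init f₂ E₂ B₂ (fun y => f (0, y)) (fun x => E (0, x)) (fun x => B (0, x)) := by
  obtain ⟨η, hη, h₃, h₄⟩ : ∃ η, 0 < η ∧ η ≤ T - t₁ ∧ η ≤ T₀ :=
    ⟨min (T - t₁) T₀, lt_min (sub_pos.2 h₂) hT₀, min_le_left _ _, min_le_right _ _⟩
  have hu := fun s (hs : s ∈ Icc 0 η) => ((h.shift h₁).mono h₃).unique (h'.mono h₄)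
    (fun y => (hi.1 y).trans (congrArg (fun s => f (s, y)) (add_zero t₁).symm))
    (fun y => (hi.2.1 y).trans (congrArg (fun s => E (s, y)) (add_zero t₁).symm))
    (fun y => (hi.2.2 y).trans (congrArg (fun s => B (s, y)) (add_zero t₁).symm)) hs
  obtain ⟨f₂, sf, f1, f2⟩ := Bridge_glue h.step.sf h'.step.sf hη fun s hs => (hu s hs).1
  obtain ⟨E₂, sE, E1, E2⟩ := Bridge_glue h.step.sE h'.step.sE hη fun s hs => (hu s hs).2.1
  obtain ⟨B₂, sB, B1, B2⟩ := Bridge_glue h.step.sB h'.step.sB hη fun s hs => (hu s hs).2.2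
  have a1 := Bridge_eqs isOpen_Iio f1 E1 B1
  have a2 := Bridge_eqs isOpen_Ioi f2 E2 B2
  have hc : ∀ s ∈ Icc 0 (t₁ + T₀), (s ∈ Iio (t₁ + η) ∧ 0 + s ∈ Icc 0 T) ∨
      (s ∈ Ioi t₁ ∧ -t₁ + s ∈ Icc 0 T₀) := fun s hs =>
    (lt_or_ge s (t₁ + η)).imp (fun h => ⟨h, by linarith [hs.1], by linarith [mem_Iio.1 h]⟩)
      fun h => ⟨by show t₁ < s; linarith, by linarith, by linarith [hs.2]⟩
  have h0 : (0 : ℝ) ∈ Iio (t₁ + η) := add_pos_of_nonneg_of_pos h₁ hη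
  refine ⟨f₂, E₂, B₂, ⟨⟨sE, sB, sf, sE, sB, fun T₁ => ?_, fun p hp => ?_, fun p hp => ?_,
    fun T₁ k => ?_⟩, ?_⟩, fun y => (f1 0 h0 y).trans (by rw [add_zero]),
    fun y => (E1 0 h0 y).trans (by rw [add_zero]), fun y => (B1 0 h0 y).trans (by rw [add_zero])⟩
  · obtain ⟨R₁, hR₁⟩ := h.step.vf T₁
    obtain ⟨R₂, hR₂⟩ := h'.step.vf (t₁ + T₁)
    refine ⟨max R₁ R₂, fun s y v hs hv => ?_⟩
    rcases lt_or_ge s (t₁ + η) with h5 | h5
    · exact (f1 s h5 _).trans (hR₁ _ y v (by rwa [zero_add]) ((le_max_left _ _).trans_lt hv))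
    · refine (f2 s (show t₁ < s by linarith) _).trans
        (hR₂ _ y v (abs_le.2 ⟨?_, ?_⟩) ((le_max_right _ _).trans_lt hv)) <;>
      linarith [abs_le.1 hs]
  · exact (hc _ hp).elim (fun h5 => a1.1 p h5.1 (h.step.vl _ h5.2))
      fun h5 => a2.1 p h5.1 (h'.step.vl _ h5.2)
  · exact (hc _ hp).elim (fun h5 => a1.2 p h5.1 (h.step.mx _ h5.2))
      fun h5 => a2.2 p h5.1 (h'.step.mx _ h5.2)
  · obtain ⟨C₁, hC₁⟩ := h.step.bd' T k
    obtain ⟨C₂, hC₂⟩ := h'.step.bd' T₀ k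
    refine ⟨max C₁ C₂, fun s hs _ => ?_⟩
    rcases hc s hs with h5 | h5
    · have h6 := hC₁ _ h5.2 ((abs_of_nonneg h5.2.1).trans_le h5.2.2)
      exact ⟨(Bridge_bx (E1 s h5.1) h6.1).mono (le_max_left _ _),
        (Bridge_bx (B1 s h5.1) h6.2).mono (le_max_left _ _)⟩
    · have h6 := hC₂ _ h5.2 ((abs_of_nonneg h5.2.1).trans_le h5.2.2)
      exact ⟨(Bridge_bx (E2 s h5.1) h6.1).mono (le_max_right _ _),
        (Bridge_bx (B2 s h5.1) h6.2).mono (le_max_right _ _)⟩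
  · obtain ⟨R₁, hR₁⟩ := h.xs
    obtain ⟨R₂, hR₂⟩ := h'.xs
    refine ⟨max R₁ R₂, fun s hs y v hy => ?_⟩
    rcases hc s hs with h5 | h5
    · exact (f1 s h5.1 _).trans (hR₁ _ h5.2 y v ((le_max_left _ _).trans_lt hy))
    · exact (f2 s h5.1 _).trans (hR₂ _ h5.2 y v ((le_max_right _ _).trans_lt hy))

theorem dat_of_admissible {f₀ : R3 → R3 → ℝ} {E₀ B₀ : R3 → R3} (h : IsAdmissibleDatum f₀ E₀ B₀) :
    Dat (Function.uncurry f₀) E₀ B₀ :=
  ⟨h.2.1, h.2.2.2.1, h.2.2.2.2.1, h.2.2.1, h.2.2.2.2.2.1, h.2.2.2.2.2.2.2.2.1, h.2.2.2.2.2.2.2.2.2⟩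

theorem Dat.exists_bounds {f₀ : R3 × R3 → ℝ} {E₀ B₀ : R3 → R3} (h : Dat f₀ E₀ B₀) (m : ℕ) :
    ∃ R₀ D : ℝ, (∀ y v : R3, R₀ < ‖v‖ → f₀ (y, v) = 0) ∧
      ∀ k ≤ m, (∀ y, ‖iteratedFDeriv ℝ k f₀ y‖ ≤ D) ∧ (∀ x, ‖iteratedFDeriv ℝ k E₀ x‖ ≤ D) ∧
        ∀ x, ‖iteratedFDeriv ℝ k B₀ x‖ ≤ D := by
  obtain ⟨R, -, hR⟩ := h.cs.exists_pos_le_norm
  choose C hC using h.bd
  choose C' hC' using fun k : ℕ => (h.sf.continuous_iteratedFDeriv (m := k)
    (by exact_mod_cast le_top)).bounded_above_of_compact_support (h.cs.iteratedFDeriv k)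
  refine ⟨R, ∑ k ∈ Finset.range (m + 1), (|C k| + |C' k|),
    fun y v hv => hR _ (hv.le.trans (norm_snd_le (y, v))), fun k hk => ?_⟩
  have h1 := Finset.single_le_sum (f := fun k => |C k| + |C' k|) (fun _ _ => by positivity)
    (Finset.mem_range.2 (Nat.lt_succ_of_le hk))
  have h2 := le_abs_self (C k)
  have h3 := le_abs_self (C' k)
  have h4 := abs_nonneg (C k)
  have h5 := abs_nonneg (C' k)
  exact ⟨fun y => by linarith [hC' k y], fun x => by linarith [(hC k x).1],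
    fun x => by linarith [(hC k x).2]⟩

end Crest.Agent.R106
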