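import Crest.Agent.R106.Defs

/-!
# Row 106: elementary facts on `relVel`, `cross3`, `lor`
-/

set_option autoImplicit false
set_option linter.unusedVariables false
set_option linter.unusedSectionVars false

open MeasureTheory Metric Set Filter Topology
open scoped ContDiff ENNReal RealInnerProductSpace
open Crest.AnalysisR.VecCalc3 Crest.AnalysisR.PDE.RVM

noncomputable section

namespace Crest.Agent.R106

theorem one_le_en (v : R3) : 1 ≤ en v := by
  unfold en
  exact Real.one_le_sqrt.2 (by nlinarith [sq_nonneg ‖v‖])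

theorem en_pos (v : R3) : 0 < en v := lt_of_lt_of_le one_pos (one_le_en v)

theorem norm_le_en (v : R3) : ‖v‖ ≤ en v := by
  unfold en
  exact Real.le_sqrt_of_sq_le (by linarith)

theorem en_le (v : R3) : en v ≤ 1 + ‖v‖ := by
  unfold en
  exact Real.sqrt_le_iff.2 ⟨by positivity, by nlinarith [norm_nonneg v]⟩

theorem en_sq (v : R3) : en v ^ 2 = 1 + ‖v‖ ^ 2 := by
  unfold en
  exact Real.sq_sqrt (by positivity)

theorem relVel_eq (v : R3) : relVel v = (en v)⁻¹ • v := rfl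

theorem norm_relVel_sq (v : R3) : ‖relVel v‖ ^ 2 = 1 - (en v ^ 2)⁻¹ := by
  have h := en_pos v
  have h2 := en_sq v
  rw [relVel_eq, norm_smul, norm_inv, Real.norm_of_nonneg h.le, mul_pow]
  have : ‖v‖ ^ 2 = en v ^ 2 - 1 := by linarith
  rw [this]
  field_simp

theorem norm_relVel_lt_one (v : R3) : ‖relVel v‖ < 1 := by
  have h := norm_relVel_sq v
  have h2 : 0 < (en v ^ 2)⁻¹ := by have := en_pos v; positivity
  have h3 : ‖relVel v‖ ^ 2 < 1 := by linarith
  nlinarith [norm_nonneg (relVel v)]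

theorem contDiff_en : ContDiff ℝ ∞ en := by
  unfold en
  refine ContDiff.sqrt (contDiff_const.add (contDiff_norm_sq ℝ)) fun v => ?_
  positivity

theorem contDiff_relVel : ContDiff ℝ ∞ relVel := by
  have : relVel = fun v : R3 => (en v)⁻¹ • v := rfl
  rw [this]
  exact (contDiff_en.inv fun v => (en_pos v).ne').smul contDiff_id

theorem CalcA_hasFDerivAt_en (v : R3) : HasFDerivAt en (innerSL ℝ (relVel v)) v := by
  have h1 : HasFDerivAt (fun v : R3 => 1 + ‖v‖ ^ 2) (2 • innerSL ℝ v) v :=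
    (hasStrictFDerivAt_norm_sq v).hasFDerivAt.const_add 1
  have h2 := h1.sqrt (by positivity)
  have h3 : innerSL ℝ (relVel v) = (1 / (2 * √(1 + ‖v‖ ^ 2))) • (2 • innerSL ℝ v) := by
    ext K
    have h := en_pos v
    have e : √(1 + ‖v‖ ^ 2) = en v := rfl
    simp only [relVel_eq, innerSL_apply_apply, _root_.smul_apply, e,
      real_inner_smul_left, smul_eq_mul, nsmul_eq_mul]
    field_simp
    norm_num
  rw [h3]
  exact h2

theorem CalcA_hasFDerivAt_inv_en (v : R3) :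
    HasFDerivAt (fun v => (en v)⁻¹) ((-(en v ^ 2)⁻¹) • innerSL ℝ (relVel v)) v :=
  (hasDerivAt_inv (en_pos v).ne').comp_hasFDerivAt v (CalcA_hasFDerivAt_en v)

/-- the derivative of `relVel` as a continuous linear map -/
def CalcA_accL (v : R3) : R3 →L[ℝ] R3 :=
  (en v)⁻¹ • (ContinuousLinearMap.id ℝ R3 - (innerSL ℝ (relVel v)).smulRight (relVel v))

theorem CalcA_accL_apply (v K : R3) : CalcA_accL v K = accK v K := by
  simp [CalcA_accL, accK]

theorem CalcA_hasFDerivAt_relVel (v : R3) : HasFDerivAt relVel (CalcA_accL v) v := by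
  have h := (CalcA_hasFDerivAt_inv_en v).smul (hasFDerivAt_id v)
  refine HasFDerivAt.congr_fderiv (f := relVel) h ?_
  ext1 K
  symm
  have hp := en_pos v
  simp only [CalcA_accL_apply, accK, _root_.add_apply,
    _root_.smul_apply, ContinuousLinearMap.id_apply,
    ContinuousLinearMap.smulRight_apply, innerSL_apply_apply, id, smul_eq_mul]
  generalize ⟪relVel v, K⟫ = c
  rw [relVel_eq]
  match_scalars <;> field_simp

theorem fderiv_en (v K : R3) : fderiv ℝ en v K = ⟪relVel v, K⟫ := by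
  rw [(CalcA_hasFDerivAt_en v).fderiv]; simp

theorem fderiv_relVel (v K : R3) : fderiv ℝ relVel v K = accK v K := by
  rw [(CalcA_hasFDerivAt_relVel v).fderiv, CalcA_accL_apply]

/-- the algebra generated by the components of `v̂` and by `v₀⁻¹` -/
inductive CalcA_Alg : (R3 → ℝ) → Prop
  | const (c : ℝ) : CalcA_Alg fun _ => c
  | inn (w : R3) : CalcA_Alg fun v => ⟪relVel v, w⟫
  | ien : CalcA_Alg fun v => (en v)⁻¹
  | add {f g : R3 → ℝ} : CalcA_Alg f → CalcA_Alg g → CalcA_Alg fun v => f v + g v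
  | mul {f g : R3 → ℝ} : CalcA_Alg f → CalcA_Alg g → CalcA_Alg fun v => f v * g v

theorem CalcA_Alg.smooth {f : R3 → ℝ} (hf : CalcA_Alg f) : ContDiff ℝ ∞ f := by
  induction hf with
  | const c => exact contDiff_const
  | inn w => exact contDiff_relVel.inner ℝ contDiff_const
  | ien => exact contDiff_en.inv fun v => (en_pos v).ne'
  | add _ _ ihf ihg => exact ihf.add ihg
  | mul _ _ ihf ihg => exact ihf.mul ihg

theorem CalcA_Alg.bdd {f : R3 → ℝ} (hf : CalcA_Alg f) : ∃ C : ℝ, ∀ v, |f v| ≤ C := by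
  induction hf with
  | const c => exact ⟨|c|, fun v => le_rfl⟩
  | inn w =>
    refine ⟨‖w‖, fun v => (abs_real_inner_le_norm _ _).trans ?_⟩
    nlinarith [norm_relVel_lt_one v, norm_nonneg w]
  | ien =>
    refine ⟨1, fun v => ?_⟩
    rw [abs_of_pos (inv_pos.2 (en_pos v))]
    exact inv_le_one_of_one_le₀ (one_le_en v)
  | add _ _ ihf ihg =>
    obtain ⟨C, hC⟩ := ihf
    obtain ⟨D, hD⟩ := ihg
    exact ⟨C + D, fun v => (abs_add_le _ _).trans (add_le_add (hC v) (hD v))⟩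
  | mul _ _ ihf ihg =>
    obtain ⟨C, hC⟩ := ihf
    obtain ⟨D, hD⟩ := ihg
    refine ⟨C * D, fun v => ?_⟩
    rw [abs_mul]
    exact mul_le_mul (hC v) (hD v) (abs_nonneg _) ((abs_nonneg _).trans (hC v))

theorem CalcA_Alg.congr {f g : R3 → ℝ} (hf : CalcA_Alg f) (h : ∀ v, g v = f v) :
    CalcA_Alg g := by
  have : g = f := funext h
  rw [this]; exact hf

theorem CalcA_Alg.deriv {f : R3 → ℝ} (hf : CalcA_Alg f) (u : R3) :
    CalcA_Alg fun v => fderiv ℝ f v u := by
  induction hf with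
  | const c => exact (CalcA_Alg.const 0).congr fun v => by simp
  | inn w =>
    refine (CalcA_Alg.ien.mul ((CalcA_Alg.const ⟪u, w⟫).add ((CalcA_Alg.const (-1)).mul
      ((CalcA_Alg.inn u).mul (CalcA_Alg.inn w))))).congr fun v => ?_
    have h := (CalcA_hasFDerivAt_relVel v).inner ℝ (hasFDerivAt_const w v)
    rw [h.fderiv]
    simp only [ContinuousLinearMap.comp_apply, ContinuousLinearMap.prod_apply,
      fderivInnerCLM_apply, CalcA_accL_apply, accK, _root_.zero_apply,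
      inner_zero_right, real_inner_smul_left, inner_sub_left]
    ring
  | ien =>
    refine ((CalcA_Alg.const (-1)).mul (CalcA_Alg.ien.mul (CalcA_Alg.ien.mul
      (CalcA_Alg.inn u)))).congr fun v => ?_
    rw [(CalcA_hasFDerivAt_inv_en v).fderiv]
    simp only [_root_.smul_apply, innerSL_apply_apply, smul_eq_mul]
    ring
  | add hf hg ihf ihg =>
    refine (ihf.add ihg).congr fun v => ?_
    rw [fderiv_fun_add (hf.smooth.differentiable (by simp) v)
      (hg.smooth.differentiable (by simp) v)]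
    rfl
  | mul hf hg ihf ihg =>
    refine ((hf.mul ihg).add (hg.mul ihf)).congr fun v => ?_
    rw [fderiv_fun_mul (hf.smooth.differentiable (by simp) v)
      (hg.smooth.differentiable (by simp) v)]
    simp

theorem CalcA_bdd_sum {V : Type*} [NormedAddCommGroup V] [NormedSpace ℝ V] (k : ℕ)
    (g : Fin 3 → R3 → ℝ) (L : Fin 3 → V) (hg : ∀ i, ContDiff ℝ ∞ (g i))
    (hb : ∀ i, ∃ C : ℝ, ∀ v, ‖iteratedFDeriv ℝ k (g i) v‖ ≤ C) :
    ∃ C : ℝ, ∀ v, ‖iteratedFDeriv ℝ k (fun v => ∑ i, g i v • L i) v‖ ≤ C := by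
  choose C hC using hb
  refine ⟨∑ i, ‖(ContinuousLinearMap.id ℝ ℝ).smulRight (L i)‖ * C i, fun v => ?_⟩
  have hk : (k : WithTop ℕ∞) ≤ ((⊤ : ℕ∞) : WithTop ℕ∞) := by exact_mod_cast le_top
  rw [iteratedFDeriv_fun_sum_apply (f := fun i v => g i v • L i)
    (fun i _ => (((hg i).smul contDiff_const).of_le hk).contDiffAt)]
  refine (norm_sum_le _ _).trans (Finset.sum_le_sum fun i _ => ?_)
  have h := ((ContinuousLinearMap.id ℝ ℝ).smulRight (L i)).norm_iteratedFDeriv_comp_left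
    (x := v) (n := k) (hg i).contDiffAt hk
  exact h.trans (mul_le_mul_of_nonneg_left (hC i v) (norm_nonneg _))

theorem CalcA_Alg_iter (k : ℕ) : ∀ f : R3 → ℝ, CalcA_Alg f →
    ∃ C : ℝ, ∀ v, ‖iteratedFDeriv ℝ k f v‖ ≤ C := by
  induction k with
  | zero =>
    intro f hf
    obtain ⟨C, hC⟩ := hf.bdd
    exact ⟨C, fun v => by rw [norm_iteratedFDeriv_zero]; exact hC v⟩
  | succ k ih =>
    intro f hf
    have e : fderiv ℝ f = fun v => ∑ i : Fin 3,
        fderiv ℝ f v (EuclideanSpace.single i (1 : ℝ)) •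
          (EuclideanSpace.proj i : R3 →L[ℝ] ℝ) := by
      funext v
      ext u
      have hu : u = ∑ i : Fin 3, u i • EuclideanSpace.single i (1 : ℝ) := by
        ext j
        simp [Finset.sum_apply, Pi.single_apply]
      conv_lhs => rw [hu]
      simp [mul_comm]
    obtain ⟨C, hC⟩ := CalcA_bdd_sum k
      (fun i v => fderiv ℝ f v (EuclideanSpace.single i (1 : ℝ)))
      (fun i => (EuclideanSpace.proj i : R3 →L[ℝ] ℝ)) (fun i => (hf.deriv _).smooth)
      (fun i => ih _ (hf.deriv _))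
    refine ⟨C, fun v => ?_⟩
    rw [← norm_iteratedFDeriv_fderiv, e]
    exact hC v

/-- every derivative of `v ↦ v̂` is bounded -/
theorem relVel_bdd (k : ℕ) : ∃ C : ℝ, ∀ v, ‖iteratedFDeriv ℝ k relVel v‖ ≤ C := by
  have e : relVel = fun v => ∑ i : Fin 3,
      ⟪relVel v, EuclideanSpace.single i (1 : ℝ)⟫ • EuclideanSpace.single i (1 : ℝ) := by
    funext v
    ext j
    simp [EuclideanSpace.inner_single_right, Finset.sum_apply, Pi.single_apply]
  rw [e]
  exact CalcA_bdd_sum k _ _ (fun i => (CalcA_Alg.inn _).smooth)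
    (fun i => CalcA_Alg_iter k _ (CalcA_Alg.inn _))

theorem norm_nz_le (z : R3) : ‖nz z‖ ≤ 1 := by
  unfold nz
  rw [norm_smul, norm_inv, norm_norm]
  exact inv_mul_le_one_of_le₀ le_rfl (norm_nonneg _)

theorem norm_nz {z : R3} (hz : z ≠ 0) : ‖nz z‖ = 1 := by
  unfold nz
  rw [norm_smul, norm_inv, norm_norm]
  exact inv_mul_cancel₀ (norm_ne_zero_iff.2 hz)

/-- `1/(2 v₀²) ≤ 1 - v̂·ν` for `|ν| ≤ 1` -/
theorem inv_en_sq_le_ang (v ν : R3) (hν : ‖ν‖ ≤ 1) : (2 * en v ^ 2)⁻¹ ≤ ang (relVel v) ν := by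
  unfold ang
  have h1 := real_inner_le_norm (relVel v) ν
  have h2 := norm_relVel_sq v
  have h3 := norm_nonneg (relVel v)
  have h4 : ‖relVel v‖ * ‖ν‖ ≤ ‖relVel v‖ := by nlinarith
  rw [mul_inv]
  nlinarith [sq_nonneg (1 - ‖relVel v‖)]

theorem pp_pos (z v : R3) : 0 < pp z v := by
  refine lt_of_lt_of_le ?_ (inv_en_sq_le_ang v (nz z) (norm_nz_le z))
  have := en_pos v
  positivity

theorem ang_nonneg {a b : R3} (ha : ‖a‖ ≤ 1) (hb : ‖b‖ ≤ 1) : 0 ≤ ang a b := by
  unfold ang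
  have h1 := real_inner_le_norm a b
  nlinarith [norm_nonneg a, norm_nonneg b]

theorem ang_le_two {a b : R3} (ha : ‖a‖ ≤ 1) (hb : ‖b‖ ≤ 1) : ang a b ≤ 2 := by
  unfold ang
  have h1 := abs_real_inner_le_norm a b
  have h2 := neg_abs_le ⟪a, b⟫
  nlinarith [norm_nonneg a, norm_nonneg b]

/-- `|a - b|² ≤ 2 (1 - a·b)` in the unit ball -/
theorem norm_sub_sq_le_ang {a b : R3} (ha : ‖a‖ ≤ 1) (hb : ‖b‖ ≤ 1) :
    ‖a - b‖ ^ 2 ≤ 2 * ang a b := by
  unfold ang
  rw [norm_sub_sq_real]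
  nlinarith [norm_nonneg a, norm_nonneg b]

theorem lam_eq (e : R3) {z : R3} (hz : z ≠ 0) : lam e z = ‖z‖ * qq e z := by
  have h : ‖z‖ ≠ 0 := norm_ne_zero_iff.2 hz
  unfold lam qq ang nz
  rw [real_inner_smul_right]
  field_simp

theorem CalcA_inner3 (a b : R3) : ⟪a, b⟫ = a 0 * b 0 + a 1 * b 1 + a 2 * b 2 := by
  simp [PiLp.inner_apply, Fin.sum_univ_three, mul_comm]

theorem CalcA_norm_sq3 (a : R3) : ‖a‖ ^ 2 = a 0 ^ 2 + a 1 ^ 2 + a 2 ^ 2 := by
  rw [← real_inner_self_eq_norm_sq, CalcA_inner3]; ring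

/-- the cross product as a continuous bilinear map -/
theorem exists_crossL : ∃ L : R3 →L[ℝ] R3 →L[ℝ] R3, ∀ a b, L a b = cross3 a b := by
  let M : R3 →ₗ[ℝ] R3 →ₗ[ℝ] R3 := LinearMap.mk₂ ℝ cross3
    (fun a a' b => by ext i; fin_cases i <;> simp [cross3] <;> ring)
    (fun c a b => by ext i; fin_cases i <;> simp [cross3] <;> ring)
    (fun a b b' => by ext i; fin_cases i <;> simp [cross3] <;> ring)
    (fun c a b => by ext i; fin_cases i <;> simp [cross3] <;> ring)
  refine ⟨LinearMap.toContinuousLinearMap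
    ((LinearMap.toContinuousLinearMap (𝕜 := ℝ) (E := R3) (F' := R3)).toLinearMap ∘ₗ M),
    fun a b => rfl⟩

theorem norm_cross3_le (a b : R3) : ‖cross3 a b‖ ≤ ‖a‖ * ‖b‖ := by
  refine (pow_le_pow_iff_left₀ (norm_nonneg _) (by positivity) two_ne_zero).1 ?_
  rw [mul_pow, CalcA_norm_sq3, CalcA_norm_sq3, CalcA_norm_sq3]
  simp only [cross3, Matrix.cons_val_zero, Matrix.cons_val_one, Matrix.cons_val]
  nlinarith [sq_nonneg (a 0 * b 0 + a 1 * b 1 + a 2 * b 2)]

theorem inner_cross3_left (a b : R3) : ⟪a, cross3 a b⟫ = 0 := by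
  rw [CalcA_inner3]
  simp only [cross3, Matrix.cons_val_zero, Matrix.cons_val_one, Matrix.cons_val]
  ring

theorem cross3_cross3 (a b c : R3) : cross3 a (cross3 b c) = ⟪a, c⟫ • b - ⟪a, b⟫ • c := by
  rw [CalcA_inner3, CalcA_inner3]
  ext i
  fin_cases i <;> simp [cross3] <;> ring

theorem norm_lor_le (E B v : R3) : ‖lor E B v‖ ≤ ‖E‖ + ‖B‖ := by
  unfold lor
  refine (norm_add_le _ _).trans (add_le_add le_rfl ((norm_cross3_le _ _).trans ?_))
  nlinarith [norm_relVel_lt_one v, norm_nonneg B]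

theorem contDiff_lor : ContDiff ℝ ∞ fun p : R3 × R3 × R3 => lor p.1 p.2.1 p.2.2 := by
  obtain ⟨L, hL⟩ := exists_crossL
  have e : (fun p : R3 × R3 × R3 => lor p.1 p.2.1 p.2.2) =
      fun p : R3 × R3 × R3 => p.1 + L (relVel p.2.2) p.2.1 := by
    funext p; rw [hL]; rfl
  rw [e]
  exact contDiff_fst.add ((L.contDiff.comp (contDiff_relVel.comp contDiff_snd.snd)).clm_apply
    contDiff_snd.fst)

/-- the Lorentz force is divergence free in `v` -/
theorem div3_lor (E B v : R3) : div3 (lor E B) v = 0 := by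
  obtain ⟨L, hL⟩ := exists_crossL
  have key : ∀ (i : Fin 3) (u : R3),
      fderiv ℝ (fun y => lor E B y i) v u = cross3 (accK v u) B i := by
    intro i u
    have h1 : HasFDerivAt (fun y => E + L.flip B (relVel y)) ((L.flip B).comp (CalcA_accL v)) v :=
      ((L.flip B).hasFDerivAt.comp v (CalcA_hasFDerivAt_relVel v)).const_add E
    have h2 := (EuclideanSpace.proj i : R3 →L[ℝ] ℝ).hasFDerivAt.comp v h1
    have e : (fun y => lor E B y i) =
        (EuclideanSpace.proj i : R3 →L[ℝ] ℝ) ∘ fun y => E + L.flip B (relVel y) := by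
      funext y
      simp [lor, hL]
    rw [e, h2.fderiv]
    simp [CalcA_accL_apply, hL]
  unfold div3 Crest.AnalysisR.VecCalc3.pderiv
  simp only [key, Fin.sum_univ_three, accK, CalcA_inner3]
  simp [cross3]
  ring

theorem contDiffAt_nz {z : R3} (hz : z ≠ 0) : ContDiffAt ℝ ∞ nz z := by
  have : nz = fun z : R3 => ‖z‖⁻¹ • z := rfl
  rw [this]
  exact ((contDiffAt_norm ℝ hz).inv (norm_ne_zero_iff.2 hz)).smul contDiffAt_id

theorem CalcA_hasFDerivAt_norm {z : R3} (hz : z ≠ 0) :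
    HasFDerivAt (fun z : R3 => ‖z‖) (innerSL ℝ (nz z)) z := by
  have hp : 0 < ‖z‖ := norm_pos_iff.2 hz
  have h1 : HasFDerivAt (fun v : R3 => ‖v‖ ^ 2) (2 • innerSL ℝ z) z :=
    (hasStrictFDerivAt_norm_sq z).hasFDerivAt
  have h2 := h1.sqrt (by positivity)
  have h3 : innerSL ℝ (nz z) = (1 / (2 * √(‖z‖ ^ 2))) • (2 • innerSL ℝ z) := by
    ext K
    simp only [nz, innerSL_apply_apply, _root_.smul_apply,
      Real.sqrt_sq (norm_nonneg z), real_inner_smul_left, smul_eq_mul, nsmul_eq_mul]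
    field_simp
    norm_num
  rw [h3]
  simpa only [Real.sqrt_sq (norm_nonneg _)] using h2

theorem fderiv_norm' {z : R3} (hz : z ≠ 0) (u : R3) :
    fderiv ℝ (fun z : R3 => ‖z‖) z u = ⟪nz z, u⟫ := by
  rw [(CalcA_hasFDerivAt_norm hz).fderiv]; simp

theorem fderiv_nz {z : R3} (hz : z ≠ 0) (u : R3) :
    fderiv ℝ nz z u = ‖z‖⁻¹ • (u - ⟪nz z, u⟫ • nz z) := by
  have hp : 0 < ‖z‖ := norm_pos_iff.2 hz
  have h1 : HasFDerivAt (fun z : R3 => ‖z‖⁻¹) ((-(‖z‖ ^ 2)⁻¹) • innerSL ℝ (nz z)) z :=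
    (hasDerivAt_inv hp.ne').comp_hasFDerivAt z (CalcA_hasFDerivAt_norm hz)
  have h := h1.smul (hasFDerivAt_id z)
  have e : nz = (fun z : R3 => ‖z‖⁻¹) • (id : R3 → R3) := rfl
  conv_lhs => rw [e, h.fderiv]
  simp only [_root_.add_apply,
    _root_.smul_apply, ContinuousLinearMap.id_apply,
    ContinuousLinearMap.smulRight_apply, innerSL_apply_apply, id, smul_eq_mul]
  generalize ⟪nz z, u⟫ = c
  unfold nz
  match_scalars <;> field_simp

theorem measurable_nz : Measurable nz := by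
  have : nz = fun z : R3 => ‖z‖⁻¹ • z := rfl
  rw [this]
  exact measurable_norm.inv.smul measurable_id

theorem kS_smul (a₀ c : ℝ) (a z v K : R3) : kS a₀ a z v (c • K) = c • kS a₀ a z v K := by
  have h1 : accK v (c • K) = c • accK v K := by
    rw [← CalcA_accL_apply, ← CalcA_accL_apply, map_smul]
  have h2 : radK z v (c • K) = c • radK z v K := by
    unfold radK
    rw [h1, real_inner_smul_right]
    module
  unfold kS
  rw [h2, real_inner_smul_right]
  module

theorem CalcA_hasFDerivAt_inner (a v : R3) :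
    HasFDerivAt (fun v => ⟪relVel v, a⟫) ((innerSL ℝ a).comp (CalcA_accL v)) v := by
  have h := (innerSL ℝ a).hasFDerivAt.comp v (CalcA_hasFDerivAt_relVel v)
  have e : (fun v => ⟪relVel v, a⟫) = (innerSL ℝ a) ∘ relVel := by
    funext y
    simp [real_inner_comm]
  rw [e]
  exact h

theorem CalcA_hasFDerivAt_pp (z v : R3) :
    HasFDerivAt (pp z) (-((innerSL ℝ (nz z)).comp (CalcA_accL v))) v :=
  (CalcA_hasFDerivAt_inner (nz z) v).const_sub 1

/-- `radK` is the derivative of `v ↦ (n - v̂)/(1 - v̂·n)` -/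
theorem fderiv_rad (z v K : R3) (hz : z ≠ 0) :
    fderiv ℝ (fun v => (pp z v)⁻¹ • (nz z - relVel v)) v K = radK z v K := by
  have hp := pp_pos z v
  have h1 := (hasDerivAt_inv hp.ne').comp_hasFDerivAt v (CalcA_hasFDerivAt_pp z v)
  have h2 := (CalcA_hasFDerivAt_relVel v).const_sub (nz z)
  have h := h1.fun_smul h2
  have e : (fun v => (pp z v)⁻¹ • (nz z - relVel v)) =
      fun v => ((fun y : ℝ => y⁻¹) ∘ pp z) v • (nz z - relVel v) := rfl
  rw [e, h.fderiv]
  simp only [_root_.add_apply, _root_.neg_apply,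
    _root_.smul_apply, ContinuousLinearMap.comp_apply,
    ContinuousLinearMap.smulRight_apply, innerSL_apply_apply, smul_eq_mul, CalcA_accL_apply,
    Function.comp, radK]
  match_scalars <;> field_simp

/-- `kS` is the derivative in `v` of `(Γ n - φ² v̂)/(r θ²)` -/
theorem fderiv_kS (a₀ : ℝ) (a z v K : R3) (hz : z ≠ 0) :
    fderiv ℝ (fun v => (‖z‖ * pp z v)⁻¹ •
      ((a₀ - ⟪relVel v, a⟫) • nz z - (a₀ - ⟪nz z, a⟫) • relVel v)) v K = kS a₀ a z v K := by
  have hp := pp_pos z v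
  have hr : 0 < ‖z‖ := norm_pos_iff.2 hz
  have h0 := (CalcA_hasFDerivAt_pp z v).const_mul ‖z‖
  have h1 := (hasDerivAt_inv (mul_pos hr hp).ne').comp_hasFDerivAt v h0
  have h2 := (((CalcA_hasFDerivAt_inner a v).const_sub a₀).smul_const (nz z)).fun_sub
    ((CalcA_hasFDerivAt_relVel v).fun_const_smul (a₀ - ⟪nz z, a⟫))
  have h := h1.fun_smul h2
  have e : (fun v => (‖z‖ * pp z v)⁻¹ •
      ((a₀ - ⟪relVel v, a⟫) • nz z - (a₀ - ⟪nz z, a⟫) • relVel v)) =
      fun v => ((fun y : ℝ => y⁻¹) ∘ fun v => ‖z‖ * pp z v) v •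
        ((a₀ - ⟪relVel v, a⟫) • nz z - (a₀ - ⟪nz z, a⟫) • relVel v) := rfl
  rw [e, h.fderiv]
  simp only [_root_.add_apply, _root_.neg_apply,
    _root_.sub_apply,
    _root_.smul_apply, ContinuousLinearMap.comp_apply,
    ContinuousLinearMap.smulRight_apply, innerSL_apply_apply, smul_eq_mul, CalcA_accL_apply,
    Function.comp, radK, kS, real_inner_smul_right, inner_sub_right]
  rw [real_inner_comm (nz z) a, real_inner_comm (relVel v) a]
  match_scalars <;> (field_simp; try ring)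

end Crest.Agent.R106
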