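import Crest.Agent.R106.CalcA
import Crest.Agent.R240.Par

/-!
# Row 106: moments and integration by parts
-/

set_option autoImplicit false
set_option linter.unusedVariables false
set_option linter.unusedSectionVars false

open MeasureTheory Metric Set Filter Topology
open scoped ContDiff ENNReal RealInnerProductSpace
open Crest.AnalysisR.VecCalc3 Crest.AnalysisR.PDE.RVM

noncomputable section

namespace Crest.Agent.R106

section
variable {F : Type*} [NormedAddCommGroup F] [NormedSpace ℝ F] [CompleteSpace F]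

theorem CalcB_locC {h : PS → F} (hs : ContDiff ℝ ∞ h) (hv : VSupp h) :
    R240.LocC fun z : ST × R3 => h (z.1.1, z.1.2, z.2) := by
  refine ⟨hs.comp (by fun_prop), fun p₀ => ?_⟩
  obtain ⟨R, hR⟩ := hv (|p₀.1| + 1)
  refine ⟨closedBall 0 R, isCompact_closedBall _ _, ?_⟩
  have hc : Continuous fun p : ST => |p.1| := by fun_prop
  filter_upwards [hc.continuousAt.eventually_lt_const (lt_add_one |p₀.1|)] with p hp y hy
  exact hR _ _ _ hp.le (not_le.1 fun h1 => hy (mem_closedBall_zero_iff.2 h1))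

theorem CalcB_cs {h : PS → F} (hv : VSupp h) (p : ST) :
    HasCompactSupport fun v => h (p.1, p.2, v) := by
  obtain ⟨R, hR⟩ := hv |p.1|
  exact HasCompactSupport.intro (isCompact_closedBall 0 R) fun v hv =>
    hR _ _ _ le_rfl (not_le.1 fun h1 => hv (mem_closedBall_zero_iff.2 h1))

theorem CalcB_sliceV {h : PS → F} (hs : Differentiable ℝ h) (p : ST) (v u : R3) :
    fderiv ℝ (fun w => h (p.1, p.2, w)) v u = fderiv ℝ h (p.1, p.2, v) (0, 0, u) := by
  have h1 : HasFDerivAt (fun w : R3 => ((p.1, p.2, w) : PS))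
      ((0 : R3 →L[ℝ] ℝ).prod ((0 : R3 →L[ℝ] R3).prod (ContinuousLinearMap.id ℝ R3))) v :=
    (hasFDerivAt_const _ _).prodMk ((hasFDerivAt_const _ _).prodMk (hasFDerivAt_id v))
  exact DFunLike.congr_fun ((hs _).hasFDerivAt.comp v h1).fderiv u

theorem CalcB_sliceX {g : ST → F} (hs : Differentiable ℝ g) (p : ST) (u : R3) :
    fderiv ℝ (fun y => g (p.1, y)) p.2 u = fderiv ℝ g p (0, u) := by
  have h1 : HasFDerivAt (fun y : R3 => ((p.1, y) : ST))
      ((0 : R3 →L[ℝ] ℝ).prod (ContinuousLinearMap.id ℝ R3)) p.2 :=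
    (hasFDerivAt_const _ _).prodMk (hasFDerivAt_id p.2)
  exact DFunLike.congr_fun ((hs _).hasFDerivAt.comp p.2 h1).fderiv u

theorem CalcB_sum (u : R3) : ∑ i, u i • EuclideanSpace.single i (1 : ℝ) = u := by
  ext j
  simp [Pi.single_apply]

/-- velocity moments of a smooth function with bounded momentum support are smooth -/
theorem contDiff_moment {h : PS → F} (hs : ContDiff ℝ ∞ h) (hv : VSupp h) :
    ContDiff ℝ ∞ fun p : ST => ∫ v, h (p.1, p.2, v) :=
  (CalcB_locC hs hv).contDiff_integral volume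

theorem fderiv_moment {h : PS → F} (hs : ContDiff ℝ ∞ h) (hv : VSupp h) (p w : ST) :
    fderiv ℝ (fun p : ST => ∫ v, h (p.1, p.2, v)) p w =
      ∫ v, fderiv ℝ h (p.1, p.2, v) (w.1, w.2, 0) := by
  refine ((CalcB_locC hs hv).fderiv_integral volume p w).trans (integral_congr_ae
    (.of_forall fun v => ?_))
  exact DFunLike.congr_fun (((hs.differentiable (by simp)) (p.1, p.2, v)).hasFDerivAt.comp (p, v)
    (ContinuousLinearEquiv.prodAssoc ℝ ℝ R3 R3).hasFDerivAt).fderiv (w, 0)

theorem integrable_slice {h : PS → F} (hs : Continuous h) (hv : VSupp h) (p : ST) :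
    Integrable fun v => h (p.1, p.2, v) :=
  (hs.comp (by fun_prop)).integrable_of_hasCompactSupport (CalcB_cs hv p)

theorem VSupp.fderiv {h : PS → F} (hv : VSupp h) (w : PS) :
    VSupp fun p => fderiv ℝ h p w := by
  intro T₁
  obtain ⟨R, hR⟩ := hv (T₁ + 1)
  refine ⟨R, fun s y v hs hv => ?_⟩
  have hc : Continuous fun p : PS => |p.1| := by fun_prop
  have hc' : Continuous fun p : PS => ‖p.2.2‖ := by fun_prop
  have h2 : h =ᶠ[𝓝 (s, y, v)] fun _ => 0 := by
    filter_upwards [hc.continuousAt.eventually_lt_const (hs.trans_lt (lt_add_one T₁)),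
      hc'.continuousAt.eventually_const_lt hv] with p h1 h2
    exact hR _ _ _ h1.le h2
  simp [h2.fderiv_eq]

/-- integration by parts for `C¹` functions with compact support -/
theorem integral_fderiv_eq_zero' {X : Type*} [NormedAddCommGroup X] [NormedSpace ℝ X]
    [FiniteDimensional ℝ X] [MeasurableSpace X] [BorelSpace X] (μ : Measure X)
    [μ.IsAddHaarMeasure] {u : X → F} (hu : ContDiff ℝ 1 u) (hc : HasCompactSupport u) (w : X) :
    ∫ x, fderiv ℝ u x w ∂μ = 0 := by
  have h1 : Integrable (fun x => fderiv ℝ u x w) μ :=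
    ((hu.continuous_fderiv (by simp)).clm_apply continuous_const).integrable_of_hasCompactSupport
      (hc.fderiv_apply ℝ w)
  simpa using integral_smul_fderiv_eq_neg_fderiv_smul_of_integrable (μ := μ)
    (f := fun _ : X => (1 : ℝ)) (g := u) (v := w) (by simp) (by simpa using h1)
    (by simpa using hu.continuous.integrable_of_hasCompactSupport hc)
    (fun _ _ => differentiableAt_const _) fun x _ => hu.differentiable (by simp) x

end

theorem contDiff_rho {h : PS → ℝ} (hs : ContDiff ℝ ∞ h) (hv : VSupp h) : ContDiff ℝ ∞ (rho h) :=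
  contDiff_moment hs hv

theorem contDiff_cur {h : PS → ℝ} (hs : ContDiff ℝ ∞ h) (hv : VSupp h) :
    ContDiff ℝ ∞ (cur h) :=
  contDiff_moment (h := fun z => h z • relVel z.2.2)
    (hs.smul (contDiff_relVel.comp (by fun_prop))) fun T₁ => (hv T₁).imp fun R hR s y v h1 h2 => by
      simp only [hR s y v h1 h2, zero_smul]

theorem contDiff_frc {E' B' : ST → R3} {f : PS → ℝ} (hE : ContDiff ℝ ∞ E') (hB : ContDiff ℝ ∞ B')
    (hf : ContDiff ℝ ∞ f) : ContDiff ℝ ∞ (frc E' B' f) :=
  hf.smul (contDiff_lor.comp (f := fun p : PS => (E' (p.1, p.2.1), B' (p.1, p.2.1), p.2.2))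
    ((hE.comp (by fun_prop)).prodMk ((hB.comp (by fun_prop)).prodMk (by fun_prop))))

/-- `div_v (f K) = K·∇_v f` -/
theorem divV_frc {E' B' : ST → R3} {f : PS → ℝ} (hf : ContDiff ℝ ∞ f) (p : PS) :
    divV (frc E' B' f) p =
      fderiv ℝ f p (0, 0, lor (E' (p.1, p.2.1)) (B' (p.1, p.2.1)) p.2.2) := by
  obtain ⟨s, y, v⟩ := p
  have hd := hf.differentiable (by simp)
  have h0 := div3_lor (E' (s, y)) (B' (s, y)) v
  have h1 : Differentiable ℝ fun w => f (s, y, w) := hd.comp (by fun_prop)
  have h2 : Differentiable ℝ (lor (E' (s, y)) (B' (s, y))) :=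
    (contDiff_lor.differentiable (by simp)).comp
      (f := fun w : R3 => (E' (s, y), B' (s, y), w)) (by fun_prop)
  have h3 : ∀ i, pderiv (fun w => frc E' B' f (s, y, w) i) i v =
      f (s, y, v) * pderiv (fun w => lor (E' (s, y)) (B' (s, y)) w i) i v +
        lor (E' (s, y)) (B' (s, y)) v i *
          fderiv ℝ (fun w => f (s, y, w)) v (EuclideanSpace.single i 1) := fun i => by
    have h4 : Differentiable ℝ fun w => lor (E' (s, y)) (B' (s, y)) w i :=
      (EuclideanSpace.proj i : R3 →L[ℝ] ℝ).differentiable.comp h2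
    exact DFunLike.congr_fun (fderiv_fun_mul (h1 v) (h4 v)) _
  unfold div3 at h0
  change ∑ i, pderiv (fun w => frc E' B' f (s, y, w) i) i v = _
  rw [Finset.sum_congr rfl fun i _ => h3 i, Finset.sum_add_distrib, ← Finset.mul_sum, h0, mul_zero,
    zero_add, ← CalcB_sliceV hd (s, y) v]
  conv_rhs => rw [← CalcB_sum (lor (E' (s, y)) (B' (s, y)) v), map_sum]
  simp only [map_smul, smul_eq_mul]

theorem Step.lin {T : ℝ} {E' B' : ST → R3} {f : PS → ℝ} {E B : ST → R3}
    (h : Step T E' B' f E B) : Lin T f (frc E' B' f) E B := by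
  refine ⟨h.sf, contDiff_frc h.sE' h.sB' h.sf, h.sE, h.sB, h.vf,
    fun T₁ => (h.vf T₁).imp fun R hR s y v h1 h2 => ?_, fun p hp => ?_, h.mx⟩
  · simp only [frc, hR s y v h1 h2, zero_smul]
  · rw [divV_frc h.sf, eq_neg_iff_add_eq_zero, ← map_add]
    simpa [VlAt] using h.vl p hp

/-- conservation of charge -/
theorem charge_cons {h : PS → ℝ} {H : PS → R3} (hs : ContDiff ℝ ∞ h) (hv : VSupp h)
    (hH : ContDiff ℝ ∞ H) (hvH : VSupp H) (p : ST)
    (htr : ∀ v, fderiv ℝ h (p.1, p.2, v) (1, relVel v, 0) = - divV H (p.1, p.2, v)) :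
    fderiv ℝ (rho h) p (1, 0) + div3 (fun y => cur h (p.1, y)) p.2 = 0 := by
  have hd := hs.differentiable (by simp)
  have hr : ∀ i, ContDiff ℝ ∞ fun v => relVel v i := fun i =>
    (EuclideanSpace.proj i : R3 →L[ℝ] ℝ).contDiff.comp contDiff_relVel
  have hs' : ∀ i, ContDiff ℝ ∞ fun z : PS => h z * relVel z.2.2 i := fun i =>
    hs.mul ((hr i).comp (by fun_prop))
  have hv' : ∀ i, VSupp fun z : PS => h z * relVel z.2.2 i := fun i T₁ =>
    (hv T₁).imp fun R hR s y v h1 h2 => by simp only [hR s y v h1 h2, zero_mul]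
  have h1 : ∀ i q, cur h q i = rho (fun z : PS => h z * relVel z.2.2 i) q := fun i q =>
    ((EuclideanSpace.proj i : R3 →L[ℝ] ℝ).integral_comp_comm
      (integrable_slice (h := fun z => h z • relVel z.2.2)
        (hs.continuous.smul (contDiff_relVel.continuous.comp (by fun_prop)))
        (fun T₁ => (hv T₁).imp fun R hR s y v h1 h2 => by simp only [hR s y v h1 h2, zero_smul])
        q)).symm
  have hi : ∀ w : PS, Integrable fun v => fderiv ℝ h (p.1, p.2, v) w := fun w =>
    integrable_slice (h := fun z => fderiv ℝ h z w)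
      ((hs.continuous_fderiv (by simp)).clm_apply continuous_const) (hv.fderiv w) p
  have hi' : ∀ i, Integrable fun v => relVel v i *
      fderiv ℝ h (p.1, p.2, v) (0, EuclideanSpace.single i 1, 0) := fun i =>
    integrable_slice (h := fun z => relVel z.2.2 i * fderiv ℝ h z (0, EuclideanSpace.single i 1, 0))
      (((hr i).continuous.comp (by fun_prop)).mul
        ((hs.continuous_fderiv (by simp)).clm_apply continuous_const))
      (fun T₁ => (hv.fderiv (0, EuclideanSpace.single i 1, 0) T₁).imp fun R hR s y v h1 h2 => by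
        simp only [hR s y v h1 h2, mul_zero]) p
  have h2 : ∀ i, pderiv (fun y => cur h (p.1, y) i) i p.2 =
      ∫ v, relVel v i * fderiv ℝ h (p.1, p.2, v) (0, EuclideanSpace.single i 1, 0) := fun i => by
    simp only [h1, pderiv]
    rw [CalcB_sliceX ((contDiff_rho (hs' i) (hv' i)).differentiable (by simp))]
    refine (fderiv_moment (hs' i) (hv' i) p _).trans (integral_congr_ae (.of_forall fun v => ?_))
    have h3 : HasFDerivAt (fun z : PS => relVel z.2.2 i) ((fderiv ℝ (fun v => relVel v i) v).comp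
        ((ContinuousLinearMap.snd ℝ R3 R3).comp (ContinuousLinearMap.snd ℝ ℝ (R3 × R3))))
        (p.1, p.2, v) :=
      HasFDerivAt.comp (g := fun v => relVel v i) (f := fun z : PS => z.2.2) (p.1, p.2, v)
        ((hr i).differentiable (by simp) v).hasFDerivAt
        ((ContinuousLinearMap.snd ℝ R3 R3).comp (ContinuousLinearMap.snd ℝ ℝ (R3 × R3))).hasFDerivAt
    have h4 := DFunLike.congr_fun ((hd (p.1, p.2, v)).hasFDerivAt.mul h3).fderiv
      (0, EuclideanSpace.single i 1, 0)
    refine h4.trans ?_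
    simp
  have h5 : ∀ i, ContDiff ℝ 1 fun w => H (p.1, p.2, w) i := fun i =>
    (EuclideanSpace.proj i : R3 →L[ℝ] ℝ).contDiff.comp ((hH.of_le (by simp)).comp (by fun_prop))
  have h6 : ∀ i, HasCompactSupport fun w => H (p.1, p.2, w) i := fun i =>
    (CalcB_cs hvH p).comp_left (g := fun u : R3 => u i) rfl
  have h7 : ∫ v, divV H (p.1, p.2, v) = 0 := by
    simp only [divV, div3, pderiv]
    rw [integral_finsetSum _ fun i _ =>
      (((h5 i).continuous_fderiv (by simp)).clm_apply continuous_const).integrable_of_hasCompactSupport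
        ((h6 i).fderiv_apply ℝ _)]
    exact Finset.sum_eq_zero fun i _ => integral_fderiv_eq_zero' _ (h5 i) (h6 i) _
  have h8 : fderiv ℝ (rho h) p (1, 0) = ∫ v, fderiv ℝ h (p.1, p.2, v) (1, 0, 0) :=
    fderiv_moment hs hv p (1, 0)
  rw [h8, div3, Finset.sum_congr rfl fun i _ => h2 i, ← integral_finsetSum _ fun i _ => hi' i,
    ← integral_add (hi _) (integrable_finsetSum _ fun i _ => hi' i)]
  refine (integral_congr_ae (.of_forall fun v => ?_)).trans
    ((integral_neg _).trans (neg_eq_zero.2 h7))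
  have h9 : ((1, relVel v, 0) : PS) =
      (1, 0, 0) + ∑ i, relVel v i • ((0, EuclideanSpace.single i 1, 0) : PS) := by
    simp [Prod.ext_iff, Prod.fst_sum, Prod.snd_sum, CalcB_sum]
  beta_reduce
  rw [← htr, h9, map_add, map_sum]
  simp only [map_smul, smul_eq_mul]

end Crest.Agent.R106
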