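import Crest.Agent.R106.CalcD

/-!
# Row 106: bounds for iterated derivatives
-/

set_option autoImplicit false
set_option linter.unusedVariables false
set_option linter.unusedSectionVars false

open MeasureTheory Metric Set Filter Topology
open scoped ContDiff ENNReal RealInnerProductSpace
open Crest.AnalysisR.VecCalc3 Crest.AnalysisR.PDE.RVM

noncomputable section

namespace Crest.Agent.R106

section
variable {X F : Type*} [NormedAddCommGroup X] [NormedSpace ℝ X] [NormedAddCommGroup F]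
  [NormedSpace ℝ F]

theorem Bx.mono {k : ℕ} {u : ℝ × X → F} {s C C' : ℝ} (h : Bx k u s C) (hC : C ≤ C') :
    Bx k u s C' := fun y => (h y).trans hC

theorem bx_zero {u : ℝ × X → F} {s C : ℝ} : Bx 0 u s C ↔ ∀ y, ‖u (s, y)‖ ≤ C := by
  simp [Bx]

theorem Bx.nonneg {k : ℕ} {u : ℝ × X → F} {s C : ℝ} (h : Bx k u s C) : 0 ≤ C :=
  (norm_nonneg _).trans (h 0)

theorem CalcC_cd {u : ℝ × X → F} (hu : ContDiff ℝ ∞ u) (s : ℝ) :
    ContDiff ℝ ∞ fun y => u (s, y) := hu.comp (by fun_prop)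

theorem CalcC_slice {u : ℝ × X → F} (hu : ContDiff ℝ ∞ u) (s : ℝ) (w : X) :
    (fun y => fderiv ℝ u (s, y) (0, w)) = fun y => fderiv ℝ (fun y => u (s, y)) y w := by
  funext y
  have h1 : HasFDerivAt (fun y : X => ((s, y) : ℝ × X))
      ((0 : X →L[ℝ] ℝ).prod (ContinuousLinearMap.id ℝ X)) y :=
    (hasFDerivAt_const _ _).prodMk (hasFDerivAt_id y)
  exact (congrArg (fun L : X →L[ℝ] F => L w)
    ((hu.differentiable (by simp) (s, y)).hasFDerivAt.comp y h1).fderiv).symm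

theorem CalcC_comp {Y : Type*} [NormedAddCommGroup Y] [NormedSpace ℝ Y] (L : Y →L[ℝ] X)
    (hL : ‖L‖ ≤ 1) {g : X → F} (hg : ContDiff ℝ ∞ g) (k : ℕ) (y : Y) :
    ‖iteratedFDeriv ℝ k (fun y => g (L y)) y‖ ≤ ‖iteratedFDeriv ℝ k g (L y)‖ := by
  rw [show (fun y => g (L y)) = g ∘ L from rfl,
    L.iteratedFDeriv_comp_right hg y (by exact_mod_cast le_top)]
  exact (ContinuousMultilinearMap.norm_compContinuousLinearMap_le _ _).trans
    (mul_le_of_le_one_right (norm_nonneg _)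
      (Finset.prod_le_one (fun _ _ => norm_nonneg _) fun _ _ => hL))

theorem Bx.succ_of_dir {k : ℕ} {u : ℝ × X → F} (hu : ContDiff ℝ ∞ u) {s C : ℝ} (hC : 0 ≤ C)
    (h : ∀ w : X, ‖w‖ ≤ 1 → Bx k (fun p => fderiv ℝ u p (0, w)) s C) : Bx (k + 1) u s C := by
  intro y
  have hg : ContDiff ℝ ∞ (fderiv ℝ fun y => u (s, y)) :=
    (CalcC_cd hu s).fderiv_right (m := ∞) (by simp)
  rw [← norm_iteratedFDeriv_fderiv]
  refine ContinuousMultilinearMap.opNorm_le_bound hC fun m => ?_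
  refine ContinuousLinearMap.opNorm_le_of_unit_norm (by positivity) fun w hw => ?_
  rw [← iteratedFDeriv_clm_apply_const_apply hg (by exact_mod_cast le_top), ← CalcC_slice hu]
  exact ContinuousMultilinearMap.le_of_opNorm_le (h w hw.le y) m

theorem Bx.dir {k : ℕ} {u : ℝ × X → F} (hu : ContDiff ℝ ∞ u) {s C : ℝ} (h : Bx (k + 1) u s C)
    {w : X} (hw : ‖w‖ ≤ 1) : Bx k (fun p => fderiv ℝ u p (0, w)) s C := by
  intro y
  have hg : ContDiff ℝ ∞ (fderiv ℝ fun y => u (s, y)) :=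
    (CalcC_cd hu s).fderiv_right (m := ∞) (by simp)
  have h1 := norm_iteratedFDeriv_clm_apply_const (c := w) (x := y) (n := k) hg.contDiffAt
    (by exact_mod_cast le_top)
  rw [← CalcC_slice hu, norm_iteratedFDeriv_fderiv] at h1
  exact h1.trans ((mul_le_of_le_one_left (norm_nonneg _) hw).trans (h y))

theorem bx_one {u : ℝ × X → F} (hu : ContDiff ℝ ∞ u) {s C : ℝ} (h : Bx 1 u s C) (y w : X) :
    ‖fderiv ℝ u (s, y) (0, w)‖ ≤ C * ‖w‖ := by
  have h1 := h y
  rw [norm_iteratedFDeriv_one] at h1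
  rw [congrFun (CalcC_slice hu s w) y]
  exact ContinuousLinearMap.le_of_opNorm_le _ h1 w

theorem Bx.sub {k : ℕ} {u u' : ℝ × X → F} (hu : ContDiff ℝ ∞ u) (hu' : ContDiff ℝ ∞ u')
    {s C C' : ℝ} (h : Bx k u s C) (h' : Bx k u' s C') : Bx k (u - u') s (C + C') := by
  intro y
  have h1 := iteratedFDeriv_sub_apply (i := k) (x := y)
    ((CalcC_cd hu s).of_le (by exact_mod_cast le_top)).contDiffAt
    ((CalcC_cd hu' s).of_le (by exact_mod_cast le_top)).contDiffAt
  exact (congrArg norm h1).trans_le ((norm_sub_le _ _).trans (add_le_add (h y) (h' y)))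

end

theorem CalcC_sum {k : ℕ} {a b : ℕ → ℝ} {M : ℝ} (h : ∀ i ≤ k, a i * b i ≤ M) :
    ∑ i ∈ Finset.range (k + 1), (k.choose i : ℝ) * a i * b i ≤ 2 ^ k * M := by
  have h1 : (2 : ℝ) ^ k = ∑ i ∈ Finset.range (k + 1), (k.choose i : ℝ) := by
    exact_mod_cast (Nat.sum_range_choose k).symm
  rw [h1, Finset.sum_mul]
  refine Finset.sum_le_sum fun i hi => ?_
  rw [mul_assoc]
  exact mul_le_mul_of_nonneg_left (h i (Nat.lt_succ_iff.1 (Finset.mem_range.1 hi)))
    (Nat.cast_nonneg _)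

theorem CalcC_unif {P : ℕ → ℝ → Prop} (h : ∀ j, ∃ C, 0 ≤ C ∧ P j C)
    (hm : ∀ j C C', C ≤ C' → P j C → P j C') (k : ℕ) : ∃ C, 0 ≤ C ∧ ∀ j ≤ k, P j C := by
  choose c hc0 hc using h
  exact ⟨∑ j ∈ Finset.range (k + 1), c j, Finset.sum_nonneg fun j _ => hc0 j, fun j hj =>
    hm j _ _ (Finset.single_le_sum (f := c) (fun j _ => hc0 j)
      (Finset.mem_range.2 (Nat.lt_succ_iff.2 hj))) (hc j)⟩

/-- phase-space derivatives of the force field `(x,v) ↦ E'(s,x) + v̂ × B'(s,x)` -/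
theorem bx_lor (k : ℕ) : ∃ C : ℝ, 0 ≤ C ∧ ∀ (E' B' : ST → R3), ContDiff ℝ ∞ E' →
    ContDiff ℝ ∞ B' → ∀ s A b : ℝ, 0 ≤ A → (∀ j < k, Bx j B' s A) → Bx k E' s b → Bx k B' s b →
    Bx k (fun p : PS => lor (E' (p.1, p.2.1)) (B' (p.1, p.2.1)) p.2.2) s (C * (A + b)) := by
  obtain ⟨L, hL⟩ := exists_crossL
  obtain ⟨r, hr0, hr⟩ := CalcC_unif (P := fun j C => ∀ v, ‖iteratedFDeriv ℝ j relVel v‖ ≤ C)
    (fun j => (relVel_bdd j).imp fun C hC => ⟨(norm_nonneg _).trans (hC 0), hC⟩)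
    (fun j C C' h1 h2 v => (h2 v).trans h1) k
  refine ⟨1 + ‖L‖ * (2 ^ k * r), by positivity, fun E' B' hE hB s A b hA h1 h2 h3 y => ?_⟩
  have hb := h2.nonneg
  have c1 : ContDiff ℝ ∞ fun y : R3 × R3 => E' (s, y.1) := hE.comp (by fun_prop)
  have c2 : ContDiff ℝ ∞ fun y : R3 × R3 => B' (s, y.1) := hB.comp (by fun_prop)
  have c3 : ContDiff ℝ ∞ fun y : R3 × R3 => relVel y.2 := contDiff_relVel.comp (by fun_prop)
  have c4 : ContDiff ℝ ∞ fun y : R3 × R3 => L (relVel y.2) (B' (s, y.1)) :=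
    (L.contDiff.comp c3).clm_apply c2
  have e : (fun y : R3 × R3 => lor (E' (s, y.1)) (B' (s, y.1)) y.2) =
      (fun y : R3 × R3 => E' (s, y.1)) + fun y : R3 × R3 => L (relVel y.2) (B' (s, y.1)) := by
    funext y
    simp only [lor, hL, Pi.add_apply]
  have h4 := (CalcC_comp (ContinuousLinearMap.fst ℝ R3 R3) (ContinuousLinearMap.norm_fst_le ..)
    (CalcC_cd hE s) k y).trans (h2 _)
  have h5 := (L.norm_iteratedFDeriv_le_of_bilinear c3 c2 y (n := k)
    (by exact_mod_cast le_top)).trans (mul_le_mul_of_nonneg_left (CalcC_sum (M := r * (A + b))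
      fun i hi => mul_le_mul ((CalcC_comp (ContinuousLinearMap.snd ℝ R3 R3)
        (ContinuousLinearMap.norm_snd_le ..) contDiff_relVel i y).trans (hr i hi _))
        ((CalcC_comp (ContinuousLinearMap.fst ℝ R3 R3) (ContinuousLinearMap.norm_fst_le ..)
          (CalcC_cd hB s) (k - i) y).trans (by
            rcases (Nat.sub_le k i).eq_or_lt with h | h
            · rw [h]; exact (h3 _).trans (by linarith)
            · exact (h1 _ h _).trans (by linarith))) (norm_nonneg _) hr0) (norm_nonneg L))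
  change ‖iteratedFDeriv ℝ k (fun y : R3 × R3 => lor (E' (s, y.1)) (B' (s, y.1)) y.2) y‖ ≤ _
  rw [e, iteratedFDeriv_add_apply (c1.of_le (by exact_mod_cast le_top)).contDiffAt
    (c4.of_le (by exact_mod_cast le_top)).contDiffAt]
  refine (norm_add_le _ _).trans ((add_le_add h4 h5).trans ?_)
  nlinarith

/-- phase-space derivatives of the source `f K` (top order enters linearly) -/
theorem bx_frc (k : ℕ) (hk : 1 ≤ k) : ∃ C : ℝ, 0 ≤ C ∧ ∀ (E' B' : ST → R3) (f : PS → ℝ),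
    ContDiff ℝ ∞ E' → ContDiff ℝ ∞ B' → ContDiff ℝ ∞ f → ∀ s A a b : ℝ,
    (∀ j < k, Bx j E' s A ∧ Bx j B' s A ∧ Bx j f s A) → Bx k f s a → Bx k E' s b → Bx k B' s b →
    Bx k (frc E' B' f) s (C * A * (A + a + b)) := by
  obtain ⟨C, hC0, hC⟩ := CalcC_unif (P := fun k C => ∀ (E' B' : ST → R3), ContDiff ℝ ∞ E' →
      ContDiff ℝ ∞ B' → ∀ s A b : ℝ, 0 ≤ A → (∀ j < k, Bx j B' s A) → Bx k E' s b → Bx k B' s b →
      Bx k (fun p : PS => lor (E' (p.1, p.2.1)) (B' (p.1, p.2.1)) p.2.2) s (C * (A + b))) bx_lor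
    (fun j C C' h1 h2 E' B' hE hB s A b hA h3 h4 h5 => (h2 E' B' hE hB s A b hA h3 h4 h5).mono
      (mul_le_mul_of_nonneg_right h1 (add_nonneg hA h4.nonneg))) k
  refine ⟨2 ^ k * (2 * C), by positivity, fun E' B' f hE hB hf s A a b h1 h2 h3 h4 y => ?_⟩
  have hA := (h1 0 hk).1.nonneg
  have ha := h2.nonneg
  have hb := h3.nonneg
  have c1 : ContDiff ℝ ∞ fun p : PS => lor (E' (p.1, p.2.1)) (B' (p.1, p.2.1)) p.2.2 :=
    contDiff_lor.comp (f := fun p : PS => (E' (p.1, p.2.1), B' (p.1, p.2.1), p.2.2))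
      ((hE.comp (by fun_prop)).prodMk ((hB.comp (by fun_prop)).prodMk (by fun_prop)))
  have hlow : ∀ j < k, Bx j (fun p : PS => lor (E' (p.1, p.2.1)) (B' (p.1, p.2.1)) p.2.2) s
      (C * (A + A)) := fun j hj => hC j hj.le E' B' hE hB s A A hA
    (fun i hi => (h1 i (hi.trans hj)).2.1) (h1 j hj).1 (h1 j hj).2.1
  have htop := hC k le_rfl E' B' hE hB s A b hA (fun i hi => (h1 i hi).2.1) h3 h4
  refine (norm_iteratedFDeriv_smul_le (CalcC_cd hf s) (CalcC_cd c1 s) y (n := k)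
    (by exact_mod_cast le_top)).trans ((CalcC_sum (M := 2 * C * A * (A + a + b))
      fun i hi => ?_).trans (le_of_eq (by ring)))
  have hCA : 0 ≤ C * A := mul_nonneg hC0 hA
  rcases hi.eq_or_lt with h | h
  · refine (mul_le_mul (h ▸ h2 y) (hlow (k - i) (by omega) y) (norm_nonneg _) ha).trans ?_
    nlinarith [mul_nonneg hCA hA, mul_nonneg hCA hb]
  rcases Nat.eq_zero_or_pos i with h0 | h0
  · subst h0
    refine (mul_le_mul ((h1 0 h).2.2 y) (htop y) (norm_nonneg _) hA).trans ?_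
    nlinarith [mul_nonneg hCA hA, mul_nonneg hCA hb, mul_nonneg hCA ha]
  · refine (mul_le_mul ((h1 i h).2.2 y) (hlow (k - i) (by omega) y) (norm_nonneg _) hA).trans ?_
    nlinarith [mul_nonneg hCA hb, mul_nonneg hCA ha]

theorem CalcC_mom {F : Type*} [NormedAddCommGroup F] [NormedSpace ℝ F] [CompleteSpace F]
    {m : R3 → F} (hm : ContDiff ℝ ∞ m) (hm1 : ∀ v, ‖m v‖ ≤ 1) (R : ℝ) (k : ℕ) :
    ∀ (h : PS → ℝ), ContDiff ℝ ∞ h → VSupp h → ∀ s a : ℝ, VS h s R → Bx k h s a →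
      Bx k (fun p : ST => ∫ v, h (p.1, p.2, v) • m v) s
        (volume.real (closedBall (0 : R3) R) * a) := by
  induction k with
  | zero =>
    intro h hs hv s a hR ha
    rw [bx_zero] at ha ⊢
    intro y
    rw [← setIntegral_eq_integral_of_forall_compl_eq_zero (s := closedBall (0 : R3) R)
      fun v hv => by rw [hR y v (not_le.1 fun h1 => hv (mem_closedBall_zero_iff.2 h1)), zero_smul],
      mul_comm]
    refine norm_setIntegral_le_of_norm_le_const measure_closedBall_lt_top fun v _ => ?_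
    rw [norm_smul]
    exact (mul_le_of_le_one_right (norm_nonneg _) (hm1 v)).trans (ha (y, v))
  | succ k ih =>
    intro h hs hv s a hR ha
    have hs' : ContDiff ℝ ∞ fun z : PS => h z • m z.2.2 := hs.smul (hm.comp (by fun_prop))
    have hv' : VSupp fun z : PS => h z • m z.2.2 := fun T₁ =>
      (hv T₁).imp fun R hR s y v h1 h2 => by simp only [hR s y v h1 h2, zero_smul]
    have hd := hs.differentiable (by simp)
    refine Bx.succ_of_dir (contDiff_moment hs' hv') (mul_nonneg measureReal_nonneg ha.nonneg)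
      fun w hw => ?_
    have e : (fun p : ST => fderiv ℝ (fun p : ST => ∫ v, h (p.1, p.2, v) • m v) p (0, w)) =
        fun p : ST => ∫ v, fderiv ℝ h (p.1, p.2, v) (0, w, 0) • m v := by
      funext p
      refine (fderiv_moment hs' hv' p (0, w)).trans (integral_congr_ae (.of_forall fun v => ?_))
      have h1 : HasFDerivAt (fun z : PS => m z.2.2) ((fderiv ℝ m v).comp
          ((ContinuousLinearMap.snd ℝ R3 R3).comp (ContinuousLinearMap.snd ℝ ℝ (R3 × R3))))
          (p.1, p.2, v) := (hm.differentiable (by simp) v).hasFDerivAt.comp (p.1, p.2, v)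
        ((ContinuousLinearMap.snd ℝ R3 R3).comp
          (ContinuousLinearMap.snd ℝ ℝ (R3 × R3))).hasFDerivAt
      have h2 := ((hd (p.1, p.2, v)).hasFDerivAt.smul h1).fderiv
      refine (congrArg (fun L : PS →L[ℝ] F => L (0, w, 0)) h2).trans ?_
      simp
    rw [e]
    refine ih (fun p => fderiv ℝ h p (0, w, 0))
      ((hs.fderiv_right (m := ∞) (by simp)).clm_apply contDiff_const) (hv.fderiv _) s a
      (fun y v hv => ?_) (ha.dir hs (w := (w, 0)) (by simpa using hw))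
    have h1 : HasFDerivAt (fun y : R3 => ((s, y, v) : PS))
        ((0 : R3 →L[ℝ] ℝ).prod ((ContinuousLinearMap.id ℝ R3).prod (0 : R3 →L[ℝ] R3))) y :=
      (hasFDerivAt_const _ _).prodMk ((hasFDerivAt_id y).prodMk (hasFDerivAt_const _ _))
    have h2 := ((hd (s, y, v)).hasFDerivAt.comp y h1).fderiv
    rw [show (h ∘ fun y : R3 => ((s, y, v) : PS)) = fun _ => 0 from funext fun y => hR y v hv,
      fderiv_fun_const] at h2
    simpa using (congrArg (fun L : R3 →L[ℝ] ℝ => L w) h2).symm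

/-- spatial derivatives of the densities -/
theorem bx_cur (k : ℕ) (R : ℝ) : ∃ C : ℝ, 0 ≤ C ∧ ∀ (h : PS → ℝ), ContDiff ℝ ∞ h → VSupp h →
    ∀ s a : ℝ, VS h s R → Bx k h s a → Bx k (rho h) s (C * a) ∧ Bx k (cur h) s (C * a) := by
  refine ⟨volume.real (closedBall (0 : R3) R), measureReal_nonneg, fun h hs hv s a hR ha => ⟨?_,
    CalcC_mom contDiff_relVel (fun v => (norm_relVel_lt_one v).le) R k h hs hv s a hR ha⟩⟩
  have := CalcC_mom (m := fun _ => (1 : ℝ)) contDiff_const (fun _ => norm_one.le) R k h hs hv s a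
    hR ha
  simp only [smul_eq_mul, mul_one] at this
  exact this

end Crest.Agent.R106
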