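import Crest.Agent.R106.CalcB

/-!
# Row 106: closure properties of `Lin`, `Step`, `Sol`
-/

set_option autoImplicit false
set_option linter.unusedVariables false
set_option linter.unusedSectionVars false

open MeasureTheory Metric Set Filter Topology
open scoped ContDiff ENNReal RealInnerProductSpace
open Crest.AnalysisR.VecCalc3 Crest.AnalysisR.PDE.RVM

noncomputable section

namespace Crest.Agent.R106

section aux
variable {Y F G : Type*} [NormedAddCommGroup Y] [NormedSpace ℝ Y] [NormedAddCommGroup F]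
  [NormedSpace ℝ F] [NormedAddCommGroup G] [NormedSpace ℝ G]

theorem CalcD_line {g g' : Y → F} {p a : Y} (hg : DifferentiableAt ℝ g p)
    (hg' : DifferentiableAt ℝ g' p) (h : ∀ t : ℝ, g (p + t • a) = g' (p + t • a)) :
    fderiv ℝ g p a = fderiv ℝ g' p a := by
  rw [← hg.lineDeriv_eq_fderiv, ← hg'.lineDeriv_eq_fderiv, lineDeriv, lineDeriv, funext h]

theorem CalcD_cd {u : Y → F} (hu : ContDiff ℝ ∞ u) : ContDiff ℝ ∞ (fderiv ℝ u) :=
  hu.fderiv_right (m := ∞) (by simp)

theorem CalcD_diff {u : Y → F} (hu : ContDiff ℝ ∞ u) (L : (Y →L[ℝ] F) →L[ℝ] G) (p : Y) :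
    DifferentiableAt ℝ (fun q => L (fderiv ℝ u q)) p :=
  (L.contDiff.comp (CalcD_cd hu)).differentiable (by simp) p

theorem CalcD_comm {u : Y → F} (hu : ContDiff ℝ ∞ u) (L : (Y →L[ℝ] F) →L[ℝ] G) (p a : Y) :
    fderiv ℝ (fun q => L (fderiv ℝ u q)) p a = L (fderiv ℝ (fun q => fderiv ℝ u q a) p) := by
  have hd := ((CalcD_cd hu).differentiable (by simp) p).hasFDerivAt
  have h1 := (L.hasFDerivAt.comp p hd).fderiv
  have h2 := ((ContinuousLinearMap.apply ℝ F a).hasFDerivAt.comp p hd).fderiv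
  refine (congrArg (fun M : Y →L[ℝ] G => M a) h1).trans (congrArg L (Eq.trans ?_ h2.symm))
  ext b
  exact (hu.contDiffAt.isSymmSndFDerivAt (by
    rw [minSmoothness_of_isRCLikeNormedField]; exact WithTop.coe_le_coe.2 le_top)).eq a b

end aux

theorem CalcD_pd {F : R3 → R3} {x : R3} (h : DifferentiableAt ℝ F x) (i j : Fin 3) :
    pderiv (fun y => F y i) j x = fderiv ℝ F x (EuclideanSpace.single j 1) i :=
  congrArg (fun M : R3 →L[ℝ] ℝ => M (EuclideanSpace.single j 1))
    ((EuclideanSpace.proj i : R3 →L[ℝ] ℝ).hasFDerivAt.comp x h.hasFDerivAt).fderiv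

/-- divergence and curl of slices as linear functions of the derivative -/
theorem CalcD_ops : ∃ (Dv : (ST →L[ℝ] R3) →L[ℝ] ℝ) (Cu : (ST →L[ℝ] R3) →L[ℝ] R3)
    (DV : (PS →L[ℝ] R3) →L[ℝ] ℝ),
    (∀ E : ST → R3, ContDiff ℝ ∞ E → ∀ p : ST,
      div3 (fun y => E (p.1, y)) p.2 = Dv (fderiv ℝ E p) ∧
      curl3 (fun y => E (p.1, y)) p.2 = Cu (fderiv ℝ E p)) ∧
    ∀ H : PS → R3, ContDiff ℝ ∞ H → ∀ p, divV H p = DV (fderiv ℝ H p) := by
  let c : Fin 3 → Fin 3 → (ST →L[ℝ] R3) →L[ℝ] ℝ := fun i j =>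
    (EuclideanSpace.proj i : R3 →L[ℝ] ℝ).comp
      (ContinuousLinearMap.apply ℝ R3 ((0, EuclideanSpace.single j 1) : ST))
  refine ⟨∑ i, c i i, (c 2 1 - c 1 2).smulRight (EuclideanSpace.single 0 1) +
    (c 0 2 - c 2 0).smulRight (EuclideanSpace.single 1 1) +
    (c 1 0 - c 0 1).smulRight (EuclideanSpace.single 2 1),
    ∑ i, (EuclideanSpace.proj i : R3 →L[ℝ] ℝ).comp
      (ContinuousLinearMap.apply ℝ R3 ((0, 0, EuclideanSpace.single i 1) : PS)),
    fun E hE p => ?_, fun H hH p => ?_⟩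
  · have hd := hE.differentiable (by simp)
    have h1 : ∀ i j, pderiv (fun y => E (p.1, y) i) j p.2 = c i j (fderiv ℝ E p) := fun i j => by
      rw [CalcD_pd (F := fun y => E (p.1, y)) ((hd _).comp _ (by fun_prop)), CalcB_sliceX hd]
      rfl
    refine ⟨by simp only [div3, h1, _root_.sum_apply], ?_⟩
    ext i
    fin_cases i <;> simp [curl3, h1]
  · have hd := hH.differentiable (by simp)
    simp only [divV, div3, _root_.sum_apply]
    refine Finset.sum_congr rfl fun i _ => ?_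
    rw [CalcD_pd (F := fun w => H (p.1, p.2.1, w)) ((hd _).comp _ (by fun_prop))]
    exact congrArg (fun u : R3 => u i) (CalcB_sliceV hd (p.1, p.2.1) p.2.2 _)

theorem CalcD_vs {h : PS → ℝ} (hv : VSupp h) : VSupp fun z : PS => h z • relVel z.2.2 := fun T₁ =>
  (hv T₁).imp fun R hR s y v h1 h2 => by simp only [hR s y v h1 h2, zero_smul]

theorem CalcD_cur {h : PS → ℝ} (hs : ContDiff ℝ ∞ h) (hv : VSupp h) (p : ST) (w : R3) :
    fderiv ℝ (cur h) p (0, w) = cur (fun q => fderiv ℝ h q (0, w, 0)) p := by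
  have hs' : ContDiff ℝ ∞ fun z : PS => h z • relVel z.2.2 :=
    hs.smul (contDiff_relVel.comp (by fun_prop))
  refine (fderiv_moment hs' (CalcD_vs hv) p (0, w)).trans
    (integral_congr_ae (.of_forall fun v => ?_))
  have h1 : HasFDerivAt (fun z : PS => relVel z.2.2) ((fderiv ℝ relVel v).comp
      ((ContinuousLinearMap.snd ℝ R3 R3).comp (ContinuousLinearMap.snd ℝ ℝ (R3 × R3))))
      (p.1, p.2, v) :=
    HasFDerivAt.comp (g := relVel) (f := fun z : PS => z.2.2) (p.1, p.2, v)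
      (contDiff_relVel.differentiable (by simp) v).hasFDerivAt
      ((ContinuousLinearMap.snd ℝ R3 R3).comp (ContinuousLinearMap.snd ℝ ℝ (R3 × R3))).hasFDerivAt
  have h2 := ((hs.differentiable (by simp) (p.1, p.2, v)).hasFDerivAt.smul h1).fderiv
  refine (congrArg (fun L : PS →L[ℝ] R3 => L (0, w, 0)) h2).trans ?_
  simp

theorem CalcD_vsub {F : Type*} [AddGroup F] {h h' : PS → F} (hv : VSupp h) (hv' : VSupp h') :
    VSupp (h - h') := fun T₁ => by
  obtain ⟨R, hR⟩ := hv T₁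
  obtain ⟨R', hR'⟩ := hv' T₁
  exact ⟨max R R', fun s y v h1 h2 => by
    rw [Pi.sub_apply, hR s y v h1 ((le_max_left _ _).trans_lt h2),
      hR' s y v h1 ((le_max_right _ _).trans_lt h2), sub_zero]⟩

/-- `Lin` is closed under spatial directional derivatives -/
theorem Lin.dir {T : ℝ} {h : PS → ℝ} {H : PS → R3} {E B : ST → R3} (hL : Lin T h H E B)
    (w : R3) : Lin T (fun p => fderiv ℝ h p (0, w, 0)) (fun p => fderiv ℝ H p (0, w, 0))
      (fun p => fderiv ℝ E p (0, w)) (fun p => fderiv ℝ B p (0, w)) := by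
  obtain ⟨Dv, Cu, DV, hop, hV⟩ := CalcD_ops
  have sH := (CalcD_cd hL.sH).clm_apply (contDiff_const (c := ((0, w, 0) : PS)))
  have sE := (CalcD_cd hL.sE).clm_apply (contDiff_const (c := ((0, w) : ST)))
  have sB := (CalcD_cd hL.sB).clm_apply (contDiff_const (c := ((0, w) : ST)))
  refine ⟨(CalcD_cd hL.sh).clm_apply contDiff_const, sH, sE, sB, hL.vh.fderiv _, hL.vH.fderiv _,
    fun p hp => ?_, fun p hp => ?_⟩
  · have h1 := CalcD_line (a := ((0, w, 0) : PS))
      (CalcD_diff hL.sh (ContinuousLinearMap.apply ℝ ℝ ((1, relVel p.2.2, 0) : PS)) p)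
      (CalcD_diff hL.sH (-DV) p) fun t => by
        have := hL.tr (p + t • ((0, w, 0) : PS)) (by simpa using hp)
        rw [hV H hL.sH] at this
        simpa using this
    rw [CalcD_comm hL.sh, CalcD_comm hL.sH] at h1
    rw [hV _ sH]
    exact h1
  · have hm : ∀ t : ℝ, MaxAt E B (rho h) (cur h) (p + t • ((0, w) : ST)) := fun t =>
      hL.mx _ (by simpa using hp)
    have dj := (contDiff_cur hL.sh hL.vh).differentiable (by simp) p
    have dρ := (contDiff_rho hL.sh hL.vh).differentiable (by simp) p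
    refine ⟨?_, ?_, ?_, ?_⟩
    · have h1 := CalcD_line (a := ((0, w) : ST))
        (CalcD_diff hL.sE (ContinuousLinearMap.apply ℝ R3 ((1, 0) : ST)) p)
        ((CalcD_diff hL.sB Cu p).fun_sub dj) fun t => by
          rw [← (hop B hL.sB _).2]; exact (hm t).amp
      rw [fderiv_fun_sub (CalcD_diff hL.sB Cu p) dj, _root_.sub_apply,
        CalcD_comm hL.sE, CalcD_comm hL.sB, CalcD_cur hL.sh hL.vh] at h1
      rw [(hop _ sB p).2]
      exact h1
    · have h1 := CalcD_line (a := ((0, w) : ST))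
        (CalcD_diff hL.sB (ContinuousLinearMap.apply ℝ R3 ((1, 0) : ST)) p)
        (CalcD_diff hL.sE (-Cu) p) fun t => by
          rw [_root_.neg_apply, ← (hop E hL.sE _).2]; exact (hm t).far
      rw [CalcD_comm hL.sE, CalcD_comm hL.sB] at h1
      rw [(hop _ sE p).2]
      exact h1
    · have h1 := CalcD_line (a := ((0, w) : ST)) (CalcD_diff hL.sE Dv p) dρ fun t => by
        rw [← (hop E hL.sE _).1]; exact (hm t).gE
      rw [CalcD_comm hL.sE] at h1
      rw [(hop _ sE p).1, h1]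
      exact fderiv_moment hL.sh hL.vh p (0, w)
    · have h1 := CalcD_line (a := ((0, w) : ST)) (CalcD_diff hL.sB Dv p)
        (differentiableAt_const (0 : ℝ)) fun t => by
          rw [← (hop B hL.sB _).1]; exact (hm t).gB
      rw [CalcD_comm hL.sB] at h1
      rw [(hop _ sB p).1, h1]
      simp

theorem Lin.sub {T : ℝ} {h h' : PS → ℝ} {H H' : PS → R3} {E B E' B' : ST → R3}
    (hL : Lin T h H E B) (hL' : Lin T h' H' E' B') :
    Lin T (h - h') (H - H') (E - E') (B - B') := by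
  obtain ⟨Dv, Cu, DV, hop, hV⟩ := CalcD_ops
  have sH : ContDiff ℝ ∞ (H - H') := hL.sH.sub hL'.sH
  have sE : ContDiff ℝ ∞ (E - E') := hL.sE.sub hL'.sE
  have sB : ContDiff ℝ ∞ (B - B') := hL.sB.sub hL'.sB
  refine ⟨hL.sh.sub hL'.sh, sH, sE, sB, CalcD_vsub hL.vh hL'.vh, CalcD_vsub hL.vH hL'.vH,
    fun p hp => ?_, fun p hp => ?_⟩
  · rw [hV _ sH, fderiv_sub (hL.sh.differentiable (by simp) p) (hL'.sh.differentiable (by simp) p),
      fderiv_sub (hL.sH.differentiable (by simp) p) (hL'.sH.differentiable (by simp) p),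
      _root_.sub_apply, hL.tr p hp, hL'.tr p hp, hV _ hL.sH, hV _ hL'.sH, map_sub]
    ring
  · obtain ⟨a1, a2, a3, a4⟩ := hL.mx p hp
    obtain ⟨b1, b2, b3, b4⟩ := hL'.mx p hp
    have eE := fderiv_sub (hL.sE.differentiable (by simp) p) (hL'.sE.differentiable (by simp) p)
    have eB := fderiv_sub (hL.sB.differentiable (by simp) p) (hL'.sB.differentiable (by simp) p)
    have eρ : rho (h - h') p = rho h p - rho h' p :=
      integral_sub (integrable_slice hL.sh.continuous hL.vh p)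
        (integrable_slice hL'.sh.continuous hL'.vh p)
    have cv : Continuous fun z : PS => relVel z.2.2 := contDiff_relVel.continuous.comp (by fun_prop)
    have ej : cur (h - h') p = cur h p - cur h' p := by
      simp only [cur, Pi.sub_apply, sub_smul]
      exact integral_sub (integrable_slice (hL.sh.continuous.smul cv) (CalcD_vs hL.vh) p)
        (integrable_slice (hL'.sh.continuous.smul cv) (CalcD_vs hL'.vh) p)
    rw [(hop _ hL.sB p).2] at a1
    rw [(hop _ hL.sE p).2] at a2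
    rw [(hop _ hL.sE p).1] at a3
    rw [(hop _ hL.sB p).1] at a4
    rw [(hop _ hL'.sB p).2] at b1
    rw [(hop _ hL'.sE p).2] at b2
    rw [(hop _ hL'.sE p).1] at b3
    rw [(hop _ hL'.sB p).1] at b4
    refine ⟨?_, ?_, ?_, ?_⟩
    · rw [(hop _ sB p).2, eE, eB, ej, _root_.sub_apply, map_sub, a1, b1]; abel
    · rw [(hop _ sE p).2, eE, eB, _root_.sub_apply, map_sub, a2, b2]; abel
    · rw [(hop _ sE p).1, eE, eρ, map_sub, a3, b3]
    · rw [(hop _ sB p).1, eB, map_sub, a4, b4, sub_zero]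

theorem Lin.mono {T T' : ℝ} {h : PS → ℝ} {H : PS → R3} {E B : ST → R3} (hL : Lin T h H E B)
    (hT : T' ≤ T) : Lin T' h H E B :=
  { hL with tr := fun p hp => hL.tr p ⟨hp.1, hp.2.trans hT⟩
            mx := fun p hp => hL.mx p ⟨hp.1, hp.2.trans hT⟩ }

theorem StepOn.mono {I J : Set ℝ} {E' B' : ST → R3} {f : PS → ℝ} {E B : ST → R3}
    (h : StepOn I E' B' f E B) (hJ : J ⊆ I) : StepOn J E' B' f E B :=
  { h with vl := fun p hp => h.vl p (hJ hp)
           mx := fun p hp => h.mx p (hJ hp)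
           bd' := fun T₁ k => (h.bd' T₁ k).imp fun _ hC s hs => hC s (hJ hs) }

theorem Sol.mono {T T' : ℝ} {f : PS → ℝ} {E B : ST → R3} (h : Sol T f E B) (hT : T' ≤ T) :
    Sol T' f E B :=
  ⟨h.step.mono (Icc_subset_Icc_right hT),
    h.xs.imp fun _ hR s hs => hR s (Icc_subset_Icc_right hT hs)⟩

theorem CalcD_relVel_neg (v : R3) : relVel (-v) = -relVel v := by
  simp [relVel]

theorem CalcD_lor_neg (E B v : R3) : lor E (-B) v = lor E B (-v) := by
  obtain ⟨L, hL⟩ := exists_crossL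
  simp only [lor, ← hL, CalcD_relVel_neg, map_neg, _root_.neg_apply]

theorem CalcD_pd_neg (F : R3 → R3) (i j : Fin 3) (x : R3) :
    pderiv (fun y => (-F y) i) j x = -pderiv (fun y => F y i) j x := by
  simp only [pderiv, PiLp.neg_apply, fderiv_fun_neg, _root_.neg_apply]

theorem CalcD_curl_neg (F : R3 → R3) (x : R3) : curl3 (fun y => -F y) x = -curl3 F x := by
  simp only [curl3, CalcD_pd_neg]
  ext i
  fin_cases i <;> simp <;> ring

theorem CalcD_refl {E : ST → R3} (hE : ContDiff ℝ ∞ E) (p : ST) :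
    fderiv ℝ (reflE E) p (1, 0) = -fderiv ℝ E (-p.1, p.2) (1, 0) := by
  have h1 : HasFDerivAt (fun p : ST => ((-p.1, p.2) : ST))
      ((-ContinuousLinearMap.fst ℝ ℝ R3).prod (ContinuousLinearMap.snd ℝ ℝ R3)) p :=
    (hasFDerivAt_fst.neg).prodMk hasFDerivAt_snd
  have h2 := ((hE.differentiable (by simp) (-p.1, p.2)).hasFDerivAt.comp p h1).fderiv
  refine (congrArg (fun L : ST →L[ℝ] R3 => L (1, 0)) h2).trans ?_
  rw [← map_neg]
  simp

/-- time reflection -/
theorem StepOn.refl {E' B' : ST → R3} {f : PS → ℝ} {E B : ST → R3}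
    (h : StepOn univ E' B' f E B) :
    StepOn univ (reflE E') (reflB B') (reflF f) (reflE E) (reflB B) := by
  have cM : ContDiff ℝ ∞ fun p : ST => ((-p.1, p.2) : ST) := by fun_prop
  refine ⟨h.sE'.comp cM, (h.sB'.comp cM).neg, h.sf.comp (by fun_prop), h.sE.comp cM,
    (h.sB.comp cM).neg, fun T₁ => (h.vf T₁).imp fun R hR s y v h1 h2 =>
      hR (-s) y (-v) (by simpa using h1) (by simpa using h2), fun p _ => ?_, fun p _ => ?_,
    fun T₁ k => (h.bd' T₁ k).imp fun C hC s _ hs => ?_⟩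
  · have h1 : HasFDerivAt (fun p : PS => ((-p.1, p.2.1, -p.2.2) : PS))
        ((-ContinuousLinearMap.fst ℝ ℝ (R3 × R3)).prod
          (((ContinuousLinearMap.fst ℝ R3 R3).comp (ContinuousLinearMap.snd ℝ ℝ (R3 × R3))).prod
          (-(ContinuousLinearMap.snd ℝ R3 R3).comp (ContinuousLinearMap.snd ℝ ℝ (R3 × R3))))) p :=
      (hasFDerivAt_fst.neg).prodMk (hasFDerivAt_snd.fst.prodMk hasFDerivAt_snd.snd.neg)
    have h2 := ((h.sf.differentiable (by simp) (-p.1, p.2.1, -p.2.2)).hasFDerivAt.comp p h1).fderiv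
    have h3 := h.vl (-p.1, p.2.1, -p.2.2) trivial
    refine (congrArg (fun L : PS →L[ℝ] ℝ => L _) h2).trans ?_
    rw [VlAt, ← neg_eq_zero, ← map_neg] at h3
    refine Eq.trans ?_ h3
    simp [reflE, reflB, CalcD_lor_neg, CalcD_relVel_neg]
  · obtain ⟨a1, a2, a3, a4⟩ := h.mx (-p.1, p.2) trivial
    have eρ : rho (reflF f) p = rho f (-p.1, p.2) :=
      integral_neg_eq_self (fun v => f (-p.1, p.2, v)) volume
    have ej : cur (reflF f) p = -cur f (-p.1, p.2) := by
      rw [cur, cur, ← integral_neg, ← integral_neg_eq_self _ volume]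
      simp [reflF, CalcD_relVel_neg]
    refine ⟨?_, ?_, ?_, ?_⟩
    · rw [CalcD_refl h.sE, a1, ej]
      simp only [reflB, CalcD_curl_neg]
      abel
    · rw [show reflB B = -reflE B from rfl, fderiv_neg, _root_.neg_apply,
        CalcD_refl h.sB, neg_neg, a2]
      rfl
    · rw [eρ, ← a3]
      rfl
    · simp only [div3, reflB, CalcD_pd_neg, Finset.sum_neg_distrib, neg_eq_zero]
      exact a4
  · obtain ⟨c1, c2⟩ := hC (-s) trivial (by simpa using hs)
    refine ⟨c1, fun y => ?_⟩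
    have := c2 y
    rwa [← norm_neg, ← iteratedFDeriv_neg_apply] at this

theorem CalcD_shift {X F : Type*} [NormedAddCommGroup X] [NormedSpace ℝ X] [NormedAddCommGroup F]
    [NormedSpace ℝ F] (t : ℝ) (u : ℝ × X → F) (p : ℝ × X) :
    fderiv ℝ (shift t u) p = fderiv ℝ u (t + p.1, p.2) := by
  have e : ∀ q : ℝ × X, ((t + q.1, q.2) : ℝ × X) = (t, 0) + q := fun q => by
    ext <;> simp
  rw [e, ← fderiv_comp_add_left]
  exact congrArg (fun g => fderiv ℝ g p) (funext fun q => congrArg u (e q))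

/-- time translation -/
theorem Sol.shift {T t₁ : ℝ} {f : PS → ℝ} {E B : ST → R3} (h : Sol T f E B) (ht : 0 ≤ t₁) :
    Sol (T - t₁) (shift t₁ f) (shift t₁ E) (shift t₁ B) := by
  have hI : ∀ s ∈ Icc 0 (T - t₁), t₁ + s ∈ Icc 0 T := fun s hs =>
    ⟨by linarith [hs.1], by linarith [hs.2]⟩
  have hA : ∀ s T₁ : ℝ, |s| ≤ T₁ → |t₁ + s| ≤ t₁ + T₁ := fun s T₁ hs =>
    (abs_add_le _ _).trans (by rw [abs_of_nonneg ht]; linarith)
  have cM : ContDiff ℝ ∞ fun p : ST => ((t₁ + p.1, p.2) : ST) := by fun_prop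
  have cP : ContDiff ℝ ∞ fun p : PS => ((t₁ + p.1, p.2) : PS) := by fun_prop
  have sE : ContDiff ℝ ∞ (R106.shift t₁ E) := h.step.sE.comp cM
  have sB : ContDiff ℝ ∞ (R106.shift t₁ B) := h.step.sB.comp cM
  have sf : ContDiff ℝ ∞ (R106.shift t₁ f) := h.step.sf.comp cP
  refine ⟨⟨sE, sB, sf, sE, sB, fun T₁ => (h.step.vf (t₁ + T₁)).imp fun R hR s y v h1 h2 =>
      hR (t₁ + s) y v (hA s T₁ h1) h2, fun p hp => ?_, fun p hp => ?_,
    fun T₁ k => (h.step.bd' (t₁ + T₁) k).imp fun C hC s hs h1 => ?_⟩,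
    h.xs.imp fun R hR s hs => hR (t₁ + s) (hI s hs)⟩
  rotate_right
  · simpa only [Bx, R106.shift] using hC (t₁ + s) (hI s hs) (hA s T₁ h1)
  · rw [VlAt, CalcD_shift]
    simpa only [R106.shift, VlAt] using h.step.vl (t₁ + p.1, p.2) (hI _ hp)
  · obtain ⟨a1, a2, a3, a4⟩ := h.step.mx (t₁ + p.1, p.2) (hI _ hp)
    refine ⟨(congrArg (fun L : ST →L[ℝ] R3 => L (1, 0)) (CalcD_shift t₁ E p)).trans (a1.trans ?_),
      (congrArg (fun L : ST →L[ℝ] R3 => L (1, 0)) (CalcD_shift t₁ B p)).trans (a2.trans ?_), ?_, ?_⟩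
    · simp only [R106.shift, cur]
    · simp only [R106.shift]
    · simpa only [R106.shift, rho] using a3
    · simpa only [R106.shift] using a4

theorem CalcD_supp {T : ℝ} {f : PS → ℝ} {E B : ST → R3} (h : Sol T f E B) :
    ∃ R : ℝ, ∀ s ∈ Icc 0 T, ∀ y : R3 × R3, R < ‖y‖ → f (s, y) = 0 := by
  obtain ⟨R, hR⟩ := h.xs
  obtain ⟨R', hR'⟩ := h.step.vf T
  refine ⟨max R R', fun s hs y hy => ?_⟩
  rw [Prod.norm_def, lt_max_iff] at hy
  rcases hy with hy | hy
  · exact hR s hs y.1 y.2 ((le_max_left _ _).trans_lt hy)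
  · exact hR' s y.1 y.2 (by rw [abs_of_nonneg hs.1]; exact hs.2) ((le_max_right _ _).trans_lt hy)

/-- the value of a solution at time `t₁` is a datum -/
theorem Sol.dat {T t₁ : ℝ} {f : PS → ℝ} {E B : ST → R3} (h : Sol T f E B) (ht : t₁ ∈ Icc 0 T) :
    Dat (fun y => f (t₁, y)) (fun x => E (t₁, x)) (fun x => B (t₁, x)) := by
  obtain ⟨R, hR⟩ := CalcD_supp h
  refine ⟨h.step.sf.comp (by fun_prop), h.step.sE.comp (by fun_prop), h.step.sB.comp (by fun_prop),
    HasCompactSupport.intro (isCompact_closedBall 0 R) fun y hy =>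
      hR t₁ ht y (not_le.1 fun h1 => hy (mem_closedBall_zero_iff.2 h1)),
    fun k => (h.step.bd' |t₁| k).imp fun C hC x => ⟨(hC t₁ ht le_rfl).1 x, (hC t₁ ht le_rfl).2 x⟩,
    fun x => (h.step.mx (t₁, x) ht).gE, fun x => (h.step.mx (t₁, x) ht).gB⟩

/-- all phase-space derivatives of `f` are (qualitatively) bounded -/
theorem Sol.bd_f {T : ℝ} {f : PS → ℝ} {E B : ST → R3} (h : Sol T f E B) (k : ℕ) :
    ∃ C, ∀ s ∈ Icc 0 T, Bx k f s C := by
  obtain ⟨R, hR⟩ := CalcD_supp h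
  obtain ⟨C, hC⟩ := (isCompact_Icc.prod (isCompact_closedBall (0 : R3 × R3) R) :
    IsCompact (Icc 0 T ×ˢ closedBall (0 : R3 × R3) R)).exists_bound_of_continuousOn
    (h.step.sf.continuous_iteratedFDeriv (m := k) (by exact_mod_cast le_top)).continuousOn
  refine ⟨max C 0, fun s hs y => ?_⟩
  by_cases hy : ‖y‖ ≤ R
  · refine le_trans ?_ ((hC (s, y) ⟨hs, mem_closedBall_zero_iff.2 hy⟩).trans (le_max_left _ _))
    have e : (fun y => f (s, y)) = (fun z : PS => f ((s, 0) + z)) ∘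
        ContinuousLinearMap.inr ℝ ℝ (R3 × R3) := funext fun y => by simp
    have c : ContDiff ℝ ∞ fun z : PS => f ((s, 0) + z) := h.step.sf.comp (by fun_prop)
    rw [e, ContinuousLinearMap.iteratedFDeriv_comp_right _ c y
      (by exact_mod_cast le_top), iteratedFDeriv_comp_add_left]
    refine (ContinuousMultilinearMap.norm_compContinuousLinearMap_le _ _).trans
      ((mul_le_of_le_one_right (norm_nonneg _) (Finset.prod_le_one (fun _ _ => norm_nonneg _)
        fun _ _ => ContinuousLinearMap.norm_inr_le_one ..)).trans (le_of_eq ?_))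
    simp
  · have e : (fun y => f (s, y)) =ᶠ[𝓝 y] fun _ => 0 := by
      filter_upwards [(isOpen_lt continuous_const continuous_norm).mem_nhds (not_le.1 hy)] with z hz
      exact hR s hs z hz
    rw [(e.iteratedFDeriv ℝ k).eq_of_nhds, iteratedFDeriv_fun_zero]
    simp

end Crest.Agent.R106
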