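import Crest.Agent.R106.BdLem

/-!
# Row 106: closing the estimates
-/

set_option autoImplicit false
set_option linter.unusedVariables false
set_option linter.unusedSectionVars false

open MeasureTheory Metric Set Filter Topology
open scoped ContDiff ENNReal RealInnerProductSpace
open Crest.AnalysisR.VecCalc3 Crest.AnalysisR.PDE.RVM

noncomputable section

namespace Crest.Agent.R106

theorem Closing_alg {D ε N a Y g d : ℝ} (hD : 1 ≤ D) (hε : 0 < ε) (hεD : 12 * D ^ 4 * ε = 1)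
    (hN : 1 ≤ N) (ha : 0 ≤ a) (hY : 0 ≤ Y)
    (h1 : Y ≤ D * (N + 2 * (ε * a))) (h2 : d ≤ D * (ε * a + Y + 1))
    (h3 : g ≤ D * (N + Y + d + (1 + ε * a))) (h4 : a ≤ D * (1 + g)) :
    a ≤ 12 * D ^ 4 * N ∧ Y ≤ 3 * D * N ∧ g ≤ 11 * D ^ 3 * N := by
  have hb : 0 ≤ ε * a := by positivity
  have hab : a = 12 * D ^ 4 * (ε * a) := by rw [← mul_assoc, hεD, one_mul]
  generalize ε * a = b at *
  have hD0 : 0 ≤ D := by linarith
  have up : ∀ x : ℝ, 0 ≤ x → x ≤ D * x := fun x hx => le_mul_of_one_le_left hx hD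
  have g1 : N + Y + d + (1 + b) ≤ D * (3 * N + 2 * b + 2 * Y) := by
    have := up (N + Y + (1 + b)) (by positivity)
    nlinarith
  have g2 : 3 * N + 2 * b + 2 * Y ≤ D * (5 * N + 6 * b) := by
    have := up (3 * N + 2 * b) (by positivity)
    nlinarith
  have g3 : g ≤ D ^ 3 * (5 * N + 6 * b) :=
    calc g ≤ D * (D * (D * (5 * N + 6 * b))) :=
          h3.trans (mul_le_mul_of_nonneg_left
            (g1.trans (mul_le_mul_of_nonneg_left g2 hD0)) hD0)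
      _ = _ := by ring
  have hD3 : 1 ≤ D ^ 3 := one_le_pow₀ hD
  have g4 : a ≤ D ^ 4 * (6 * N + 6 * b) :=
    calc a ≤ D * (D ^ 3 * (6 * N + 6 * b)) :=
          h4.trans (mul_le_mul_of_nonneg_left (by nlinarith) hD0)
      _ = _ := by ring
  have hD4 : 0 < D ^ 4 := by positivity
  have g5 : b ≤ N := le_of_mul_le_mul_left (a := 6 * D ^ 4) (by linarith) (by positivity)
  refine ⟨?_, by nlinarith, by nlinarith⟩
  rw [hab]
  gcongr

/-- the closing of the estimates, as a statement on real numbers: `a = ∫ A²`, `Y = ∫ y`,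
`G = ∫ |Π Ẇ|²`, `Δ = ∫ δ²` -/
theorem closing (C : ℝ) (hC : 0 ≤ C) : ∃ c K P₀ : ℝ, 0 < c ∧ c ≤ 1 ∧ 0 ≤ K ∧
    ∀ c', 0 < c' → c' ≤ c → ∀ P, P₀ ≤ P → ∀ a Y G Δ : ℝ, 0 ≤ a → 0 ≤ Y → 0 ≤ G → 0 ≤ Δ →
    Y ≤ C * (Real.log P + c' * a + P ^ (-(1 / 5 : ℝ)) * a) →
    G ≤ C * (P ^ 2 * Real.log P + P ^ 2 * Y + Δ * P ^ (328 / 100 : ℝ) +
      P ^ (188 / 100 : ℝ) * (1 + a)) →
    a ≤ C * (1 + G / P ^ 2) →
    Δ ≤ C * (P ^ (-(232 / 100 : ℝ)) * a + P ^ (-(138 / 100 : ℝ)) * Y + P ^ (-(131 / 100 : ℝ))) →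
    a ≤ K * Real.log P ∧ Y ≤ K * Real.log P ∧ G ≤ K * (P ^ 2 * Real.log P) ∧
      Δ ≤ K * P ^ (-(131 / 100 : ℝ)) := by
  obtain ⟨D, hD, hCD⟩ : ∃ D : ℝ, 1 ≤ D ∧ C ≤ D := ⟨C + 1, by linarith, by linarith⟩
  obtain ⟨ε, hε, hεD⟩ : ∃ ε : ℝ, 0 < ε ∧ 12 * D ^ 4 * ε = 1 :=
    ⟨(12 * D ^ 4)⁻¹, by positivity, mul_inv_cancel₀ (by positivity)⟩
  have hD4 : 1 ≤ D ^ 4 := one_le_pow₀ hD
  have hε1 : ε ≤ 1 := by nlinarith
  obtain ⟨P₁, hP₁⟩ := log_pow_le 1 (ε := 7 / 100) (by norm_num)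
  obtain ⟨P₂, hP₂⟩ := eventually_atTop.1
    ((tendsto_rpow_neg_atTop (y := 12 / 100) (by norm_num)).eventually (ge_mem_nhds hε))
  refine ⟨ε, 16 * D ^ 5, max 1 (max P₁ P₂), hε, hε1, by positivity,
    fun c' hc' hc'ε P hP a Y G Δ ha hY hG hΔ h1 h2 h3 h4 => ?_⟩
  have hP1 : 1 ≤ P := (le_max_left _ _).trans hP
  have hP0 : 0 < P := by linarith
  obtain ⟨hN, hNP⟩ := hP₁ P ((le_max_left _ _).trans ((le_max_right _ _).trans hP))
  rw [Real.rpow_one] at hNP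
  have hs := hP₂ P ((le_max_right _ _).trans ((le_max_right _ _).trans hP))
  generalize Real.log P = N at *
  have mono : ∀ x y : ℝ, x ≤ y → P ^ x ≤ P ^ y := fun x y h =>
    Real.rpow_le_rpow_of_exponent_le hP1 h
  have small : ∀ x y : ℝ, x + 12 / 100 ≤ y → P ^ x ≤ ε * P ^ y := fun x y h =>
    calc P ^ x ≤ P ^ (-(12 / 100) + y) := mono _ _ (by linarith)
      _ = P ^ (-(12 / 100) : ℝ) * P ^ y := Real.rpow_add hP0 _ _
      _ ≤ _ := by gcongr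
  have hP2 : 0 < P ^ 2 := by positivity
  have e1 : P ^ (-(1 / 5 : ℝ)) ≤ ε := (mono _ _ (by norm_num)).trans hs
  have e2 : P ^ (188 / 100 : ℝ) ≤ ε * P ^ 2 := by
    rw [← Real.rpow_two]; exact small _ _ (by norm_num)
  have e3 : P ^ (-(232 / 100 : ℝ)) * P ^ (328 / 100 : ℝ) ≤ ε * P ^ 2 := by
    rw [← Real.rpow_two, ← Real.rpow_add hP0]; exact small _ _ (by norm_num)
  have e4 : P ^ (-(138 / 100 : ℝ)) * P ^ (328 / 100 : ℝ) ≤ P ^ 2 := by
    rw [← Real.rpow_two, ← Real.rpow_add hP0]; exact mono _ _ (by norm_num)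
  have e5 : P ^ (-(131 / 100 : ℝ)) * P ^ (328 / 100 : ℝ) ≤ P ^ 2 := by
    rw [← Real.rpow_two, ← Real.rpow_add hP0]; exact mono _ _ (by norm_num)
  have e6 : P ^ (-(138 / 100 : ℝ)) * N ≤ P ^ (-(131 / 100 : ℝ)) :=
    calc _ ≤ P ^ (-(138 / 100 : ℝ)) * P ^ (7 / 100 : ℝ) := by gcongr
      _ = _ := by rw [← Real.rpow_add hP0]; norm_num
  have e7 : P ^ (-(232 / 100 : ℝ)) ≤ P ^ (-(138 / 100 : ℝ)) := mono _ _ (by norm_num)
  have p1 := Real.rpow_pos_of_pos hP0 (-(1 / 5 : ℝ))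
  have p2 := Real.rpow_pos_of_pos hP0 (188 / 100 : ℝ)
  have p3 := Real.rpow_pos_of_pos hP0 (-(232 / 100 : ℝ))
  have p4 := Real.rpow_pos_of_pos hP0 (-(138 / 100 : ℝ))
  have p5 := Real.rpow_pos_of_pos hP0 (-(131 / 100 : ℝ))
  have p6 := Real.rpow_pos_of_pos hP0 (328 / 100 : ℝ)
  generalize P ^ (-(1 / 5 : ℝ)) = q1 at *
  generalize P ^ (188 / 100 : ℝ) = q2 at *
  generalize P ^ (-(232 / 100 : ℝ)) = q3 at *
  generalize P ^ (-(138 / 100 : ℝ)) = q4 at *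
  generalize P ^ (-(131 / 100 : ℝ)) = q5 at *
  generalize P ^ (328 / 100 : ℝ) = q6 at *
  generalize P ^ 2 = Q at *
  have hN0 : 0 ≤ N := by linarith
  have hD0 : 0 ≤ D := by linarith
  have h4' : Δ ≤ D * (q3 * a + q4 * Y + q5) := h4.trans (by gcongr)
  obtain ⟨r1, r2, r3⟩ := Closing_alg (g := G / Q) (d := Δ * q6 / Q) hD hε hεD hN ha hY
    (h1.trans (by
      rw [two_mul, ← add_assoc]
      gcongr))
    (by
      rw [div_le_iff₀ hP2]
      calc Δ * q6 ≤ D * (q3 * a + q4 * Y + q5) * q6 := by gcongr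
        _ = D * (q3 * q6 * a + q4 * q6 * Y + q5 * q6) := by ring
        _ ≤ D * (ε * Q * a + Q * Y + Q) := by gcongr
        _ = _ := by ring)
    (by
      rw [div_le_iff₀ hP2]
      calc G ≤ D * (Q * N + Q * Y + Δ * q6 + (1 * Q + ε * Q * a)) := by
            refine h2.trans ?_
            rw [mul_add q2, mul_one]
            have : q2 ≤ 1 * Q := e2.trans (by gcongr)
            gcongr
        _ = _ := by field_simp)
    (h3.trans (by gcongr))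
  have k1 : D ^ 4 ≤ D ^ 5 := pow_le_pow_right₀ hD (by norm_num)
  have k2 : D ^ 3 ≤ D ^ 5 := pow_le_pow_right₀ hD (by norm_num)
  have k3 : D ^ 2 ≤ D ^ 5 := pow_le_pow_right₀ hD (by norm_num)
  have k4 : D ≤ D ^ 5 := le_self_pow₀ hD (by norm_num)
  refine ⟨r1.trans (mul_le_mul_of_nonneg_right (by linarith) hN0),
    r2.trans (mul_le_mul_of_nonneg_right (by linarith) hN0), ?_, ?_⟩
  · rw [div_le_iff₀ hP2] at r3
    calc G ≤ 11 * D ^ 3 * (Q * N) := r3.trans_eq (by ring)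
      _ ≤ _ := mul_le_mul_of_nonneg_right (by linarith) (by positivity)
  · calc Δ ≤ D * (q4 * (12 * D ^ 4 * N) + q4 * (3 * D * N) + q5) := h4'.trans (by gcongr)
      _ = D * (12 * D ^ 4 * (q4 * N) + 3 * D * (q4 * N) + q5) := by ring
      _ ≤ D * (12 * D ^ 4 * q5 + 3 * D * q5 + q5) := by gcongr
      _ = (12 * D ^ 5 + 3 * D ^ 2 + D) * q5 := by ring
      _ ≤ _ := mul_le_mul_of_nonneg_right (by linarith) p5.le

end Crest.Agent.R106
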