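import Crest.Agent.R106.CalcC
import Crest.Agent.R106.BdLem

/-!
# Row 106: conservation laws on the moving backward cones
-/

set_option autoImplicit false
set_option linter.unusedVariables false
set_option linter.unusedSectionVars false

open MeasureTheory Metric Set Filter Topology
open scoped ContDiff ENNReal RealInnerProductSpace
open Crest.AnalysisR.VecCalc3 Crest.AnalysisR.PDE.RVM

noncomputable section

namespace Crest.Agent.R106

/-- test functions on the cone: smooth, supported in a shell `σ ≤ |z| ≤ ρ` (with `σ > 0` locally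
uniform in the parameter `e`) -/
structure Shell {F : Type*} [NormedAddCommGroup F] [NormedSpace ℝ F] (ρ : ℝ)
    (g : R3 × R3 → F) : Prop where
  sm : ContDiff ℝ ∞ g
  near : ∀ R : ℝ, ∃ σ : ℝ, 0 < σ ∧ ∀ e z : R3, ‖e‖ ≤ R → ‖z‖ ≤ σ → g (e, z) = 0
  far : ∀ e z : R3, ρ ≤ ‖z‖ → g (e, z) = 0

theorem ConeDer_loc {ρ : ℝ} {g : R3 × R3 → ℝ} (hg : Shell ρ g) {u : ST × R3 × R3 → ℝ}
    (hu : ContDiff ℝ ∞ u) : R240.LocC fun q : (ℝ × R3 × R3) × R3 =>
      g (q.1.2.2, q.2) * u (cp q.1.1 q.1.2.1 q.2, q.1.2.2, nz q.2) := by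
  refine ⟨contDiff_iff_contDiffAt.2 fun q => ?_, fun _ => ⟨closedBall 0 ρ, isCompact_closedBall _ _,
    Eventually.of_forall fun p y hy => ?_⟩⟩
  · by_cases hz : q.2 = 0
    · obtain ⟨σ, hσ, h⟩ := hg.near (‖q.1.2.2‖ + 1)
      have c1 : Continuous fun q : (ℝ × R3 × R3) × R3 => ‖q.1.2.2‖ := by fun_prop
      have c2 : Continuous fun q : (ℝ × R3 × R3) × R3 => ‖q.2‖ := by fun_prop
      have e1 := c1.continuousAt.eventually (gt_mem_nhds (lt_add_one ‖q.1.2.2‖))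
      have e2 := c2.continuousAt.eventually (gt_mem_nhds (show ‖q.2‖ < σ by rwa [hz, norm_zero]))
      refine (contDiffAt_const (c := (0 : ℝ))).congr_of_eventuallyEq ?_
      filter_upwards [e1, e2] with q' a1 a2
      rw [h _ _ a1.le a2.le, zero_mul]
    · have h1 : ContDiffAt ℝ ∞ (fun q : (ℝ × R3 × R3) × R3 => ‖q.2‖) q :=
        (contDiffAt_norm ℝ hz).comp q contDiffAt_snd
      have h2 : ContDiffAt ℝ ∞ (fun q : (ℝ × R3 × R3) × R3 => nz q.2) q :=
        (contDiffAt_nz hz).comp q contDiffAt_snd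
      refine ContDiffAt.mul (hg.sm.contDiffAt.comp q (by fun_prop))
        (hu.contDiffAt.comp q (ContDiffAt.prodMk ?_ (ContDiffAt.prodMk (by fun_prop) h2)))
      exact ContDiffAt.prodMk (ContDiffAt.sub (by fun_prop) h1) (by fun_prop)
  · rw [mem_closedBall_zero_iff, not_le] at hy
    simp only [hg.far _ _ hy.le, zero_mul]

/-- integrals of smooth functions over the cone against a test function are smooth in the vertex
and in the parameter -/
theorem Shell.contDiff_cone {ρ : ℝ} {g : R3 × R3 → ℝ} (hg : Shell ρ g) {u : ST × R3 × R3 → ℝ}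
    (hu : ContDiff ℝ ∞ u) :
    ContDiff ℝ ∞ fun a : ℝ × R3 × R3 =>
      ∫ z, g (a.2.2, z) * u (cp a.1 a.2.1 z, a.2.2, nz z) :=
  (ConeDer_loc hg hu).contDiff_integral volume

theorem ConeDer_inner (a b : R3) : ⟪a, b⟫ = a 0 * b 0 + a 1 * b 1 + a 2 * b 2 := by
  simp [PiLp.inner_apply, Fin.sum_univ_three, mul_comm]

theorem ConeDer_dec (u : R3) : u = u 0 • EuclideanSpace.single 0 1 + u 1 • EuclideanSpace.single 1 1 +
    u 2 • EuclideanSpace.single 2 1 := by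
  ext i
  fin_cases i <;> simp

theorem ConeDer_lin {F : Type*} [NormedAddCommGroup F] [NormedSpace ℝ F] (L : ST →L[ℝ] F) (s : ℝ)
    (u : R3) : L (s, u) = s • L (1, 0) + u 0 • L (0, EuclideanSpace.single 0 1) +
      u 1 • L (0, EuclideanSpace.single 1 1) + u 2 • L (0, EuclideanSpace.single 2 1) := by
  simp only [← map_smul, ← map_add]
  congr 1
  refine Prod.ext (by simp) ?_
  simpa using ConeDer_dec u

theorem ConeDer_lin' (L : R3 × R3 →L[ℝ] ℝ) (c : ℝ) (a u : R3) :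
    L (c • a, u) = c * L (a, 0) + u 0 * L (0, EuclideanSpace.single 0 1) +
      u 1 * L (0, EuclideanSpace.single 1 1) + u 2 * L (0, EuclideanSpace.single 2 1) := by
  simp only [← smul_eq_mul, ← map_smul, ← map_add]
  congr 1
  refine Prod.ext (by simp) ?_
  simpa using ConeDer_dec u

theorem ConeDer_div {J : ST → R3} (hJ : ContDiff ℝ ∞ J) (p : ST) :
    div3 (fun y => J (p.1, y)) p.2 = ∑ i, fderiv ℝ J p (0, EuclideanSpace.single i 1) i := by
  refine Finset.sum_congr rfl fun i _ => ?_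
  have h := (EuclideanSpace.proj (𝕜 := ℝ) i).hasFDerivAt.comp p.2
    ((hJ.differentiable (by simp) (p.1, p.2)).hasFDerivAt.comp p.2 (hasFDerivAt_prodMk_right p.1 p.2))
  exact congrArg (fun L : R3 →L[ℝ] ℝ => L (EuclideanSpace.single i 1)) h.fderiv

/-- derivative along the motion of the vertex -/
theorem ConeDer_d1 {g : R3 × R3 → ℝ} (hg : ContDiff ℝ ∞ g) {J₀ : ST → ℝ} {J : ST → R3}
    (h₀ : ContDiff ℝ ∞ J₀) (hJ : ContDiff ℝ ∞ J) (t : ℝ) (x e W ed z : R3) :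
    fderiv ℝ (fun a : ℝ × R3 × R3 =>
      g (a.2.2, z) * (J₀ (cp a.1 a.2.1 z) - ⟪nz z, J (cp a.1 a.2.1 z)⟫)) (t, x, e) (1, W, ed) =
      g (e, z) * (fderiv ℝ J₀ (cp t x z) (1, W) - ⟪nz z, fderiv ℝ J (cp t x z) (1, W)⟫) +
        (J₀ (cp t x z) - ⟪nz z, J (cp t x z)⟫) * fderiv ℝ g (e, z) (ed, 0) := by
  have hp : HasFDerivAt (fun a : ℝ × R3 × R3 => cp a.1 a.2.1 z)
      ((ContinuousLinearMap.fst ℝ ℝ (R3 × R3)).prod
        ((ContinuousLinearMap.fst ℝ R3 R3).comp (ContinuousLinearMap.snd ℝ ℝ (R3 × R3)))) (t, x, e) :=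
    (hasFDerivAt_fst.sub_const _).prodMk ((hasFDerivAt_fst.comp _ hasFDerivAt_snd).sub_const _)
  have he : HasFDerivAt (fun a : ℝ × R3 × R3 => (a.2.2, z))
      (((ContinuousLinearMap.snd ℝ R3 R3).comp (ContinuousLinearMap.snd ℝ ℝ (R3 × R3))).prod 0)
      (t, x, e) := (hasFDerivAt_snd.comp _ hasFDerivAt_snd).prodMk (hasFDerivAt_const _ _)
  have a1 := (hg.differentiable (by simp) (e, z)).hasFDerivAt.comp (t, x, e) he
  have a2 := (h₀.differentiable (by simp) (cp t x z)).hasFDerivAt.comp (t, x, e) hp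
  have a3 := (hJ.differentiable (by simp) (cp t x z)).hasFDerivAt.comp (t, x, e) hp
  have a4 := a1.mul (a2.sub ((innerSL ℝ (nz z)).hasFDerivAt.comp (t, x, e) a3))
  exact congrArg (fun L : (ℝ × R3 × R3) →L[ℝ] ℝ => L (1, W, ed)) a4.fderiv

/-- derivative in the cone variable -/
theorem ConeDer_d2 {g : R3 × R3 → ℝ} (hg : ContDiff ℝ ∞ g) {J₀ : ST → ℝ} {J : ST → R3}
    (h₀ : ContDiff ℝ ∞ J₀) (hJ : ContDiff ℝ ∞ J) (t : ℝ) (x e W : R3) {z : R3} (hz : z ≠ 0)
    (i : Fin 3) (u : R3) :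
    fderiv ℝ (fun z => g (e, z) * ((J₀ (cp t x z) - ⟪nz z, J (cp t x z)⟫) * W i -
      (1 - ⟪W, nz z⟫) * J (cp t x z) i)) z u =
      g (e, z) * ((fderiv ℝ J₀ (cp t x z) (-⟪nz z, u⟫, -u) -
          (⟪nz z, fderiv ℝ J (cp t x z) (-⟪nz z, u⟫, -u)⟫ +
            ⟪‖z‖⁻¹ • (u - ⟪nz z, u⟫ • nz z), J (cp t x z)⟫)) * W i -
        ((1 - ⟪W, nz z⟫) * fderiv ℝ J (cp t x z) (-⟪nz z, u⟫, -u) i -
          J (cp t x z) i * ⟪W, ‖z‖⁻¹ • (u - ⟪nz z, u⟫ • nz z)⟫)) +
      ((J₀ (cp t x z) - ⟪nz z, J (cp t x z)⟫) * W i - (1 - ⟪W, nz z⟫) * J (cp t x z) i) *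
        fderiv ℝ g (e, z) (0, u) := by
  have hr : HasFDerivAt (fun z : R3 => ‖z‖) (fderiv ℝ (fun z : R3 => ‖z‖) z) z :=
    ((contDiffAt_norm ℝ (n := 1) hz).differentiableAt (by simp)).hasFDerivAt
  have hn : HasFDerivAt nz (fderiv ℝ nz z) z :=
    ((contDiffAt_nz hz).differentiableAt (by simp)).hasFDerivAt
  have hp : HasFDerivAt (fun z => cp t x z)
      ((-fderiv ℝ (fun z : R3 => ‖z‖) z).prod (-ContinuousLinearMap.id ℝ R3)) z :=
    (hr.const_sub t).prodMk ((hasFDerivAt_id z).const_sub x)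
  have a1 := (hg.differentiable (by simp) (e, z)).hasFDerivAt.comp z (hasFDerivAt_prodMk_right e z)
  have a2 := (h₀.differentiable (by simp) (cp t x z)).hasFDerivAt.comp z hp
  have a3 := (hJ.differentiable (by simp) (cp t x z)).hasFDerivAt.comp z hp
  have a4 := a1.mul (((a2.sub (hn.inner ℝ a3)).mul_const (W i)).sub
    ((((innerSL ℝ W).hasFDerivAt.comp z hn).const_sub 1).mul
      ((EuclideanSpace.proj (𝕜 := ℝ) i).hasFDerivAt.comp z a3)))
  refine (congrArg (fun L : R3 →L[ℝ] ℝ => L u) a4.fderiv).trans ?_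
  simp only [add_apply, sub_apply, smul_apply, neg_apply, ContinuousLinearMap.comp_apply,
    ContinuousLinearMap.prod_apply, ContinuousLinearMap.id_apply, fderivInnerCLM_apply,
    ContinuousLinearMap.inr_apply, innerSL_apply_apply, Function.comp_apply, Pi.sub_apply,
    Pi.mul_apply, smul_eq_mul, fderiv_norm' hz, fderiv_nz hz, PiLp.proj_apply]
  ring

theorem ConeDer_pt {g : R3 × R3 → ℝ} (hg : ContDiff ℝ ∞ g) {J₀ : ST → ℝ} {J : ST → R3}
    (h₀ : ContDiff ℝ ∞ J₀) (hJ : ContDiff ℝ ∞ J) (t : ℝ) (x e W ed : R3) {z : R3} (hz : z ≠ 0) :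
    fderiv ℝ (fun a : ℝ × R3 × R3 =>
      g (a.2.2, z) * (J₀ (cp a.1 a.2.1 z) - ⟪nz z, J (cp a.1 a.2.1 z)⟫)) (t, x, e) (1, W, ed) +
      ∑ i, fderiv ℝ (fun z => g (e, z) * ((J₀ (cp t x z) - ⟪nz z, J (cp t x z)⟫) * W i -
        (1 - ⟪W, nz z⟫) * J (cp t x z) i)) z (EuclideanSpace.single i 1) =
      fderiv ℝ g (e, z) ((J₀ (cp t x z) - ⟪nz z, J (cp t x z)⟫) • ed,
        (J₀ (cp t x z) - ⟪nz z, J (cp t x z)⟫) • W - qq W z • J (cp t x z)) +
      g (e, z) * (qq W z * (fderiv ℝ J₀ (cp t x z) (1, 0) +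
        div3 (fun y => J ((cp t x z).1, y)) (cp t x z).2)) := by
  rw [ConeDer_d1 hg h₀ hJ, ConeDer_div hJ, ConeDer_lin', qq, ang]
  simp only [ConeDer_d2 hg h₀ hJ t x e W hz]
  generalize fderiv ℝ J₀ (cp t x z) = A
  generalize fderiv ℝ J (cp t x z) = B
  generalize fderiv ℝ g (e, z) = G
  generalize J₀ (cp t x z) = j₀
  generalize J (cp t x z) = j
  generalize nz z = n
  generalize ‖z‖⁻¹ = r
  generalize g (e, z) = γ
  rw [Fin.sum_univ_three, Fin.sum_univ_three, ConeDer_lin A 1 W, ConeDer_lin B 1 W,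
    ConeDer_lin A (-⟪n, EuclideanSpace.single 0 1⟫), ConeDer_lin A (-⟪n, EuclideanSpace.single 1 1⟫),
    ConeDer_lin A (-⟪n, EuclideanSpace.single 2 1⟫), ConeDer_lin B (-⟪n, EuclideanSpace.single 0 1⟫),
    ConeDer_lin B (-⟪n, EuclideanSpace.single 1 1⟫), ConeDer_lin B (-⟪n, EuclideanSpace.single 2 1⟫)]
  generalize A (1, 0) = A₀
  generalize A (0, EuclideanSpace.single 0 1) = A₁
  generalize A (0, EuclideanSpace.single 1 1) = A₂
  generalize A (0, EuclideanSpace.single 2 1) = A₃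
  generalize B (1, 0) = B₀
  generalize B (0, EuclideanSpace.single 0 1) = B₁
  generalize B (0, EuclideanSpace.single 1 1) = B₂
  generalize B (0, EuclideanSpace.single 2 1) = B₃
  simp only [ConeDer_inner]
  simp
  ring

/-- the flux of a conserved current `(J₀, J)` through the moving cone -/
theorem Shell.cone_deriv {ρ : ℝ} {g : R3 × R3 → ℝ} (hg : Shell ρ g) {J₀ : ST → ℝ} {J : ST → R3}
    (h₀ : ContDiff ℝ ∞ J₀) (hJ : ContDiff ℝ ∞ J) (t : ℝ) (x e W ed : R3)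
    (hdiv : ∀ p : ST, p.1 ∈ Icc (t - ρ) t →
      fderiv ℝ J₀ p (1, 0) + div3 (fun y => J (p.1, y)) p.2 = 0) :
    fderiv ℝ (fun a : ℝ × R3 × R3 =>
        ∫ z, g (a.2.2, z) * (J₀ (cp a.1 a.2.1 z) - ⟪nz z, J (cp a.1 a.2.1 z)⟫)) (t, x, e)
        (1, W, ed) =
      ∫ z, fderiv ℝ g (e, z) ((J₀ (cp t x z) - ⟪nz z, J (cp t x z)⟫) • ed,
        (J₀ (cp t x z) - ⟪nz z, J (cp t x z)⟫) • W - qq W z • J (cp t x z)) := by
  have c0 : ContDiff ℝ ∞ fun q : ST × R3 × R3 => J₀ q.1 - ⟪q.2.2, J q.1⟫ :=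
    (h₀.comp contDiff_fst).sub ((contDiff_snd.comp contDiff_snd).inner ℝ (hJ.comp contDiff_fst))
  have L0 := ConeDer_loc hg c0
  have c1 : ∀ i : Fin 3, ContDiff ℝ ∞ fun q : ST × R3 × R3 =>
      (J₀ q.1 - ⟪q.2.2, J q.1⟫) * W i - (1 - ⟪W, q.2.2⟫) * J q.1 i := fun i =>
    (c0.mul contDiff_const).sub
      ((contDiff_const.sub (contDiff_const.inner ℝ (contDiff_snd.comp contDiff_snd))).mul
        ((EuclideanSpace.proj (𝕜 := ℝ) i).contDiff.comp (hJ.comp contDiff_fst)))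
  have s1 : ∀ i : Fin 3, ContDiff ℝ ∞ fun z => g (e, z) *
      ((J₀ (cp t x z) - ⟪nz z, J (cp t x z)⟫) * W i - (1 - ⟪W, nz z⟫) * J (cp t x z) i) := fun i =>
    (ConeDer_loc hg (c1 i)).smooth.comp (contDiff_prodMk_right (t, x, e))
  have s2 : ∀ i : Fin 3, HasCompactSupport fun z => g (e, z) *
      ((J₀ (cp t x z) - ⟪nz z, J (cp t x z)⟫) * W i - (1 - ⟪W, nz z⟫) * J (cp t x z) i) := fun i =>
    HasCompactSupport.intro (isCompact_closedBall (0 : R3) ρ) fun z hz => by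
      rw [mem_closedBall_zero_iff, not_le] at hz
      rw [hg.far _ _ hz.le, zero_mul]
  have i1 : ∀ i : Fin 3, Integrable fun z => fderiv ℝ (fun z => g (e, z) *
      ((J₀ (cp t x z) - ⟪nz z, J (cp t x z)⟫) * W i - (1 - ⟪W, nz z⟫) * J (cp t x z) i)) z
        (EuclideanSpace.single i 1) := fun i =>
    (((s1 i).continuous_fderiv (by simp)).clm_apply continuous_const).integrable_of_hasCompactSupport
      ((s2 i).fderiv_apply ℝ _)
  have z1 : ∫ z, ∑ i : Fin 3, fderiv ℝ (fun z => g (e, z) *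
      ((J₀ (cp t x z) - ⟪nz z, J (cp t x z)⟫) * W i - (1 - ⟪W, nz z⟫) * J (cp t x z) i)) z
        (EuclideanSpace.single i 1) = 0 := by
    rw [integral_finsetSum _ fun i _ => i1 i]
    exact Finset.sum_eq_zero fun i _ =>
      integral_fderiv_eq_zero' volume ((s1 i).of_le (by simp)) (s2 i) _
  refine (L0.fderiv_integral volume (t, x, e) (1, W, ed)).trans ?_
  rw [← add_zero (integral _ _), ← z1, ← integral_add
    ((L0.fderiv ((1, W, ed), 0)).integrable volume (t, x, e)) (integrable_finsetSum _ fun i _ => i1 i)]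
  refine integral_congr_ae ?_
  filter_upwards [compl_mem_ae_iff.2 (measure_singleton (0 : R3))] with z hz
  have hz' : z ≠ 0 := hz
  have e1 := congrArg (fun L : (ℝ × R3 × R3) →L[ℝ] ℝ => L (1, W, ed))
    (R240.LocT.hasFDerivAt_left L0.smooth (t, x, e) z).fderiv
  have e2 := ConeDer_pt hg.sm h₀ hJ t x e W ed hz'
  have e3 : g (e, z) * (qq W z * (fderiv ℝ J₀ (cp t x z) (1, 0) +
      div3 (fun y => J ((cp t x z).1, y)) (cp t x z).2)) = 0 := by
    rcases le_total ρ ‖z‖ with h | h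
    · rw [hg.far _ _ h, zero_mul]
    · rw [hdiv (cp t x z) ⟨sub_le_sub_left h t, sub_le_self t (norm_nonneg z)⟩, mul_zero, mul_zero]
  rw [e3, add_zero] at e2
  rw [← e2]
  exact congrArg (· + _) e1.symm

end Crest.Agent.R106
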