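import Crest.Agent.R106.Energy
import Crest.Agent.R106.Axi

/-!
# Row 106: energy flux through backward light cones
-/

set_option autoImplicit false
set_option linter.unusedVariables false
set_option linter.unusedSectionVars false

open MeasureTheory Metric Set Filter Topology
open scoped ContDiff ENNReal RealInnerProductSpace
open Crest.AnalysisR.VecCalc3 Crest.AnalysisR.PDE.RVM

noncomputable section

namespace Crest.Agent.R106

/-- regularised distance -/
def ConeEn_rho (ε : ℝ) (z : R3) : ℝ := √(ε ^ 2 + ‖z‖ ^ 2)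

/-- the decreasing cut-off -/
def ConeEn_Th (t δ σ : ℝ) : ℝ := Real.smoothTransition ((t - σ) / δ)

/-- minus its derivative -/
def ConeEn_k (t δ σ : ℝ) : ℝ := δ⁻¹ * deriv Real.smoothTransition ((t - σ) / δ)

theorem ConeEn_rho_pos {ε : ℝ} (hε : 0 < ε) (z : R3) : 0 < ConeEn_rho ε z :=
  Real.sqrt_pos.2 (by positivity)

theorem ConeEn_norm_le_rho (ε : ℝ) (z : R3) : ‖z‖ ≤ ConeEn_rho ε z :=
  Real.le_sqrt_of_sq_le (by nlinarith [sq_nonneg ε])

theorem ConeEn_rho_le {ε : ℝ} (hε : 0 ≤ ε) (z : R3) : ConeEn_rho ε z ≤ ‖z‖ + ε := by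
  unfold ConeEn_rho
  rw [Real.sqrt_le_left (by positivity)]
  nlinarith [norm_nonneg z]

theorem ConeEn_contDiff_rho {ε : ℝ} (hε : 0 < ε) : ContDiff ℝ 1 (ConeEn_rho ε) := by
  unfold ConeEn_rho
  refine ContDiff.sqrt (contDiff_const.add (contDiff_norm_sq ℝ)) fun z => ?_
  positivity

theorem ConeEn_norm_nu_le {ε : ℝ} (hε : 0 < ε) (z : R3) : ‖(ConeEn_rho ε z)⁻¹ • z‖ ≤ 1 := by
  have h := ConeEn_rho_pos hε z
  rw [norm_smul, norm_inv, Real.norm_of_nonneg h.le, inv_mul_le_iff₀ h, mul_one]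
  exact ConeEn_norm_le_rho ε z

theorem ConeEn_contDiff_Th (t δ : ℝ) : ContDiff ℝ 1 (ConeEn_Th t δ) := by
  unfold ConeEn_Th
  exact (Real.smoothTransition.contDiff (n := 1)).comp
    ((contDiff_const.sub contDiff_id).div_const δ)

theorem ConeEn_hasDerivAt_Th (t δ σ : ℝ) : HasDerivAt (ConeEn_Th t δ) (-ConeEn_k t δ σ) σ := by
  have h1 : HasDerivAt (fun σ : ℝ => (t - σ) / δ) (-1 / δ) σ :=
    ((hasDerivAt_id σ).const_sub t).div_const δ
  have h2 : HasDerivAt Real.smoothTransition (deriv Real.smoothTransition ((t - σ) / δ))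
      ((t - σ) / δ) :=
    ((Real.smoothTransition.contDiff (n := 1)).differentiable (by simp) _).hasDerivAt
  have h3 := h2.comp σ h1
  refine h3.congr_deriv ?_
  unfold ConeEn_k
  ring

theorem ConeEn_k_nonneg (t : ℝ) {δ : ℝ} (hδ : 0 < δ) (σ : ℝ) : 0 ≤ ConeEn_k t δ σ :=
  mul_nonneg (inv_nonneg.2 hδ.le) Real.smoothTransition.monotone.deriv_nonneg

theorem ConeEn_continuous_k (t δ : ℝ) : Continuous (ConeEn_k t δ) := by
  unfold ConeEn_k
  have h : Continuous (deriv Real.smoothTransition) :=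
    (Real.smoothTransition.contDiff (n := 1)).continuous_deriv (by simp)
  exact continuous_const.mul (h.comp ((continuous_const.sub continuous_id).div_const δ))

theorem ConeEn_Th_zero {t δ σ : ℝ} (hδ : 0 < δ) (h : t ≤ σ) : ConeEn_Th t δ σ = 0 :=
  Real.smoothTransition.zero_of_nonpos (div_nonpos_of_nonpos_of_nonneg (by linarith) hδ.le)

theorem ConeEn_Th_one {t δ : ℝ} (hδ : 0 < δ) : ConeEn_Th t δ (t - δ) = 1 := by
  unfold ConeEn_Th
  rw [sub_sub_cancel, div_self hδ.ne', Real.smoothTransition.one]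

theorem ConeEn_k_zero {t δ σ : ℝ} (hδ : 0 < δ) (h : t < σ) : ConeEn_k t δ σ = 0 := by
  have h1 : ConeEn_Th t δ =ᶠ[𝓝 σ] fun _ => 0 := by
    filter_upwards [Ioi_mem_nhds h] with s hs using ConeEn_Th_zero hδ (le_of_lt hs)
  have h2 := (ConeEn_hasDerivAt_Th t δ σ).unique
    ((hasDerivAt_const σ (0 : ℝ)).congr_of_eventuallyEq h1)
  linarith

/-- the time average of a function bounded below on the transition layer -/
theorem ConeEn_avg {t δ ρ c : ℝ} (hδ : 0 < δ) (hc : 0 ≤ c) (hρ : 0 ≤ ρ) (h1 : 0 ≤ t - δ - ρ)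
    {g : ℝ → ℝ} (hg : ∀ s ∈ Ioc (t - δ - ρ) (t - ρ), c ≤ g s) :
    ENNReal.ofReal c ≤ ∫⁻ s in Ioc 0 t, ENNReal.ofReal (ConeEn_k t δ (s + ρ) * g s) := by
  have hk : Continuous fun s => ConeEn_k t δ (s + ρ) :=
    (ConeEn_continuous_k t δ).comp (continuous_id.add continuous_const)
  have hab : t - δ - ρ ≤ t - ρ := by linarith
  have hI : ∫ s in (t - δ - ρ)..(t - ρ), ConeEn_k t δ (s + ρ) = 1 := by
    have hd : ∀ s ∈ uIcc (t - δ - ρ) (t - ρ),
        HasDerivAt (fun s => -ConeEn_Th t δ (s + ρ)) (ConeEn_k t δ (s + ρ)) s := by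
      intro s _
      have := ((ConeEn_hasDerivAt_Th t δ (s + ρ)).comp_add_const s ρ).fun_neg
      rwa [neg_neg] at this
    rw [intervalIntegral.integral_eq_sub_of_hasDerivAt hd (hk.intervalIntegrable _ _)]
    simp only [sub_add_cancel]
    rw [ConeEn_Th_zero hδ le_rfl, ConeEn_Th_one hδ]
    simp
  have hI2 : ∫ s in Ioc (t - δ - ρ) (t - ρ), ConeEn_k t δ (s + ρ) * c = c := by
    rw [← intervalIntegral.integral_of_le hab, intervalIntegral.integral_mul_const, hI, one_mul]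
  calc ENNReal.ofReal c
      = ENNReal.ofReal (∫ s in Ioc (t - δ - ρ) (t - ρ), ConeEn_k t δ (s + ρ) * c) := by rw [hI2]
    _ = ∫⁻ s in Ioc (t - δ - ρ) (t - ρ), ENNReal.ofReal (ConeEn_k t δ (s + ρ) * c) := by
        refine ofReal_integral_eq_lintegral_ofReal ?_ ?_
        · exact ((hk.mul continuous_const).integrableOn_Icc).mono_set Ioc_subset_Icc_self
        · exact Eventually.of_forall fun s => mul_nonneg (ConeEn_k_nonneg t hδ _) hc
    _ ≤ ∫⁻ s in Ioc (t - δ - ρ) (t - ρ), ENNReal.ofReal (ConeEn_k t δ (s + ρ) * g s) := by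
        refine setLIntegral_mono' measurableSet_Ioc fun s hs => ENNReal.ofReal_le_ofReal ?_
        exact mul_le_mul_of_nonneg_left (hg s hs) (ConeEn_k_nonneg t hδ _)
    _ ≤ _ := lintegral_mono_set (Ioc_subset_Ioc h1 (by linarith))

/-- the weight -/
def ConeEn_w (t ε : ℝ) (x : R3) (p : ST) : ℝ := ConeEn_Th t ε (p.1 + ConeEn_rho ε (x - p.2))

theorem ConeEn_contDiff_w (t : ℝ) {ε : ℝ} (hε : 0 < ε) (x : R3) :
    ContDiff ℝ 1 (ConeEn_w t ε x) := by
  unfold ConeEn_w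
  exact (ConeEn_contDiff_Th t ε).comp
    (contDiff_fst.add ((ConeEn_contDiff_rho hε).comp (contDiff_const.sub contDiff_snd)))

theorem ConeEn_dt_w (t : ℝ) {ε : ℝ} (hε : 0 < ε) (x : R3) (s : ℝ) (y : R3) :
    fderiv ℝ (ConeEn_w t ε x) (s, y) (1, 0) = -ConeEn_k t ε (s + ConeEn_rho ε (x - y)) := by
  have h1 : HasFDerivAt (ConeEn_w t ε x) (fderiv ℝ (ConeEn_w t ε x) (s, y)) (s, y) :=
    ((ConeEn_contDiff_w t hε x).differentiable (by simp) _).hasFDerivAt
  have h2 : HasDerivAt (fun s : ℝ => ((s, y) : ST)) (1, 0) s :=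
    (hasDerivAt_id s).prodMk (hasDerivAt_const s y)
  have h3 := h1.comp_hasDerivAt s h2
  have h4 := (ConeEn_hasDerivAt_Th t ε (s + ConeEn_rho ε (x - y))).comp_add_const s
    (ConeEn_rho ε (x - y))
  exact h3.unique h4

theorem ConeEn_grad_w (t : ℝ) {ε : ℝ} (hε : 0 < ε) (x : R3) (s : ℝ) (y : R3) :
    -gradient (fun y => ConeEn_w t ε x (s, y)) y =
      (-ConeEn_k t ε (s + ConeEn_rho ε (x - y))) • ((ConeEn_rho ε (x - y))⁻¹ • (x - y)) := by
  have hρ := ConeEn_rho_pos hε (x - y)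
  have h1 : HasFDerivAt (fun y : R3 => x - y) (-ContinuousLinearMap.id ℝ R3) y :=
    (hasFDerivAt_id y).const_sub x
  have h2 := (h1.norm_sq.const_add (ε ^ 2)).sqrt (by positivity)
  have h3 := (ConeEn_hasDerivAt_Th t ε (s + ConeEn_rho ε (x - y))).comp_hasFDerivAt y
    (h2.const_add s)
  have h4 : HasGradientAt (fun y => ConeEn_w t ε x (s, y))
      (ConeEn_k t ε (s + ConeEn_rho ε (x - y)) • ((ConeEn_rho ε (x - y))⁻¹ • (x - y))) y := by
    rw [hasGradientAt_iff_hasFDerivAt]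
    refine h3.congr_fderiv ?_
    ext u
    have e : √(ε ^ 2 + ‖x - y‖ ^ 2) = ConeEn_rho ε (x - y) := rfl
    simp only [e, _root_.smul_apply, ContinuousLinearMap.comp_apply,
      _root_.neg_apply, ContinuousLinearMap.id_apply, innerSL_apply_apply,
      InnerProductSpace.toDual_apply_apply, inner_smul_left, inner_neg_right, smul_eq_mul,
      nsmul_eq_mul, RCLike.conj_to_real, Nat.cast_ofNat]
    field_simp
  rw [h4.gradient, neg_smul]

section
variable {T : ℝ} {f : PS → ℝ} {E B : ST → R3}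

theorem ConeEn_cont (h : Sol T f E B) :
    Continuous fun q : ST × R3 => TT f E B q.1 1 0 1 q.2 :=
  (contDiff_TT h.step.sf h.step.vf h.step.sE h.step.sB).continuous.comp
    (continuous_fst.prodMk ((continuous_const (y := ((1 : ℝ), (0 : R3)))).prodMk
      ((continuous_const (y := (1 : ℝ))).prodMk continuous_snd)))

/-- the regularised flux density -/
def ConeEn_K (f : PS → ℝ) (E B : ST → R3) (t ε : ℝ) (x : R3) (p : ℝ × R3) : ℝ :=
  ConeEn_k t ε (p.1 + ConeEn_rho ε p.2) * TT f E B (p.1, x - p.2) 1 0 1 ((ConeEn_rho ε p.2)⁻¹ • p.2)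

theorem ConeEn_cont_K (h : Sol T f E B) (t : ℝ) {ε : ℝ} (hε : 0 < ε) (x : R3) :
    Continuous (ConeEn_K f E B t ε x) := by
  unfold ConeEn_K
  have hρ : Continuous fun p : ℝ × R3 => ConeEn_rho ε p.2 :=
    (ConeEn_contDiff_rho hε).continuous.comp continuous_snd
  refine ((ConeEn_continuous_k t ε).comp (continuous_fst.add hρ)).mul ?_
  have h2 : Continuous fun p : ℝ × R3 =>
      ((((p.1, x - p.2) : ST), (ConeEn_rho ε p.2)⁻¹ • p.2) : ST × R3) :=
    (continuous_fst.prodMk (continuous_const.sub continuous_snd)).prodMk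
      ((hρ.inv₀ fun p => (ConeEn_rho_pos hε _).ne').smul continuous_snd)
  have h3 := (ConeEn_cont h).comp h2
  exact h3

theorem ConeEn_step (h : Sol T f E B) (h0 : ∀ p : PS, p.1 ∈ Icc 0 T → 0 ≤ f p) {𝓔 : ℝ}
    (he : Bd (fun y => TT f E B (0, y) 1 0 1 0) 𝓔) {t : ℝ} (ht : t ∈ Icc 0 T) (x : R3) {ε : ℝ}
    (hε : 0 < ε) :
    ∫⁻ z, ∫⁻ s in Ioc 0 t, ENNReal.ofReal (ConeEn_K f E B t ε x (s, z)) ≤ ENNReal.ofReal 𝓔 := by
  have hKc := ConeEn_cont_K h t hε x
  have hsupp : ∃ R : ℝ, ∀ p : ST, |p.1| ≤ T + 1 → R < ‖p.2‖ → ConeEn_w t ε x p = 0 := by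
    refine ⟨‖x‖ + (2 * T + 1), fun p hp hR => ConeEn_Th_zero hε ?_⟩
    have h1 := ConeEn_norm_le_rho ε (x - p.2)
    have h2 : ‖p.2‖ - ‖x‖ ≤ ‖x - p.2‖ := by
      rw [norm_sub_rev]; exact norm_sub_norm_le _ _
    have h3 := (abs_le.1 hp).1
    linarith [ht.2]
  have hid := h.energy_id (ConeEn_contDiff_w t hε x) hsupp ht
  have hL : ∫ y, ConeEn_w t ε x (t, y) * TT f E B (t, y) 1 0 1 0 = 0 := by
    have : ∀ y, ConeEn_w t ε x (t, y) * TT f E B (t, y) 1 0 1 0 = 0 := fun y => by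
      have : ConeEn_w t ε x (t, y) = 0 :=
        ConeEn_Th_zero hε (by linarith [ConeEn_rho_pos hε (x - y)])
      rw [this, zero_mul]
    simp only [this, integral_zero]
  have hR : ∀ s, ∫ y, TT f E B (s, y) 1 0 (fderiv ℝ (ConeEn_w t ε x) (s, y) (1, 0))
      (-(gradient (fun y => ConeEn_w t ε x (s, y)) y)) = -∫ z, ConeEn_K f E B t ε x (s, z) := by
    intro s
    rw [← integral_neg, ← integral_sub_left_eq_self (fun z => -ConeEn_K f E B t ε x (s, z))
      volume x]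
    refine integral_congr_ae (Eventually.of_forall fun y => ?_)
    have hl := TT_lin (E := E) (B := B) h.step.sf.continuous h.step.vf (s, y) 1 1 0
      (-ConeEn_k t ε (s + ConeEn_rho ε (x - y))) 0 0 ((ConeEn_rho ε (x - y))⁻¹ • (x - y)) 0
    simp only [mul_one, mul_zero, add_zero, smul_zero, zero_mul] at hl
    simp only [ConeEn_dt_w t hε, ConeEn_grad_w t hε, hl, ConeEn_K, sub_sub_cancel, neg_mul]
  simp only [hL, hR, intervalIntegral.integral_neg] at hid
  rw [intervalIntegral.integral_of_le ht.1] at hid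
  -- integrability on the product
  have hint : Integrable (ConeEn_K f E B t ε x) ((volume.restrict (Ioc 0 t)).prod volume) := by
    have h1 : IntegrableOn (ConeEn_K f E B t ε x) (Icc 0 t ×ˢ closedBall (0 : R3) t)
        ((volume : Measure ℝ).prod volume) :=
      hKc.continuousOn.integrableOn_compact (isCompact_Icc.prod (isCompact_closedBall _ _))
    have h2 : IntegrableOn (ConeEn_K f E B t ε x) (Ioc 0 t ×ˢ univ)
        ((volume : Measure ℝ).prod volume) := by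
      refine h1.of_forall_sdiff_eq_zero (measurableSet_Ioc.prod MeasurableSet.univ) ?_
      rintro ⟨s, z⟩ ⟨⟨hs, -⟩, hn⟩
      have hz : t < ‖z‖ := by
        by_contra hz
        exact hn ⟨Ioc_subset_Icc_self hs, by simpa using not_lt.1 hz⟩
      have : ConeEn_k t ε (s + ConeEn_rho ε z) = 0 :=
        ConeEn_k_zero hε (by linarith [ConeEn_norm_le_rho ε z, hs.1])
      simp only [ConeEn_K, this, zero_mul]
    rwa [IntegrableOn, ← Measure.prod_restrict, Measure.restrict_univ] at h2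
  have hnn : 0 ≤ᵐ[(volume.restrict (Ioc 0 t)).prod volume] ConeEn_K f E B t ε x := by
    have h2 : ∀ᵐ p ∂(((volume : Measure ℝ).prod (volume : Measure R3)).restrict
        (Ioc 0 t ×ˢ univ)), 0 ≤ ConeEn_K f E B t ε x p := by
      refine ae_restrict_of_forall_mem (measurableSet_Ioc.prod MeasurableSet.univ) ?_
      rintro ⟨s, z⟩ ⟨hs, -⟩
      refine mul_nonneg (ConeEn_k_nonneg t hε _) (TT_nonneg (fun v => h0 _ ?_) (by simp)
        (ConeEn_norm_nu_le hε z))
      exact ⟨hs.1.le, hs.2.trans ht.2⟩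
    rwa [← Measure.prod_restrict, Measure.restrict_univ] at h2
  rw [← lintegral_prod_symm' (fun p => ENNReal.ofReal (ConeEn_K f E B t ε x p))
    hKc.measurable.ennreal_ofReal, ← ofReal_integral_eq_lintegral_ofReal hint hnn,
    integral_prod _ hint]
  have hE : ∫ s in Ioc 0 t, ∫ z, ConeEn_K f E B t ε x (s, z) =
      ∫ y, ConeEn_w t ε x (0, y) * TT f E B (0, y) 1 0 1 0 := by linarith
  rw [hE]
  have hT0 : ∀ y, 0 ≤ TT f E B (0, y) 1 0 1 0 := fun y =>
    TT_nonneg (fun v => h0 _ ⟨le_rfl, ht.1.trans ht.2⟩) (by simp) (by simp)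
  refine (Real.ofReal_le_enorm _).trans ((enorm_integral_le_lintegral_enorm _).trans
    (le_trans (lintegral_mono fun y => ?_) he))
  have w0 : 0 ≤ ConeEn_w t ε x (0, y) := Real.smoothTransition.nonneg _
  have w1 : ConeEn_w t ε x (0, y) ≤ 1 := Real.smoothTransition.le_one _
  rw [Real.enorm_eq_ofReal (mul_nonneg w0 (hT0 y))]
  exact ENNReal.ofReal_le_ofReal (mul_le_of_le_one_left (hT0 y) w1)

theorem ConeEn_liminf (h : Sol T f E B) (t : ℝ) (x : R3) {z : R3} (hz0 : z ≠ 0) (hz : ‖z‖ < t)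
    {ε : ℕ → ℝ} (hε : ∀ n, 0 < ε n) (hl : Tendsto ε atTop (𝓝 0)) :
    ENNReal.ofReal (TT f E B (cp t x z) 1 0 1 (nz z)) ≤
      liminf (fun n => ∫⁻ s in Ioc 0 t, ENNReal.ofReal (ConeEn_K f E B t (ε n) x (s, z)))
        atTop := by
  refine le_of_forall_lt_imp_le_of_dense fun c hc => ?_
  have hct : c ≠ ⊤ := (hc.trans ENNReal.ofReal_lt_top).ne
  rw [← ENNReal.ofReal_toReal hct]
  have hc' : c.toReal < TT f E B (cp t x z) 1 0 1 (nz z) := by
    rw [← ENNReal.ofReal_toReal hct] at hc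
    exact (ENNReal.ofReal_lt_ofReal_iff_of_nonneg ENNReal.toReal_nonneg).1 hc
  have hG : Continuous fun q : ℝ × R3 => TT f E B (q.1, x - z) 1 0 1 q.2 := by
    have h2 : Continuous fun q : ℝ × R3 => ((((q.1, x - z) : ST), q.2) : ST × R3) :=
      (continuous_fst.prodMk continuous_const).prodMk continuous_snd
    have h3 := (ConeEn_cont h).comp h2
    exact h3
  have hev : ∀ᶠ q : ℝ × R3 in 𝓝 (t - ‖z‖, nz z), c.toReal < TT f E B (q.1, x - z) 1 0 1 q.2 :=
    (hG.tendsto (t - ‖z‖, nz z)).eventually (lt_mem_nhds hc')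
  obtain ⟨η, hη, hq⟩ := Metric.eventually_nhds_iff.1 hev
  have hρ : Tendsto (fun n => ConeEn_rho (ε n) z) atTop (𝓝 ‖z‖) := by
    have h2 : Tendsto (fun n => ‖z‖ + ε n) atTop (𝓝 ‖z‖) := by
      simpa using hl.const_add ‖z‖
    exact tendsto_of_tendsto_of_tendsto_of_le_of_le tendsto_const_nhds h2
      (fun n => ConeEn_norm_le_rho _ _) fun n => ConeEn_rho_le (hε n).le _
  have hν : Tendsto (fun n => (ConeEn_rho (ε n) z)⁻¹ • z) atTop (𝓝 (nz z)) :=
    (hρ.inv₀ (norm_ne_zero_iff.2 hz0)).smul_const z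
  refine le_liminf_of_le (by isBoundedDefault) ?_
  have e1 : ∀ᶠ n in atTop, ε n < min η (t - ‖z‖) / 2 :=
    hl.eventually (gt_mem_nhds (half_pos (lt_min hη (by linarith))))
  filter_upwards [e1, Metric.tendsto_nhds.1 hν η hη] with n h1 h2
  have a1 := min_le_left η (t - ‖z‖)
  have a2 := min_le_right η (t - ‖z‖)
  have a3 := ConeEn_norm_le_rho (ε n) z
  have a4 := ConeEn_rho_le (hε n).le z
  have a5 := hε n
  refine ConeEn_avg (hε n) ENNReal.toReal_nonneg (ConeEn_rho_pos (hε n) z).le (by linarith)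
    (g := fun s => TT f E B (s, x - z) 1 0 1 ((ConeEn_rho (ε n) z)⁻¹ • z)) fun s hs => ?_
  refine le_of_lt (hq (y := (s, (ConeEn_rho (ε n) z)⁻¹ • z)) ?_)
  rw [Prod.dist_eq]
  refine max_lt ?_ h2
  rw [Real.dist_eq, abs_lt]
  constructor <;> linarith [hs.1, hs.2]

theorem Sol.cone_energy (h : Sol T f E B) (h0 : ∀ p : PS, p.1 ∈ Icc 0 T → 0 ≤ f p) {𝓔 : ℝ}
    (he : Bd (fun y => TT f E B (0, y) 1 0 1 0) 𝓔) : ∀ t ∈ Icc 0 T, ∀ x : R3,
    Bd ((ball (0 : R3) t).indicator fun z => TT f E B (cp t x z) 1 0 1 (nz z)) 𝓔 := by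
  intro t ht x
  have hε : ∀ n : ℕ, (0 : ℝ) < 1 / ((n : ℝ) + 1) := fun n => Nat.one_div_pos_of_nat
  have hl : Tendsto (fun n : ℕ => (1 : ℝ) / ((n : ℝ) + 1)) atTop (𝓝 0) :=
    tendsto_one_div_add_atTop_nhds_zero_nat
  have hF := lintegral_liminf_le (μ := (volume : Measure R3)) (u := atTop)
    (f := fun (n : ℕ) z => ∫⁻ s in Ioc 0 t,
      ENNReal.ofReal (ConeEn_K f E B t (1 / ((n : ℝ) + 1)) x (s, z)))
    (fun n => (ConeEn_cont_K h t (hε n) x).measurable.ennreal_ofReal.lintegral_prod_left')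
  refine le_trans (lintegral_mono_ae ?_) (hF.trans ?_)
  · have hne : ∀ᵐ z : R3, z ≠ 0 := by
      simp [ae_iff]
    filter_upwards [hne] with z hz0
    by_cases hz : z ∈ ball (0 : R3) t
    · rw [indicator_of_mem hz]
      exact ConeEn_liminf h t x hz0 (by simpa using hz) hε hl
    · rw [indicator_of_notMem hz, ENNReal.ofReal_zero]
      exact zero_le
  · exact liminf_le_of_frequently_le' (Frequently.of_forall fun n =>
      ConeEn_step h h0 he ht x (hε n))

theorem Sol.apri (h : Sol T f E B) {M 𝓔 : ℝ} (h0 : ∀ y, 0 ≤ f (0, y) ∧ f (0, y) ≤ M)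
    (he : Bd (fun y => TT f E B (0, y) 1 0 1 0) 𝓔) : Apri T M 𝓔 f E B :=
  have hr := h.step.range h0
  ⟨h, fun p hp => (hr p hp).1, fun p hp => (hr p hp).2,
    h.slice_energy (fun p hp => (hr p hp).1) he, h.cone_energy (fun p hp => (hr p hp).1) he⟩

end

end Crest.Agent.R106
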