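import Mathlib
import Crest.Prelude.Def_VlasovMaxwell

/-!
# Row 106 (S0140, relativistic Vlasov–Maxwell in 3D): definitions

All internal objects are globally smooth *uncurried* functions: `f : ℝ × (R3 × R3) → ℝ`
(time, position, momentum), `E B : ℝ × R3 → R3`; the equations are only required for times in
`Icc 0 T`.  See `Crest/Agent/R106/Plan.lean` for the proof.
DO NOT EDIT THIS FILE without asking helper64.
-/

set_option autoImplicit false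

open MeasureTheory Metric Set Filter Topology
open scoped ContDiff ENNReal RealInnerProductSpace
open Crest.AnalysisR.VecCalc3 Crest.AnalysisR.PDE.RVM

noncomputable section

namespace Crest.Agent.R106

/-- space-time -/
abbrev ST : Type := ℝ × R3
/-- time × phase space -/
abbrev PS : Type := ℝ × R3 × R3

/-- `v₀ = √(1+|v|²)` -/
def en (v : R3) : ℝ := Real.sqrt (1 + ‖v‖ ^ 2)

/-- Lorentz force `E + v̂ × B` -/
def lor (E B v : R3) : R3 := E + cross3 (relVel v) B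

/-- charge density -/
def rho (h : PS → ℝ) (p : ST) : ℝ := ∫ v, h (p.1, p.2, v)

/-- current density -/
def cur (h : PS → ℝ) (p : ST) : R3 := ∫ v, h (p.1, p.2, v) • relVel v

/-- Maxwell's equations at the point `p` -/
structure MaxAt (E B : ST → R3) (ρ : ST → ℝ) (j : ST → R3) (p : ST) : Prop where
  amp : fderiv ℝ E p (1, 0) = curl3 (fun y => B (p.1, y)) p.2 - j p
  far : fderiv ℝ B p (1, 0) = - curl3 (fun y => E (p.1, y)) p.2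
  gE : div3 (fun y => E (p.1, y)) p.2 = ρ p
  gB : div3 (fun y => B (p.1, y)) p.2 = 0

/-- the momentum support is bounded, locally uniformly in time -/
def VSupp {F : Type*} [Zero F] (h : PS → F) : Prop :=
  ∀ T₁ : ℝ, ∃ R : ℝ, ∀ (s : ℝ) (y v : R3), |s| ≤ T₁ → R < ‖v‖ → h (s, y, v) = 0

/-- divergence in the momentum variable -/
def divV (H : PS → R3) (p : PS) : ℝ := div3 (fun w => H (p.1, p.2.1, w)) p.2.2

/-- `‖D^k u(s,·)‖ ≤ C` (derivatives in all non-time variables) -/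
def Bx {X F : Type*} [NormedAddCommGroup X] [NormedSpace ℝ X] [NormedAddCommGroup F]
    [NormedSpace ℝ F] (k : ℕ) (u : ℝ × X → F) (s C : ℝ) : Prop :=
  ∀ y, ‖iteratedFDeriv ℝ k (fun y => u (s, y)) y‖ ≤ C

/-- the linear system `(∂ₜ + v̂·∇ₓ) h = - div_v H`, Maxwell with sources `ρ[h], j[h]`, on `[0,T]`.
It is closed under `x`-differentiation and under differences. -/
structure Lin (T : ℝ) (h : PS → ℝ) (H : PS → R3) (E B : ST → R3) : Prop where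
  sh : ContDiff ℝ ∞ h
  sH : ContDiff ℝ ∞ H
  sE : ContDiff ℝ ∞ E
  sB : ContDiff ℝ ∞ B
  vh : VSupp h
  vH : VSupp H
  tr : ∀ p : PS, p.1 ∈ Icc 0 T → fderiv ℝ h p (1, relVel p.2.2, 0) = - divV H p
  mx : ∀ p : ST, p.1 ∈ Icc 0 T → MaxAt E B (rho h) (cur h) p

/-- Vlasov equation with the fields `E', B'` at the point `p` -/
def VlAt (E' B' : ST → R3) (f : PS → ℝ) (p : PS) : Prop :=
  fderiv ℝ f p (1, relVel p.2.2, lor (E' (p.1, p.2.1)) (B' (p.1, p.2.1)) p.2.2) = 0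

/-- one step of the iteration on the time set `I`: `f` is transported by `(E',B')`, and
`(E,B)` solve Maxwell with the sources of `f` -/
structure StepOn (I : Set ℝ) (E' B' : ST → R3) (f : PS → ℝ) (E B : ST → R3) : Prop where
  sE' : ContDiff ℝ ∞ E'
  sB' : ContDiff ℝ ∞ B'
  sf : ContDiff ℝ ∞ f
  sE : ContDiff ℝ ∞ E
  sB : ContDiff ℝ ∞ B
  vf : VSupp f
  vl : ∀ p : PS, p.1 ∈ I → VlAt E' B' f p
  mx : ∀ p : ST, p.1 ∈ I → MaxAt E B (rho f) (cur f) p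
  bd' : ∀ (T₁ : ℝ) (k : ℕ), ∃ C, ∀ s ∈ I, |s| ≤ T₁ → Bx k E' s C ∧ Bx k B' s C

/-- one step on `[0,T]` -/
abbrev Step (T : ℝ) := StepOn (Icc 0 T)

/-- a smooth solution on `[0,T]` -/
structure Sol (T : ℝ) (f : PS → ℝ) (E B : ST → R3) : Prop where
  step : Step T E B f E B
  xs : ∃ R : ℝ, ∀ s ∈ Icc 0 T, ∀ y v : R3, R < ‖y‖ → f (s, y, v) = 0

/-- smooth data (no sign condition, no `L²` condition) -/
structure Dat (f₀ : R3 × R3 → ℝ) (E₀ B₀ : R3 → R3) : Prop where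
  sf : ContDiff ℝ ∞ f₀
  sE : ContDiff ℝ ∞ E₀
  sB : ContDiff ℝ ∞ B₀
  cs : HasCompactSupport f₀
  bd : ∀ k : ℕ, ∃ C : ℝ, ∀ x, ‖iteratedFDeriv ℝ k E₀ x‖ ≤ C ∧ ‖iteratedFDeriv ℝ k B₀ x‖ ≤ C
  gE : ∀ x, div3 E₀ x = ∫ v, f₀ (x, v)
  gB : ∀ x, div3 B₀ x = 0

/-- the data are taken at time `0` -/
def Init (f : PS → ℝ) (E B : ST → R3) (f₀ : R3 × R3 → ℝ) (E₀ B₀ : R3 → R3) : Prop :=
  (∀ y, f (0, y) = f₀ y) ∧ (∀ x, E (0, x) = E₀ x) ∧ ∀ x, B (0, x) = B₀ x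

/-- derivatives of order `≤ m` of `(f,E,B)` at time `s` are bounded by `D` -/
def DBd (m : ℕ) (f : PS → ℝ) (E B : ST → R3) (s D : ℝ) : Prop :=
  ∀ k ≤ m, Bx k f s D ∧ Bx k E s D ∧ Bx k B s D

/-- `f(s,·,v) = 0` for `|v| > R` -/
def VS {F : Type*} [Zero F] (f : PS → F) (s R : ℝ) : Prop :=
  ∀ y v : R3, R < ‖v‖ → f (s, y, v) = 0

/-- a characteristic of the fields `(E,B)` on `[a,b]` -/
structure Char (E B : ST → R3) (a b : ℝ) (X V : ℝ → R3) : Prop where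
  cX : Continuous X
  cV : Continuous V
  dX : ∀ t ∈ Ioo a b, HasDerivAt X (relVel (V t)) t
  dV : ∀ t ∈ Ioo a b, HasDerivAt V (lor (E (t, X t)) (B (t, X t)) (V t)) t

/-- time reflection -/
def reflF (f : PS → ℝ) : PS → ℝ := fun p => f (-p.1, p.2.1, -p.2.2)
/-- time reflection of the electric field -/
def reflE (E : ST → R3) : ST → R3 := fun p => E (-p.1, p.2)
/-- time reflection of the magnetic field -/
def reflB (B : ST → R3) : ST → R3 := fun p => - B (-p.1, p.2)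
/-- time translation -/
def shift {X F : Type*} (t₁ : ℝ) (u : ℝ × X → F) : ℝ × X → F := fun p => u (t₁ + p.1, p.2)

/-- a classical solution in the sense of the Prelude, without data and without `L²` conditions -/
structure Cl (T : ℝ) (f : ℝ → R3 → R3 → ℝ) (E B : ℝ → R3 → R3) : Prop where
  cf : ContDiffOn ℝ 1 (fun p : ℝ × R3 × R3 => f p.1 p.2.1 p.2.2) (Set.Ico 0 T ×ˢ Set.univ)
  cE : ContDiffOn ℝ 1 (fun p : ℝ × R3 => E p.1 p.2) (Set.Ico 0 T ×ˢ Set.univ)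
  cB : ContDiffOn ℝ 1 (fun p : ℝ × R3 => B p.1 p.2) (Set.Ico 0 T ×ˢ Set.univ)
  eqs : ∀ t : ℝ, 0 < t → t < T → ∀ x : R3, EquationsHoldAt f E B t x
  supp : ∀ T' : ℝ, 0 ≤ T' → T' < T → ∃ R : ℝ, ∀ t ∈ Set.Icc 0 T', ∀ x v : R3,
      (R < ‖x‖ ∨ R < ‖v‖) → f t x v = 0

/-! ### Wave equation -/

/-- d'Alembertian `∂ₜ² - Δ` -/
def box {F : Type*} [NormedAddCommGroup F] [NormedSpace ℝ F] (u : ST → F) (p : ST) : F :=
  fderiv ℝ (fun q => fderiv ℝ u q (1, 0)) p (1, 0) -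
    ∑ i : Fin 3, fderiv ℝ (fun q => fderiv ℝ u q (0, EuclideanSpace.single i 1)) p
      (0, EuclideanSpace.single i 1)

/-- Duhamel operator in rescaled form (valid for all real `t`); for `t ≥ 0` it is
`∫_{|z|<t} G(t-|z|, x-z)/(4π|z|) dz` -/
def duh {F : Type*} [NormedAddCommGroup F] [NormedSpace ℝ F] (G : ST → F) (p : ST) : F :=
  p.1 ^ 2 • ∫ ζ in ball (0 : R3) 1, (4 * Real.pi * ‖ζ‖)⁻¹ • G (p.1 * (1 - ‖ζ‖), p.2 - p.1 • ζ)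

/-! ### Geometry of the backward cone and the Glassey–Strauss kernels -/

/-- unit vector `z/|z|` -/
def nz (z : R3) : R3 := ‖z‖⁻¹ • z

/-- `1 - a·b` -/
def ang (a b : R3) : ℝ := 1 - ⟪a, b⟫

/-- the point of the backward cone with vertex `(t,x)` and offset `z` -/
def cp (t : ℝ) (x z : R3) : ST := (t - ‖z‖, x - z)

/-- the same with a momentum -/
def cq (t : ℝ) (x : R3) (q : R3 × R3) : PS := (t - ‖q.1‖, x - q.1, q.2)

/-- `θ² = 1 - v̂·n` -/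
def pp (z v : R3) : ℝ := ang (relVel v) (nz z)
/-- `1 - e·n` (`φ̄²` for the reference direction `e`, `φ²` for the velocity `W` of the vertex) -/
def qq (e z : R3) : ℝ := ang e (nz z)
/-- `ψ² = 1 - v̂·e` -/
def gg (e v : R3) : ℝ := ang (relVel v) e
/-- `λ̄ = |z| - e·z = r φ̄²` -/
def lam (e z : R3) : ℝ := ‖z‖ - ⟪e, z⟫
/-- the cut-off variable `x̄ = P φ̄² √r` -/
def xb (P : ℝ) (e z : R3) : ℝ := P * lam e z / Real.sqrt ‖z‖
/-- projection orthogonal to `e` -/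
def proj (e u : R3) : R3 := u - ⟪e, u⟫ • e

/-- derivative of `v ↦ v̂` in the direction `K` -/
def accK (v K : R3) : R3 := (en v)⁻¹ • (K - ⟪relVel v, K⟫ • relVel v)

/-- radiation vector: derivative of `v ↦ (n - v̂)/(1 - v̂·n)` in the direction `K` -/
def radK (z v K : R3) : R3 :=
  (pp z v ^ 2)⁻¹ • (⟪nz z, accK v K⟫ • (nz z - relVel v) - pp z v • accK v K)

/-- `T`-kernel contracted with the four-vector `(a₀,a)` -/
def kT (a₀ : ℝ) (a z v : R3) : R3 :=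
  (en v ^ 2 * ‖z‖ ^ 2 * pp z v ^ 2)⁻¹ •
    ((a₀ - ⟪relVel v, a⟫) • nz z - (a₀ - ⟪nz z, a⟫) • relVel v)

/-- `S`-kernel contracted with the four-vector `(a₀,a)` -/
def kS (a₀ : ℝ) (a z v K : R3) : R3 :=
  ‖z‖⁻¹ • ((a₀ - ⟪nz z, a⟫) • radK z v K + ⟪a, radK z v K⟫ • nz z)

/-- Glassey–Strauss integrand for `4π (E + W × B)(t,x)` -/
def gsK (W : R3) (h : PS → ℝ) (H : PS → R3) (t : ℝ) (x : R3) (q : R3 × R3) : R3 :=
  h (cq t x q) • kT 1 W q.1 q.2 + kS 1 W q.1 q.2 (H (cq t x q))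

/-! ### Stress tensor -/

/-- field energy density -/
def ef (E B : R3) : ℝ := (‖E‖ ^ 2 + ‖B‖ ^ 2) / 2

/-- field stress tensor on the four-vectors `(a₀,a)`, `(b₀,b)` -/
def Tf (E B : R3) (a₀ : ℝ) (a : R3) (b₀ : ℝ) (b : R3) : ℝ :=
  a₀ * b₀ * ef E B - a₀ * ⟪cross3 E B, b⟫ - b₀ * ⟪cross3 E B, a⟫ +
    (ef E B * ⟪a, b⟫ - ⟪E, a⟫ * ⟪E, b⟫ - ⟪B, a⟫ * ⟪B, b⟫)

/-- particle weight of the stress tensor -/
def Tw (v : R3) (a₀ : ℝ) (a : R3) (b₀ : ℝ) (b : R3) : ℝ :=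
  en v * (a₀ - ⟪relVel v, a⟫) * (b₀ - ⟪relVel v, b⟫)

/-- total stress tensor at the space-time point `p` -/
def TT (f : PS → ℝ) (E B : ST → R3) (p : ST) (a₀ : ℝ) (a : R3) (b₀ : ℝ) (b : R3) : ℝ :=
  Tf (E p) (B p) a₀ a b₀ b + ∫ v, f (p.1, p.2, v) * Tw v a₀ a b₀ b

/-- `∫ g⁺ dμ ≤ C` -/
def Bd {α : Type*} [MeasureSpace α] (g : α → ℝ) (C : ℝ) : Prop :=
  ∫⁻ a, ENNReal.ofReal (g a) ≤ ENNReal.ofReal C

/-- the standing a-priori information on a solution on `[0,T]`: `0 ≤ f ≤ M`, energy `≤ 𝓔` on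
every time slice and through every backward light cone -/
structure Apri (T M 𝓔 : ℝ) (f : PS → ℝ) (E B : ST → R3) : Prop where
  sol : Sol T f E B
  f0 : ∀ p : PS, p.1 ∈ Icc 0 T → 0 ≤ f p
  fM : ∀ p : PS, p.1 ∈ Icc 0 T → f p ≤ M
  sl : ∀ s ∈ Icc 0 T, Bd (fun y => TT f E B (s, y) 1 0 1 0) 𝓔
  co : ∀ t ∈ Icc 0 T, ∀ x : R3,
    Bd ((ball (0 : R3) t).indicator fun z => TT f E B (cp t x z) 1 0 1 (nz z)) 𝓔

/-! ### The normal form -/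

/-- the potential `Ψ̃` -/
def psi (e z v : R3) : R3 :=
  (‖z‖ * pp z v * qq e z)⁻¹ • (gg e v • nz z - qq e z • relVel v - pp z v • e)

/-- the two cut-off functions -/
structure Cut (P r₂ Cc : ℝ) (χ₀ χ₁ : ℝ → ℝ) : Prop where
  s₀ : ContDiff ℝ ∞ χ₀
  s₁ : ContDiff ℝ ∞ χ₁
  r₀ : ∀ x, 0 ≤ χ₀ x ∧ χ₀ x ≤ 1
  r₁ : ∀ x, 0 ≤ χ₁ x ∧ χ₁ x ≤ 1
  z₀ : ∀ x, x ≤ P ^ (-(1 / 50 : ℝ)) → χ₀ x = 0
  o₀ : ∀ x, P ^ (-(1 / 100 : ℝ)) ≤ x → χ₀ x = 1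
  d₀ : ∀ x, |x * deriv χ₀ x| ≤ Cc / Real.log P
  o₁ : ∀ r, r ≤ r₂ → χ₁ r = 1
  z₁ : ∀ r, 2 * r₂ ≤ r → χ₁ r = 0
  d₁ : ∀ r, |r * deriv χ₁ r| ≤ Cc

/-- the cut-off `χ(e,z)` -/
def chi (P : ℝ) (χ₀ χ₁ : ℝ → ℝ) (e z : R3) : ℝ := χ₀ (xb P e z) * χ₁ ‖z‖

/-- `G = χ Ψ̃` as a function of `(e,z,v)` -/
def Gk (P : ℝ) (χ₀ χ₁ : ℝ → ℝ) (a : R3 × R3 × R3) : R3 :=
  chi P χ₀ χ₁ a.1 a.2.1 • psi a.1 a.2.1 a.2.2

/-- `Ψ(t,x,e) = ∬ G θ² f` on the backward cone from `(t,x)` -/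
def PsiH (P : ℝ) (χ₀ χ₁ : ℝ → ℝ) (f : PS → ℝ) (a : ℝ × R3 × R3) : R3 :=
  ∫ q : R3 × R3, (pp q.1 q.2 * f (cq a.1 a.2.1 q)) • Gk P χ₀ χ₁ (a.2.2, q.1, q.2)

/-- derivative of `G` along the motion of a particle through the moving cones (vertex velocity
`W`, reference direction `e` with derivative `ed`, force `K` on the particle) -/
def DG (P : ℝ) (χ₀ χ₁ : ℝ → ℝ) (e ed W z v K : R3) : R3 :=
  fderiv ℝ (Gk P χ₀ χ₁) (e, z, v)
    (pp z v • ed, pp z v • W - qq W z • relVel v, qq W z • K)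

/-- kernel of `4π d/dt (V - Ψ/4π)` -/
def Hk (P : ℝ) (χ₀ χ₁ : ℝ → ℝ) (t : ℝ) (e ed W z v K : R3) : R3 :=
  (ball (0 : R3) t).indicator (fun z => kT 1 W z v + kS 1 W z v K) z - DG P χ₀ χ₁ e ed W z v K

/-! ### Regions of the cone -/

/-- integration-by-parts region -/
def RI (P r₂ : ℝ) (e : R3) : Set R3 := {z | P ^ (-(1 / 50 : ℝ)) ≤ xb P e z ∧ ‖z‖ ≤ 2 * r₂}
/-- near direct region -/
def RD (P r₂ : ℝ) (e : R3) : Set R3 := {z | xb P e z ≤ P ^ (-(1 / 100 : ℝ)) ∧ ‖z‖ ≤ 2 * r₂}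
/-- far region -/
def RF (r₂ t : ℝ) : Set R3 := {z | r₂ ≤ ‖z‖ ∧ ‖z‖ < t}
/-- region of the null flux estimate -/
def RL (P τ : ℝ) (e : R3) : Set R3 :=
  {z | P ^ (-(41 / 20 : ℝ)) ≤ lam e z ∧ ‖z‖ ^ 2 ≤ τ * lam e z}
/-- regions of the energy flux estimate -/
def RE (η r₃ : ℝ) (e : R3) : Set R3 := {z | η ≤ lam e z ∧ ‖z‖ ≤ r₃}

/-! ### Majorants (`cf` = field energy flux through the cone, `b = |B|`) -/

def gT (W z v : R3) : ℝ :=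
  (√(pp z v) + √(qq W z)) / (en v ^ 2 * ‖z‖ ^ 2 * pp z v * √(pp z v))
def gSg (cf : ℝ) (W z v : R3) : ℝ := √(qq W z) * √cf / (‖z‖ * en v * pp z v)
def gSb (b : ℝ) (W z v : R3) : ℝ := √(qq W z) * b / (‖z‖ * en v)
def gSp (b : ℝ) (e W z v : R3) : ℝ := √(qq W z) * (√(qq W z) + √(qq e z)) * b / (‖z‖ * en v)
def mT1 (e z v : R3) : ℝ := (√(pp z v) + √(qq e z)) / (‖z‖ ^ 2 * qq e z)
def mT2 (e z v : R3) : ℝ :=
  (√(pp z v) + √(qq e z)) / (√(qq e z) * en v ^ 2 * ‖z‖ ^ 2 * pp z v * √(pp z v))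
def mSg (cf : ℝ) (z v : R3) : ℝ := √cf / (‖z‖ * en v * pp z v)
def mSb (b : ℝ) (z v : R3) : ℝ := b / (‖z‖ * en v)
def kA (e z v : R3) : ℝ := √(pp z v) / (‖z‖ * qq e z)
def kE (e z v : R3) : ℝ := (pp z v + qq e z) / (‖z‖ ^ 2 * √(pp z v) * √(qq e z))
def kP (e z v : R3) : ℝ := √(pp z v) / (‖z‖ * √(qq e z))
def kPp (e z v : R3) : ℝ := √(pp z v) * (√(pp z v) + √(qq e z)) / (‖z‖ * √(qq e z))

/-- the part of the majorant of `Hk` common to the full norm and to the transversal part -/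
def gAll (P r₂ t δ A cf b : ℝ) (e W z v : R3) : ℝ :=
  (RD P r₂ e ∪ RF r₂ t).indicator (fun z => gT W z v + gSg cf W z v) z +
  (RI P r₂ e).indicator
    (fun z => δ * (mT1 e z v + mT2 e z v + mSg cf z v + mSb b z v) + A * kA e z v) z +
  (RI P r₂ e ∩ RD P r₂ e).indicator (fun z => kE e z v / Real.log P) z +
  (RI P r₂ e ∩ RF r₂ t).indicator (fun z => kE e z v) z

/-- geometric data at a fixed time -/
structure Geo (P δ : ℝ) (e W : R3) : Prop where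
  e1 : ‖e‖ = 1
  W1 : ‖W‖ < 1
  dW : ‖W - e‖ ≤ δ
  mu : ang e W ≤ δ ^ 2
  dP : δ ≤ P ^ (-(57 / 100 : ℝ))

/-- the configuration on one backward cone: density `F(z,v)`, fields `Ez, Bz`, and the values
`s, y, y₁, y₂` of the slice energy, null flux and energy flux densities -/
structure Frz (M 𝓔 T r₂ P τ t δ : ℝ) (e W : R3) (F : R3 × R3 → ℝ) (Ez Bz : R3 → R3)
    (s y y₁ y₂ : ℝ) : Prop where
  geo : Geo P δ e W
  τ0 : P ^ (-(1 / 100 : ℝ)) ≤ τ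
  τ1 : τ ≤ 1
  tr : 2 * r₂ < t
  tT : t ≤ T
  mF : Measurable F
  mE : Measurable Ez
  mB : Measurable Bz
  F0 : ∀ q, 0 ≤ F q
  FM : ∀ q, F q ≤ M
  FP : ∀ q, P < en q.2 → F q = 0
  Ft : ∀ q, t ≤ ‖q.1‖ → F q = 0
  s0 : 0 ≤ s
  y0 : 0 ≤ y
  y10 : 0 ≤ y₁
  y20 : 0 ≤ y₂
  cf : Bd ((ball (0 : R3) t).indicator fun z => Tf (Ez z) (Bz z) 1 0 1 (nz z)) 𝓔
  cp : Bd (fun q : R3 × R3 => F q * (en q.2 * pp q.1 q.2)) 𝓔
  sf : Bd ((ball (0 : R3) t).indicator fun z => qq W z * ef (Ez z) (Bz z)) s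
  sp : Bd (fun q : R3 × R3 => F q * (qq W q.1 * en q.2)) s
  hy : Bd (fun q : R3 × R3 => (RL P τ e).indicator
    (fun z => F q * (qq W z / lam e z * (en q.2 * gg e q.2 ^ 2))) q.1) y
  hy₁ : Bd (fun q : R3 × R3 => (RE (P ^ (-(41 / 20 : ℝ))) (P ^ (-(2 / 3 : ℝ))) e).indicator
    (fun z => F q * (qq W z / lam e z * (en q.2 * gg e q.2))) q.1) y₁
  hy₂ : Bd (fun q : R3 × R3 => (RE (P ^ (-(7 / 5 : ℝ))) (P ^ (-(9 / 20 : ℝ))) e).indicator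
    (fun z => F q * (qq W z / lam e z * (en q.2 * gg e q.2))) q.1) y₂

/-- `Est bound g`: the frozen-time estimate `∬ F g ≤ C · bound` with `C, P₀` depending only on
`M, 𝓔, T, r₂`.  Here `g P t e W cf b z v` is the kernel (`cf` the field flux, `b = |B|`) and
`bound P s y y₁ y₂` the size. -/
def Est (g : ℝ → ℝ → ℝ → R3 → R3 → ℝ → ℝ → R3 → R3 → ℝ) (bound : ℝ → ℝ → ℝ → ℝ → ℝ → ℝ) : Prop :=
  ∀ M 𝓔 T r₂ : ℝ, 0 ≤ M → 0 ≤ 𝓔 → 0 ≤ T → 0 < r₂ → r₂ ≤ 1 / 4 →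
    ∃ C P₀ : ℝ, 0 ≤ C ∧ ∀ P, P₀ ≤ P → ∀ (τ t δ : ℝ) (e W : R3) (F : R3 × R3 → ℝ) (Ez Bz : R3 → R3) (s y y₁ y₂ : ℝ),
      Frz M 𝓔 T r₂ P τ t δ e W F Ez Bz s y y₁ y₂ →
      Bd (fun q : R3 × R3 => F q *
        g P r₂ t e W (Tf (Ez q.1) (Bz q.1) 1 0 1 (nz q.1)) ‖Bz q.1‖ q.1 q.2) (C * bound P s y y₁ y₂)

/-- the phase-space source `f (E' + v̂ × B')` -/
def frc (E' B' : ST → R3) (f : PS → ℝ) : PS → R3 :=
  fun p => f p • lor (E' (p.1, p.2.1)) (B' (p.1, p.2.1)) p.2.2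

/-- Glassey–Strauss representation with remainder `≤ Cd` -/
def GSRem (T Cd : ℝ) (h : PS → ℝ) (H : PS → R3) (E B : ST → R3) : Prop :=
  ∀ t ∈ Icc 0 T, ∀ x W : R3, ‖W‖ ≤ 1 →
    IntegrableOn (gsK W h H t x) (ball (0 : R3) t ×ˢ univ) ∧
    ‖(4 * Real.pi) • (E (t, x) + cross3 W (B (t, x))) -
      ∫ q in ball (0 : R3) t ×ˢ univ, gsK W h H t x q‖ ≤ Cd

/-- a test characteristic together with a reference direction `e` -/
structure Traj (E B : ST → R3) (t₁ t₂ : ℝ) (X V e ed : ℝ → R3) : Prop where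
  ch : Char E B t₁ t₂ X V
  ce : ContinuousOn e (Icc t₁ t₂)
  ced : ContinuousOn ed (Icc t₁ t₂)
  de : ∀ t ∈ Ioo t₁ t₂, HasDerivAt e (ed t) t
  e1 : ∀ t ∈ Icc t₁ t₂, ‖e t‖ = 1
  orth : ∀ t ∈ Icc t₁ t₂, ⟪e t, ed t⟫ = 0

/-- the density on the backward cone from `(t,x)` -/
def Fc (f : PS → ℝ) (t : ℝ) (x : R3) (q : R3 × R3) : ℝ :=
  (ball (0 : R3) t).indicator (fun _ => f (cq t x q)) q.1

/-- size of the transversal force -/
def fz1 (P s y y₂ δ A : ℝ) : ℝ :=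
  P * Real.log P + P * √(Real.log P * s) + P * √y + P ^ (199 / 200 : ℝ) * (1 + √s + √y) +
    δ * P ^ (164 / 100 : ℝ) + A * P ^ (78 / 100 : ℝ) + P ^ (7 / 10 : ℝ) * √y₂

/-- additional size of the longitudinal force -/
def fz2 (P s y y₁ : ℝ) : ℝ :=
  P ^ (4999 / 5000 : ℝ) * (1 + s + y) + P ^ (53 / 100 : ℝ) * (√s * √y₁)

end Crest.Agent.R106
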