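import Crest.Agent.R106.Axi
import Crest.Agent.R106.CalcB

/-!
# Row 106: divergence theorem on a ball with a singularity at the centre
-/

set_option autoImplicit false
set_option linter.unusedVariables false
set_option linter.unusedSectionVars false

open MeasureTheory Metric Set Filter Topology
open scoped ContDiff ENNReal RealInnerProductSpace
open Crest.AnalysisR.VecCalc3 Crest.AnalysisR.PDE.RVM

noncomputable section

namespace Crest.Agent.R106

theorem Div_cut : ∃ (ϑ ϑ' : ℝ → ℝ) (M : ℝ), (∀ s, HasDerivAt ϑ (ϑ' s) s) ∧ ContDiff ℝ 1 ϑ ∧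
    Continuous ϑ' ∧ (∀ s, 0 ≤ ϑ s ∧ ϑ s ≤ 1) ∧ (∀ s, s ≤ 1 → ϑ s = 0) ∧ (∀ s, 2 ≤ s → ϑ s = 1) ∧
    (∀ s, 2 < s → ϑ' s = 0) ∧ ∀ s, |s * ϑ' s| ≤ M := by
  have h1 : ContDiff ℝ 1 fun s : ℝ => Real.smoothTransition (s - 1) :=
    (Real.smoothTransition.contDiff (n := 1)).comp (contDiff_id.sub contDiff_const)
  have h2 : Continuous (deriv fun s : ℝ => Real.smoothTransition (s - 1)) := h1.continuous_deriv le_rfl
  have h3 : ∀ s : ℝ, s ≤ 1 → Real.smoothTransition (s - 1) = 0 := fun s hs =>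
    Real.smoothTransition.zero_of_nonpos (by linarith)
  have h4 : ∀ s : ℝ, 2 ≤ s → Real.smoothTransition (s - 1) = 1 := fun s hs =>
    Real.smoothTransition.one_of_one_le (by linarith)
  have h5 : ∀ s : ℝ, 2 < s → deriv (fun s : ℝ => Real.smoothTransition (s - 1)) s = 0 := fun s hs => by
    have : (fun s : ℝ => Real.smoothTransition (s - 1)) =ᶠ[𝓝 s] fun _ => 1 :=
      (lt_mem_nhds hs).mono fun u hu => h4 u hu.le
    rw [this.deriv_eq, deriv_const]
  have h6 : ∀ s : ℝ, s < 1 → deriv (fun s : ℝ => Real.smoothTransition (s - 1)) s = 0 := fun s hs => by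
    have : (fun s : ℝ => Real.smoothTransition (s - 1)) =ᶠ[𝓝 s] fun _ => 0 :=
      (gt_mem_nhds hs).mono fun u hu => h3 u hu.le
    rw [this.deriv_eq, deriv_const]
  obtain ⟨M, hM⟩ := (isCompact_Icc (a := (1 : ℝ)) (b := 2)).exists_bound_of_continuousOn
    (continuous_id.mul h2).continuousOn
  refine ⟨_, _, max M 0, fun s => (h1.differentiable one_ne_zero s).hasDerivAt, h1, h2,
    fun s => ⟨Real.smoothTransition.nonneg _, Real.smoothTransition.le_one _⟩, h3, h4, h5, fun s => ?_⟩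
  rcases lt_or_ge s 1 with a | a
  · rw [h6 s a, mul_zero, abs_zero]; exact le_max_right _ _
  rcases lt_or_ge 2 s with b | b
  · rw [h5 s b, mul_zero, abs_zero]; exact le_max_right _ _
  · exact (hM s ⟨a, b⟩).trans (le_max_left _ _)

/-- integration by parts against a radial cut-off -/
theorem Div_ibp {F : Type*} [NormedAddCommGroup F] [NormedSpace ℝ F] [CompleteSpace F]
    {t a b : ℝ} (ha : 0 < a) (hb : b < t) (Ξ : Fin 3 → R3 → F)
    (hΞ : ∀ i z, z ≠ 0 → ContDiffAt ℝ 1 (Ξ i) z) {φ φ' : ℝ → ℝ} (h1 : ContDiff ℝ 1 φ)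
    (h2 : ∀ s, HasDerivAt φ (φ' s) s) (h3 : ∀ s, s ≤ a → φ s = 0) (h4 : ∀ s, b ≤ s → φ s = 0) :
    IntegrableOn (fun z : R3 => φ ‖z‖ • ∑ i, fderiv ℝ (Ξ i) z (EuclideanSpace.single i 1) +
      φ' ‖z‖ • ∑ i, nz z i • Ξ i z) (ball 0 t \ {0}) ∧
    ∫ z in ball (0 : R3) t \ {0}, (φ ‖z‖ • ∑ i, fderiv ℝ (Ξ i) z (EuclideanSpace.single i 1) +
      φ' ‖z‖ • ∑ i, nz z i • Ξ i z) = 0 := by
  have e0 : ∀ i (z : R3), ‖z‖ < a ∨ b < ‖z‖ → (fun z : R3 => φ ‖z‖ • Ξ i z) =ᶠ[𝓝 z] fun _ => 0 := by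
    rintro i z (h | h)
    · filter_upwards [continuous_norm.continuousAt.eventually (gt_mem_nhds h)] with y hy
      rw [h3 _ hy.le, zero_smul]
    · filter_upwards [continuous_norm.continuousAt.eventually (lt_mem_nhds h)] with y hy
      rw [h4 _ hy.le, zero_smul]
  have s1 : ∀ i, ContDiff ℝ 1 fun z : R3 => φ ‖z‖ • Ξ i z := fun i =>
    contDiff_iff_contDiffAt.2 fun z => by
      by_cases hz : z = 0
      · exact contDiffAt_const.congr_of_eventuallyEq (e0 i z (Or.inl (by rwa [hz, norm_zero])))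
      · exact (h1.contDiffAt.comp z (contDiffAt_norm ℝ hz)).smul (hΞ i z hz)
  have s2 : ∀ i, HasCompactSupport fun z : R3 => φ ‖z‖ • Ξ i z := fun i =>
    HasCompactSupport.intro (isCompact_closedBall (0 : R3) b) fun z hz => by
      rw [mem_closedBall_zero_iff, not_le] at hz
      rw [h4 _ hz.le, zero_smul]
  have i1 : ∀ i, Integrable fun z => fderiv ℝ (fun z : R3 => φ ‖z‖ • Ξ i z) z
      (EuclideanSpace.single i 1) := fun i =>
    (((s1 i).continuous_fderiv one_ne_zero).clm_apply continuous_const).integrable_of_hasCompactSupport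
      ((s2 i).fderiv_apply ℝ _)
  have hm : MeasurableSet (ball (0 : R3) t \ {0}) := measurableSet_ball.diff (measurableSet_singleton _)
  have e1 : EqOn (fun z => ∑ i, fderiv ℝ (fun z : R3 => φ ‖z‖ • Ξ i z) z (EuclideanSpace.single i 1))
      (fun z : R3 => φ ‖z‖ • ∑ i, fderiv ℝ (Ξ i) z (EuclideanSpace.single i 1) +
        φ' ‖z‖ • ∑ i, nz z i • Ξ i z) (ball 0 t \ {0}) := by
    intro z hz
    have hz' : z ≠ 0 := hz.2
    simp only [Finset.smul_sum, ← Finset.sum_add_distrib]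
    refine Finset.sum_congr rfl fun i _ => ?_
    have hr : HasFDerivAt (fun z : R3 => ‖z‖) (fderiv ℝ (fun z : R3 => ‖z‖) z) z :=
      ((contDiffAt_norm ℝ (n := 1) hz').differentiableAt one_ne_zero).hasFDerivAt
    have a1 := ((h2 ‖z‖).comp_hasFDerivAt z hr).smul
      ((hΞ i z hz').differentiableAt one_ne_zero).hasFDerivAt
    refine (congrArg (fun L : R3 →L[ℝ] F => L (EuclideanSpace.single i 1)) a1.fderiv).trans ?_
    simp only [add_apply, smul_apply, ContinuousLinearMap.smulRight_apply, fderiv_norm' hz',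
      Function.comp_apply, smul_eq_mul, mul_smul, EuclideanSpace.inner_single_right, one_mul,
      conj_trivial]
  refine ⟨(integrable_finsetSum _ fun i _ => i1 i).integrableOn.congr_fun e1 hm, ?_⟩
  rw [← setIntegral_congr_fun hm e1, setIntegral_eq_integral_of_forall_compl_eq_zero,
    integral_finsetSum _ fun i _ => i1 i]
  · exact Finset.sum_eq_zero fun i _ => integral_fderiv_eq_zero' volume (s1 i) (s2 i) _
  · intro z hz
    refine Finset.sum_eq_zero fun i _ => ?_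
    have : ‖z‖ < a ∨ b < ‖z‖ := by
      by_cases h0 : z = 0
      · left; rwa [h0, norm_zero]
      · right
        by_contra h
        exact hz ⟨mem_ball_zero_iff.2 (lt_of_le_of_lt (not_lt.1 h) hb), h0⟩
    rw [(e0 i z this).fderiv_eq, fderiv_fun_const]
    rfl

/-- `Ξ` is `C¹` off the origin, vanishes on the sphere of radius `t`, and has flux `4π L` through
small spheres.  `Ξ z i` is the `i`-th component (with values in `F`). -/
theorem div_ball {F : Type*} [NormedAddCommGroup F] [NormedSpace ℝ F] [CompleteSpace F]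
    {t : ℝ} (ht : 0 < t) (Ξ : Fin 3 → R3 → F) (hΞ : ∀ i z, z ≠ 0 → ContDiffAt ℝ 1 (Ξ i) z)
    (L : F) (C : ℝ)
    (hb : ∀ i z, t / 2 ≤ ‖z‖ → ‖z‖ ≤ t → ‖Ξ i z‖ ≤ C * (t - ‖z‖))
    (h0 : ∀ z, z ≠ 0 → ‖z‖ ≤ t → ‖‖z‖ ^ 2 • (∑ i, nz z i • Ξ i z) - L‖ ≤ C * ‖z‖)
    (hd : ∀ z, z ≠ 0 → ‖z‖ ≤ t →
      ‖∑ i, fderiv ℝ (Ξ i) z (EuclideanSpace.single i 1)‖ ≤ C / ‖z‖ ^ 2) :
    IntegrableOn (fun z => ∑ i, fderiv ℝ (Ξ i) z (EuclideanSpace.single i 1)) (ball 0 t) ∧
    ∫ z in ball (0 : R3) t, ∑ i, fderiv ℝ (Ξ i) z (EuclideanSpace.single i 1) =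
      -((4 * Real.pi) • L) := by
  obtain ⟨ϑ, ϑ', M, d1, d2, d3, d4, d5, d6, d7, d8⟩ := Div_cut
  set D : R3 → F := fun z => ∑ i, fderiv ℝ (Ξ i) z (EuclideanSpace.single i 1) with hD
  set N : R3 → F := fun z => ∑ i, nz z i • Ξ i z with hN
  have hU : (ball (0 : R3) t \ {0} : Set R3) =ᵐ[volume] ball 0 t :=
    sdiff_null_ae_eq_self (measure_singleton _)
  have hm : MeasurableSet (ball (0 : R3) t \ {0}) := measurableSet_ball.diff (measurableSet_singleton _)
  have hM : 0 ≤ M := (abs_nonneg _).trans (d8 0)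
  have hC : 0 ≤ C := by
    have h1 : ‖EuclideanSpace.single (0 : Fin 3) (t / 2)‖ = t / 2 := by
      rw [PiLp.norm_single, Real.norm_of_nonneg (by linarith)]
    have h2 := (norm_nonneg _).trans (hb 0 (EuclideanSpace.single 0 (t / 2)) h1.ge (by linarith))
    rw [h1] at h2
    exact nonneg_of_mul_nonneg_left h2 (by linarith)
  have i0 : IntegrableOn (fun z : R3 => 1 / ‖z‖ ^ 2) (ball 0 t \ {0}) :=
    (integral_ball_retarded (m := fun _ => 1) continuous_const ht.le).1.mono_set sdiff_subset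
  have cD : ContinuousOn D (ball 0 t \ {0}) := fun z hz =>
    (tendsto_finsetSum _ fun i _ => ((hΞ i z hz.2).continuousAt_fderiv one_ne_zero).clm_apply
      continuousAt_const).mono_left nhdsWithin_le_nhds
  have iD : IntegrableOn D (ball 0 t \ {0}) := by
    refine Integrable.mono' (i0.const_mul C) (cD.aestronglyMeasurable hm) ?_
    filter_upwards [ae_restrict_mem hm] with z hz
    rw [mul_one_div]
    exact hd z hz.2 (mem_ball_zero_iff.1 hz.1).le
  refine ⟨iD.congr_set_ae hU.symm, ?_⟩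
  rw [← setIntegral_congr_set hU]
  -- the approximating integrands
  let G : ℝ → R3 → F := fun ε z => ((ϑ (‖z‖ / ε) + ϑ ((t - ‖z‖) / ε) - 1) • D z +
    (ϑ' (‖z‖ / ε) / ε - ϑ' ((t - ‖z‖) / ε) / ε) • N z) - (ϑ' (‖z‖ / ε) / ε / ‖z‖ ^ 2) • L
  have hev : ∀ᶠ ε in 𝓝[>] (0 : ℝ), ε ∈ Ioo 0 (t / 4) := Ioo_mem_nhdsGT (by linarith)
  have hG : ∀ ε ∈ Ioo 0 (t / 4), IntegrableOn (G ε) (ball 0 t \ {0}) ∧
      ∫ z in ball (0 : R3) t \ {0}, G ε z = -((4 * Real.pi) • L) := by
    rintro ε ⟨e0, e1⟩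
    obtain ⟨a1, a2⟩ := Div_ibp (a := ε) (b := t - ε) (t := t) e0 (by linarith) Ξ hΞ
      (φ := fun r => ϑ (r / ε) + ϑ ((t - r) / ε) - 1)
      (φ' := fun r => ϑ' (r / ε) / ε - ϑ' ((t - r) / ε) / ε)
      (((d2.comp (contDiff_id.div_const ε)).add
        (d2.comp ((contDiff_const.sub contDiff_id).div_const ε))).sub contDiff_const)
      (fun r => ((((d1 (r / ε)).comp r ((hasDerivAt_id r).div_const ε)).add
        ((d1 ((t - r) / ε)).comp r (((hasDerivAt_id r).const_sub t).div_const ε))).sub_const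
          1).congr_deriv (by ring))
      (fun r hr => by
        rw [d5 _ ((div_le_one e0).2 hr), d6 _ ((le_div_iff₀ e0).2 (by linarith))]; ring)
      (fun r hr => by
        rw [d6 _ ((le_div_iff₀ e0).2 (by linarith)), d5 _ ((div_le_one e0).2 (by linarith))]; ring)
    obtain ⟨b1, b2⟩ := integral_ball_retarded (m := fun s => ϑ' ((t - s) / ε) / ε) (by fun_prop) ht.le
    simp only [sub_sub_cancel] at b1 b2
    have b3 : ∫ s in (0 : ℝ)..t, ϑ' ((t - s) / ε) / ε = 1 := by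
      rw [intervalIntegral.integral_eq_sub_of_hasDerivAt (f := fun s => -ϑ ((t - s) / ε))
        (fun s _ => (((d1 ((t - s) / ε)).comp s
          (((hasDerivAt_id s).const_sub t).div_const ε)).neg).congr_deriv (by ring))
        (Continuous.intervalIntegrable (by fun_prop) _ _)]
      simp only [sub_self, zero_div, sub_zero]
      rw [d5 0 zero_le_one, d6 _ ((le_div_iff₀ e0).2 (by linarith))]
      ring
    have b4 := (b1.mono_set (sdiff_subset (t := {0}))).smul_const L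
    refine ⟨a1.sub b4, ?_⟩
    rw [integral_sub a1 b4, a2, integral_smul_const, setIntegral_congr_set hU, b2, b3, mul_one,
      zero_sub]
  have lim : Tendsto (fun ε => ∫ z in ball (0 : R3) t \ {0}, G ε z) (𝓝[>] 0)
      (𝓝 (∫ z in ball (0 : R3) t \ {0}, D z)) := by
    refine tendsto_integral_filter_of_dominated_convergence
      (fun z => (C + M * C + 3 * M * C * t ^ 2) * (1 / ‖z‖ ^ 2))
      (hev.mono fun ε hε => (hG ε hε).1.aestronglyMeasurable) (hev.mono fun ε hε => ?_)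
      (i0.const_mul _) ?_
    · obtain ⟨e0, e1⟩ := hε
      filter_upwards [ae_restrict_mem hm] with z hz
      have hz0 : z ≠ 0 := hz.2
      have r0 : 0 < ‖z‖ := norm_pos_iff.2 hz0
      have r1 : ‖z‖ < t := mem_ball_zero_iff.1 hz.1
      have e : G ε z = (ϑ (‖z‖ / ε) + ϑ ((t - ‖z‖) / ε) - 1) • D z +
          (ϑ' (‖z‖ / ε) / ε / ‖z‖ ^ 2) • (‖z‖ ^ 2 • N z - L) - (ϑ' ((t - ‖z‖) / ε) / ε) • N z := by
        simp only [G]
        rw [smul_sub, smul_smul, div_mul_cancel₀ _ (pow_pos r0 2).ne',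
          sub_smul (ϑ' (‖z‖ / ε) / ε)]
        abel
      have t1 : ‖(ϑ (‖z‖ / ε) + ϑ ((t - ‖z‖) / ε) - 1) • D z‖ ≤ C * (1 / ‖z‖ ^ 2) := by
        rw [norm_smul, mul_one_div]
        refine (mul_le_of_le_one_left (norm_nonneg _) ?_).trans (hd z hz0 r1.le)
        rw [Real.norm_eq_abs, abs_le]
        constructor <;> linarith [d4 (‖z‖ / ε), d4 ((t - ‖z‖) / ε)]
      have t2 : ‖(ϑ' (‖z‖ / ε) / ε / ‖z‖ ^ 2) • (‖z‖ ^ 2 • N z - L)‖ ≤ M * C * (1 / ‖z‖ ^ 2) := by
        rw [norm_smul]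
        refine (mul_le_mul_of_nonneg_left (h0 z hz0 r1.le) (norm_nonneg _)).trans ?_
        have h1 := d8 (‖z‖ / ε)
        rw [abs_mul, abs_of_pos (div_pos r0 e0)] at h1
        rw [Real.norm_eq_abs, abs_div, abs_div, abs_of_pos e0, abs_of_pos (pow_pos r0 2)]
        calc |ϑ' (‖z‖ / ε)| / ε / ‖z‖ ^ 2 * (C * ‖z‖)
            = (‖z‖ / ε * |ϑ' (‖z‖ / ε)|) * (C * (1 / ‖z‖ ^ 2)) := by ring
          _ ≤ M * (C * (1 / ‖z‖ ^ 2)) := by gcongr
          _ = _ := by ring
      have t3 : ‖(ϑ' ((t - ‖z‖) / ε) / ε) • N z‖ ≤ 3 * M * C * t ^ 2 * (1 / ‖z‖ ^ 2) := by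
        rcases lt_or_ge ‖z‖ (t / 2) with h | h
        · rw [d7 _ ((lt_div_iff₀ e0).2 (by linarith)), zero_div, zero_smul, norm_zero]
          positivity
        · have h1 := d8 ((t - ‖z‖) / ε)
          have r2 : 0 < t - ‖z‖ := by linarith
          rw [abs_mul, abs_of_pos (div_pos r2 e0)] at h1
          have h2 : ‖N z‖ ≤ 3 * (C * (t - ‖z‖)) := by
            refine (norm_sum_le _ _).trans ((Finset.sum_le_card_nsmul _ _ (C * (t - ‖z‖))
              fun i _ => ?_).trans (by simp))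
            rw [norm_smul]
            exact (mul_le_of_le_one_left (norm_nonneg _)
              ((PiLp.norm_apply_le (nz z) i).trans (norm_nz_le z))).trans (hb i z h r1.le)
          have h3 : 1 ≤ t ^ 2 * (1 / ‖z‖ ^ 2) := by
            rw [mul_one_div, one_le_div (pow_pos r0 2)]
            exact pow_le_pow_left₀ r0.le r1.le 2
          rw [norm_smul, Real.norm_eq_abs, abs_div, abs_of_pos e0]
          calc |ϑ' ((t - ‖z‖) / ε)| / ε * ‖N z‖
              ≤ |ϑ' ((t - ‖z‖) / ε)| / ε * (3 * (C * (t - ‖z‖))) := by gcongr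
            _ = ((t - ‖z‖) / ε * |ϑ' ((t - ‖z‖) / ε)|) * (3 * C) * 1 := by ring
            _ ≤ M * (3 * C) * (t ^ 2 * (1 / ‖z‖ ^ 2)) := by gcongr
            _ = _ := by ring
      rw [e]
      refine (norm_sub_le _ _).trans ((add_le_add ((norm_add_le _ _).trans (add_le_add t1 t2)) t3).trans
        (le_of_eq ?_))
      ring
    · filter_upwards [ae_restrict_mem hm] with z hz
      have r0 : 0 < ‖z‖ := norm_pos_iff.2 hz.2
      have r1 : ‖z‖ < t := mem_ball_zero_iff.1 hz.1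
      refine tendsto_const_nhds.congr' ?_
      filter_upwards [Ioo_mem_nhdsGT (show (0 : ℝ) < ‖z‖ / 2 by linarith),
        Ioo_mem_nhdsGT (show (0 : ℝ) < (t - ‖z‖) / 2 by linarith)] with ε a1 a2
      have c1 : 2 < ‖z‖ / ε := (lt_div_iff₀ a1.1).2 (by linarith [a1.2])
      have c2 : 2 < (t - ‖z‖) / ε := (lt_div_iff₀ a1.1).2 (by linarith [a2.2])
      simp only [G, d6 _ c1.le, d6 _ c2.le, d7 _ c1, d7 _ c2]
      simp
  exact tendsto_nhds_unique lim
    (tendsto_const_nhds.congr' (hev.mono fun ε hε => (hG ε hε).2.symm))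

end Crest.Agent.R106
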