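import Crest.Agent.R106.StressB
import Crest.Agent.R106.Chr
import Crest.Agent.R106.BdLem

/-!
# Row 106: energy estimates
-/

set_option autoImplicit false
set_option linter.unusedVariables false
set_option linter.unusedSectionVars false

open MeasureTheory Metric Set Filter Topology
open scoped ContDiff ENNReal RealInnerProductSpace
open Crest.AnalysisR.VecCalc3 Crest.AnalysisR.PDE.RVM

noncomputable section

namespace Crest.Agent.R106

/-- a function vanishing for `|s| ≤ T+1`, `|y| > R` has compactly supported slices -/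
theorem Energy_cs {F : Type*} [Zero F] {g : ST → F} {T R : ℝ}
    (hc : ∀ p : ST, |p.1| ≤ T → R < ‖p.2‖ → g p = 0) {s : ℝ} (hs : |s| ≤ T) :
    HasCompactSupport fun y => g (s, y) :=
  HasCompactSupport.intro (isCompact_closedBall 0 R) fun y hy =>
    hc (s, y) hs (not_le.1 fun h1 => hy (mem_closedBall_zero_iff.2 h1))

theorem Energy_dz {g : ST → ℝ} {T R : ℝ}
    (hc : ∀ p : ST, |p.1| ≤ T + 1 → R < ‖p.2‖ → g p = 0) (p : ST) (hp : |p.1| ≤ T)
    (hR : R < ‖p.2‖) : fderiv ℝ g p = 0 := by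
  have h1 : Continuous fun p : ST => |p.1| := by fun_prop
  have h2 : Continuous fun p : ST => ‖p.2‖ := by fun_prop
  have h3 : g =ᶠ[𝓝 p] fun _ => 0 := by
    filter_upwards [h1.continuousAt.eventually_lt_const (hp.trans_lt (lt_add_one T)),
      h2.continuousAt.eventually_const_lt hR] with q a b
    exact hc q a.le b
  simp [h3.fderiv_eq]

/-- fundamental theorem of calculus for spatial integrals -/
theorem Energy_ftc {g : ST → ℝ} (hg : ContDiff ℝ 1 g) {T R : ℝ}
    (hc : ∀ p : ST, |p.1| ≤ T + 1 → R < ‖p.2‖ → g p = 0) {t : ℝ} (ht : t ∈ Icc 0 T) :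
    ∫ y, g (t, y) = (∫ y, g (0, y)) + ∫ s in (0 : ℝ)..t, ∫ y, fderiv ℝ g (s, y) (1, 0) := by
  have hT : 0 ≤ T := ht.1.trans ht.2
  have hD : Continuous fun p : ST => fderiv ℝ g p (1, 0) :=
    (hg.continuous_fderiv (by simp)).clm_apply continuous_const
  have hi : Integrable (Function.uncurry fun (s : ℝ) (y : R3) => fderiv ℝ g (s, y) (1, 0))
      ((volume.restrict (uIoc 0 t)).prod volume) := by
    rw [uIoc_of_le ht.1, ← Measure.restrict_univ (μ := (volume : Measure R3)),
      Measure.prod_restrict, ← Measure.volume_eq_prod]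
    have h1 : IntegrableOn (fun p : ST => fderiv ℝ g p (1, 0))
        (Icc 0 t ×ˢ closedBall (0 : R3) R) :=
      hD.continuousOn.integrableOn_compact (isCompact_Icc.prod (isCompact_closedBall _ _))
    refine h1.of_forall_sdiff_eq_zero (measurableSet_Ioc.prod MeasurableSet.univ) ?_
    rintro p ⟨⟨hp, -⟩, hp2⟩
    have h2 : R < ‖p.2‖ :=
      not_le.1 fun h => hp2 ⟨Ioc_subset_Icc_self hp, mem_closedBall_zero_iff.2 h⟩
    rw [Energy_dz hc p (abs_le.2 ⟨by linarith [hp.1], hp.2.trans ht.2⟩) h2]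
    rfl
  rw [intervalIntegral_integral_swap hi]
  have h3 : ∀ y : R3, ∫ s in (0 : ℝ)..t, fderiv ℝ g (s, y) (1, 0) = g (t, y) - g (0, y) := by
    intro y
    refine intervalIntegral.integral_eq_sub_of_hasDerivAt (f := fun s => g (s, y)) (fun s _ => ?_)
      ((hD.comp (by fun_prop : Continuous fun s : ℝ => ((s, y) : ST))).intervalIntegrable _ _)
    exact ((hg.differentiable (by simp)) (s, y)).hasFDerivAt.comp_hasDerivAt s
      ((hasDerivAt_id s).prodMk (hasDerivAt_const s y))
  simp only [h3]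
  have h4 : ∀ s : ℝ, |s| ≤ T + 1 → Integrable fun y => g (s, y) := fun s hs =>
    (hg.continuous.comp (by fun_prop)).integrable_of_hasCompactSupport (Energy_cs hc hs)
  rw [integral_sub (h4 t (abs_le.2 ⟨by linarith [ht.1], by linarith [ht.2]⟩))
    (h4 0 (by rw [abs_zero]; linarith))]
  ring

theorem Energy_dec {f : PS → ℝ} {E B : ST → R3} (hf : Continuous f) (hv : VSupp f) (p : ST)
    (a₀ : ℝ) (a : R3) (b₀ : ℝ) (b : R3) :
    TT f E B p a₀ a b₀ b = b₀ * TT f E B p a₀ a 1 0 +
      ∑ i : Fin 3, b i * TT f E B p a₀ a 0 (EuclideanSpace.single i 1) := by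
  have hL : IsLinearMap ℝ fun q : ℝ × R3 => TT f E B p a₀ a q.1 q.2 := by
    constructor
    · intro x y
      have := TT_lin (E := E) (B := B) hf hv p a₀ x.1 y.1 1 1 a x.2 y.2
      simpa using this
    · intro c x
      have := TT_lin (E := E) (B := B) hf hv p a₀ x.1 0 c 0 a x.2 0
      simpa using this
  have e : ((b₀, b) : ℝ × R3) = b₀ • ((1, 0) : ℝ × R3) +
      ∑ i : Fin 3, b i • ((0, EuclideanSpace.single i 1) : ℝ × R3) := by
    ext1
    · simp [Prod.fst_sum]
    · simp only [Prod.snd_add, Prod.snd_sum, Prod.smul_snd, smul_zero, zero_add]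
      exact (CalcB_sum b).symm
  have h1 : TT f E B p a₀ a b₀ b = hL.mk' _ (b₀, b) := rfl
  rw [h1, e, map_add, map_sum, map_smul]
  simp only [map_smul, smul_eq_mul]
  rfl

theorem Energy_grad {w : ST → ℝ} (hw : Differentiable ℝ w) (p : ST) (i : Fin 3) :
    gradient (fun y => w (p.1, y)) p.2 i = fderiv ℝ w p (0, EuclideanSpace.single i 1) := by
  rw [← CalcB_sliceX hw p, ← inner_gradient_left, EuclideanSpace.inner_single_right]
  simp

theorem Energy_TT {T : ℝ} {f : PS → ℝ} {E B : ST → R3} (h : Sol T f E B) (a₀ : ℝ) (a : R3)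
    (b₀ : ℝ) (b : R3) : ContDiff ℝ ∞ fun p : ST => TT f E B p a₀ a b₀ b :=
  (contDiff_TT h.step.sf h.step.vf h.step.sE h.step.sB).comp
    (f := fun p : ST => ((p, (a₀, a), (b₀, b)) : ST × (ℝ × R3) × (ℝ × R3))) (by fun_prop)

section
variable {T : ℝ} {f : PS → ℝ} {E B : ST → R3}

/-- the weighted energy identity -/
theorem Sol.energy_id (h : Sol T f E B) {w : ST → ℝ} (hw : ContDiff ℝ 1 w)
    (hc : ∃ R : ℝ, ∀ p : ST, |p.1| ≤ T + 1 → R < ‖p.2‖ → w p = 0) {t : ℝ} (ht : t ∈ Icc 0 T) :
    ∫ y, w (t, y) * TT f E B (t, y) 1 0 1 0 = (∫ y, w (0, y) * TT f E B (0, y) 1 0 1 0) +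
      ∫ s in (0 : ℝ)..t, ∫ y, TT f E B (s, y) 1 0 (fderiv ℝ w (s, y) (1, 0))
        (-(gradient (fun y => w (s, y)) y)) := by
  obtain ⟨R, hR⟩ := hc
  have hT : 0 ≤ T := ht.1.trans ht.2
  have he : ∀ (b₀ : ℝ) (b : R3), ContDiff ℝ 1 fun p : ST => TT f E B p 1 0 b₀ b := fun b₀ b =>
    (Energy_TT h 1 0 b₀ b).of_le (by exact_mod_cast le_top)
  have hwd : Differentiable ℝ w := hw.differentiable (by simp)
  have hed : ∀ (b₀ : ℝ) (b : R3), Differentiable ℝ fun p : ST => TT f E B p 1 0 b₀ b :=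
    fun b₀ b => (he b₀ b).differentiable (by simp)
  have h1 := Energy_ftc (g := fun p => w p * TT f E B p 1 0 1 0) (hw.mul (he 1 0)) (T := T)
    (R := R) (fun p a b => by simp only [hR p a b, zero_mul]) ht
  rw [h1]
  congr 1
  refine intervalIntegral.integral_congr fun s hs => ?_
  rw [uIcc_of_le ht.1] at hs
  have hs1 : |s| ≤ T := abs_le.2 ⟨by linarith [hs.1], hs.2.trans ht.2⟩
  -- the fluxes
  set m : Fin 3 → ST → ℝ := fun i p => w p * TT f E B p 1 0 0 (EuclideanSpace.single i 1) with hm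
  have hm1 : ∀ i, ContDiff ℝ 1 (m i) := fun i => hw.mul (he _ _)
  have hm2 : ∀ i, ∀ p : ST, |p.1| ≤ T + 1 → R < ‖p.2‖ → m i p = 0 := fun i p a b => by
    simp only [hm, hR p a b, zero_mul]
  have hm3 : ∀ i, ∫ y, fderiv ℝ (m i) (s, y) (0, EuclideanSpace.single i 1) = 0 := by
    intro i
    have h2 := integral_fderiv_eq_zero' volume (u := fun y => m i (s, y))
      ((hm1 i).comp (by fun_prop)) (Energy_cs (hm2 i) (hs1.trans (by linarith)))
      (EuclideanSpace.single i 1)
    refine Eq.trans (integral_congr_ae (.of_forall fun y => ?_)) h2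
    exact (CalcB_sliceX ((hm1 i).differentiable (by simp)) (s, y) _).symm
  have hm4 : ∀ i, Integrable fun y => fderiv ℝ (m i) (s, y) (0, EuclideanSpace.single i 1) := by
    intro i
    refine Continuous.integrable_of_hasCompactSupport
      (((((hm1 i).continuous_fderiv (by simp)).comp (by fun_prop))).clm_apply continuous_const) ?_
    exact Energy_cs (g := fun p => fderiv ℝ (m i) p (0, EuclideanSpace.single i 1)) (T := T)
      (R := R) (fun p a b => by rw [Energy_dz (hm2 i) p a b]; rfl) hs1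
  have hg4 : Integrable fun y =>
      fderiv ℝ (fun p => w p * TT f E B p 1 0 1 0) (s, y) (1, 0) := by
    refine Continuous.integrable_of_hasCompactSupport
      (((((hw.mul (he 1 0)).continuous_fderiv (by simp)).comp (by fun_prop))).clm_apply
        continuous_const) ?_
    exact Energy_cs (g := fun p => fderiv ℝ (fun p => w p * TT f E B p 1 0 1 0) p (1, 0)) (T := T)
      (R := R) (fun p a b => by
        rw [Energy_dz (R := R) (T := T) (fun p a b => by simp only [hR p a b, zero_mul]) p a b]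
        rfl) hs1
  have key : ∀ y : R3, TT f E B (s, y) 1 0 (fderiv ℝ w (s, y) (1, 0))
      (-(gradient (fun y => w (s, y)) y)) =
      fderiv ℝ (fun p => w p * TT f E B p 1 0 1 0) (s, y) (1, 0) -
        ∑ i, fderiv ℝ (m i) (s, y) (0, EuclideanSpace.single i 1) := by
    intro y
    have h2 := h.stress_div 1 0 (s, y) ⟨hs.1, hs.2.trans ht.2⟩
    rw [Energy_dec h.step.sf.continuous h.step.vf, fderiv_fun_mul (hwd _) (hed 1 0 _)]
    have h3 : ∀ i, fderiv ℝ (m i) (s, y) (0, EuclideanSpace.single i 1) =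
        w (s, y) * fderiv ℝ (fun q => TT f E B q 1 0 0 (EuclideanSpace.single i 1)) (s, y)
          (0, EuclideanSpace.single i 1) +
        TT f E B (s, y) 1 0 0 (EuclideanSpace.single i 1) *
          gradient (fun y => w (s, y)) y i := by
      intro i
      rw [Energy_grad hwd (s, y) i, hm]
      simp only
      rw [fderiv_fun_mul (hwd _) (hed _ _ _)]
      simp
    simp only [h3, Fin.sum_univ_three, _root_.add_apply,
      _root_.smul_apply, smul_eq_mul, PiLp.neg_apply] at h2 ⊢
    linear_combination (-w (s, y)) * h2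
  simp only [key]
  rw [integral_sub hg4 (integrable_finsetSum _ fun i _ => hm4 i),
    integral_finsetSum _ fun i _ => hm4 i]
  simp [hm3]

theorem Sol.slice_energy (h : Sol T f E B) (h0 : ∀ p : PS, p.1 ∈ Icc 0 T → 0 ≤ f p) {𝓔 : ℝ}
    (he : Bd (fun y => TT f E B (0, y) 1 0 1 0) 𝓔) :
    ∀ s ∈ Icc 0 T, Bd (fun y => TT f E B (s, y) 1 0 1 0) 𝓔 := by
  intro t ht
  have hT : 0 ≤ T := ht.1.trans ht.2
  have hc : Continuous fun p : ST => TT f E B p 1 0 1 0 := (Energy_TT h 1 0 1 0).continuous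
  have hpos : ∀ s ∈ Icc 0 T, ∀ y, 0 ≤ TT f E B (s, y) 1 0 1 0 := fun s hs y =>
    TT_nonneg (fun v => h0 _ hs) (by simp) (by simp)
  have main : ∀ ρ : ℝ, ∫⁻ y, ENNReal.ofReal (Real.smoothTransition (ρ - t - en y) *
      TT f E B (t, y) 1 0 1 0) ≤ ENNReal.ofReal 𝓔 := by
    intro ρ
    set w : ST → ℝ := fun p => Real.smoothTransition (ρ - p.1 - en p.2) with hw
    have hθ : ContDiff ℝ 1 Real.smoothTransition := Real.smoothTransition.contDiff (n := 1)
    have hen : ContDiff ℝ 1 en := contDiff_en.of_le (by exact_mod_cast le_top)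
    have hw1 : ContDiff ℝ 1 w :=
      hθ.comp ((contDiff_const.sub contDiff_fst).sub (hen.comp contDiff_snd))
    have hw2 : ∀ p : ST, |p.1| ≤ T + 1 → ρ + T + 1 < ‖p.2‖ → w p = 0 := fun p a b =>
      Real.smoothTransition.zero_of_nonpos (by
        linarith [norm_le_en p.2, neg_abs_le p.1])
    have h1 := h.energy_id hw1 ⟨_, hw2⟩ ht
    have h2 : ∫ s in (0 : ℝ)..t, ∫ y, TT f E B (s, y) 1 0 (fderiv ℝ w (s, y) (1, 0))
        (-(gradient (fun y => w (s, y)) y)) ≤ 0 := by
      rw [intervalIntegral.integral_of_le ht.1]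
      refine setIntegral_nonpos measurableSet_Ioc fun s hs => integral_nonpos fun y => ?_
      have hs' : s ∈ Icc 0 T := ⟨hs.1.le, hs.2.trans ht.2⟩
      set c := deriv Real.smoothTransition (ρ - s - en y) with hcd
      have hc0 : 0 ≤ c := Real.smoothTransition.monotone.deriv_nonneg
      have hd : HasDerivAt Real.smoothTransition c (ρ - s - en y) :=
        (hθ.differentiable (by simp) _).hasDerivAt
      have hE : HasFDerivAt (fun p : ST => en p.2)
          ((innerSL ℝ (relVel y)).comp (ContinuousLinearMap.snd ℝ ℝ R3)) (s, y) :=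
        HasFDerivAt.comp (g := en) (f := (Prod.snd : ST → R3)) (s, y) (CalcA_hasFDerivAt_en y)
          hasFDerivAt_snd
      have hF : HasFDerivAt w (c • ((0 - ContinuousLinearMap.fst ℝ ℝ R3) -
          (innerSL ℝ (relVel y)).comp (ContinuousLinearMap.snd ℝ ℝ R3))) (s, y) :=
        hd.comp_hasFDerivAt (f := fun p : ST => ρ - p.1 - en p.2) (s, y)
          (((hasFDerivAt_const ρ _).sub hasFDerivAt_fst).sub hE)
      have e1 : fderiv ℝ w (s, y) (1, 0) = (-c) * 1 + 0 * 0 := by
        rw [hF.fderiv]; simp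
      have e2 : -(gradient (fun y => w (s, y)) y) = (-c) • (-relVel y) + (0 : ℝ) • (0 : R3) := by
        ext i
        have := Energy_grad (hw1.differentiable (by simp)) (s, y) i
        simp only at this
        rw [PiLp.neg_apply, this, hF.fderiv]
        simp [EuclideanSpace.inner_single_right]
      show TT f E B (s, y) 1 0 _ _ ≤ 0
      rw [e1, e2, TT_lin h.step.sf.continuous h.step.vf]
      have h3 : 0 ≤ TT f E B (s, y) 1 0 1 (-relVel y) :=
        TT_nonneg (fun v => h0 _ hs') (by simp) (by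
          rw [norm_neg]; exact (norm_relVel_lt_one y).le)
      nlinarith [mul_nonneg hc0 h3]
    have hi : ∀ s ∈ Icc 0 T, Integrable fun y => w (s, y) * TT f E B (s, y) 1 0 1 0 := by
      intro s hs
      refine Continuous.integrable_of_hasCompactSupport
        ((hw1.continuous.mul hc).comp (by fun_prop : Continuous fun y : R3 => ((s, y) : ST))) ?_
      exact Energy_cs (g := fun p => w p * TT f E B p 1 0 1 0) (T := T + 1) (R := ρ + T + 1)
        (fun p a b => by simp only [hw2 p a b, zero_mul])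
        (abs_le.2 ⟨by linarith [hs.1], by linarith [hs.2]⟩)
    have hn : ∀ s ∈ Icc 0 T, 0 ≤ᵐ[volume] fun y => w (s, y) * TT f E B (s, y) 1 0 1 0 :=
      fun s hs => .of_forall fun y => mul_nonneg (Real.smoothTransition.nonneg _) (hpos s hs y)
    have h00 : (0 : ℝ) ∈ Icc 0 T := ⟨le_rfl, hT⟩
    calc ∫⁻ y, ENNReal.ofReal (w (t, y) * TT f E B (t, y) 1 0 1 0)
        = ENNReal.ofReal (∫ y, w (t, y) * TT f E B (t, y) 1 0 1 0) :=
          (ofReal_integral_eq_lintegral_ofReal (hi t ht) (hn t ht)).symm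
      _ ≤ ENNReal.ofReal (∫ y, w (0, y) * TT f E B (0, y) 1 0 1 0) :=
          ENNReal.ofReal_le_ofReal (by linarith)
      _ = ∫⁻ y, ENNReal.ofReal (w (0, y) * TT f E B (0, y) 1 0 1 0) :=
          ofReal_integral_eq_lintegral_ofReal (hi 0 h00) (hn 0 h00)
      _ ≤ ∫⁻ y, ENNReal.ofReal (TT f E B (0, y) 1 0 1 0) :=
          lintegral_mono fun y => ENNReal.ofReal_le_ofReal
            (mul_le_of_le_one_left (hpos 0 h00 y) (Real.smoothTransition.le_one _))
      _ ≤ ENNReal.ofReal 𝓔 := he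
  have hlim : ∀ y : R3, ENNReal.ofReal (TT f E B (t, y) 1 0 1 0) =
      liminf (fun n : ℕ => ENNReal.ofReal (Real.smoothTransition ((n : ℝ) - t - en y) *
        TT f E B (t, y) 1 0 1 0)) atTop := by
    intro y
    refine (Tendsto.liminf_eq (tendsto_const_nhds.congr' ?_)).symm
    filter_upwards [tendsto_natCast_atTop_atTop.eventually_ge_atTop (1 + t + en y)] with n hn
    rw [Real.smoothTransition.one_of_one_le (by linarith), one_mul]
  show ∫⁻ y, ENNReal.ofReal (TT f E B (t, y) 1 0 1 0) ≤ _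
  simp only [hlim]
  refine (lintegral_liminf_le fun n => ?_).trans
    (liminf_le_of_frequently_le' (Frequently.of_forall fun n => main n))
  refine ENNReal.measurable_ofReal.comp (Continuous.measurable ?_)
  exact (Real.smoothTransition.continuous.comp (continuous_const.sub contDiff_en.continuous)).mul
    (hc.comp (by fun_prop : Continuous fun y : R3 => ((t, y) : ST)))

end

theorem energy_fin {f₀ : R3 × R3 → ℝ} {E₀ B₀ : R3 → R3} (hd : Dat f₀ E₀ B₀)
    (hE : MemLp E₀ 2) (hB : MemLp B₀ 2) : ∃ 𝓔 : ℝ, 0 ≤ 𝓔 ∧ ∀ (f : PS → ℝ) (E B : ST → R3),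
      Init f E B f₀ E₀ B₀ → Bd (fun y => TT f E B (0, y) 1 0 1 0) 𝓔 := by
  have h1 : Integrable fun y => ef (E₀ y) (B₀ y) :=
    ((hE.integrable_norm_pow two_ne_zero).add (hB.integrable_norm_pow two_ne_zero)).div_const 2
  have h2 : Integrable fun q : R3 × R3 => f₀ q * Tw q.2 1 0 1 0 := by
    refine Continuous.integrable_of_hasCompactSupport (hd.sf.continuous.mul ?_) hd.cs.mul_right
    have : (fun q : R3 × R3 => Tw q.2 1 0 1 0) = fun q => en q.2 := by
      funext q; simp [Tw]
    rw [this]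
    exact contDiff_en.continuous.comp continuous_snd
  have h3 : Integrable fun y => ∫ v, f₀ (y, v) * Tw v 1 0 1 0 := h2.integral_prod_left
  have h4 := (h1.add h3).abs
  refine ⟨∫ y, |ef (E₀ y) (B₀ y) + ∫ v, f₀ (y, v) * Tw v 1 0 1 0|,
    integral_nonneg fun y => abs_nonneg _, fun f E B hI => ?_⟩
  refine (Bd.of_integrable h4 (.of_forall fun y => abs_nonneg _) le_rfl).mono
    (.of_forall fun y => ?_) le_rfl
  simp only [TT, Tf_time, hI.1, hI.2.1, hI.2.2]
  exact le_abs_self _

end Crest.Agent.R106
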