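import Crest.Agent.R106.BdLem
import Crest.Agent.R106.Axi

/-!
# Row 106: geometry of the regions and integrals over the cone
-/

set_option autoImplicit false
set_option linter.unusedVariables false
set_option linter.unusedSectionVars false

open MeasureTheory Metric Set Filter Topology
open scoped ContDiff ENNReal RealInnerProductSpace
open Crest.AnalysisR.VecCalc3 Crest.AnalysisR.PDE.RVM

noncomputable section

namespace Crest.Agent.R106

theorem Geom_qq {P δ : ℝ} {e W : R3} (h : Geo P δ e W) {z : R3} (hz : z ≠ 0) :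
    ∃ a b I : ℝ, |I| ≤ a * b ∧ a ^ 2 ≤ δ ^ 2 ∧ b ^ 2 ≤ 2 * qq e z ∧ 0 ≤ ang e W ∧
      ang e W ≤ δ ^ 2 ∧ 0 ≤ qq e z ∧ qq W z = qq e z + ang e W - I := by
  refine ⟨‖W - e‖, ‖e - nz z‖, ⟪W - e, nz z - e⟫, ?_,
    pow_le_pow_left₀ (norm_nonneg _) h.dW 2, norm_sub_sq_le_ang h.e1.le (norm_nz_le z),
    ang_nonneg h.e1.le h.W1.le, h.mu, ang_nonneg h.e1.le (norm_nz_le z), ?_⟩
  · rw [norm_sub_rev e]
    exact abs_real_inner_le_norm _ _
  · simp only [qq, ang, inner_sub_left, inner_sub_right, real_inner_self_eq_norm_sq, h.e1,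
      real_inner_comm e W]
    ring

theorem Geom_gg {e z : R3} (he : ‖e‖ = 1) (hz : z ≠ 0) (v : R3) :
    ∃ a b I : ℝ, |I| ≤ a * b ∧ a ^ 2 ≤ 2 * pp z v ∧ b ^ 2 ≤ 2 * qq e z ∧ 0 ≤ pp z v ∧
      0 ≤ qq e z ∧ gg e v = pp z v + qq e z - I := by
  refine ⟨‖relVel v - nz z‖, ‖e - nz z‖, ⟪relVel v - nz z, e - nz z⟫, abs_real_inner_le_norm _ _,
    norm_sub_sq_le_ang (norm_relVel_lt_one v).le (norm_nz_le z),
    norm_sub_sq_le_ang he.le (norm_nz_le z), (pp_pos z v).le, ang_nonneg he.le (norm_nz_le z), ?_⟩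
  simp only [gg, pp, qq, ang, inner_sub_left, inner_sub_right, real_inner_self_eq_norm_sq,
    norm_nz hz, real_inner_comm e (nz z)]
  ring

theorem Geo.qq_le {P δ : ℝ} {e W : R3} (h : Geo P δ e W) {z : R3} (hz : z ≠ 0) :
    qq W z ≤ 2 * qq e z + 2 * δ ^ 2 := by
  obtain ⟨a, b, I, h1, h2, h3, h4, h5, h6, h7⟩ := Geom_qq h hz
  nlinarith [abs_le.1 h1, sq_nonneg (a - b)]

theorem Geo.qq_cmp {P δ : ℝ} {e W : R3} (h : Geo P δ e W) {z : R3} (hz : z ≠ 0)
    (hq : 64 * δ ^ 2 ≤ qq e z) : qq e z / 2 ≤ qq W z ∧ qq W z ≤ 2 * qq e z := by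
  obtain ⟨a, b, I, h1, h2, h3, h4, h5, h6, h7⟩ := Geom_qq h hz
  have h8 : a * b ≤ 4 * a ^ 2 + b ^ 2 / 16 := by nlinarith [sq_nonneg (8 * a - b)]
  obtain ⟨h9, h10⟩ := abs_le.1 h1
  constructor <;> linarith

theorem Geo.delta_nonneg {P δ : ℝ} {e W : R3} (h : Geo P δ e W) : 0 ≤ δ :=
  (norm_nonneg _).trans h.dW

/-- `δ² ≤ P^{-1.14}` is much smaller than `P^{-1.1}` -/
theorem exists_delta_small : ∃ P₀ : ℝ, ∀ P, P₀ ≤ P → ∀ (δ : ℝ) (e W : R3), Geo P δ e W →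
    64 * δ ^ 2 ≤ P ^ (-(11 / 10 : ℝ)) := by
  refine ⟨64 ^ 25, fun P hP δ e W h => ?_⟩
  have hP0 : 0 < P := lt_of_lt_of_le (by positivity) hP
  have h1 : δ ^ 2 ≤ P ^ (-(57 / 50 : ℝ)) := by
    have := pow_le_pow_left₀ h.delta_nonneg h.dP 2
    rwa [← Real.rpow_natCast (P ^ (-(57 / 100 : ℝ))), ← Real.rpow_mul hP0.le,
      show -(57 / 100 : ℝ) * (2 : ℕ) = -(57 / 50 : ℝ) by norm_num] at this
  have h2 : (64 : ℝ) ≤ P ^ (1 / 25 : ℝ) := by
    have := Real.rpow_le_rpow (by positivity) hP (show (0 : ℝ) ≤ 1 / 25 by norm_num)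
    rwa [← Real.rpow_natCast 64 25, ← Real.rpow_mul (by norm_num),
      show ((25 : ℕ) : ℝ) * (1 / 25) = 1 by norm_num, Real.rpow_one] at this
  calc 64 * δ ^ 2 ≤ P ^ (1 / 25 : ℝ) * P ^ (-(57 / 50 : ℝ)) :=
        mul_le_mul h2 h1 (sq_nonneg _) (by positivity)
    _ = P ^ (-(11 / 10 : ℝ)) := by
        rw [← Real.rpow_add hP0]
        norm_num

theorem xb_eq (P : ℝ) (e : R3) {z : R3} (hz : z ≠ 0) : xb P e z = P * qq e z * √‖z‖ := by
  have h : 0 < √‖z‖ := Real.sqrt_pos.2 (norm_pos_iff.2 hz)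
  rw [xb, lam_eq e hz, div_eq_iff h.ne', mul_assoc (P * qq e z),
    Real.mul_self_sqrt (norm_nonneg z)]
  ring

theorem RI_ne_zero {P r₂ : ℝ} (hP : 0 < P) {e z : R3} (hz : z ∈ RI P r₂ e) : z ≠ 0 := by
  rintro rfl
  have h := hz.1
  simp only [xb, norm_zero, Real.sqrt_zero, div_zero] at h
  exact absurd h (not_le.2 (by positivity))

theorem RI_qq {P r₂ : ℝ} (hP : 0 < P) {e z : R3} (hz : z ∈ RI P r₂ e) :
    P ^ (-(51 / 50 : ℝ)) / √‖z‖ ≤ qq e z := by
  have h0 := RI_ne_zero hP hz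
  have hs : 0 < √‖z‖ := Real.sqrt_pos.2 (norm_pos_iff.2 h0)
  have h := hz.1
  rw [xb_eq P e h0] at h
  have e1 : P ^ (-(1 / 50 : ℝ)) = P * P ^ (-(51 / 50 : ℝ)) := by
    rw [← Real.rpow_one_add' hP.le (by norm_num)]
    norm_num
  rw [e1, mul_assoc] at h
  exact (div_le_iff₀ hs).2 (le_of_mul_le_mul_left h hP)

theorem RI_norm {P r₂ : ℝ} (hP : 0 < P) {e z : R3} (he : ‖e‖ = 1) (hz : z ∈ RI P r₂ e) :
    P ^ (-(51 / 25 : ℝ)) / 4 ≤ ‖z‖ := by
  have h0 := RI_ne_zero hP hz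
  have hs : 0 < √‖z‖ := Real.sqrt_pos.2 (norm_pos_iff.2 h0)
  have h1 := (div_le_iff₀ hs).1 ((RI_qq hP hz).trans (ang_le_two he.le (norm_nz_le z)))
  have h2 := pow_le_pow_left₀ (by positivity) h1 2
  rw [← Real.rpow_natCast (P ^ (-(51 / 50 : ℝ))), ← Real.rpow_mul hP.le,
    show -(51 / 50 : ℝ) * (2 : ℕ) = -(51 / 25 : ℝ) by norm_num, mul_pow,
    Real.sq_sqrt (norm_nonneg z)] at h2
  linarith

theorem RD_qq {P r₂ : ℝ} (hP : 0 < P) {e z : R3} (hz0 : z ≠ 0) (hz : z ∈ RD P r₂ e) :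
    qq e z ≤ P ^ (-(101 / 100 : ℝ)) / √‖z‖ := by
  have hs : 0 < √‖z‖ := Real.sqrt_pos.2 (norm_pos_iff.2 hz0)
  have h := hz.1
  rw [xb_eq P e hz0] at h
  have e1 : P ^ (-(1 / 100 : ℝ)) = P * P ^ (-(101 / 100 : ℝ)) := by
    rw [← Real.rpow_one_add' hP.le (by norm_num)]
    norm_num
  rw [e1, mul_assoc] at h
  exact (le_div_iff₀ hs).2 (le_of_mul_le_mul_left h hP)

/-- angles: `θ² ≤ 2ψ²` if `θ² ≥ 16 φ̄²` -/
theorem pp_le_gg {e z v : R3} (he : ‖e‖ = 1) (hz : z ≠ 0) (h : 16 * qq e z ≤ pp z v) :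
    pp z v ≤ 2 * gg e v := by
  obtain ⟨a, b, I, h1, h2, h3, h4, h5, h6⟩ := Geom_gg he hz v
  have h8 : a * b ≤ a ^ 2 / 8 + 2 * b ^ 2 := by nlinarith [sq_nonneg (a - 4 * b)]
  obtain ⟨h9, h10⟩ := abs_le.1 h1
  linarith

/-- angles: `φ̄² ≤ 2ψ²` if `φ̄² ≥ 16 θ²` -/
theorem qq_le_gg {e z v : R3} (he : ‖e‖ = 1) (hz : z ≠ 0) (h : 16 * pp z v ≤ qq e z) :
    qq e z ≤ 2 * gg e v := by
  obtain ⟨a, b, I, h1, h2, h3, h4, h5, h6⟩ := Geom_gg he hz v
  have h8 : a * b ≤ b ^ 2 / 8 + 2 * a ^ 2 := by nlinarith [sq_nonneg (b - 4 * a)]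
  obtain ⟨h9, h10⟩ := abs_le.1 h1
  linarith

theorem gg_le {e z v : R3} (he : ‖e‖ = 1) (hz : z ≠ 0) :
    gg e v ≤ 2 * pp z v + 2 * qq e z := by
  obtain ⟨a, b, I, h1, h2, h3, h4, h5, h6⟩ := Geom_gg he hz v
  have h8 : a * b ≤ a ^ 2 / 2 + b ^ 2 / 2 := by nlinarith [sq_nonneg (a - b)]
  obtain ⟨h9, h10⟩ := abs_le.1 h1
  linarith

/-- reduction of integrals over the cone to a one-dimensional integral -/
theorem Bd.cone {e : R3} (he : ‖e‖ = 1) {g : ℝ × ℝ → ℝ} (hg : Measurable g) {G : ℝ → ℝ} {C : ℝ}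
    (hi : ∀ r, 0 < r → ∫⁻ q in Ioo (0 : ℝ) 2, ENNReal.ofReal (g (r, q)) ≤ ENNReal.ofReal (G r))
    (hG : ∫⁻ r in Ioi (0 : ℝ), ENNReal.ofReal (r ^ 2 * G r) ≤ ENNReal.ofReal C) :
    Bd (fun z => g (‖z‖, qq e z)) (2 * Real.pi * C) := by
  have hπ : 0 ≤ 2 * Real.pi := by positivity
  rw [Bd, lintegral_axi he (g := fun x => ENNReal.ofReal (g x)) hg.ennreal_ofReal]
  calc _ ≤ ∫⁻ r in Ioi (0 : ℝ), ENNReal.ofReal (2 * Real.pi) * ENNReal.ofReal (r ^ 2 * G r) := by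
        refine setLIntegral_mono' measurableSet_Ioi fun r hr => ?_
        rw [lintegral_const_mul' _ _ ENNReal.ofReal_ne_top, ENNReal.ofReal_mul hπ,
          ENNReal.ofReal_mul (sq_nonneg r), mul_assoc]
        gcongr
        exact hi r hr
    _ ≤ _ := by
        rw [lintegral_const_mul' _ _ ENNReal.ofReal_ne_top, ENNReal.ofReal_mul hπ]
        gcongr

/-- one-dimensional power integrals -/
theorem lint_rpow_gt {β b : ℝ} (hβ : -1 < β) (hb : 0 ≤ b) :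
    ∫⁻ q in Ioc (0 : ℝ) b, ENNReal.ofReal (q ^ β) ≤ ENNReal.ofReal (b ^ (β + 1) / (β + 1)) := by
  have hi : IntegrableOn (fun q : ℝ => q ^ β) (Ioc 0 b) :=
    (intervalIntegral.intervalIntegrable_rpow' hβ (a := 0) (b := b)).1
  rw [← ofReal_integral_eq_lintegral_ofReal hi ((ae_restrict_iff' measurableSet_Ioc).2
    (ae_of_all _ fun q hq => Real.rpow_nonneg hq.1.le β)), ← intervalIntegral.integral_of_le hb,
    integral_rpow (Or.inl hβ), Real.zero_rpow (by linarith), sub_zero]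

theorem lint_rpow_lt {β a : ℝ} (hβ : β < -1) (ha : 0 < a) :
    ∫⁻ q in Ici a, ENNReal.ofReal (q ^ β) ≤ ENNReal.ofReal (a ^ (β + 1) / (-(β + 1))) := by
  rw [← setLIntegral_congr (Ioi_ae_eq_Ici (μ := volume) (a := a)),
    ← ofReal_integral_eq_lintegral_ofReal (integrableOn_Ioi_rpow_of_lt hβ ha)
      ((ae_restrict_iff' measurableSet_Ioi).2
        (ae_of_all _ fun q hq => Real.rpow_nonneg (ha.trans hq).le β)),
    integral_Ioi_rpow_of_lt hβ ha, neg_div, div_neg]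

theorem lint_inv {a b : ℝ} (ha : 0 < a) (hab : a ≤ b) :
    ∫⁻ q in Icc a b, ENNReal.ofReal q⁻¹ ≤ ENNReal.ofReal (Real.log (b / a)) := by
  have hi : IntegrableOn (fun q : ℝ => q⁻¹) (Ioc a b) :=
    ((continuousOn_inv₀.mono fun q (hq : q ∈ Icc a b) =>
      (ha.trans_le hq.1).ne').integrableOn_Icc).mono_set Ioc_subset_Icc_self
  rw [← setLIntegral_congr (Ioc_ae_eq_Icc (μ := volume) (a := a) (b := b)),
    ← ofReal_integral_eq_lintegral_ofReal hi ((ae_restrict_iff' measurableSet_Ioc).2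
      (ae_of_all _ fun q hq => inv_nonneg.2 (ha.trans hq.1).le)),
    ← intervalIntegral.integral_of_le hab, integral_inv_of_pos ha (ha.trans_le hab)]

theorem Geom_inner {b c : ℝ} (hb : 0 ≤ b) (hc : 0 ≤ c) :
    ∫⁻ q in Ioo (0 : ℝ) 2, ENNReal.ofReal (if q ≤ b then c else 0) ≤
      ENNReal.ofReal (c * (2 * min 1 b)) := by
  calc _ ≤ ∫⁻ q in Ioo (0 : ℝ) 2, (Icc 0 (2 * min 1 b)).indicator (fun _ => ENNReal.ofReal c) q := by
        refine setLIntegral_mono' measurableSet_Ioo fun q hq => ?_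
        split_ifs with h
        · rw [indicator_of_mem]
          refine ⟨hq.1.le, ?_⟩
          rw [mul_min_of_nonneg _ _ (by norm_num : (0 : ℝ) ≤ 2)]
          exact le_min (by linarith [hq.2]) (by linarith)
        · simp
    _ ≤ ∫⁻ q, (Icc 0 (2 * min 1 b)).indicator (fun _ => ENNReal.ofReal c) q :=
        setLIntegral_le_lintegral _ _
    _ = _ := by
        rw [lintegral_indicator_const measurableSet_Icc, Real.volume_Icc, sub_zero,
          ENNReal.ofReal_mul hc]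

theorem Geom_outer {η : ℝ} (h0 : 0 < η) (h1 : η ≤ 1) :
    ∫⁻ r in Ioi (0 : ℝ), ENNReal.ofReal (if r ≤ 1 then min 1 (η / r) else 0) ≤
      ENNReal.ofReal (η * (1 + Real.log η⁻¹)) := by
  have hl : 0 ≤ Real.log η⁻¹ := Real.log_nonneg ((one_le_inv₀ h0).2 h1)
  calc _ ≤ ∫⁻ r in Ioi (0 : ℝ), ((Icc 0 η).indicator (fun _ => (1 : ℝ≥0∞)) r +
          (Icc η 1).indicator (fun r => ENNReal.ofReal η * ENNReal.ofReal r⁻¹) r) := by
        refine setLIntegral_mono' measurableSet_Ioi fun r hr => ?_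
        split_ifs with h
        · rcases le_total r η with h' | h'
          · rw [indicator_of_mem (show r ∈ Icc 0 η from ⟨le_of_lt hr, h'⟩)]
            exact le_add_right (ENNReal.ofReal_le_one.2 (min_le_left _ _))
          · rw [indicator_of_mem (show r ∈ Icc η 1 from ⟨h', h⟩), ← ENNReal.ofReal_mul h0.le]
            exact le_add_left (ENNReal.ofReal_le_ofReal (min_le_right _ _))
        · simp
    _ ≤ ∫⁻ r, ((Icc 0 η).indicator (fun _ => (1 : ℝ≥0∞)) r +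
          (Icc η 1).indicator (fun r => ENNReal.ofReal η * ENNReal.ofReal r⁻¹) r) :=
        setLIntegral_le_lintegral _ _
    _ ≤ ENNReal.ofReal η + ENNReal.ofReal η * ENNReal.ofReal (Real.log (1 / η)) := by
        rw [lintegral_add_left (measurable_const.indicator measurableSet_Icc),
          lintegral_indicator_const measurableSet_Icc, lintegral_indicator measurableSet_Icc,
          lintegral_const_mul' _ _ ENNReal.ofReal_ne_top, Real.volume_Icc, sub_zero, one_mul]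
        gcongr
        exact lint_inv h0 h1
    _ = _ := by
        rw [one_div, ← ENNReal.ofReal_mul h0.le, ← ENNReal.ofReal_add h0.le (by positivity),
          mul_add, mul_one]

theorem Geom_cone {e : R3} (he : ‖e‖ = 1) {b c : ℝ → ℝ} {K η : ℝ} (mb : Measurable b)
    (mc : Measurable c) (hK : 0 ≤ K) (h0 : 0 < η) (h1 : η ≤ 1) (hb : ∀ r, 0 < r → 0 ≤ b r)
    (hc : ∀ r, 0 < r → 0 ≤ c r)
    (h : ∀ r, 0 < r → r ≤ 1 → r ^ 2 * (c r * (2 * min 1 (b r))) ≤ K * min 1 (η / r)) :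
    Bd (fun z : R3 => if ‖z‖ ≤ 1 ∧ qq e z ≤ b ‖z‖ then c ‖z‖ else 0)
      (2 * Real.pi * (K * (η * (1 + Real.log η⁻¹)))) := by
  refine Bd.cone he (g := fun x => if x.1 ≤ 1 ∧ x.2 ≤ b x.1 then c x.1 else 0)
    (G := fun r => if r ≤ 1 then c r * (2 * min 1 (b r)) else 0) ?_ (fun r hr => ?_) ?_
  · exact Measurable.ite ((measurableSet_le measurable_fst measurable_const).inter
      (measurableSet_le measurable_snd (mb.comp measurable_fst))) (mc.comp measurable_fst)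
      measurable_const
  · by_cases hr1 : r ≤ 1
    · simp only [hr1, true_and, if_true]
      exact Geom_inner (hb r hr) (hc r hr)
    · simp [hr1]
  · calc _ ≤ ∫⁻ r in Ioi (0 : ℝ),
          ENNReal.ofReal K * ENNReal.ofReal (if r ≤ 1 then min 1 (η / r) else 0) := by
          refine setLIntegral_mono' measurableSet_Ioi fun r hr => ?_
          rw [← ENNReal.ofReal_mul hK]
          refine ENNReal.ofReal_le_ofReal ?_
          split_ifs with hr1
          · exact h r hr hr1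
          · simp
      _ ≤ _ := by
          rw [lintegral_const_mul' _ _ ENNReal.ofReal_ne_top, ENNReal.ofReal_mul hK]
          gcongr
          exact Geom_outer h0 h1

/-- `∫_{RD} (φ̄² + P^{-1.01}/√r ∧ 1) dz/r² ≲ P^{-2.02} log P` -/
theorem cone_RD : ∃ C P₀ : ℝ, 0 ≤ C ∧ ∀ P, P₀ ≤ P → ∀ r₂ : ℝ, r₂ ≤ 1 / 4 →
    ∀ (δ : ℝ) (e W : R3), Geo P δ e W →
    Bd ((RD P r₂ e).indicator fun z => (qq W z + qq e z) / ‖z‖ ^ 2)
      (C * (P ^ (-(101 / 50 : ℝ)) * Real.log P)) := by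
  refine ⟨80 * Real.pi, 3, by positivity, fun P hP r₂ hr δ e W h => ?_⟩
  have hP0 : 0 < P := by linarith
  have hP1 : 1 ≤ P := by linarith
  set κ := P ^ (-(101 / 100 : ℝ)) with hκ
  have hκ0 : 0 < κ := by positivity
  have hκ2 : κ ^ 2 = P ^ (-(101 / 50 : ℝ)) := by
    rw [hκ, ← Real.rpow_natCast (P ^ (-(101 / 100 : ℝ))), ← Real.rpow_mul hP0.le]
    norm_num
  have hη1 : P ^ (-(101 / 50 : ℝ)) ≤ 1 := Real.rpow_le_one_of_one_le_of_nonpos hP1 (by norm_num)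
  have hδ : δ ^ 2 ≤ κ := by
    have := pow_le_pow_left₀ h.delta_nonneg h.dP 2
    rw [← Real.rpow_natCast (P ^ (-(57 / 100 : ℝ))), ← Real.rpow_mul hP0.le] at this
    exact this.trans (Real.rpow_le_rpow_of_exponent_le hP1 (by norm_num))
  have hlog : 1 ≤ Real.log P := by
    rw [Real.le_log_iff_exp_le hP0]
    linarith [Real.exp_one_lt_d9]
  have key := Geom_cone h.e1 (b := fun r => κ / √r) (c := fun r => 5 * min 1 (κ / √r) / r ^ 2)
    (K := 10) (η := P ^ (-(101 / 50 : ℝ))) (by fun_prop) (by fun_prop) (by norm_num)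
    (by positivity) hη1 (fun r hr => by positivity) (fun r hr => by positivity) (fun r hr _ => by
      have e1 : (κ / √r) ^ 2 = P ^ (-(101 / 50 : ℝ)) / r := by
        rw [div_pow, hκ2, Real.sq_sqrt hr.le]
      have e2 : 0 ≤ κ / √r := by positivity
      rw [← e1]
      generalize κ / √r = b at e2
      have e3 : min 1 b * min 1 b ≤ min 1 (b ^ 2) := by
        rcases le_total 1 b with hb | hb
        · rw [min_eq_left hb, min_eq_left (one_le_pow₀ hb), mul_one]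
        · rw [min_eq_right hb, min_eq_right (pow_le_one₀ e2 hb), sq]
      have e4 : r ^ 2 * (5 * min 1 b / r ^ 2 * (2 * min 1 b)) = 10 * (min 1 b * min 1 b) := by
        field_simp
        ring
      rw [e4]
      linarith)
  refine key.mono ?_ ?_
  · filter_upwards [ae_qq_pos h.e1] with z hz
    by_cases hm : z ∈ RD P r₂ e
    · have h1 := RD_qq hP0 hz.1 hm
      have h2 : ‖z‖ ≤ 1 := by linarith [hm.2]
      have hs : 0 < √‖z‖ := Real.sqrt_pos.2 (norm_pos_iff.2 hz.1)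
      have h3 : κ ≤ κ / √‖z‖ := le_div_self hκ0.le hs (Real.sqrt_le_one.2 h2)
      have h4 := h.qq_le hz.1
      have h5 : qq W z ≤ 2 := ang_le_two h.W1.le (norm_nz_le z)
      have h6 : qq e z ≤ 2 := ang_le_two h.e1.le (norm_nz_le z)
      rw [indicator_of_mem hm, if_pos ⟨h2, h1⟩]
      refine div_le_div_of_nonneg_right ?_ (sq_nonneg _)
      rw [mul_min_of_nonneg _ _ (by norm_num : (0 : ℝ) ≤ 5)]
      exact le_min (by linarith) (by linarith)
    · rw [indicator_of_notMem hm]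
      split_ifs
      · positivity
      · exact le_rfl
  · rw [Real.log_inv, Real.log_rpow hP0]
    have h1 : 0 ≤ Real.pi * P ^ (-(101 / 50 : ℝ)) := by positivity
    nlinarith [mul_le_mul_of_nonneg_left hlog h1]

/-- `∫_{λ̄ ≤ η, r ≤ 1} dz/r² ≲ η (1 + log (1/η))` -/
theorem cone_lam : ∃ C : ℝ, 0 ≤ C ∧ ∀ η : ℝ, 0 < η → η ≤ 1 → ∀ e : R3, ‖e‖ = 1 →
    Bd ({z : R3 | lam e z ≤ η ∧ ‖z‖ ≤ 1}.indicator fun z => (‖z‖ ^ 2)⁻¹)
      (C * (η * (1 + Real.log η⁻¹))) := by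
  refine ⟨4 * Real.pi, by positivity, fun η h0 h1 e he => ?_⟩
  have key := Geom_cone he (b := fun r => η / r) (c := fun r => (r ^ 2)⁻¹) (K := 2) (η := η)
    (by fun_prop) (by fun_prop) (by norm_num) h0 h1 (fun r hr => by positivity)
    (fun r hr => by positivity) (fun r hr _ => by
      rw [← mul_assoc, mul_inv_cancel₀ (by positivity), one_mul])
  refine key.mono ?_ (le_of_eq (by ring))
  filter_upwards [ae_qq_pos he] with z hz
  by_cases hm : z ∈ {z : R3 | lam e z ≤ η ∧ ‖z‖ ≤ 1}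
  · have h2 : lam e z ≤ η := hm.1
    rw [lam_eq e hz.1, mul_comm] at h2
    rw [indicator_of_mem hm, if_pos ⟨hm.2, (le_div_iff₀ (norm_pos_iff.2 hz.1)).2 h2⟩]
  · rw [indicator_of_notMem hm]
    split_ifs
    · positivity
    · exact le_rfl

end Crest.Agent.R106
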