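import Crest.Agent.R106.CalcC

/-!
# Row 106: the stress tensor: dominant energy condition
-/

set_option autoImplicit false
set_option linter.unusedVariables false
set_option linter.unusedSectionVars false

open MeasureTheory Metric Set Filter Topology
open scoped ContDiff ENNReal RealInnerProductSpace
open Crest.AnalysisR.VecCalc3 Crest.AnalysisR.PDE.RVM

noncomputable section

namespace Crest.Agent.R106

/-- the energy flux vector -/
def Stress_J (E B : R3) (a₀ : ℝ) (a : R3) : R3 :=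
  a₀ • cross3 E B - (ef E B • a - ⟪E, a⟫ • E - ⟪B, a⟫ • B)

theorem Stress_Tf_eq (E B : R3) (a₀ b₀ : ℝ) (a b : R3) :
    Tf E B a₀ a b₀ b = b₀ * (a₀ * ef E B - ⟪cross3 E B, a⟫) - ⟪Stress_J E B a₀ a, b⟫ := by
  simp only [Tf, Stress_J, inner_sub_left, real_inner_smul_left]
  ring

theorem Stress_id (E B : R3) (a₀ : ℝ) (a : R3) :
    (a₀ * ef E B - ⟪cross3 E B, a⟫) ^ 2 - ‖Stress_J E B a₀ a‖ ^ 2 =
      (a₀ ^ 2 - ‖a‖ ^ 2) * ((‖E‖ ^ 2 - ‖B‖ ^ 2) ^ 2 / 4 + ⟪E, B⟫ ^ 2) := by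
  simp only [Stress_J, ef, CalcA_norm_sq3, CalcA_inner3, PiLp.sub_apply, PiLp.smul_apply,
    smul_eq_mul, cross3, Matrix.cons_val_zero, Matrix.cons_val_one, Matrix.cons_val]
  ring

theorem Stress_J0 (E B : R3) {a₀ : ℝ} {a : R3} (ha : ‖a‖ ≤ a₀) :
    0 ≤ a₀ * ef E B - ⟪cross3 E B, a⟫ := by
  have h1 := real_inner_le_norm (cross3 E B) a
  have h2 : ‖cross3 E B‖ ≤ ef E B := (norm_cross3_le E B).trans (by
    unfold ef
    nlinarith [sq_nonneg (‖E‖ - ‖B‖)])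
  have h3 := mul_le_mul h2 ha (norm_nonneg _) ((norm_nonneg _).trans h2)
  linarith

theorem Stress_J_le (E B : R3) {a₀ : ℝ} {a : R3} (ha : ‖a‖ ≤ a₀) :
    ‖Stress_J E B a₀ a‖ ≤ a₀ * ef E B - ⟪cross3 E B, a⟫ := by
  refine (pow_le_pow_iff_left₀ (norm_nonneg _) (Stress_J0 E B ha) two_ne_zero).1 ?_
  have h1 : 0 ≤ a₀ ^ 2 - ‖a‖ ^ 2 := sub_nonneg.2 (pow_le_pow_left₀ (norm_nonneg _) ha 2)
  have h2 : 0 ≤ (‖E‖ ^ 2 - ‖B‖ ^ 2) ^ 2 / 4 + ⟪E, B⟫ ^ 2 := by positivity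
  have h3 := mul_nonneg h1 h2
  linarith [Stress_id E B a₀ a]

theorem Stress_w_nonneg (v : R3) {a₀ : ℝ} {a : R3} (ha : ‖a‖ ≤ a₀) :
    0 ≤ a₀ - ⟪relVel v, a⟫ := by
  have h1 := real_inner_le_norm (relVel v) a
  have h2 := mul_le_of_le_one_left (norm_nonneg a) (norm_relVel_lt_one v).le
  linarith

theorem Tf_nonneg (E B : R3) {a₀ b₀ : ℝ} {a b : R3} (ha : ‖a‖ ≤ a₀) (hb : ‖b‖ ≤ b₀) :
    0 ≤ Tf E B a₀ a b₀ b := by
  rw [Stress_Tf_eq]
  have h1 := real_inner_le_norm (Stress_J E B a₀ a) b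
  have h2 := mul_le_mul (Stress_J_le E B ha) hb (norm_nonneg _) (Stress_J0 E B ha)
  linarith

theorem Tw_nonneg (v : R3) {a₀ b₀ : ℝ} {a b : R3} (ha : ‖a‖ ≤ a₀) (hb : ‖b‖ ≤ b₀) :
    0 ≤ Tw v a₀ a b₀ b := by
  exact mul_nonneg (mul_nonneg (en_pos v).le (Stress_w_nonneg v ha)) (Stress_w_nonneg v hb)

theorem Tf_comm (E B : R3) (a₀ b₀ : ℝ) (a b : R3) : Tf E B a₀ a b₀ b = Tf E B b₀ b a₀ a := by
  simp only [Tf, real_inner_comm a b]
  ring

theorem Tf_time (E B : R3) : Tf E B 1 0 1 0 = ef E B := by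
  simp [Tf]

/-- the flux through a cone as a sum of squares -/
theorem Tf_cone (E B : R3) {n : R3} (hn : ‖n‖ = 1) :
    Tf E B 1 0 1 n = (⟪E, n⟫ ^ 2 + ⟪B, n⟫ ^ 2 + ‖E - ⟪E, n⟫ • n + cross3 n B‖ ^ 2) / 2 := by
  have h1 : n 0 ^ 2 + n 1 ^ 2 + n 2 ^ 2 = 1 := by rw [← CalcA_norm_sq3, hn, one_pow]
  simp only [Tf, ef, inner_zero_right, inner_zero_left, CalcA_norm_sq3]
  simp only [CalcA_inner3, PiLp.sub_apply, PiLp.add_apply, PiLp.smul_apply,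
    smul_eq_mul, cross3, Matrix.cons_val_zero, Matrix.cons_val_one, Matrix.cons_val]
  linear_combination (-((E 0 * n 0 + E 1 * n 1 + E 2 * n 2) ^ 2 +
    (B 0 ^ 2 + B 1 ^ 2 + B 2 ^ 2)) / 2) * h1

section
variable {f : PS → ℝ} {E B : ST → R3}

theorem integrable_Tw (hf : Continuous f) (hv : VSupp f) (p : ST) (a₀ b₀ : ℝ) (a b : R3) :
    Integrable fun v => f (p.1, p.2, v) * Tw v a₀ a b₀ b := by
  obtain ⟨R, hR⟩ := hv |p.1|
  have c1 : Continuous en := contDiff_en.continuous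
  have c2 : Continuous relVel := contDiff_relVel.continuous
  refine Continuous.integrable_of_hasCompactSupport ?_ ?_
  · unfold Tw
    fun_prop
  · refine HasCompactSupport.intro (isCompact_closedBall (0 : R3) R) fun v hv => ?_
    rw [hR p.1 p.2 v le_rfl (not_le.1 fun h => hv (mem_closedBall_zero_iff.2 h)), zero_mul]

theorem TT_comm (p : ST) (a₀ b₀ : ℝ) (a b : R3) :
    TT f E B p a₀ a b₀ b = TT f E B p b₀ b a₀ a := by
  have h : ∀ v, Tw v a₀ a b₀ b = Tw v b₀ b a₀ a := fun v => by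
    unfold Tw
    ring
  simp only [TT, h, Tf_comm _ _ a₀ b₀ a b]

/-- linearity in the second four-vector -/
theorem TT_lin (hf : Continuous f) (hv : VSupp f) (p : ST) (a₀ b₀ c₀ α β : ℝ) (a b c : R3) :
    TT f E B p a₀ a (α * b₀ + β * c₀) (α • b + β • c) =
      α * TT f E B p a₀ a b₀ b + β * TT f E B p a₀ a c₀ c := by
  have h1 : ∀ v, f (p.1, p.2, v) * Tw v a₀ a (α * b₀ + β * c₀) (α • b + β • c) =
      α * (f (p.1, p.2, v) * Tw v a₀ a b₀ b) + β * (f (p.1, p.2, v) * Tw v a₀ a c₀ c) := by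
    intro v
    simp only [Tw, inner_add_right, real_inner_smul_right]
    ring
  have h2 : Tf (E p) (B p) a₀ a (α * b₀ + β * c₀) (α • b + β • c) =
      α * Tf (E p) (B p) a₀ a b₀ b + β * Tf (E p) (B p) a₀ a c₀ c := by
    simp only [Tf, inner_add_right, real_inner_smul_right]
    ring
  simp only [TT, h1, h2]
  rw [integral_add ((integrable_Tw hf hv p a₀ b₀ a b).const_mul α)
    ((integrable_Tw hf hv p a₀ c₀ a c).const_mul β), integral_const_mul, integral_const_mul]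
  ring

theorem TT_nonneg {p : ST} (h0 : ∀ v, 0 ≤ f (p.1, p.2, v)) {a₀ b₀ : ℝ} {a b : R3}
    (ha : ‖a‖ ≤ a₀) (hb : ‖b‖ ≤ b₀) : 0 ≤ TT f E B p a₀ a b₀ b := by
  exact add_nonneg (Tf_nonneg _ _ ha hb)
    (integral_nonneg fun v => mul_nonneg (h0 v) (Tw_nonneg v ha hb))

/-- `T(a,·)` is causal -/
theorem abs_TT_le (hf : Continuous f) (hv : VSupp f) {p : ST} (h0 : ∀ v, 0 ≤ f (p.1, p.2, v))
    {a₀ : ℝ} {a : R3} (ha : ‖a‖ ≤ a₀) (b₀ : ℝ) (b : R3) :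
    |TT f E B p a₀ a b₀ b| ≤ (|b₀| + ‖b‖) * TT f E B p a₀ a 1 0 := by
  have key : ∀ ε : ℝ, |ε| = 1 → 0 ≤ (|b₀| + ‖b‖) * TT f E B p a₀ a 1 0 +
      ε * TT f E B p a₀ a b₀ b := fun ε hε => by
    rw [← TT_lin hf hv]
    refine TT_nonneg h0 ha ?_
    rw [smul_zero, zero_add, norm_smul, Real.norm_eq_abs, hε, one_mul, mul_one]
    have h1 := neg_abs_le (ε * b₀)
    rw [abs_mul, hε, one_mul] at h1
    linarith
  have h1 := key 1 abs_one
  have h2 := key (-1) (by rw [abs_neg, abs_one])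
  exact abs_le.2 ⟨by linarith, by linarith⟩

/-- comparison of two null directions: `2(1,e) + 2φ̄²(1,0) - (1,n)` is causal -/
theorem TT_null_le (hf : Continuous f) (hv : VSupp f) {p : ST} (h0 : ∀ v, 0 ≤ f (p.1, p.2, v))
    {a₀ : ℝ} {a : R3} (ha : ‖a‖ ≤ a₀) {e n : R3} (he : ‖e‖ = 1) (hn : ‖n‖ = 1) :
    TT f E B p a₀ a 1 n ≤ 2 * TT f E B p a₀ a 1 e + 2 * ang e n * TT f E B p a₀ a 1 0 := by
  have h1 := TT_lin (E := E) (B := B) hf hv p a₀ 1 1 2 (-1) a e n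
  have h2 := TT_lin (E := E) (B := B) hf hv p a₀ (2 * 1 + -1 * 1) 1 1 (2 * ang e n) a
    ((2 : ℝ) • e + (-1 : ℝ) • n) 0
  have hq := ang_nonneg he.le hn.le
  have h3 : ‖(1 : ℝ) • ((2 : ℝ) • e + (-1 : ℝ) • n) + (2 * ang e n) • (0 : R3)‖ ≤
      1 * (2 * 1 + -1 * 1) + 2 * ang e n * 1 := by
    refine (pow_le_pow_iff_left₀ (norm_nonneg _) (by linarith) two_ne_zero).1 ?_
    rw [smul_zero, add_zero, one_smul, norm_add_sq_real, real_inner_smul_left,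
      real_inner_smul_right, norm_smul, norm_smul, he, hn]
    have h4 : ⟪e, n⟫ = 1 - ang e n := by unfold ang; ring
    rw [h4, Real.norm_eq_abs, Real.norm_eq_abs, abs_neg, abs_one, abs_two]
    nlinarith [sq_nonneg (ang e n)]
  have h4 := TT_nonneg (E := E) (B := B) h0 ha h3
  rw [h2, h1] at h4
  linarith

end

end Crest.Agent.R106
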