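import Crest.Agent.R106.Vel
import Crest.Agent.R106.Geom
import Crest.Agent.R106.Stress

/-!
# Row 106: direct terms: `T` kernel
-/

set_option autoImplicit false
set_option linter.unusedVariables false
set_option linter.unusedSectionVars false

open MeasureTheory Metric Set Filter Topology
open scoped ContDiff ENNReal RealInnerProductSpace
open Crest.AnalysisR.VecCalc3 Crest.AnalysisR.PDE.RVM

noncomputable section

namespace Crest.Agent.R106

theorem EstA_vel0 (P a b : ℝ) (z v : R3) : 0 ≤ velI P a b (nz z) v :=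
  indicator_nonneg (fun v _ => mul_nonneg (Real.rpow_nonneg (en_pos v).le _)
    (Real.rpow_nonneg (pp_pos z v).le _)) v

theorem EstA_vel {P : ℝ} (a b : ℝ) (z : R3) {v : R3} (hv : en v ≤ P) :
    velI P a b (nz z) v = en v ^ a * pp z v ^ b := indicator_of_mem (by exact hv) _

theorem EstA_gT {P : ℝ} (W z : R3) {v : R3} (hv : en v ≤ P) :
    gT W z v = (‖z‖ ^ 2)⁻¹ * velI P (-2) (-1) (nz z) v +
      √(qq W z) * ((‖z‖ ^ 2)⁻¹ * ((en v ^ 2)⁻¹ * (pp z v * √(pp z v))⁻¹)) := by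
  have h := mul_inv_cancel₀ (Real.sqrt_pos.2 (pp_pos z v)).ne'
  rw [EstA_vel _ _ _ hv, Real.rpow_neg (en_pos v).le, Real.rpow_two, Real.rpow_neg_one, gT]
  simp only [div_eq_mul_inv, mul_inv]
  linear_combination (en v ^ 2)⁻¹ * (‖z‖ ^ 2)⁻¹ * (pp z v)⁻¹ * h

theorem EstA_pw {P a b c : ℝ} (hP : 1 ≤ P) (h : a + b ≤ c) : P ^ a * P ^ b ≤ P ^ c := by
  rw [← Real.rpow_add (by linarith)]
  exact Real.rpow_le_rpow_of_exponent_le hP h

theorem EstA_nz : ∀ᵐ z : R3, ‖nz z‖ = 1 := (Measure.ae_ne volume 0).mono fun _ => norm_nz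

theorem EstA_meas {c : R3 → ℝ} (mc : Measurable c) (P a b : ℝ) :
    Measurable fun q : R3 × R3 => c q.1 * velI P a b (nz q.1) q.2 := by
  have h := (measurable_velI P a b).comp (f := fun q : R3 × R3 => (nz q.1, q.2))
    ((measurable_nz.comp measurable_fst).prodMk measurable_snd)
  simp only [Function.comp_def] at h
  exact (mc.comp measurable_fst).mul h

/-- the two cone integrals over `RD` -/
theorem EstA_cone : ∃ C P₀ : ℝ, 0 ≤ C ∧ ∀ P, P₀ ≤ P → 3 ≤ P ∧ Real.log P ≤ P ^ (1 / 20 : ℝ) ∧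
    ∀ r₂ : ℝ, r₂ ≤ 1 / 4 → ∀ (δ : ℝ) (e W : R3), Geo P δ e W →
    Bd ((RD P r₂ e).indicator fun z => (‖z‖ ^ 2)⁻¹) (C * P ^ (-(9 / 10 : ℝ))) ∧
    Bd ((RD P r₂ e).indicator fun z => √(qq W z) * (‖z‖ ^ 2)⁻¹) (C * P ^ (-(7 / 5 : ℝ))) := by
  obtain ⟨C₁, hC₁, h₁⟩ := cone_lam
  obtain ⟨C₂, P₂, hC₂, h₂⟩ := cone_RD
  obtain ⟨P₃, h₃⟩ := log_pow_le 1 (show (0 : ℝ) < 1 / 20 by norm_num)
  refine ⟨3 * C₁ + C₂, max 3 (max P₂ P₃), by positivity, fun P hP => ?_⟩
  simp only [max_le_iff] at hP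
  obtain ⟨hN, hN'⟩ := h₃ P hP.2.2
  rw [Real.rpow_one] at hN'
  refine ⟨hP.1, hN', fun r₂ hr δ e W H => ?_⟩
  have hP1 : 1 ≤ P := by linarith [hP.1]
  have hP0 : 0 < P := by linarith
  have a1 : Bd ((RD P r₂ e).indicator fun z => (‖z‖ ^ 2)⁻¹) (3 * C₁ * P ^ (-(9 / 10 : ℝ))) := by
    refine (h₁ (P ^ (-(101 / 100 : ℝ))) (by positivity)
      (Real.rpow_le_one_of_one_le_of_nonpos hP1 (by norm_num)) e H.e1).mono ?_ ?_
    · filter_upwards [Measure.ae_ne volume (0 : R3)] with z hz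
      refine indicator_apply_le' (fun h => (indicator_of_mem ?_ fun z : R3 => (‖z‖ ^ 2)⁻¹).ge)
        fun _ => indicator_nonneg (fun _ _ => by positivity) z
      have h1 : ‖z‖ ≤ 1 := by linarith [h.2]
      have h2 := mul_le_mul_of_nonneg_left (RD_qq hP0 hz h) (norm_nonneg z)
      rw [← lam_eq e hz, mul_div_assoc', mul_comm ‖z‖, mul_div_assoc, Real.div_sqrt] at h2
      exact ⟨h2.trans (mul_le_of_le_one_right (by positivity) (Real.sqrt_le_one.2 h1)), h1⟩
    · rw [Real.log_inv, Real.log_rpow hP0, mul_comm 3, mul_assoc]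
      refine mul_le_mul_of_nonneg_left ?_ hC₁
      have := EstA_pw (a := -(101 / 100)) (b := 1 / 20) (c := -(9 / 10)) hP1 (by norm_num)
      have h4 : 0 < P ^ (-(101 / 100 : ℝ)) := by positivity
      nlinarith
  refine ⟨a1.mono (.of_forall fun _ => le_rfl) (by gcongr; linarith), ?_⟩
  have hl : 0 < P ^ (1 / 2 : ℝ) := by positivity
  refine ((a1.const_mul (c := P ^ (-(1 / 2) : ℝ)) (by positivity)).add
    ((h₂ P hP.2.1 r₂ hr δ e W H).const_mul hl.le)
    ((Measurable.indicator (by fun_prop) (measurableSet_RD _ _ _)).const_mul _).aemeasurable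
    (by positivity) (by positivity)).mono (.of_forall fun z => ?_) ?_
  · by_cases hz : z ∈ RD P r₂ e
    · simp only [indicator_of_mem hz]
      rw [div_eq_mul_inv (_ + _), ← mul_assoc, ← add_mul, Real.rpow_neg hP0.le]
      refine mul_le_mul_of_nonneg_right ?_ (by positivity)
      have h1 : √(qq W z) ^ 2 = qq W z := Real.sq_sqrt (ang_nonneg H.W1.le (norm_nz_le z))
      have h2 : 0 ≤ qq e z := ang_nonneg H.e1.le (norm_nz_le z)
      refine le_of_mul_le_mul_left ?_ hl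
      rw [mul_add, mul_inv_cancel₀ hl.ne']
      generalize √(qq W z) = u at h1 ⊢
      rw [← h1]
      nlinarith [sq_nonneg (2 * P ^ (1 / 2 : ℝ) * u - 1), mul_nonneg (mul_pos hl hl).le h2]
    · simp [indicator_of_notMem hz]
  · have b1 := EstA_pw (a := -(1 / 2)) (b := -(9 / 10)) (c := -(7 / 5)) hP1 (by norm_num)
    have b2 := EstA_pw (a := -(101 / 50)) (b := 1 / 20) (c := -(19 / 10)) hP1 (by norm_num)
    have b3 := EstA_pw (a := 1 / 2) (b := -(19 / 10)) (c := -(7 / 5)) hP1 (by norm_num)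
    have b4 : P ^ (1 / 2 : ℝ) * (P ^ (-(101 / 50 : ℝ)) * Real.log P) ≤ P ^ (-(7 / 5 : ℝ)) :=
      le_trans (mul_le_mul_of_nonneg_left (le_trans (by gcongr) b2) hl.le) b3
    nlinarith [mul_le_mul_of_nonneg_left b1 hC₁, mul_le_mul_of_nonneg_left b4 hC₂]

theorem est_gT_near : Est (fun P r₂ _ e W _ _ z v => (RD P r₂ e).indicator (fun z => gT W z v) z)
    (fun P _ _ _ _ => P ^ (3 / 5 : ℝ)) := by
  intro M 𝓔 T r₂ hM h𝓔 hT hr₂ hr₂'
  obtain ⟨C, P₀, hC, hc⟩ := EstA_cone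
  obtain ⟨C₁, hC₁, h₁⟩ := vel_log (-2) (by norm_num)
  obtain ⟨C₂, hC₂, h₂⟩ := vel_lt (-2) (-(3 / 2)) (by norm_num) (by norm_num)
  refine ⟨M * (C₁ * C + C₂ * C), P₀, by positivity,
    fun P hP τ t δ e W F Ez Bz s y y₁ y₂ H => ?_⟩
  obtain ⟨h3, hN, hc⟩ := hc P hP
  obtain ⟨a1, a2⟩ := hc r₂ hr₂' δ e W H.geo
  have hP1 : 1 ≤ P := by linarith
  have hl : 0 ≤ Real.log P := Real.log_nonneg hP1
  have mq := measurable_qq W
  have m1 : Measurable ((RD P r₂ e).indicator fun z : R3 => (‖z‖ ^ 2)⁻¹) :=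
    Measurable.indicator (by fun_prop) (measurableSet_RD _ _ _)
  refine (((Bd.prod_vel m1 measurable_nz (indicator_nonneg fun _ _ => by positivity) EstA_nz a1
    (by positivity) (h₁ P h3)).add (Bd.prod_vel
      (Measurable.indicator (by fun_prop) (measurableSet_RD _ _ _)) measurable_nz
      (indicator_nonneg fun _ _ => by positivity) EstA_nz a2 (by positivity) (h₂ P hP1))
    (EstA_meas m1 _ _ _).aemeasurable (by positivity) (by positivity)).const_mul hM).mono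
    (.of_forall fun q => ?_) ?_
  · have v1 := EstA_vel0 P (-2) (-1) q.1 q.2
    have v2 := EstA_vel0 P (-2) (-(3 / 2)) q.1 q.2
    by_cases hz : q.1 ∈ RD P r₂ e
    · simp only [indicator_of_mem hz]
      rcases lt_or_ge P (en q.2) with hv | hv
      · rw [H.FP q hv, zero_mul]
        positivity
      refine (mul_le_mul_of_nonneg_right (H.FM q) (by unfold gT; have := pp_pos q.1 q.2; positivity)
        ).trans_eq ?_
      rw [EstA_gT W q.1 hv, EstA_vel (-2) (-(3 / 2)) _ hv, Real.rpow_neg (en_pos _).le,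
        Real.rpow_two, Real.rpow_neg (pp_pos _ _).le, show (3 / 2 : ℝ) = 1 + 1 / 2 by norm_num,
        Real.rpow_add (pp_pos _ _), Real.rpow_one, ← Real.sqrt_eq_rpow, mul_assoc]
    · simp [indicator_of_notMem hz]
  · rw [mul_assoc M]
    refine mul_le_mul_of_nonneg_left ?_ hM
    have b1 := EstA_pw (a := -2 + 3) (b := 1 / 20) (c := 3 / 2) hP1 (by norm_num)
    have b2 := EstA_pw (a := 3 / 2) (b := -(9 / 10)) (c := 3 / 5) hP1 (by norm_num)
    have b3 := EstA_pw (a := -2 - 2 * -(3 / 2) + 1) (b := -(7 / 5)) (c := 3 / 5) hP1 (by norm_num)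
    have b4 : P ^ (-2 + 3 : ℝ) * Real.log P * P ^ (-(9 / 10 : ℝ)) ≤ P ^ (3 / 5 : ℝ) :=
      le_trans (mul_le_mul_of_nonneg_right (le_trans (by gcongr) b1) (by positivity)) b2
    nlinarith [mul_le_mul_of_nonneg_left b3 (mul_nonneg hC₂ hC),
      mul_le_mul_of_nonneg_left b4 (mul_nonneg hC₁ hC)]

theorem est_gT_far : Est (fun _ r₂ t _ W _ _ z v => (RF r₂ t).indicator (fun z => gT W z v) z)
    (fun P s _ _ _ => P * Real.log P + P * √s) := by
  intro M 𝓔 T r₂ hM h𝓔 hT hr₂ hr₂'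
  obtain ⟨C₁, hC₁, h₁⟩ := vel_log (-2) (by norm_num)
  obtain ⟨C₂, hC₂, h₂⟩ := vel_lt (-5) (-3) (by norm_num) (by norm_num)
  have hc : Bd ((ball (0 : R3) T).indicator fun z => (‖z‖ ^ 2)⁻¹) (4 * Real.pi * T) := by
    have h := (Axi_ball (n := fun _ => 1) continuous_const (fun _ => zero_le_one) hT).le
    simp only [one_div, intervalIntegral.integral_const, sub_zero, smul_eq_mul, mul_one] at h
    rw [← lintegral_indicator measurableSet_ball] at h
    refine le_trans (lintegral_mono fun z => ?_) h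
    by_cases hz : z ∈ ball (0 : R3) T <;> simp [hz]
  have m1 : Measurable ((ball (0 : R3) T).indicator fun z : R3 => (‖z‖ ^ 2)⁻¹) :=
    Measurable.indicator (by fun_prop) measurableSet_ball
  have c0 : ∀ z, 0 ≤ (ball (0 : R3) T).indicator (fun z : R3 => (‖z‖ ^ 2)⁻¹) z :=
    indicator_nonneg fun _ _ => by positivity
  refine ⟨M * (C₁ * (4 * Real.pi * T)) + √(M * (r₂ ^ 2)⁻¹ * (C₂ * (4 * Real.pi * T))), 3,
    by positivity, fun P hP τ t δ e W F Ez Bz s y y₁ y₂ H => ?_⟩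
  have hP1 : 1 ≤ P := by linarith
  have hl : 0 ≤ Real.log P := Real.log_nonneg hP1
  have mq := measurable_qq W
  have me := measurable_en
  have mF := H.mF
  beta_reduce
  refine (((Bd.prod_vel m1 measurable_nz c0 EstA_nz hc (by positivity) (h₁ P hP)).const_mul hM).add
    (H.sp.cs ((Bd.prod_vel m1 measurable_nz c0 EstA_nz hc (by positivity) (h₂ P hP1)).const_mul
      (c := M * (r₂ ^ 2)⁻¹) (by positivity)) (by fun_prop)
      ((EstA_meas m1 _ _ _).const_mul _).aemeasurable H.s0 (by positivity)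
      (.of_forall fun _ => le_rfl))
    ((EstA_meas m1 _ _ _).const_mul _).aemeasurable (by positivity) (by positivity)).mono
    (.of_forall fun q => ?_) ?_
  · have v1 := EstA_vel0 P (-2) (-1) q.1 q.2
    have v2 := c0 q.1
    by_cases hz : q.1 ∈ RF r₂ t
    swap
    · rw [indicator_of_notMem hz, mul_zero]
      positivity
    rcases lt_or_ge P (en q.2) with hv | hv
    · rw [H.FP q hv, zero_mul]
      positivity
    have f0 := H.F0 q
    have hp := pp_pos q.1 q.2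
    have hQ := en_pos q.2
    have hw : 0 ≤ qq W q.1 := ang_nonneg H.geo.W1.le (norm_nz_le _)
    rw [indicator_of_mem hz, indicator_of_mem (mem_ball_zero_iff.2 (hz.2.trans_le H.tT)),
      EstA_gT W q.1 hv, mul_add, ← Real.sqrt_mul (by positivity)]
    refine add_le_add (mul_le_mul_of_nonneg_right (H.FM q) (by positivity))
      (Real.le_sqrt_of_sq_le ?_)
    have h4 : F q * (‖q.1‖ ^ 2)⁻¹ ≤ M * (r₂ ^ 2)⁻¹ :=
      mul_le_mul (H.FM q) (by gcongr; exact hz.1) (by positivity) hM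
    refine le_trans (le_of_eq ?_) (mul_le_mul_of_nonneg_left
      (mul_le_mul_of_nonneg_right h4 (mul_nonneg (by positivity) (EstA_vel0 _ _ _ _ _)))
      (by positivity))
    rw [EstA_vel _ _ _ hv, Real.rpow_neg hQ.le, Real.rpow_neg hp.le, Real.rpow_ofNat,
      Real.rpow_ofNat]
    generalize (‖q.1‖ ^ 2)⁻¹ = u
    simp only [mul_pow, inv_pow, Real.sq_sqrt hw, Real.sq_sqrt hp.le]
    field_simp
  · have e1 : M * (r₂ ^ 2)⁻¹ * (C₂ * P ^ (-5 - 2 * -3 + 1 : ℝ) * (4 * Real.pi * T)) =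
        P ^ 2 * (M * (r₂ ^ 2)⁻¹ * (C₂ * (4 * Real.pi * T))) := by
      rw [show (-5 - 2 * -3 + 1 : ℝ) = 2 by norm_num, Real.rpow_two]
      ring
    rw [e1, Real.sqrt_mul (sq_nonneg _), Real.sqrt_sq (by linarith),
      show (-2 + 3 : ℝ) = 1 by norm_num, Real.rpow_one]
    have b1 : 0 ≤ M * (C₁ * (4 * Real.pi * T)) * (P * √s) := by positivity
    have b2 : 0 ≤ √(M * (r₂ ^ 2)⁻¹ * (C₂ * (4 * Real.pi * T))) * (P * Real.log P) := by positivity
    linarith

end Crest.Agent.R106
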