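import Crest.Agent.R106.Vel
import Crest.Agent.R106.Geom
import Crest.Agent.R106.Stress

/-!
# Row 106: direct terms: good part of the `S` kernel
-/

set_option autoImplicit false
set_option linter.unusedVariables false
set_option linter.unusedSectionVars false

open MeasureTheory Metric Set Filter Topology
open scoped ContDiff ENNReal RealInnerProductSpace
open Crest.AnalysisR.VecCalc3 Crest.AnalysisR.PDE.RVM

noncomputable section

namespace Crest.Agent.R106

theorem EstA2_vel {P a b : ℝ} {z v : R3} (h : en v ≤ P) :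
    velI P a b (nz z) v = en v ^ a * pp z v ^ b := by
  unfold velI
  rw [indicator_of_mem (by exact h)]
  rfl

theorem EstA2_ae : ∀ᵐ z : R3, ‖nz z‖ = 1 := by
  have : ∀ᵐ z : R3, z ≠ 0 := by
    rw [ae_iff]
    simp
  filter_upwards [this] with z hz using norm_nz hz

theorem EstA2_cf0 (E B z : R3) : 0 ≤ Tf E B 1 0 1 (nz z) :=
  Tf_nonneg E B (by simp) (norm_nz_le z)

theorem EstA2_mw {c : R3 → ℝ} (mc : Measurable c) (P a b : ℝ) :
    Measurable fun q : R3 × R3 => c q.1 * velI P a b (nz q.1) q.2 := by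
  have h1 := (measurable_velI P a b).comp
    ((measurable_nz.comp measurable_fst).prodMk measurable_snd)
  have h2 : Measurable fun q : R3 × R3 => c q.1 := mc.comp measurable_fst
  exact h2.mul h1

theorem EstA2_le {x w u : ℝ} (hw : 0 ≤ w) (h : x ^ 2 ≤ w * u) : x ≤ √w * √u := by
  rw [← Real.sqrt_mul hw]
  exact Real.le_sqrt_of_sq_le h

theorem est_gSg_near :
    Est (fun P r₂ _ e W cf _ z v => (RD P r₂ e).indicator (fun z => gSg cf W z v) z)
      (fun P _ _ _ _ => P ^ (199 / 200 : ℝ)) := by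
  intro M 𝓔 T r₂ hM h𝓔 hT hr₂ hr₂'
  obtain ⟨C₁, hC₁, hvel⟩ := vel_log (-1) (by norm_num)
  obtain ⟨C₂, P₁, hC₂, hcone⟩ := cone_RD
  obtain ⟨P₂, hP₂⟩ := log_pow_le 3 (ε := 1 / 100) (by norm_num)
  refine ⟨√(C₁ ^ 2 * 𝓔 * M ^ 2 * C₂), max (max P₁ P₂) 3, Real.sqrt_nonneg _,
    fun P hP τ t δ e W F Ez Bz s y y₁ y₂ H => ?_⟩
  have hP3 : 3 ≤ P := (le_max_right _ _).trans hP
  have hP0 : 0 < P := by linarith
  obtain ⟨hN, hN'⟩ := hP₂ P ((le_max_right _ _).trans ((le_max_left _ _).trans hP))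
  have hN0 : 0 ≤ Real.log P := by linarith
  have hc := hcone P ((le_max_left _ _).trans ((le_max_left _ _).trans hP)) r₂ hr₂' δ e W H.geo
  have mcf : Measurable ((ball (0 : R3) t).indicator fun z => Tf (Ez z) (Bz z) 1 0 1 (nz z)) :=
    (measurable_cf H.mE H.mB).indicator measurableSet_ball
  have mW := measurable_qq W
  have me := measurable_qq e
  have mu : Measurable ((RD P r₂ e).indicator fun z => (qq W z + qq e z) / ‖z‖ ^ 2) :=
    Measurable.indicator (by fun_prop) (measurableSet_RD _ _ _)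
  have hW0 : ∀ z, 0 ≤ qq W z := fun z => ang_nonneg H.geo.W1.le (norm_nz_le z)
  have he0 : ∀ z, 0 ≤ qq e z := fun z => ang_nonneg H.geo.e1.le (norm_nz_le z)
  have hV0 : 0 ≤ C₁ * (P ^ ((-1 : ℝ) + 3) * Real.log P) := by positivity
  have hw := Bd.prod_vel mcf measurable_nz
    (fun z => indicator_nonneg (fun z _ => EstA2_cf0 _ _ _) _) EstA2_ae H.cf hV0 (hvel P hP3)
  have hu := (Bd.prod_vel mu measurable_nz
    (fun z => indicator_nonneg (fun z _ => div_nonneg (add_nonneg (hW0 z) (he0 z))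
      (sq_nonneg _)) _) EstA2_ae hc hV0 (hvel P hP3)).const_mul (sq_nonneg M)
  refine (hw.cs hu (EstA2_mw mcf _ _ _).aemeasurable
    ((EstA2_mw mu _ _ _).const_mul _).aemeasurable (by positivity) (by positivity)
    (Eventually.of_forall fun q => ?_)).mono (Eventually.of_forall fun q => le_rfl) ?_
  · beta_reduce
    by_cases hF : F q = 0
    · rw [hF, zero_mul]
      positivity
    have hv : en q.2 ≤ P := not_lt.1 fun h => hF (H.FP q h)
    have ht : q.1 ∈ ball (0 : R3) t := by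
      rw [mem_ball_zero_iff]
      exact not_le.1 fun h => hF (H.Ft q h)
    by_cases hz : q.1 ∈ RD P r₂ e
    swap
    · rw [indicator_of_notMem hz, mul_zero]
      positivity
    rw [indicator_of_mem hz, indicator_of_mem hz, indicator_of_mem ht, EstA2_vel hv,
      Real.rpow_neg_one, Real.rpow_neg_one]
    have hQ := en_pos q.2
    have hp := pp_pos q.1 q.2
    have hcf := EstA2_cf0 (Ez q.1) (Bz q.1) q.1
    set cf := Tf (Ez q.1) (Bz q.1) 1 0 1 (nz q.1)
    refine EstA2_le (by positivity) ?_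
    have hF2 : F q ^ 2 ≤ M ^ 2 := pow_le_pow_left₀ (H.F0 q) (H.FM q) 2
    have h1 := hW0 q.1
    have h2 := he0 q.1
    calc (F q * gSg cf W q.1 q.2) ^ 2
        = F q ^ 2 * qq W q.1 * (cf / (‖q.1‖ * en q.2 * pp q.1 q.2) ^ 2) := by
          rw [gSg, mul_pow, div_pow, mul_pow, Real.sq_sqrt h1, Real.sq_sqrt hcf]
          ring
      _ ≤ M ^ 2 * (qq W q.1 + qq e q.1) * (cf / (‖q.1‖ * en q.2 * pp q.1 q.2) ^ 2) := by
          gcongr
          linarith
      _ = _ := by ring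
  · rw [← Real.sqrt_mul (by positivity)]
    beta_reduce
    have e1 : P ^ (199 / 200 : ℝ) = √(P ^ (199 / 100 : ℝ)) := by
      rw [Real.sqrt_eq_rpow, ← Real.rpow_mul hP0.le]
      norm_num
    rw [e1, ← Real.sqrt_mul (by positivity)]
    refine Real.sqrt_le_sqrt ?_
    have e2 : P ^ (199 / 100 : ℝ) =
        P ^ ((-1 : ℝ) + 3) * P ^ ((-1 : ℝ) + 3) * P ^ (-(101 / 50 : ℝ)) * P ^ (1 / 100 : ℝ) := by
      rw [← Real.rpow_add hP0, ← Real.rpow_add hP0, ← Real.rpow_add hP0]
      norm_num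
    rw [show (3 : ℝ) = ((3 : ℕ) : ℝ) by norm_num, Real.rpow_natCast] at hN'
    rw [e2]
    calc _ = C₁ ^ 2 * 𝓔 * M ^ 2 * C₂ * (P ^ ((-1 : ℝ) + 3) * P ^ ((-1 : ℝ) + 3) *
          P ^ (-(101 / 50 : ℝ)) * Real.log P ^ 3) := by ring
      _ ≤ _ := by gcongr

theorem est_gSg_far :
    Est (fun _ r₂ t _ W cf _ z v => (RF r₂ t).indicator (fun z => gSg cf W z v) z)
      (fun P s _ _ _ => P * √s) := by
  intro M 𝓔 T r₂ hM h𝓔 hT hr₂ hr₂'
  obtain ⟨C₁, hC₁, hvel⟩ := vel_lt (-3) (-2) (by norm_num) (by norm_num)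
  refine ⟨√(C₁ * 𝓔 * (M / r₂ ^ 2)), 1, Real.sqrt_nonneg _,
    fun P hP τ t δ e W F Ez Bz s y y₁ y₂ H => ?_⟩
  have hP0 : 0 < P := by linarith
  have mcf : Measurable ((ball (0 : R3) t).indicator fun z => Tf (Ez z) (Bz z) 1 0 1 (nz z)) :=
    (measurable_cf H.mE H.mB).indicator measurableSet_ball
  have mW := measurable_qq W
  have men := measurable_en
  have mF := H.mF
  have hW0 : ∀ z, 0 ≤ qq W z := fun z => ang_nonneg H.geo.W1.le (norm_nz_le z)
  have hV0 : 0 ≤ C₁ * P ^ ((-3 : ℝ) - 2 * (-2) + 1) := by positivity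
  have hw := Bd.prod_vel mcf measurable_nz
    (fun z => indicator_nonneg (fun z _ => EstA2_cf0 _ _ _) _) EstA2_ae H.cf hV0 (hvel P hP)
  have hu := H.sp.const_mul (c := M / r₂ ^ 2) (by positivity)
  have hs := H.s0
  refine (hw.cs hu (EstA2_mw mcf _ _ _).aemeasurable
    (Measurable.aemeasurable (by fun_prop)) (by positivity) (by positivity)
    (Eventually.of_forall fun q => ?_)).mono (Eventually.of_forall fun q => le_rfl) ?_
  · beta_reduce
    by_cases hF : F q = 0
    · rw [hF, zero_mul]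
      positivity
    have hv : en q.2 ≤ P := not_lt.1 fun h => hF (H.FP q h)
    have ht : q.1 ∈ ball (0 : R3) t := by
      rw [mem_ball_zero_iff]
      exact not_le.1 fun h => hF (H.Ft q h)
    by_cases hz : q.1 ∈ RF r₂ t
    swap
    · rw [indicator_of_notMem hz, mul_zero]
      positivity
    have hQ := en_pos q.2
    have hp := pp_pos q.1 q.2
    rw [indicator_of_mem hz, indicator_of_mem ht, EstA2_vel hv, Real.rpow_neg hQ.le,
      Real.rpow_neg hp.le, Real.rpow_two, show (3 : ℝ) = ((3 : ℕ) : ℝ) by norm_num,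
      Real.rpow_natCast]
    have hcf := EstA2_cf0 (Ez q.1) (Bz q.1) q.1
    set cf := Tf (Ez q.1) (Bz q.1) 1 0 1 (nz q.1)
    refine EstA2_le (by positivity) ?_
    have h1 := hW0 q.1
    have h2 := H.F0 q
    have h3 := H.FM q
    have h4 : r₂ ≤ ‖q.1‖ := hz.1
    calc (F q * gSg cf W q.1 q.2) ^ 2
        = F q / ‖q.1‖ ^ 2 * (F q * qq W q.1 * cf / (en q.2 * pp q.1 q.2) ^ 2) := by
          rw [gSg, mul_pow, div_pow, mul_pow, Real.sq_sqrt h1, Real.sq_sqrt hcf]
          ring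
      _ ≤ M / r₂ ^ 2 * (F q * qq W q.1 * cf / (en q.2 * pp q.1 q.2) ^ 2) := by
          gcongr
      _ = _ := by
          field_simp
  · rw [← Real.sqrt_mul (by positivity)]
    beta_reduce
    have e1 : P * √s = √(P ^ 2 * s) := by
      rw [Real.sqrt_mul (by positivity), Real.sqrt_sq hP0.le]
    rw [e1, ← Real.sqrt_mul (by positivity), show ((-3 : ℝ) - 2 * (-2) + 1) = 2 by norm_num,
      Real.rpow_two]
    exact Real.sqrt_le_sqrt (le_of_eq (by ring))

end Crest.Agent.R106
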