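import Crest.Agent.R106.Vel
import Crest.Agent.R106.Geom
import Crest.Agent.R106.Stress

/-!
# Row 106: bad part of the `S` kernel: flux ranges
-/

set_option autoImplicit false
set_option linter.unusedVariables false
set_option linter.unusedSectionVars false

open MeasureTheory Metric Set Filter Topology
open scoped ContDiff ENNReal RealInnerProductSpace
open Crest.AnalysisR.VecCalc3 Crest.AnalysisR.PDE.RVM

noncomputable section

namespace Crest.Agent.R106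

theorem EstB2_six {a b c : ℝ} (ha : 0 ≤ a) (hb : 0 ≤ b) (hc : 0 ≤ c) :
    (a ^ (1 / 2 : ℝ) * b ^ (1 / 3 : ℝ) * c ^ (1 - 1 / 2 - 1 / 3 : ℝ)) ^ 6 = a ^ 3 * b ^ 2 * c := by
  rw [mul_pow, mul_pow, ← Real.rpow_natCast (a ^ _), ← Real.rpow_natCast (b ^ _),
    ← Real.rpow_natCast (c ^ _), ← Real.rpow_mul ha, ← Real.rpow_mul hb, ← Real.rpow_mul hc]
  norm_num

theorem EstB2_gg_pos {e : R3} (he : ‖e‖ = 1) (v : R3) : 0 < gg e v :=
  lt_of_lt_of_le (by have := en_pos v; positivity) (inv_en_sq_le_ang v e he.le)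

theorem EstB2_velI_nonneg (P a b : ℝ) {e : R3} (he : ‖e‖ = 1) (v : R3) : 0 ≤ velI P a b e v :=
  indicator_nonneg (fun v _ => mul_nonneg (Real.rpow_nonneg (en_pos v).le _)
    (Real.rpow_nonneg (EstB2_gg_pos he v).le _)) v

theorem EstB2_velI {P : ℝ} (n : ℕ) (e : R3) {v : R3} (hv : en v ≤ P) :
    velI P (-(n : ℝ)) (-1) e v = (en v ^ n)⁻¹ * (gg e v)⁻¹ := by
  rw [velI, indicator_of_mem (show v ∈ {v : R3 | en v ≤ P} from hv), Real.rpow_neg_one,
    Real.rpow_neg (en_pos v).le, Real.rpow_natCast]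
  rfl

theorem EstB2_mvel (P a b : ℝ) (e : R3) : Measurable fun q : R3 × R3 => velI P a b e q.2 := by
  have h : Measurable fun q : R3 × R3 => ((e, q.2) : R3 × R3) :=
    measurable_const.prodMk measurable_snd
  have h2 := (measurable_velI P a b).comp h
  simpa only [Function.comp_def] using h2

theorem EstB2_gSb_nonneg {b : ℝ} (hb : 0 ≤ b) (W z v : R3) : 0 ≤ gSb b W z v := by
  have := en_pos v
  unfold gSb
  positivity

theorem EstB2_meas {S : Set R3} (hS : MeasurableSet S) {F : R3 × R3 → ℝ} (hF : Measurable F)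
    {Bz : R3 → R3} (hB : Measurable Bz) (W : R3) :
    Measurable fun q : R3 × R3 => F q * S.indicator (fun z => gSb ‖Bz q.1‖ W z q.2) q.1 := by
  have men := measurable_en
  have mqq := measurable_qq W
  have : Measurable fun q : R3 × R3 => F q * (Prod.fst ⁻¹' S).indicator
      (fun q => √(qq W q.1) * ‖Bz q.1‖ / (‖q.1‖ * en q.2)) q :=
    hF.mul (Measurable.indicator (by fun_prop) (hS.preimage measurable_fst))
  exact this

theorem EstB2_cone : ∃ C : ℝ, 0 ≤ C ∧ ∀ κ η : ℝ, 0 ≤ κ → 0 < η → ∀ e : R3, ‖e‖ = 1 →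
    Bd (fun z : R3 => if η / 2 ≤ ‖z‖ ∧ qq e z ≤ κ / √‖z‖ then (‖z‖ ^ 4)⁻¹ else 0)
      (C * (κ * η ^ (-(3 / 2) : ℝ))) := by
  refine ⟨2 * Real.pi * (2 * (2 ^ (-(3 / 2) : ℝ))⁻¹ / (3 / 2)), by positivity,
    fun κ η hκ hη e he => ?_⟩
  have h := Bd.cone he
    (g := fun x => if η / 2 ≤ x.1 ∧ x.2 ≤ κ / √x.1 then (x.1 ^ 4)⁻¹ else 0)
    (G := fun r => if η / 2 ≤ r then (r ^ 4)⁻¹ * (2 * (κ / √r)) else 0)
    (C := 2 * κ * ((η / 2) ^ (-(5 / 2) + 1 : ℝ) / (-(-(5 / 2) + 1))))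
    (Measurable.ite ((measurableSet_le measurable_const measurable_fst).inter
      (measurableSet_le measurable_snd (by fun_prop))) (by fun_prop) measurable_const)
    (fun r hr => by
      by_cases h1 : η / 2 ≤ r
      · simp only [h1, true_and, if_true]
        refine (Geom_inner (by positivity) (by positivity)).trans (ENNReal.ofReal_le_ofReal ?_)
        gcongr
        exact min_le_right _ _
      · simp [h1])
    (Vel_one (S₁ := Ici (η / 2)) (g₁ := fun r => 2 * κ * r ^ (-(5 / 2) : ℝ)) measurableSet_Ioi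
      measurableSet_Ici (fun r hr => by
        have hr : 0 < r := hr
        by_cases h1 : η / 2 ≤ r
        · refine Or.inr ⟨h1, le_of_eq ?_⟩
          have e1 : r ^ (-(5 / 2) : ℝ) = (r ^ 2 * √r)⁻¹ := by
            rw [Real.rpow_neg hr.le, Real.sqrt_eq_rpow, ← Real.rpow_natCast, ← Real.rpow_add hr]
            norm_num
          have hs : 0 < √r := Real.sqrt_pos.2 hr
          rw [if_pos h1, e1]
          field_simp
        · exact Or.inl (by rw [if_neg h1, mul_zero]))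
      (Vel_cmul (by positivity) (lint_rpow_lt (by norm_num) (by positivity))))
  refine h.mono (Eventually.of_forall fun _ => le_rfl) (le_of_eq ?_)
  rw [show (-(5 / 2) + 1 : ℝ) = -(3 / 2) by norm_num, Real.div_rpow hη.le zero_le_two]
  ring

theorem EstB2_geo {P δ : ℝ} {e W z : R3} (hP1 : 1 ≤ P) (hg : Geo P δ e W)
    (hδ : 64 * δ ^ 2 ≤ P ^ (-(11 / 10 : ℝ))) (h1 : P ^ (-(401 / 200 : ℝ)) ≤ lam e z)
    (h2 : ‖z‖ ≤ P ^ (-(99 / 100 : ℝ))) :
    z ≠ 0 ∧ P ^ (-(401 / 200 : ℝ)) / 2 ≤ ‖z‖ ∧ ‖z‖⁻¹ ≤ 2 * (qq W z / lam e z) := by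
  have hP0 : 0 < P := by linarith
  have hl : 0 < lam e z := lt_of_lt_of_le (by positivity) h1
  have hz0 : z ≠ 0 := by
    rintro rfl
    simp [lam] at hl
  have hr : 0 < ‖z‖ := norm_pos_iff.2 hz0
  have hq2 : qq e z ≤ 2 := ang_le_two hg.e1.le (norm_nz_le z)
  have hq0 : 0 ≤ qq e z := ang_nonneg hg.e1.le (norm_nz_le z)
  rw [lam_eq e hz0] at h1 hl
  have hq1 : 64 * δ ^ 2 ≤ qq e z := by
    refine hδ.trans (le_of_mul_le_mul_left ?_ (show 0 < P ^ (-(99 / 100 : ℝ)) by positivity))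
    calc _ ≤ P ^ (-(401 / 200 : ℝ)) := by
          rw [← Real.rpow_add hP0]
          exact Real.rpow_le_rpow_of_exponent_le hP1 (by norm_num)
      _ ≤ _ := h1.trans (by gcongr)
  refine ⟨hz0, by nlinarith, ?_⟩
  have := (hg.qq_cmp hz0 hq1).1
  rw [lam_eq e hz0, mul_div_assoc', le_div_iff₀ hl, ← mul_assoc, inv_mul_cancel₀ hr.ne']
  linarith

theorem EstB2_field {Ez Bz : R3 → R3} (hE : Measurable Ez) (hB : Measurable Bz) {W : R3}
    (hW : ‖W‖ ≤ 1) (t : ℝ) :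
    Measurable ((ball (0 : R3) t).indicator fun z => qq W z * ef (Ez z) (Bz z)) ∧
      ∀ z, 0 ≤ (ball (0 : R3) t).indicator (fun z => qq W z * ef (Ez z) (Bz z)) z := by
  have mqq := measurable_qq W
  refine ⟨Measurable.indicator (by unfold ef; fun_prop) measurableSet_ball,
    indicator_nonneg fun z _ => mul_nonneg (ang_nonneg hW (norm_nz_le z)) ?_⟩
  unfold ef
  positivity

theorem EstB2_flux {S : Set R3} (hS : MeasurableSet S) {F : R3 × R3 → ℝ} (hF : Measurable F)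
    (F0 : ∀ q, 0 ≤ F q) {e W : R3} (he : ‖e‖ = 1) (hW : ‖W‖ ≤ 1) (n : ℕ) :
    (Measurable fun q : R3 × R3 => S.indicator
      (fun z => F q * (qq W z / lam e z * (en q.2 * gg e q.2 ^ n))) q.1) ∧
    ∀ q : R3 × R3, 0 ≤ S.indicator
      (fun z => F q * (qq W z / lam e z * (en q.2 * gg e q.2 ^ n))) q.1 := by
  have men := measurable_en
  have mqq := measurable_qq W
  have mgg := measurable_gg e
  have mlam := measurable_lam e
  have : Measurable fun q : R3 × R3 => (Prod.fst ⁻¹' S).indicator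
      (fun q => F q * (qq W q.1 / lam e q.1 * (en q.2 * gg e q.2 ^ n))) q :=
    Measurable.indicator (by fun_prop) (hS.preimage measurable_fst)
  refine ⟨this, fun q => indicator_nonneg (fun z _ => ?_) _⟩
  have h1 : 0 ≤ qq W z := ang_nonneg hW (norm_nz_le z)
  have h2 : 0 ≤ lam e z := by
    have := real_inner_le_norm e z
    rw [he, one_mul] at this
    exact sub_nonneg.2 this
  have h3 := en_pos q.2
  have h4 := EstB2_gg_pos he q.2
  have h5 := F0 q
  positivity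

theorem est_gSb_null : Est (fun P r₂ _ e W _ b z v =>
      (RD P r₂ e ∩ {z | P ^ (-(401 / 200 : ℝ)) ≤ lam e z ∧ ‖z‖ ≤ P ^ (-(21 / 20 : ℝ))}).indicator
        (fun z => gSb b W z v) z)
    (fun P s y _ _ => P ^ (4999 / 5000 : ℝ) * (1 + s + y)) := by
  intro M 𝓔 T r₂ hM h𝓔 hT hr₂ hr₂'
  obtain ⟨Cv, hCv, hv⟩ := vel_log (-((2 : ℕ) : ℝ)) (by norm_num)
  obtain ⟨Cc, hCc, hc⟩ := EstB2_cone
  obtain ⟨P₁, hP₁⟩ := exists_delta_small
  obtain ⟨P₂, hP₂⟩ := log_pow_le ((4 : ℕ) : ℝ) (show (0 : ℝ) < 13 / 10000 by norm_num)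
  refine ⟨32 * M ^ 4 * Cc * Cv ^ 4 + 1, max (max P₁ P₂) 3, by positivity,
    fun P hP τ t δ e W F Ez Bz s y y₁ y₂ H => ?_⟩
  have h3 : 3 ≤ P := (le_max_right _ _).trans hP
  have hP1 : 1 ≤ P := by linarith
  have hP0 : 0 < P := by linarith
  obtain ⟨hN, hN'⟩ := hP₂ P ((le_max_right _ _).trans ((le_max_left _ _).trans hP))
  rw [Real.rpow_natCast] at hN'
  have hδ := hP₁ P ((le_max_left _ _).trans ((le_max_left _ _).trans hP)) δ e W H.geo
  have he := H.geo.e1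
  have hW := H.geo.W1.le
  have hs := H.s0
  have hy := H.y0
  have hV := hv P h3
  rw [show (-((2 : ℕ) : ℝ) + 3) = 1 by norm_num, Real.rpow_one] at hV
  have hV0 : 0 ≤ Cv * (P * Real.log P) := by positivity
  obtain ⟨m1, p1⟩ := EstB2_field H.mE H.mB hW t
  obtain ⟨m2, p2⟩ := EstB2_flux (measurableSet_RL P τ e) H.mF H.F0 he hW 2
  have mqq := measurable_qq e
  have m3 : Measurable fun z : R3 => if P ^ (-(401 / 200 : ℝ)) / 2 ≤ ‖z‖ ∧
      qq e z ≤ P ^ (-(101 / 100 : ℝ)) / √‖z‖ then (‖z‖ ^ 4)⁻¹ else 0 :=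
    Measurable.ite ((measurableSet_le measurable_const measurable_norm).inter
      (measurableSet_le mqq (by fun_prop))) (by fun_prop) measurable_const
  have p3 : ∀ z : R3, 0 ≤ if P ^ (-(401 / 200 : ℝ)) / 2 ≤ ‖z‖ ∧
      qq e z ≤ P ^ (-(101 / 100 : ℝ)) / √‖z‖ then (‖z‖ ^ 4)⁻¹ else 0 := fun z => by
    split_ifs
    · positivity
    · exact le_rfl
  have mv := EstB2_mvel P (-((2 : ℕ) : ℝ)) (-1) e
  have pv := EstB2_velI_nonneg P (-((2 : ℕ) : ℝ)) (-1) he
  have b1 := (Bd.prod_vel (ν := fun _ => e) m1 measurable_const p1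
    (Eventually.of_forall fun _ => he) H.sf hV0 hV).const_mul zero_le_two
  have b2 := H.hy.const_mul zero_le_two
  have b3 := (Bd.prod_vel (ν := fun _ => e) m3 measurable_const p3
    (Eventually.of_forall fun _ => he) (hc _ _ (by positivity) (by positivity) e he) hV0
    hV).const_mul (c := M ^ 4) (by positivity)
  refine (Bd.holder3 (σ₁ := 1 / 2) (σ₂ := 1 / 3) b1 b2 b3
    (((m1.comp measurable_fst).mul mv).const_mul 2).aemeasurable (m2.const_mul 2).aemeasurable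
    (((m3.comp measurable_fst).mul mv).const_mul _).aemeasurable (by positivity) (by positivity)
    (by positivity) (by norm_num) (by norm_num) (by norm_num)
    (Eventually.of_forall fun q => mul_nonneg zero_le_two (mul_nonneg (p1 _) (pv _)))
    (Eventually.of_forall fun q => mul_nonneg zero_le_two (p2 _))
    (Eventually.of_forall fun q => mul_nonneg (by positivity) (mul_nonneg (p3 _) (pv _)))
    (Eventually.of_forall fun q => ?_)).mono (Eventually.of_forall fun _ => le_rfl) ?_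
  · have a1 := mul_nonneg zero_le_two (mul_nonneg (p1 q.1) (pv q.2))
    have a2 := mul_nonneg zero_le_two (p2 q)
    have a3 := mul_nonneg (show 0 ≤ M ^ 4 by positivity) (mul_nonneg (p3 q.1) (pv q.2))
    have a0 := mul_nonneg (mul_nonneg (Real.rpow_nonneg a1 (1 / 2)) (Real.rpow_nonneg a2 (1 / 3)))
      (Real.rpow_nonneg a3 (1 - 1 / 2 - 1 / 3))
    by_cases hF : F q = 0
    · rw [hF, zero_mul]
      simpa only [hF] using a0
    by_cases hz : q.1 ∈ RD P r₂ e ∩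
        {z | P ^ (-(401 / 200 : ℝ)) ≤ lam e z ∧ ‖z‖ ≤ P ^ (-(21 / 20 : ℝ))}
    swap
    · dsimp only
      rw [indicator_of_notMem hz, mul_zero]
      exact a0
    refine le_of_pow_le_pow_left₀ (n := 6) (by norm_num) a0 ?_
    rw [EstB2_six a1 a2 a3]
    obtain ⟨hD, h5, h6⟩ := id hz
    obtain ⟨hz0, h7, h8⟩ := EstB2_geo hP1 H.geo hδ h5
      (h6.trans (Real.rpow_le_rpow_of_exponent_le hP1 (by norm_num)))
    have hQ : en q.2 ≤ P := not_lt.1 fun h => hF (H.FP q h)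
    have hball : q.1 ∈ ball (0 : R3) t := mem_ball_zero_iff.2 (not_le.1 fun h => hF (H.Ft q h))
    have hRL : q.1 ∈ RL P τ e := by
      refine ⟨le_trans (Real.rpow_le_rpow_of_exponent_le hP1 (by norm_num)) h5, ?_⟩
      have hτ0 : 0 ≤ τ := le_trans (by positivity) H.τ0
      calc ‖q.1‖ ^ 2 ≤ (P ^ (-(21 / 20 : ℝ))) ^ 2 := by gcongr
        _ ≤ P ^ (-(1 / 100 : ℝ)) * P ^ (-(401 / 200 : ℝ)) := by
            rw [← Real.rpow_natCast, ← Real.rpow_mul hP0.le, ← Real.rpow_add hP0]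
            exact Real.rpow_le_rpow_of_exponent_le hP1 (by norm_num)
        _ ≤ _ := mul_le_mul H.τ0 h5 (by positivity) hτ0
    dsimp only
    rw [indicator_of_mem hz, indicator_of_mem hball, indicator_of_mem hRL,
      if_pos ⟨h7, RD_qq hP0 hz0 hD⟩, EstB2_velI 2 e hQ, gSb]
    have c1 : 0 ≤ qq W q.1 := ang_nonneg hW (norm_nz_le _)
    have c2 : ‖Bz q.1‖ ^ 2 ≤ 2 * ef (Ez q.1) (Bz q.1) := by
      unfold ef
      nlinarith [sq_nonneg ‖Ez q.1‖]
    have c3 : 0 < ‖q.1‖ := norm_pos_iff.2 hz0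
    have c4 := en_pos q.2
    have c5 := EstB2_gg_pos he q.2
    have c6 := H.F0 q
    have c7 := H.FM q
    have c8 : √(qq W q.1) ^ 2 = qq W q.1 := Real.sq_sqrt c1
    generalize qq W q.1 / lam e q.1 = L at h8
    generalize √(qq W q.1) = sw at c8
    generalize qq W q.1 = w at c1 c8
    generalize ef (Ez q.1) (Bz q.1) = E at c2
    generalize ‖Bz q.1‖ = b at c2
    generalize ‖q.1‖ = r at c3 h8
    generalize en q.2 = Q at c4
    generalize gg e q.2 = γ at c5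
    generalize F q = f at c6 c7
    calc (f * (sw * b / (r * Q))) ^ 6
        = (w * b ^ 2 * ((Q ^ 2)⁻¹ * γ⁻¹)) ^ 3 * (f * (r⁻¹ * (Q * γ ^ 2))) ^ 2 *
          (f ^ 4 * ((r ^ 4)⁻¹ * ((Q ^ 2)⁻¹ * γ⁻¹))) := by
          rw [← c8]
          field_simp
      _ ≤ (w * (2 * E) * ((Q ^ 2)⁻¹ * γ⁻¹)) ^ 3 * (f * (2 * L * (Q * γ ^ 2))) ^ 2 *
          (M ^ 4 * ((r ^ 4)⁻¹ * ((Q ^ 2)⁻¹ * γ⁻¹))) := by
          have : 0 ≤ 2 * E := (sq_nonneg b).trans c2
          gcongr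
      _ = _ := by ring
  · refine le_of_pow_le_pow_left₀ (n := 6) (by norm_num) (by positivity) ?_
    rw [EstB2_six (by positivity) (by positivity) (by positivity)]
    have e1 : P ^ 4 * (P ^ (-(101 / 100 : ℝ)) * (P ^ (-(401 / 200 : ℝ))) ^ (-(3 / 2) : ℝ)) *
        P ^ (13 / 10000 : ℝ) = (P ^ (4999 / 5000 : ℝ)) ^ 6 := by
      rw [← Real.rpow_mul hP0.le, ← Real.rpow_natCast P, ← Real.rpow_natCast (P ^ _),
        ← Real.rpow_mul hP0.le, ← Real.rpow_add hP0, ← Real.rpow_add hP0, ← Real.rpow_add hP0]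
      norm_num
    have hK : 0 ≤ 32 * M ^ 4 * Cc * Cv ^ 4 := by positivity
    generalize hK' : 32 * M ^ 4 * Cc * Cv ^ 4 = K at hK
    have e2 : s ^ 3 * y ^ 2 ≤ (1 + s + y) ^ 6 := by
      calc s ^ 3 * y ^ 2 ≤ (1 + s + y) ^ 3 * (1 + s + y) ^ 2 := by gcongr <;> linarith
        _ = (1 + s + y) ^ 5 := by ring
        _ ≤ _ := pow_le_pow_right₀ (by linarith) (by norm_num)
    have e3 : K ≤ (K + 1) ^ 6 := (by linarith : K ≤ K + 1).trans
      (le_self_pow₀ (by linarith) (by norm_num))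
    have hX : 0 ≤ P ^ (-(101 / 100 : ℝ)) * (P ^ (-(401 / 200 : ℝ))) ^ (-(3 / 2) : ℝ) := by
      positivity
    generalize P ^ (-(101 / 100 : ℝ)) * (P ^ (-(401 / 200 : ℝ))) ^ (-(3 / 2) : ℝ) = X at e1 hX
    calc _ = K * (P ^ 4 * X * Real.log P ^ 4) * (s ^ 3 * y ^ 2) := by
          rw [← hK']
          ring
      _ ≤ (K + 1) ^ 6 * (P ^ 4 * X * P ^ (13 / 10000 : ℝ)) * (1 + s + y) ^ 6 := by gcongr
      _ = _ := by
          rw [e1]
          ring

theorem est_gSb_mid : Est (fun P r₂ _ e W _ b z v =>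
      (RD P r₂ e ∩ {z | P ^ (-(401 / 200 : ℝ)) ≤ lam e z ∧ P ^ (-(21 / 20 : ℝ)) ≤ ‖z‖ ∧
        ‖z‖ ≤ P ^ (-(99 / 100 : ℝ))}).indicator (fun z => gSb b W z v) z)
    (fun P s _ y₁ _ => P ^ (53 / 100 : ℝ) * (√s * √y₁)) := by
  intro M 𝓔 T r₂ hM h𝓔 hT hr₂ hr₂'
  obtain ⟨Cv, hCv, hv⟩ := vel_log2
  obtain ⟨P₁, hP₁⟩ := exists_delta_small
  obtain ⟨P₂, hP₂⟩ := log_pow_le 1 (show (0 : ℝ) < 1 / 200 by norm_num)
  refine ⟨√(2 * Cv) * √(2 * M), max (max P₁ P₂) 3, by positivity,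
    fun P hP τ t δ e W F Ez Bz s y y₁ y₂ H => ?_⟩
  have h3 : 3 ≤ P := (le_max_right _ _).trans hP
  have hP1 : 1 ≤ P := by linarith
  have hP0 : 0 < P := by linarith
  obtain ⟨hN, hN'⟩ := hP₂ P ((le_max_right _ _).trans ((le_max_left _ _).trans hP))
  rw [Real.rpow_one] at hN'
  have hδ := hP₁ P ((le_max_left _ _).trans ((le_max_left _ _).trans hP)) δ e W H.geo
  have he := H.geo.e1
  have hW := H.geo.W1.le
  have hs := H.s0
  have hy := H.y10
  have hV := hv P h3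
  obtain ⟨m1, p1⟩ := EstB2_field H.mE H.mB hW t
  obtain ⟨m2, p2⟩ := EstB2_flux
    (measurableSet_RE (P ^ (-(41 / 20 : ℝ))) (P ^ (-(2 / 3 : ℝ))) e) H.mF H.F0 he hW 1
  simp only [pow_one] at m2 p2
  have mv := EstB2_mvel P (-3) (-1) e
  have b1 := (Bd.prod_vel (ν := fun _ => e) m1 measurable_const p1
    (Eventually.of_forall fun _ => he) H.sf (by positivity) hV).const_mul zero_le_two
  have b2 := H.hy₁.const_mul (c := 2 * M * P ^ (21 / 20 : ℝ)) (by positivity)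
  refine (Bd.cs b1 b2 (((m1.comp measurable_fst).mul mv).const_mul 2).aemeasurable
    (m2.const_mul _).aemeasurable (by positivity) (by positivity)
    (Eventually.of_forall fun q => ?_)).mono (Eventually.of_forall fun _ => le_rfl) ?_
  · by_cases hF : F q = 0
    · rw [hF, zero_mul]
      positivity
    by_cases hz : q.1 ∈ RD P r₂ e ∩ {z | P ^ (-(401 / 200 : ℝ)) ≤ lam e z ∧
        P ^ (-(21 / 20 : ℝ)) ≤ ‖z‖ ∧ ‖z‖ ≤ P ^ (-(99 / 100 : ℝ))}
    swap
    · dsimp only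
      rw [indicator_of_notMem hz, mul_zero]
      positivity
    rw [← Real.sqrt_mul (mul_nonneg zero_le_two (mul_nonneg (p1 q.1)
      (EstB2_velI_nonneg P (-3) (-1) he q.2)))]
    refine Real.le_sqrt_of_sq_le ?_
    obtain ⟨hD, h5, h6, h6'⟩ := id hz
    obtain ⟨hz0, h7, h8⟩ := EstB2_geo hP1 H.geo hδ h5 h6'
    have hQ : en q.2 ≤ P := not_lt.1 fun h => hF (H.FP q h)
    have hball : q.1 ∈ ball (0 : R3) t := mem_ball_zero_iff.2 (not_le.1 fun h => hF (H.Ft q h))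
    have hRE : q.1 ∈ RE (P ^ (-(41 / 20 : ℝ))) (P ^ (-(2 / 3 : ℝ))) e :=
      ⟨le_trans (Real.rpow_le_rpow_of_exponent_le hP1 (by norm_num)) h5,
        h6'.trans (Real.rpow_le_rpow_of_exponent_le hP1 (by norm_num))⟩
    have hv3 : velI P (-3) (-1) e q.2 = (en q.2 ^ 3)⁻¹ * (gg e q.2)⁻¹ := by
      simpa using EstB2_velI 3 e hQ
    dsimp only
    rw [indicator_of_mem hz, indicator_of_mem hball, indicator_of_mem hRE, hv3, gSb]
    have c1 : 0 ≤ qq W q.1 := ang_nonneg hW (norm_nz_le _)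
    have c2 : ‖Bz q.1‖ ^ 2 ≤ 2 * ef (Ez q.1) (Bz q.1) := by
      unfold ef
      nlinarith [sq_nonneg ‖Ez q.1‖]
    have c3 : 0 < ‖q.1‖ := norm_pos_iff.2 hz0
    have c4 := en_pos q.2
    have c5 := EstB2_gg_pos he q.2
    have c6 := H.F0 q
    have c7 := H.FM q
    have c8 : √(qq W q.1) ^ 2 = qq W q.1 := Real.sq_sqrt c1
    have c9 : ‖q.1‖⁻¹ ≤ P ^ (21 / 20 : ℝ) := by
      rw [Real.rpow_neg hP0.le] at h6
      exact inv_le_of_inv_le₀ (by positivity) h6
    generalize qq W q.1 / lam e q.1 = L at h8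
    generalize √(qq W q.1) = sw at c8
    generalize qq W q.1 = w at c1 c8
    generalize ef (Ez q.1) (Bz q.1) = E at c2
    generalize ‖Bz q.1‖ = b at c2
    generalize ‖q.1‖ = r at c3 h8 c9
    generalize en q.2 = Q at c4
    generalize gg e q.2 = γ at c5
    generalize F q = f at c6 c7
    calc (f * (sw * b / (r * Q))) ^ 2
        = (w * b ^ 2 * ((Q ^ 3)⁻¹ * γ⁻¹)) * (f * r⁻¹ * (f * (r⁻¹ * (Q * γ)))) := by
          rw [← c8]
          field_simp
      _ ≤ (w * (2 * E) * ((Q ^ 3)⁻¹ * γ⁻¹)) *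
          (M * P ^ (21 / 20 : ℝ) * (f * (2 * L * (Q * γ)))) := by
          have : 0 ≤ 2 * E := (sq_nonneg b).trans c2
          gcongr
      _ = _ := by ring
  · have e1 : √(P ^ (21 / 20 : ℝ)) * P ^ (1 / 200 : ℝ) = P ^ (53 / 100 : ℝ) := by
      rw [Real.sqrt_eq_rpow, ← Real.rpow_mul hP0.le, ← Real.rpow_add hP0]
      norm_num
    dsimp only
    rw [show 2 * (Cv * Real.log P ^ 2 * s) = 2 * Cv * (Real.log P ^ 2 * s) by ring,
      Real.sqrt_mul (by positivity), Real.sqrt_mul (by positivity) s, Real.sqrt_sq (by linarith),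
      Real.sqrt_mul (by positivity) y₁, Real.sqrt_mul (by positivity) (P ^ _), ← e1]
    calc _ = √(2 * Cv) * √(2 * M) * (√(P ^ (21 / 20 : ℝ)) * Real.log P * (√s * √y₁)) := by ring
      _ ≤ _ := by gcongr

end Crest.Agent.R106
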