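import Crest.Agent.R106.EstB1
import Crest.Agent.R106.EstB2

/-!
# Row 106: bad part of the `S` kernel
-/

set_option autoImplicit false
set_option linter.unusedVariables false
set_option linter.unusedSectionVars false

open MeasureTheory Metric Set Filter Topology
open scoped ContDiff ENNReal RealInnerProductSpace
open Crest.AnalysisR.VecCalc3 Crest.AnalysisR.PDE.RVM

noncomputable section

namespace Crest.Agent.R106

theorem est_gSb :
    Est (fun P r₂ t e W _ b z v => (RD P r₂ e ∪ RF r₂ t).indicator (fun z => gSb b W z v) z)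
      (fun P s y y₁ _ => fz2 P s y y₁) := by
  intro M 𝓔 T r₂ hM h𝓔 hT hr₂ hr₂'
  obtain ⟨C₁, P₁, c₁, h₁⟩ := est_gSb_low M 𝓔 T r₂ hM h𝓔 hT hr₂ hr₂'
  obtain ⟨C₂, P₂, c₂, h₂⟩ := est_gSb_out M 𝓔 T r₂ hM h𝓔 hT hr₂ hr₂'
  obtain ⟨C₃, P₃, c₃, h₃⟩ := est_gSb_null M 𝓔 T r₂ hM h𝓔 hT hr₂ hr₂'
  obtain ⟨C₄, P₄, c₄, h₄⟩ := est_gSb_mid M 𝓔 T r₂ hM h𝓔 hT hr₂ hr₂'
  obtain ⟨P₅, h₅⟩ := eventually_atTop.1
    ((tendsto_rpow_neg_atTop (show (0 : ℝ) < 99 / 100 by norm_num)).eventually_le_const hr₂)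
  refine ⟨C₁ + C₂ + C₃ + C₄, max (max (max P₁ P₂) (max P₃ P₄)) (max P₅ 1), by positivity,
    fun P hP τ t δ e W F Ez Bz s y y₁ y₂ H => ?_⟩
  simp only [max_le_iff] at hP
  obtain ⟨⟨⟨a₁, a₂⟩, a₃, a₄⟩, a₅, hP1⟩ := hP
  have hP0 : 0 < P := by linarith
  have hs := H.s0
  have hy := H.y0
  have mD := measurableSet_RD P r₂ e
  have ml := measurable_lam e
  have b₁ := h₁ P a₁ τ t δ e W F Ez Bz s y y₁ y₂ H
  have b₂ := h₂ P a₂ τ t δ e W F Ez Bz s y y₁ y₂ H
  have b₃ := h₃ P a₃ τ t δ e W F Ez Bz s y y₁ y₂ H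
  have b₄ := h₄ P a₄ τ t δ e W F Ez Bz s y y₁ y₂ H
  dsimp only at b₁ b₂ b₃ b₄ ⊢
  refine (b₁.add (b₂.add (b₃.add b₄
    (EstB2_meas (mD.inter ((measurableSet_le measurable_const ml).inter
      (measurableSet_le measurable_norm measurable_const))) H.mF H.mB W).aemeasurable
    (by positivity) (by positivity))
    (EstB2_meas ((mD.union (measurableSet_RF r₂ t)).inter
      (measurableSet_le measurable_const measurable_norm)) H.mF H.mB W).aemeasurable
    (by positivity) (by positivity))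
    (EstB2_meas (mD.inter (measurableSet_le ml measurable_const)) H.mF H.mB W).aemeasurable
    (by positivity) (by positivity)).mono (Eventually.of_forall fun q => ?_) ?_
  · rw [← mul_add, ← mul_add, ← mul_add]
    refine mul_le_mul_of_nonneg_left ?_ (H.F0 q)
    have h0 : ∀ S : Set R3, 0 ≤ S.indicator (fun z => gSb ‖Bz q.1‖ W z q.2) q.1 := fun S =>
      indicator_nonneg (fun z _ => EstB2_gSb_nonneg (norm_nonneg _) W z _) _
    by_cases hz : q.1 ∈ RD P r₂ e ∪ RF r₂ t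
    swap
    · rw [indicator_of_notMem hz]
      exact add_nonneg (h0 _) (add_nonneg (h0 _) (add_nonneg (h0 _) (h0 _)))
    rw [indicator_of_mem hz]
    rcases le_or_gt (P ^ (-(99 / 100 : ℝ))) ‖q.1‖ with h6 | h6
    · refine le_add_of_nonneg_of_le (h0 _) (le_add_of_le_of_nonneg ?_ (add_nonneg (h0 _) (h0 _)))
      rw [indicator_of_mem (by exact ⟨hz, h6⟩)]
    have hD : q.1 ∈ RD P r₂ e := hz.resolve_right fun h => by
      have := h₅ P a₅
      have := h.1
      linarith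
    rcases le_total (lam e q.1) (P ^ (-(401 / 200 : ℝ))) with h7 | h7
    · refine le_add_of_le_of_nonneg ?_ (add_nonneg (h0 _) (add_nonneg (h0 _) (h0 _)))
      rw [indicator_of_mem (by exact ⟨hD, h7⟩)]
    refine le_add_of_nonneg_of_le (h0 _) (le_add_of_nonneg_of_le (h0 _) ?_)
    rcases le_total ‖q.1‖ (P ^ (-(21 / 20 : ℝ))) with h8 | h8
    · refine le_add_of_le_of_nonneg ?_ (h0 _)
      rw [indicator_of_mem (by exact ⟨hD, h7, h8⟩)]
    · refine le_add_of_nonneg_of_le (h0 _) ?_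
      rw [indicator_of_mem (by exact ⟨hD, h7, h8, h6.le⟩)]
  · have h6 : √s ≤ 1 + s + y := by nlinarith [Real.sq_sqrt hs, sq_nonneg (√s - 1)]
    have h7 : P ^ (999 / 1000 : ℝ) * √s ≤ P ^ (4999 / 5000 : ℝ) * (1 + s + y) :=
      mul_le_mul (Real.rpow_le_rpow_of_exponent_le hP1 (by norm_num)) h6 (by positivity)
        (by positivity)
    have h8 : P ^ (199 / 200 : ℝ) * √s ≤ P ^ (4999 / 5000 : ℝ) * (1 + s + y) :=
      mul_le_mul (Real.rpow_le_rpow_of_exponent_le hP1 (by norm_num)) h6 (by positivity)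
        (by positivity)
    have h9 : 0 ≤ P ^ (4999 / 5000 : ℝ) * (1 + s + y) := by positivity
    have h10 : 0 ≤ P ^ (53 / 100 : ℝ) * (√s * √y₁) := by positivity
    unfold fz2
    generalize P ^ (4999 / 5000 : ℝ) * (1 + s + y) = A at *
    generalize P ^ (53 / 100 : ℝ) * (√s * √y₁) = B at *
    have := mul_le_mul_of_nonneg_left h7 c₁
    have := mul_le_mul_of_nonneg_left h8 c₂
    have := mul_nonneg c₁ h10
    have := mul_nonneg c₂ h10
    have := mul_nonneg c₃ h10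
    have := mul_nonneg c₄ h9
    linarith

end Crest.Agent.R106
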