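import Crest.Agent.R106.Vel
import Crest.Agent.R106.Geom
import Crest.Agent.R106.Stress

/-!
# Row 106: bad part of the `S` kernel: trivial and cone ranges
-/

set_option autoImplicit false
set_option linter.unusedVariables false
set_option linter.unusedSectionVars false

open MeasureTheory Metric Set Filter Topology
open scoped ContDiff ENNReal RealInnerProductSpace
open Crest.AnalysisR.VecCalc3 Crest.AnalysisR.PDE.RVM

noncomputable section

namespace Crest.Agent.R106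

section
variable {M 𝓔 T r₂ P τ t δ : ℝ} {e W : R3} {F : R3 × R3 → ℝ} {Ez Bz : R3 → R3} {s y y₁ y₂ : ℝ}

theorem estB1_sq {a b s C X : ℝ} (ha : 0 ≤ a) (hC : 0 ≤ C * X) (h : 2 * a * b ≤ (C * X) ^ 2) :
    √(a * (2 * s)) * √b ≤ C * (X * √s) := by
  rw [show a * (2 * s) = 2 * a * s by ring, Real.sqrt_mul (by positivity), mul_right_comm,
    ← Real.sqrt_mul (by positivity), ← mul_assoc]
  exact mul_le_mul_of_nonneg_right (Real.sqrt_le_iff.2 ⟨hC, h⟩) (Real.sqrt_nonneg _)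

theorem estB1_qq {W : R3} (hW : ‖W‖ ≤ 1) (z : R3) : 0 ≤ qq W z ∧ qq W z ≤ 2 :=
  ⟨ang_nonneg hW (norm_nz_le z), ang_le_two hW (norm_nz_le z)⟩

theorem estB1_mv {c : R3 → ℝ} (mc : Measurable c) (P a b : ℝ) :
    Measurable fun q : R3 × R3 => c q.1 * velI P a b (nz q.1) q.2 := by
  have m1 : Measurable fun q : R3 × R3 => (nz q.1, q.2) :=
    (measurable_nz.comp measurable_fst).prodMk measurable_snd
  have m2 := (measurable_velI P a b).comp m1
  exact (mc.comp measurable_fst).mul m2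

theorem estB1_w (h : Frz M 𝓔 T r₂ P τ t δ e W F Ez Bz s y y₁ y₂) {a b V : ℝ} (hV0 : 0 ≤ V)
    (hV : ∀ ν : R3, ‖ν‖ = 1 → Bd (velI P a b ν) V) :
    Measurable (fun q : R3 × R3 => 2 * (ball (0 : R3) t).indicator
      (fun z => qq W z * ef (Ez z) (Bz z)) q.1 * velI P a b (nz q.1) q.2) ∧
    Bd (fun q : R3 × R3 => 2 * (ball (0 : R3) t).indicator
      (fun z => qq W z * ef (Ez z) (Bz z)) q.1 * velI P a b (nz q.1) q.2) (V * (2 * s)) := by
  have mc : Measurable fun z => 2 * (ball (0 : R3) t).indicator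
      (fun z => qq W z * ef (Ez z) (Bz z)) z := by
    refine Measurable.const_mul (Measurable.indicator ((measurable_qq W).mul ?_) measurableSet_ball) _
    exact ((h.mE.norm.pow_const 2).add (h.mB.norm.pow_const 2)).div_const 2
  refine ⟨estB1_mv mc P a b, ?_⟩
  refine Bd.prod_vel mc measurable_nz (fun z => ?_) ?_ (h.sf.const_mul (by norm_num)) hV0 hV
  · refine mul_nonneg (by norm_num) (indicator_nonneg (fun z _ => ?_) z)
    exact mul_nonneg (estB1_qq h.geo.W1.le z).1 (by unfold ef; positivity)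
  · filter_upwards [Measure.ae_ne volume (0 : R3)] with z hz using norm_nz hz

theorem estB1_b (h : Frz M 𝓔 T r₂ P τ t δ e W F Ez Bz s y y₁ y₂) {q : R3 × R3} (hq : F q ≠ 0) :
    en q.2 ≤ P ∧ qq W q.1 * ‖Bz q.1‖ ^ 2 ≤ 2 * (ball (0 : R3) t).indicator
      (fun z => qq W z * ef (Ez z) (Bz z)) q.1 := by
  refine ⟨not_lt.1 fun h' => hq (h.FP q h'), ?_⟩
  rw [indicator_of_mem (mem_ball_zero_iff.2 (not_le.1 fun h' => hq (h.Ft q h')))]
  unfold ef
  nlinarith [mul_nonneg (estB1_qq h.geo.W1.le q.1).1 (sq_nonneg ‖Ez q.1‖)]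

theorem estB1_meas (h : Frz M 𝓔 T r₂ P τ t δ e W F Ez Bz s y y₁ y₂) {c : R3 → ℝ}
    (mc : Measurable c) :
    Measurable fun q : R3 × R3 => F q * (√(qq W q.1) * ‖Bz q.1‖ * √(c q.1) / en q.2) :=
  h.mF.mul (((((measurable_qq W).comp measurable_fst).sqrt.mul
    (h.mB.comp measurable_fst).norm).mul (mc.comp measurable_fst).sqrt).div
      (measurable_en.comp measurable_snd))

theorem estB1_near (h : Frz M 𝓔 T r₂ P τ t δ e W F Ez Bz s y y₁ y₂) {c : R3 → ℝ} {Cz V : ℝ}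
    (mc : Measurable c) (c0 : ∀ z, 0 ≤ c z) (hc : Bd c Cz) (hCz : 0 ≤ Cz) (hV0 : 0 ≤ V)
    (hV : ∀ ν : R3, ‖ν‖ = 1 → Bd (velI P (-1) 0 ν) V) :
    Bd (fun q : R3 × R3 => F q * (√(qq W q.1) * ‖Bz q.1‖ * √(c q.1) / en q.2))
      (√(V * (2 * s)) * √(V * (M ^ 2 * Cz))) := by
  obtain ⟨mw, hw⟩ := estB1_w h hV0 hV
  have hs := h.s0
  have hu := Bd.prod_vel (mc.const_mul (M ^ 2)) measurable_nz
    (fun z => mul_nonneg (sq_nonneg _) (c0 z))
    (by filter_upwards [Measure.ae_ne volume (0 : R3)] with z hz using norm_nz hz)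
    (hc.const_mul (sq_nonneg M)) hV0 hV
  refine Bd.cs hw hu mw.aemeasurable (estB1_mv (mc.const_mul (M ^ 2)) P (-1) 0).aemeasurable
    (by positivity) (by positivity) (ae_of_all _ fun q => ?_)
  by_cases hq : F q = 0
  · rw [hq, zero_mul]; positivity
  obtain ⟨h1, h2⟩ := estB1_b h hq
  have hQ := en_pos q.2
  have e1 : velI P (-1) 0 (nz q.1) q.2 = (en q.2)⁻¹ := by
    unfold velI
    rw [indicator_of_mem (show q.2 ∈ {v : R3 | en v ≤ P} from h1), Real.rpow_zero, mul_one,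
      Real.rpow_neg_one]
  have w0 := (estB1_qq h.geo.W1.le q.1).1
  have F0 := h.F0 q
  have c1 := c0 q.1
  have F2 : F q ^ 2 ≤ M ^ 2 := pow_le_pow_left₀ F0 (h.FM q) 2
  have w1 := (mul_nonneg w0 (sq_nonneg ‖Bz q.1‖)).trans h2
  rw [e1, ← Real.sqrt_mul (by positivity)]
  refine Real.le_sqrt_of_sq_le ?_
  rw [mul_pow, div_pow, mul_pow, mul_pow, Real.sq_sqrt w0, Real.sq_sqrt c1]
  calc _ = qq W q.1 * ‖Bz q.1‖ ^ 2 * (en q.2)⁻¹ * (F q ^ 2 * c q.1 * (en q.2)⁻¹) := by field_simp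
    _ ≤ _ := by gcongr

theorem estB1_far (h : Frz M 𝓔 T r₂ P τ t δ e W F Ez Bz s y y₁ y₂) (hM : 0 ≤ M) (h𝓔 : 0 ≤ 𝓔)
    {K V : ℝ} (hV0 : 0 ≤ V) (hV : ∀ ν : R3, ‖ν‖ = 1 → Bd (velI P (-3) (-1) ν) V) :
    Bd (fun q : R3 × R3 => F q * (√(qq W q.1) * ‖Bz q.1‖ * K / en q.2))
      (√(V * (2 * s)) * √(M * K ^ 2 * 𝓔)) := by
  obtain ⟨mw, hw⟩ := estB1_w h hV0 hV
  have hs := h.s0
  refine Bd.cs hw (h.cp.const_mul (c := M * K ^ 2) (by positivity)) mw.aemeasurable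
    ((h.mF.mul ((measurable_en.comp measurable_snd).mul measurable_pp)).const_mul _).aemeasurable
    (by positivity) (by positivity) (ae_of_all _ fun q => ?_)
  by_cases hq : F q = 0
  · rw [hq, zero_mul]; positivity
  obtain ⟨h1, h2⟩ := estB1_b h hq
  have hQ := en_pos q.2
  have hp := pp_pos q.1 q.2
  have e1 : velI P (-3) (-1) (nz q.1) q.2 = (en q.2 ^ 3)⁻¹ * (pp q.1 q.2)⁻¹ := by
    unfold velI
    rw [indicator_of_mem (show q.2 ∈ {v : R3 | en v ≤ P} from h1), Real.rpow_neg_one,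
      Real.rpow_neg hQ.le, show (3 : ℝ) = (3 : ℕ) by norm_num, Real.rpow_natCast]
    rfl
  have w0 := (estB1_qq h.geo.W1.le q.1).1
  have F0 := h.F0 q
  have F1 := h.FM q
  have w1 := (mul_nonneg w0 (sq_nonneg ‖Bz q.1‖)).trans h2
  rw [e1, ← Real.sqrt_mul (by positivity)]
  refine Real.le_sqrt_of_sq_le ?_
  rw [mul_pow, div_pow, mul_pow, mul_pow, Real.sq_sqrt w0]
  calc _ = qq W q.1 * ‖Bz q.1‖ ^ 2 * ((en q.2 ^ 3)⁻¹ * (pp q.1 q.2)⁻¹) *
        (F q * K ^ 2 * (F q * (en q.2 * pp q.1 q.2))) := by field_simp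
    _ ≤ _ := by gcongr

end

theorem est_gSp :
    Est (fun P r₂ t e W _ b z v => (RD P r₂ e ∪ RF r₂ t).indicator (fun z => gSp b e W z v) z)
      (fun P s _ _ _ => P ^ (199 / 200 : ℝ) * √s) := by
  intro M 𝓔 T r₂ hM h𝓔 hT hr₂ hr₂'
  obtain ⟨C₁, hC₁, h₁⟩ := vel_gt (-1) 0 (by norm_num) (by norm_num)
  obtain ⟨C₂, P₂, hC₂, h₂⟩ := cone_RD
  obtain ⟨C₃, hC₃, h₃⟩ := vel_log2
  obtain ⟨P₄, h₄⟩ := log_pow_le 2 (show (0 : ℝ) < 1 / 100 by norm_num)
  refine ⟨C₁ * M * √(4 * C₂) + √(2 * C₃ * (M * (3 / r₂) ^ 2 * 𝓔)), max (max P₂ P₄) 3,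
    by positivity, fun P hP τ t δ e W F Ez Bz s y y₁ y₂ h => ?_⟩
  have hP3 : 3 ≤ P := (le_max_right _ _).trans hP
  have hP0 : 0 < P := by linarith
  obtain ⟨l1, l2⟩ := h₄ P (((le_max_right _ _).trans (le_max_left _ _)).trans hP)
  rw [Real.rpow_two] at l2
  have l3 : Real.log P ≤ P ^ (1 / 100 : ℝ) := le_trans (by nlinarith) l2
  have hc := (h₂ P (((le_max_left _ _).trans (le_max_left _ _)).trans hP) r₂ hr₂' δ e W
    h.geo).const_mul (show (0 : ℝ) ≤ 2 by norm_num)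
  have mc : Measurable fun z => 2 * (RD P r₂ e).indicator
      (fun z => (qq W z + qq e z) / ‖z‖ ^ 2) z :=
    ((((measurable_qq W).add (measurable_qq e)).div (measurable_norm.pow_const 2)).indicator
      (measurableSet_RD P r₂ e)).const_mul 2
  have qW := estB1_qq h.geo.W1.le
  have qe := estB1_qq h.geo.e1.le
  have a1 := estB1_near h mc (fun z => mul_nonneg (by norm_num) (indicator_nonneg
    (fun z _ => div_nonneg (add_nonneg (qW z).1 (qe z).1) (sq_nonneg _)) z)) hc (by positivity)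
    (by positivity) (h₁ P (by linarith))
  have a2 := estB1_far h hM h𝓔 (K := 3 / r₂) (by positivity) (h₃ P hP3)
  refine (a1.add a2 (estB1_meas h mc).aemeasurable (by positivity) (by positivity)).mono ?_ ?_
  · filter_upwards [ae_fst_ne_zero] with q hq
    have hr : 0 < ‖q.1‖ := norm_pos_iff.2 hq
    have hQ := en_pos q.2
    have F0 := h.F0 q
    rw [← mul_add]
    refine mul_le_mul_of_nonneg_left ?_ F0
    have w1 := Real.sq_sqrt (qW q.1).1
    have w2 := Real.sq_sqrt (qe q.1).1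
    by_cases hz : q.1 ∈ RD P r₂ e ∪ RF r₂ t
    · have e1 : gSp ‖Bz q.1‖ e W q.1 q.2 = √(qq W q.1) * ‖Bz q.1‖ *
          ((√(qq W q.1) + √(qq e q.1)) / ‖q.1‖) / en q.2 := by unfold gSp; field_simp
      rw [indicator_of_mem hz, e1]
      rcases hz with hz | hz
      · refine le_add_of_le_of_nonneg ?_ (by positivity)
        gcongr
        refine Real.le_sqrt_of_sq_le ?_
        rw [indicator_of_mem hz, div_pow, ← mul_div_assoc]
        refine div_le_div_of_nonneg_right ?_ (sq_nonneg _)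
        nlinarith [sq_nonneg (√(qq W q.1) - √(qq e q.1))]
      · refine le_add_of_nonneg_of_le (by positivity) ?_
        have b1 : √(qq W q.1) ≤ 3 / 2 := Real.sqrt_le_iff.2 ⟨by norm_num, by linarith [(qW q.1).2]⟩
        have b2 : √(qq e q.1) ≤ 3 / 2 := Real.sqrt_le_iff.2 ⟨by norm_num, by linarith [(qe q.1).2]⟩
        have b3 : (√(qq W q.1) + √(qq e q.1)) / ‖q.1‖ ≤ 3 / r₂ :=
          div_le_div₀ (by norm_num) (by linarith) hr₂ hz.1
        gcongr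
    · rw [indicator_of_notMem hz]; positivity
  · rw [add_mul]
    have hX : 1 ≤ P ^ (199 / 200 : ℝ) := Real.one_le_rpow (by linarith) (by norm_num)
    refine add_le_add (estB1_sq (by positivity) (by positivity) ?_)
      (estB1_sq (by positivity) (by positivity) ?_)
    · have e : (P ^ (199 / 200 : ℝ)) ^ 2 = P ^ (-1 + 3 : ℝ) * P ^ (-1 + 3 : ℝ) *
          (P ^ (-(101 / 50 : ℝ)) * P ^ (1 / 100 : ℝ)) := by
        rw [← Real.rpow_mul_natCast hP0.le, ← Real.rpow_add hP0, ← Real.rpow_add hP0,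
          ← Real.rpow_add hP0]
        norm_num
      rw [mul_pow, mul_pow, mul_pow, Real.sq_sqrt (by positivity), e]
      calc _ = C₁ ^ 2 * M ^ 2 * (4 * C₂) * (P ^ (-1 + 3 : ℝ) * P ^ (-1 + 3 : ℝ) *
            (P ^ (-(101 / 50 : ℝ)) * Real.log P)) := by ring
        _ ≤ _ := by gcongr
    · have e : P ^ (1 / 100 : ℝ) ≤ (P ^ (199 / 200 : ℝ)) ^ 2 := by
        rw [← Real.rpow_mul_natCast hP0.le]
        exact Real.rpow_le_rpow_of_exponent_le (by linarith) (by norm_num)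
      rw [mul_pow, Real.sq_sqrt (by positivity)]
      calc _ = 2 * C₃ * (M * (3 / r₂) ^ 2 * 𝓔) * Real.log P ^ 2 := by ring
        _ ≤ _ := mul_le_mul_of_nonneg_left (l2.trans e) (by positivity)

theorem est_gSb_low : Est (fun P r₂ _ e W _ b z v =>
      (RD P r₂ e ∩ {z | lam e z ≤ P ^ (-(401 / 200 : ℝ))}).indicator (fun z => gSb b W z v) z)
    (fun P s _ _ _ => P ^ (999 / 1000 : ℝ) * √s) := by
  intro M 𝓔 T r₂ hM h𝓔 hT hr₂ hr₂'
  obtain ⟨C₁, hC₁, h₁⟩ := vel_gt (-1) 0 (by norm_num) (by norm_num)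
  obtain ⟨C₂, hC₂, h₂⟩ := cone_lam
  obtain ⟨P₄, h₄⟩ := log_pow_le 1 (show (0 : ℝ) < 3 / 1000 by norm_num)
  refine ⟨C₁ * M * √(8 * C₂), max P₄ 3, by positivity,
    fun P hP τ t δ e W F Ez Bz s y y₁ y₂ h => ?_⟩
  have hP3 : 3 ≤ P := (le_max_right _ _).trans hP
  have hP0 : 0 < P := by linarith
  obtain ⟨l1, l2⟩ := h₄ P ((le_max_left _ _).trans hP)
  rw [Real.rpow_one] at l2
  have hc := h₂ (P ^ (-(401 / 200 : ℝ))) (by positivity)
    (Real.rpow_le_one_of_one_le_of_nonpos (by linarith) (by norm_num)) e h.geo.e1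
  rw [Real.log_inv, Real.log_rpow hP0] at hc
  have mc : Measurable ({z : R3 | lam e z ≤ P ^ (-(401 / 200 : ℝ)) ∧ ‖z‖ ≤ 1}.indicator
      fun z => (‖z‖ ^ 2)⁻¹) :=
    (measurable_norm.pow_const 2).inv.indicator
      ((measurableSet_le (measurable_lam e) measurable_const).inter
        (measurableSet_le measurable_norm measurable_const))
  have l3 : 0 ≤ 1 + -(-(401 / 200) * Real.log P) := by linarith
  have a1 := estB1_near h mc (fun z => indicator_nonneg (fun z _ => by positivity) z) hc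
    (by positivity) (by positivity) (h₁ P (by linarith))
  refine a1.mono ?_ (estB1_sq (by positivity) (by positivity) ?_)
  · filter_upwards [ae_fst_ne_zero] with q hq
    have hr : 0 < ‖q.1‖ := norm_pos_iff.2 hq
    have hQ := en_pos q.2
    refine mul_le_mul_of_nonneg_left ?_ (h.F0 q)
    by_cases hz : q.1 ∈ RD P r₂ e ∩ {z | lam e z ≤ P ^ (-(401 / 200 : ℝ))}
    · have hz' : q.1 ∈ {z : R3 | lam e z ≤ P ^ (-(401 / 200 : ℝ)) ∧ ‖z‖ ≤ 1} :=
        ⟨hz.2, by linarith [hz.1.2]⟩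
      rw [indicator_of_mem hz, indicator_of_mem hz', Real.sqrt_inv, Real.sqrt_sq hr.le]
      unfold gSb
      exact le_of_eq (by field_simp)
    · rw [indicator_of_notMem hz]; positivity
  · have e : (P ^ (999 / 1000 : ℝ)) ^ 2 = P ^ (-1 + 3 : ℝ) * P ^ (-1 + 3 : ℝ) *
        (P ^ (-(401 / 200 : ℝ)) * P ^ (3 / 1000 : ℝ)) := by
      rw [← Real.rpow_mul_natCast hP0.le, ← Real.rpow_add hP0, ← Real.rpow_add hP0,
        ← Real.rpow_add hP0]
      norm_num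
    have l4 : 1 + -(-(401 / 200) * Real.log P) ≤ 4 * P ^ (3 / 1000 : ℝ) := by linarith
    rw [mul_pow, mul_pow, mul_pow, Real.sq_sqrt (by positivity), e]
    calc _ = C₁ ^ 2 * M ^ 2 * (2 * C₂) * (P ^ (-1 + 3 : ℝ) * P ^ (-1 + 3 : ℝ) *
          (P ^ (-(401 / 200 : ℝ)) * (1 + -(-(401 / 200) * Real.log P)))) := by ring
      _ ≤ C₁ ^ 2 * M ^ 2 * (2 * C₂) * (P ^ (-1 + 3 : ℝ) * P ^ (-1 + 3 : ℝ) *
          (P ^ (-(401 / 200 : ℝ)) * (4 * P ^ (3 / 1000 : ℝ)))) := by gcongr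
      _ = _ := by ring

theorem est_gSb_out : Est (fun P r₂ t e W _ b z v =>
      ((RD P r₂ e ∪ RF r₂ t) ∩ {z | P ^ (-(99 / 100 : ℝ)) ≤ ‖z‖}).indicator
        (fun z => gSb b W z v) z)
    (fun P s _ _ _ => P ^ (199 / 200 : ℝ) * √s) := by
  intro M 𝓔 T r₂ hM h𝓔 hT hr₂ hr₂'
  obtain ⟨C₃, hC₃, h₃⟩ := vel_log2
  obtain ⟨P₄, h₄⟩ := log_pow_le 2 (show (0 : ℝ) < 1 / 100 by norm_num)
  refine ⟨√(2 * C₃ * (M * 𝓔)), max P₄ 3, by positivity,
    fun P hP τ t δ e W F Ez Bz s y y₁ y₂ h => ?_⟩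
  have hP3 : 3 ≤ P := (le_max_right _ _).trans hP
  have hP0 : 0 < P := by linarith
  obtain ⟨l1, l2⟩ := h₄ P ((le_max_left _ _).trans hP)
  rw [Real.rpow_two] at l2
  have a2 := estB1_far h hM h𝓔 (K := P ^ (99 / 100 : ℝ)) (by positivity) (h₃ P hP3)
  refine a2.mono (ae_of_all _ fun q => ?_) (estB1_sq (by positivity) (by positivity) ?_)
  · have hQ := en_pos q.2
    refine mul_le_mul_of_nonneg_left ?_ (h.F0 q)
    dsimp only
    by_cases hz : q.1 ∈ (RD P r₂ e ∪ RF r₂ t) ∩ {z | P ^ (-(99 / 100 : ℝ)) ≤ ‖z‖}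
    · have h1 : P ^ (-(99 / 100 : ℝ)) ≤ ‖q.1‖ := hz.2
      have hr : 0 < ‖q.1‖ := lt_of_lt_of_le (by positivity) h1
      have h2 : ‖q.1‖⁻¹ ≤ P ^ (99 / 100 : ℝ) := by
        rw [Real.rpow_neg hP0.le] at h1
        exact inv_le_of_inv_le₀ (by positivity) h1
      have e1 : gSb ‖Bz q.1‖ W q.1 q.2 = √(qq W q.1) * ‖Bz q.1‖ * ‖q.1‖⁻¹ / en q.2 := by
        unfold gSb; field_simp
      rw [indicator_of_mem hz, e1]
      gcongr
    · rw [indicator_of_notMem hz]; positivity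
  · have e : (P ^ (199 / 200 : ℝ)) ^ 2 = (P ^ (99 / 100 : ℝ)) ^ 2 * P ^ (1 / 100 : ℝ) := by
      rw [← Real.rpow_mul_natCast hP0.le, ← Real.rpow_mul_natCast hP0.le, ← Real.rpow_add hP0]
      norm_num
    rw [mul_pow, Real.sq_sqrt (by positivity), e]
    calc _ = 2 * C₃ * (M * 𝓔) * ((P ^ (99 / 100 : ℝ)) ^ 2 * Real.log P ^ 2) := by ring
      _ ≤ _ := by gcongr

end Crest.Agent.R106
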