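import Crest.Agent.R106.Vel
import Crest.Agent.R106.Geom
import Crest.Agent.R106.Stress

/-!
# Row 106: mismatch terms, `T` part
-/

set_option autoImplicit false
set_option linter.unusedVariables false
set_option linter.unusedSectionVars false

open MeasureTheory Metric Set Filter Topology
open scoped ContDiff ENNReal RealInnerProductSpace
open Crest.AnalysisR.VecCalc3 Crest.AnalysisR.PDE.RVM

noncomputable section

namespace Crest.Agent.R106

/-- geometry of the near part of `RI` -/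
theorem EstC_geo {P r₂ τ δ : ℝ} {e W z : R3} (hP1 : 1 ≤ P) (h2 : 2 ≤ P ^ (1 / 100 : ℝ))
    (hg : Geo P δ e W) (hδ : 64 * δ ^ 2 ≤ P ^ (-(11 / 10 : ℝ))) (hτ : P ^ (-(1 / 100 : ℝ)) ≤ τ)
    (hz : z ∈ RI P r₂ e ∩ {z | ‖z‖ ≤ P ^ (-(7 / 10 : ℝ))}) :
    z ≠ 0 ∧ 0 < qq e z ∧ ‖z‖ ≤ 1 ∧ z ∈ RL P τ e ∧ ‖z‖⁻¹ ≤ 2 * (qq W z / lam e z) := by
  obtain ⟨hI, h7⟩ := hz
  have h7 : ‖z‖ ≤ P ^ (-(7 / 10 : ℝ)) := h7
  have hP0 : 0 < P := by linarith
  have hz0 := RI_ne_zero hP0 hI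
  have hr : 0 < ‖z‖ := norm_pos_iff.2 hz0
  have hs : 0 < √‖z‖ := Real.sqrt_pos.2 hr
  have hq := RI_qq hP0 hI
  have hq0 : 0 < qq e z := lt_of_lt_of_le (by positivity) hq
  have hr1 : ‖z‖ ≤ 1 := h7.trans (Real.rpow_le_one_of_one_le_of_nonpos hP1 (by norm_num))
  have hs1 : √‖z‖ ≤ 1 := Real.sqrt_le_one.2 hr1
  have hlam : P ^ (-(51 / 50 : ℝ)) * √‖z‖ ≤ lam e z := by
    rw [lam_eq e hz0]
    calc _ = ‖z‖ * (P ^ (-(51 / 50 : ℝ)) / √‖z‖) := by
          rw [mul_div_assoc', mul_comm ‖z‖, mul_div_assoc, Real.div_sqrt]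
      _ ≤ _ := by gcongr
  have hq1 : 64 * δ ^ 2 ≤ qq e z := by
    refine hδ.trans (le_trans ?_ hq)
    rw [le_div_iff₀ hs]
    calc _ ≤ P ^ (-(11 / 10 : ℝ)) * 1 := by gcongr
      _ ≤ _ := by
        rw [mul_one]
        exact Real.rpow_le_rpow_of_exponent_le hP1 (by norm_num)
  refine ⟨hz0, hq0, hr1, ⟨le_trans ?_ hlam, ?_⟩, ?_⟩
  · have h3 : P ^ (-(51 / 50 : ℝ)) / 2 ≤ √‖z‖ := by
      refine Real.le_sqrt_of_sq_le (le_trans (le_of_eq ?_) (RI_norm hP0 hg.e1 hI))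
      rw [div_pow, ← Real.rpow_natCast, ← Real.rpow_mul hP0.le]
      norm_num
    have h4 : P ^ (-(51 / 50 : ℝ)) * P ^ (-(51 / 50 : ℝ)) =
        P ^ (-(41 / 20 : ℝ)) * P ^ (1 / 100 : ℝ) := by
      rw [← Real.rpow_add hP0, ← Real.rpow_add hP0]
      norm_num
    have h5 : 0 < P ^ (-(41 / 20 : ℝ)) := by positivity
    have h6 : 0 < P ^ (-(51 / 50 : ℝ)) := by positivity
    nlinarith
  · have h3 : √‖z‖ ≤ P ^ (-(7 / 20 : ℝ)) := by
      refine Real.sqrt_le_iff.2 ⟨by positivity, h7.trans (le_of_eq ?_)⟩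
      rw [← Real.rpow_natCast, ← Real.rpow_mul hP0.le]
      norm_num
    have h4 : P ^ (-(7 / 10 : ℝ)) * P ^ (-(7 / 20 : ℝ)) ≤
        P ^ (-(1 / 100 : ℝ)) * P ^ (-(51 / 50 : ℝ)) := by
      rw [← Real.rpow_add hP0, ← Real.rpow_add hP0]
      exact Real.rpow_le_rpow_of_exponent_le hP1 (by norm_num)
    have hτ0 : 0 ≤ τ := le_trans (by positivity) hτ
    calc ‖z‖ ^ 2 = ‖z‖ * √‖z‖ * √‖z‖ := by rw [mul_assoc, Real.mul_self_sqrt hr.le, sq]
      _ ≤ P ^ (-(7 / 10 : ℝ)) * P ^ (-(7 / 20 : ℝ)) * √‖z‖ := by gcongr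
      _ ≤ τ * P ^ (-(51 / 50 : ℝ)) * √‖z‖ :=
          mul_le_mul_of_nonneg_right (h4.trans (by gcongr)) hs.le
      _ ≤ _ := by
          rw [mul_assoc]
          gcongr
  · have := (hg.qq_cmp hz0 hq1).1
    rw [lam_eq e hz0, mul_div_assoc', le_div_iff₀ (by positivity), ← mul_assoc,
      inv_mul_cancel₀ hr.ne']
    linarith

/-- the null flux weight on the near part of `RI` -/
theorem EstC_hy {M 𝓔 T r₂ P τ t δ : ℝ} {e W : R3} {F : R3 × R3 → ℝ} {Ez Bz : R3 → R3}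
    {s y y₁ y₂ : ℝ} (H : Frz M 𝓔 T r₂ P τ t δ e W F Ez Bz s y y₁ y₂) (hP1 : 1 ≤ P)
    (h2 : 2 ≤ P ^ (1 / 100 : ℝ)) (hδ : 64 * δ ^ 2 ≤ P ^ (-(11 / 10 : ℝ))) :
    Bd (fun q : R3 × R3 => (Prod.fst ⁻¹' (RI P r₂ e ∩ {z | ‖z‖ ≤ P ^ (-(7 / 10 : ℝ))})).indicator
      (fun q => F q * (‖q.1‖⁻¹ * (en q.2 * gg e q.2 ^ 2))) q) (2 * y) := by
  refine (H.hy.const_mul zero_le_two).mono (Eventually.of_forall fun q => ?_) le_rfl
  have hw : 0 ≤ F q * (en q.2 * gg e q.2 ^ 2) :=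
    mul_nonneg (H.F0 q) (mul_nonneg (en_pos _).le (sq_nonneg _))
  by_cases hq : q ∈ Prod.fst ⁻¹' (RI P r₂ e ∩ {z | ‖z‖ ≤ P ^ (-(7 / 10 : ℝ))})
  · obtain ⟨-, -, -, h4, h5⟩ := EstC_geo hP1 h2 H.geo hδ H.τ0 hq
    rw [indicator_of_mem hq, indicator_of_mem h4]
    nlinarith [mul_le_mul_of_nonneg_right h5 hw]
  · rw [indicator_of_notMem hq]
    refine mul_nonneg zero_le_two (indicator_nonneg (fun z hz => ?_) _)
    have h6 : 0 < lam e z := lt_of_lt_of_le (by positivity) hz.1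
    exact mul_nonneg (H.F0 q) (mul_nonneg (div_nonneg (ang_nonneg H.geo.W1.le (norm_nz_le z)) h6.le)
      (mul_nonneg (en_pos _).le (sq_nonneg _)))

/-- the spatial factor of the remainders -/
def EstC_c (I : Set ℝ) (κ α β : ℝ) (e z : R3) : ℝ :=
  {x : ℝ × ℝ | x.1 ∈ I ∧ κ / √x.1 ≤ x.2}.indicator (fun x => x.1 ^ α * x.2 ^ β) (‖z‖, qq e z)

theorem EstC_m {I : Set ℝ} (mI : MeasurableSet I) (κ α β : ℝ) : Measurable
    ({x : ℝ × ℝ | x.1 ∈ I ∧ κ / √x.1 ≤ x.2}.indicator fun x => x.1 ^ α * x.2 ^ β) :=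
  ((measurable_fst.pow_const α).mul (measurable_snd.pow_const β)).indicator
    ((mI.preimage measurable_fst).inter (measurableSet_le (by fun_prop) measurable_snd))

theorem EstC_cone {e : R3} (he : ‖e‖ = 1) {I : Set ℝ} (mI : MeasurableSet I)
    {κ α β α' m K C : ℝ} (hK : 0 ≤ K) (hm : m = 2 + α + α')
    (hin : ∀ r, 0 < r → ∃ S₁, MeasurableSet S₁ ∧ (∀ q ∈ Ioo (0 : ℝ) 2, κ / √r ≤ q → q ∈ S₁) ∧
      ∫⁻ q in S₁, ENNReal.ofReal (q ^ β) ≤ ENNReal.ofReal (K * r ^ α'))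
    (hout : ∫⁻ r in I, ENNReal.ofReal (r ^ m) ≤ ENNReal.ofReal C) :
    Bd (EstC_c I κ α β e) (2 * Real.pi * (K * C)) := by
  refine Bd.cone he (G := fun r => I.indicator (fun r => r ^ α * (K * r ^ α')) r)
    (EstC_m mI κ α β) (fun r hr => ?_) ?_
  · obtain ⟨S₁, m₁, h₁, h₂⟩ := hin r hr
    by_cases h : r ∈ I
    · rw [indicator_of_mem h]
      refine Vel_one measurableSet_Ioo m₁ (fun q hq => ?_)
        (Vel_cmul (Real.rpow_nonneg hr.le α) h₂)
      by_cases h3 : κ / √r ≤ q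
      · exact Or.inr ⟨h₁ q hq h3, le_of_eq (indicator_of_mem (by exact ⟨h, h3⟩) _)⟩
      · exact Or.inl (le_of_eq (indicator_of_notMem (fun h' => h3 h'.2) _))
    · have : ∀ q : ℝ, (r, q) ∉ {x : ℝ × ℝ | x.1 ∈ I ∧ κ / √x.1 ≤ x.2} := fun q h' => h h'.1
      simp only [indicator_of_notMem (this _)]
      simp
  · refine Vel_one measurableSet_Ioi mI (fun r hr => ?_) (Vel_cmul hK hout)
    by_cases h : r ∈ I
    · refine Or.inr ⟨h, le_of_eq ?_⟩
      rw [indicator_of_mem h, hm, Real.rpow_add hr, Real.rpow_add hr, Real.rpow_two]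
      ring
    · exact Or.inl (by rw [indicator_of_notMem h, mul_zero])

theorem EstC_in {κ β : ℝ} (hκ : 0 < κ) (hβ : β < -1) (r : ℝ) (hr : 0 < r) :
    ∃ S₁, MeasurableSet S₁ ∧ (∀ q ∈ Ioo (0 : ℝ) 2, κ / √r ≤ q → q ∈ S₁) ∧
      ∫⁻ q in S₁, ENNReal.ofReal (q ^ β) ≤
        ENNReal.ofReal (κ ^ (β + 1) / (-(β + 1)) * r ^ (-(β + 1) / 2)) := by
  refine ⟨Ici (κ / √r), measurableSet_Ici, fun q _ h => h,
    (lint_rpow_lt hβ (by positivity)).trans (ENNReal.ofReal_le_ofReal (le_of_eq ?_))⟩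
  rw [Real.div_rpow hκ.le (Real.sqrt_nonneg _), Real.sqrt_eq_rpow, ← Real.rpow_mul hr.le,
    show -(β + 1) / 2 = -(1 / 2 * (β + 1)) by ring, Real.rpow_neg hr.le]
  ring

/-- one application of Hölder's inequality -/
theorem EstC_piece {M P Wt V Cz c θ σ a b κ α β : ℝ} {F w : R3 × R3 → ℝ} {ν : R3 → R3} {e : R3}
    {I : Set ℝ} (hM : 0 ≤ M) (hP : 0 < P) (F0 : ∀ q, 0 ≤ F q) (FM : ∀ q, F q ≤ M)
    (FP : ∀ q, P < en q.2 → F q = 0) (he : ‖e‖ = 1) (mI : MeasurableSet I) (mw : Measurable w)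
    (w0 : ∀ q, 0 ≤ w q) (hw : Bd w Wt) (hW : 0 ≤ Wt) (mν : Measurable ν) (hν1 : ∀ z, ‖ν z‖ ≤ 1)
    (hν : ∀ z, z ≠ 0 → ‖ν z‖ = 1) (hc : Bd (EstC_c I κ α β e) Cz) (hV0 : 0 ≤ V)
    (hV : ∀ ν : R3, ‖ν‖ = 1 → Bd (velI P a b ν) V) (h0 : 0 ≤ σ) (h1 : σ ≤ 1) (hc0 : 0 ≤ c)
    (hVC : V * Cz ≤ c * P ^ θ) (hθ : θ * (1 - σ) = 141 / 100) :
    ∃ g : R3 × R3 → ℝ, Measurable g ∧ (∀ q, 0 ≤ g q) ∧
      Bd g (Wt ^ σ * (M * c) ^ (1 - σ) * P ^ (141 / 100 : ℝ)) ∧
      ∀ (q : R3 × R3) (w₀ G : ℝ), 0 ≤ w₀ → F q * w₀ ≤ w q → ‖q.1‖ ∈ I → κ / √‖q.1‖ ≤ qq e q.1 →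
        G ≤ w₀ ^ σ * (‖q.1‖ ^ α * qq e q.1 ^ β *
          (en q.2 ^ a * ang (relVel q.2) (ν q.1) ^ b)) ^ (1 - σ) → F q * G ≤ g q := by
  classical
  have mc : Measurable (EstC_c I κ α β e) :=
    (EstC_m mI κ α β).comp (measurable_norm.prodMk (measurable_qq e))
  have q0 : ∀ z, 0 ≤ qq e z := fun z => ang_nonneg he.le (norm_nz_le z)
  have a0 : ∀ q : R3 × R3, 0 ≤ en q.2 ^ a * ang (relVel q.2) (ν q.1) ^ b := fun q =>
    mul_nonneg (Real.rpow_nonneg (en_pos _).le _)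
      (Real.rpow_nonneg (ang_nonneg (norm_relVel_lt_one _).le (hν1 _)) _)
  have b0 : ∀ z, 0 ≤ ‖z‖ ^ α * qq e z ^ β := fun z =>
    mul_nonneg (Real.rpow_nonneg (norm_nonneg _) _) (Real.rpow_nonneg (q0 z) _)
  have c0 : ∀ z, 0 ≤ EstC_c I κ α β e z := fun z => by
    unfold EstC_c
    rw [indicator_apply]
    split_ifs
    exacts [b0 z, le_rfl]
  have u0 : ∀ q : R3 × R3, 0 ≤ M * (EstC_c I κ α β e q.1 * velI P a b (ν q.1) q.2) := fun q => by
    refine mul_nonneg hM (mul_nonneg (c0 _) ?_)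
    unfold velI
    rw [indicator_apply]
    split_ifs
    exacts [a0 q, le_rfl]
  have mu : Measurable fun q : R3 × R3 => M * (EstC_c I κ α β e q.1 * velI P a b (ν q.1) q.2) :=
    ((mc.comp measurable_fst).mul ((measurable_velI P a b).comp
      ((mν.comp measurable_fst).prodMk measurable_snd))).const_mul M
  have hu := ((Bd.prod_vel mc mν c0 ((Measure.ae_ne volume (0 : R3)).mono hν) hc hV0 hV).mono
    (Eventually.of_forall fun _ => le_rfl) hVC).const_mul hM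
  have h2 : 0 ≤ 1 - σ := sub_nonneg.2 h1
  refine ⟨fun q => w q ^ σ * (M * (EstC_c I κ α β e q.1 * velI P a b (ν q.1) q.2)) ^ (1 - σ),
    (mw.pow_const σ).mul (mu.pow_const _),
    fun q => mul_nonneg (Real.rpow_nonneg (w0 q) _) (Real.rpow_nonneg (u0 q) _),
    (hw.holder2 hu mw.aemeasurable mu.aemeasurable hW (by positivity) h0 h1
      (Eventually.of_forall w0) (Eventually.of_forall u0)
      (Eventually.of_forall fun _ => le_rfl)).mono (Eventually.of_forall fun _ => le_rfl)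
      (le_of_eq ?_), fun q w₀ G hw₀ h3 h4 h5 h6 => ?_⟩
  · rw [← mul_assoc M, Real.mul_rpow (by positivity) (by positivity), ← Real.rpow_mul hP.le, hθ,
      mul_assoc]
  · by_cases hv : en q.2 ≤ P
    · have e1 : EstC_c I κ α β e q.1 = ‖q.1‖ ^ α * qq e q.1 ^ β :=
        indicator_of_mem (by exact ⟨h4, h5⟩) _
      have e2 : velI P a b (ν q.1) q.2 = en q.2 ^ a * ang (relVel q.2) (ν q.1) ^ b :=
        indicator_of_mem (by exact hv) _
      have h7 := mul_nonneg (b0 q.1) (a0 q)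
      have h8 := F0 q
      simp only [e1, e2]
      generalize ‖q.1‖ ^ α * qq e q.1 ^ β * (en q.2 ^ a * ang (relVel q.2) (ν q.1) ^ b) = u at h6 h7
      calc F q * G ≤ F q * (w₀ ^ σ * u ^ (1 - σ)) := mul_le_mul_of_nonneg_left h6 h8
        _ = (F q * w₀) ^ σ * (F q * u) ^ (1 - σ) := by
            rw [Real.mul_rpow h8 hw₀, Real.mul_rpow h8 h7, mul_mul_mul_comm,
              ← Real.rpow_add_of_nonneg h8 h0 h2, add_sub_cancel, Real.rpow_one]
        _ ≤ _ := by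
            have := FM q
            have := w0 q
            gcongr
    · rw [FP q (not_le.1 hv), zero_mul]
      exact mul_nonneg (Real.rpow_nonneg (w0 q) _) (Real.rpow_nonneg (u0 q) _)

theorem EstC_num {P N a b c d θ : ℝ} (hP : 1 ≤ P) (hN : N ≤ P ^ d) (h : a + b + c + d ≤ θ) :
    P ^ a * P ^ b * P ^ c * N ≤ P ^ θ := by
  have hP0 : 0 < P := by linarith
  refine (mul_le_mul_of_nonneg_left hN (by positivity)).trans ?_
  rw [← Real.rpow_add hP0, ← Real.rpow_add hP0, ← Real.rpow_add hP0]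
  exact Real.rpow_le_rpow_of_exponent_le hP h

theorem EstC_split {r q p γ : ℝ} (hr : 0 < r) (hq : 0 < q) (h : 16 * q ≤ p → p ≤ 2 * γ) :
    (√p + √q) / (r ^ 2 * q) = √p / (r ^ 2 * q) + (r ^ 2 * √q)⁻¹ ∧
      √p / (r ^ 2 * q) ≤ 2 * (√γ / (r ^ 2 * q)) + 4 * (r ^ 2 * √q)⁻¹ := by
  have hs : 0 < √q := Real.sqrt_pos.2 hq
  have e : √q / (r ^ 2 * q) = (r ^ 2 * √q)⁻¹ := by
    rw [div_eq_iff (by positivity), mul_inv, mul_mul_mul_comm, inv_mul_cancel₀ (by positivity),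
      one_mul, ← div_eq_inv_mul, Real.div_sqrt]
  refine ⟨by rw [add_div, e], ?_⟩
  rw [← e, ← mul_div_assoc, ← mul_div_assoc, ← add_div]
  refine div_le_div_of_nonneg_right ?_ (by positivity)
  have hγ := Real.sqrt_nonneg γ
  rcases le_total (16 * q) p with h1 | h1
  · have h2 := h h1
    have h3 : √p ≤ 2 * √γ := Real.sqrt_le_iff.2 ⟨by positivity, by
      rw [mul_pow, Real.sq_sqrt (by linarith)]; linarith⟩
    linarith
  · have h3 : √p ≤ 4 * √q := Real.sqrt_le_iff.2 ⟨by positivity, by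
      rw [mul_pow, Real.sq_sqrt hq.le]; linarith⟩
    linarith

/-- comparison of monomials through logarithms -/
local macro "logs" : tactic => `(tactic| (
  rw [← Real.log_le_log_iff (by positivity) (by positivity)]
  simp (disch := positivity) only [Real.log_mul, Real.log_div, Real.log_rpow, Real.log_pow,
    Real.log_sqrt, Real.log_inv]
  push_cast
  linarith))

theorem est_mT1 : Est (fun P r₂ _ e _ _ _ z v => (RI P r₂ e).indicator (fun z => mT1 e z v) z)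
    (fun P _ y _ _ => P ^ (141 / 100 : ℝ) * (1 + √y)) := by
  intro M 𝓔 T r₂ hM h𝓔 hT hr₂ hr₂'
  obtain ⟨Ca, hCa, va⟩ := vel_log2
  obtain ⟨Cb, hCb, vb⟩ := vel_log (-1) (by norm_num)
  obtain ⟨Cc, hCc, vc⟩ := vel_log (-(1 / 2)) (by norm_num)
  obtain ⟨P₁, hP₁⟩ := exists_delta_small
  obtain ⟨P₂, hP₂⟩ := log_pow_le 2 (ε := 1 / 100) (by norm_num)
  have hπ := Real.pi_pos
  set A₁ := 𝓔 ^ (3 / 4 : ℝ) * (M * (Ca * (2 * Real.pi))) ^ (1 - 3 / 4 : ℝ) with hA₁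
  set A₂ := (M * (Cb * (4 * Real.pi))) ^ (1 - 1 / 2 : ℝ) with hA₂
  set A₃ := (M * (Cc * (32 * Real.pi))) ^ (1 - 1 / 3 : ℝ) with hA₃
  set A₄ := 𝓔 ^ (1 / 2 : ℝ) * (M * (Cb * (400 * Real.pi))) ^ (1 - 1 / 2 : ℝ) with hA₄
  have h₁ : 0 ≤ A₁ := by positivity
  have h₂ : 0 ≤ A₂ := by positivity
  have h₃ : 0 ≤ A₃ := by positivity
  have h₄ : 0 ≤ A₄ := by positivity
  refine ⟨A₁ + 4 * A₂ + 10 * A₃ + 10 * A₄, max (max P₁ P₂) (2 ^ 100), by positivity,
    fun P hP τ t δ e W F Ez Bz s y y₁ y₂ H => ?_⟩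
  have h100 : (2 : ℝ) ^ 100 ≤ P := (le_max_right _ _).trans hP
  have hP3 : 3 ≤ P := le_trans (by norm_num) h100
  have hP1 : 1 ≤ P := by linarith
  have hP0 : 0 < P := by linarith
  obtain ⟨hN1, hN2⟩ := hP₂ P ((le_max_right _ _).trans ((le_max_left _ _).trans hP))
  rw [Real.rpow_two] at hN2
  have hN : Real.log P ≤ P ^ (1 / 100 : ℝ) := le_trans (by nlinarith) hN2
  have hδ := hP₁ P ((le_max_left _ _).trans ((le_max_left _ _).trans hP)) δ e W H.geo
  have h2 : 2 ≤ P ^ (1 / 100 : ℝ) := by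
    refine le_trans (le_of_eq ?_) (Real.rpow_le_rpow (by positivity) h100 (by norm_num))
    rw [← Real.rpow_natCast, ← Real.rpow_mul (by norm_num)]
    norm_num
  have he := H.geo.e1
  have hy := H.y0
  have hκ : 0 < P ^ (-(51 / 50 : ℝ)) := by positivity
  have men := measurable_en
  have mgg := measurable_gg e
  have mF := H.mF
  have mcp : Measurable fun q : R3 × R3 => F q * (en q.2 * pp q.1 q.2) :=
    mF.mul ((men.comp measurable_snd).mul measurable_pp)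
  have cp0 : ∀ q : R3 × R3, 0 ≤ F q * (en q.2 * pp q.1 q.2) := fun q =>
    mul_nonneg (H.F0 q) (mul_pos (en_pos _) (pp_pos _ _)).le
  have hhy := EstC_hy H hP1 h2 hδ
  set S := RI P r₂ e ∩ {z | ‖z‖ ≤ P ^ (-(7 / 10 : ℝ))} with hS
  have mhy : Measurable fun q : R3 × R3 => (Prod.fst ⁻¹' S).indicator
      (fun q => F q * (‖q.1‖⁻¹ * (en q.2 * gg e q.2 ^ 2))) q :=
    Measurable.indicator (by fun_prop) (((measurableSet_RI _ _ _).inter
      (measurableSet_le measurable_norm measurable_const)).preimage measurable_fst)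
  have hy0 : ∀ q : R3 × R3, 0 ≤ (Prod.fst ⁻¹' S).indicator
      (fun q => F q * (‖q.1‖⁻¹ * (en q.2 * gg e q.2 ^ 2))) q := fun q =>
    indicator_nonneg (fun q _ => mul_nonneg (H.F0 q) (by have := en_pos q.2; positivity)) q
  have hpow : ∀ a b : ℝ, (P ^ a) ^ b = P ^ (a * b) := fun a b => (Real.rpow_mul hP0.le a b).symm
  obtain ⟨g₁, m₁, p₁, b₁, k₁⟩ := EstC_piece (σ := 3 / 4) (θ := 141 / 25) (c := Ca * (2 * Real.pi))
    hM hP0 H.F0 H.FM H.FP he measurableSet_Ici mcp cp0 H.cp h𝓔 measurable_nz norm_nz_le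
    (fun _ => norm_nz) (EstC_cone (α := -8) (β := -4) (m := -(9 / 2)) he measurableSet_Ici
      (by positivity) (by norm_num) (EstC_in hκ (by norm_num))
      (lint_rpow_lt (a := P ^ (-(7 / 10 : ℝ))) (by norm_num) (by positivity)))
    (by positivity) (va P hP3) (by norm_num) (by norm_num) (by positivity) (by
      have := EstC_num (a := -(51 / 50) * (-4 + 1)) (b := -(7 / 10) * (-(9 / 2) + 1)) (c := 0)
        (θ := 141 / 25) hP1 hN2 (by norm_num)
      rw [hpow, hpow]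
      rw [Real.rpow_zero] at this
      have h3 := mul_le_mul_of_nonneg_left this (show 0 ≤ Ca * (2 * Real.pi) by positivity)
      have h4 : 0 ≤ Ca * (2 * Real.pi) * P ^ (141 / 25 : ℝ) := by positivity
      norm_num at h3 ⊢
      linarith) (by norm_num)
  obtain ⟨g₂, m₂, p₂, b₂, k₂⟩ := EstC_piece (σ := 1 / 2) (θ := 141 / 50) (c := Cb * (4 * Real.pi))
    hM hP0 H.F0 H.FM H.FP he measurableSet_Ioc mhy hy0 hhy (by positivity) (ν := fun _ => e)
    measurable_const (fun _ => he.le) (fun _ _ => he)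
    (EstC_cone (α := -3) (β := -2) (m := -(1 / 2)) he measurableSet_Ioc
      (by positivity) (by norm_num) (EstC_in hκ (by norm_num))
      (lint_rpow_gt (b := P ^ (-(7 / 10 : ℝ))) (by norm_num) (by positivity)))
    (by positivity) (vb P hP3) (by norm_num) (by norm_num) (by positivity) (by
      have := EstC_num (a := -(51 / 50) * (-2 + 1)) (b := -(7 / 10) * (-(1 / 2) + 1)) (c := -1 + 3)
        (θ := 141 / 50) hP1 hN (by norm_num)
      rw [hpow, hpow]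
      have h3 := mul_le_mul_of_nonneg_left this (show 0 ≤ Cb * (4 * Real.pi) by positivity)
      refine le_trans (le_of_eq ?_) h3
      ring) (by norm_num)
  obtain ⟨g₃, m₃, p₃, b₃, k₃⟩ := EstC_piece (σ := 1 / 3) (θ := 423 / 200) (c := Cc * (32 * Real.pi))
    hM hP0 H.F0 H.FM H.FP he measurableSet_Ioc mhy hy0 hhy (by positivity) (ν := fun _ => e)
    measurable_const (fun _ => he.le) (fun _ _ => he)
    (EstC_cone (κ := P ^ (-(51 / 50 : ℝ))) (α := -(5 / 2)) (β := -(3 / 4)) (α' := 0) (K := 8)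
      (m := -(1 / 2)) he measurableSet_Ioc (by positivity) (by norm_num)
      (fun r _ => ⟨Ioc 0 2, measurableSet_Ioc, fun q hq _ => Ioo_subset_Ioc_self hq,
        (lint_rpow_gt (by norm_num) zero_le_two).trans (ENNReal.ofReal_le_ofReal (by
          have := Real.rpow_le_rpow_of_exponent_le one_le_two
            (show (-(3 / 4) + 1 : ℝ) ≤ 1 by norm_num)
          rw [Real.rpow_one] at this
          rw [Real.rpow_zero, div_le_iff₀ (by norm_num)]
          linarith))⟩)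
      (lint_rpow_gt (b := P ^ (-(4 / 5 : ℝ))) (by norm_num) (by positivity)))
    (by positivity) (vc P hP3) (by norm_num) (by norm_num) (by positivity) (by
      have := EstC_num (a := 0) (b := -(4 / 5) * (-(1 / 2) + 1)) (c := -(1 / 2) + 3)
        (θ := 423 / 200) hP1 hN (by norm_num)
      rw [hpow]
      rw [Real.rpow_zero] at this
      have h3 := mul_le_mul_of_nonneg_left this (show 0 ≤ Cc * (32 * Real.pi) by positivity)
      refine le_trans (le_of_eq ?_) h3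
      ring) (by norm_num)
  obtain ⟨g₄, m₄, p₄, b₄, k₄⟩ := EstC_piece (σ := 1 / 2) (θ := 141 / 50)
    (c := Cb * (400 * Real.pi))
    hM hP0 H.F0 H.FM H.FP he measurableSet_Ici mcp cp0 H.cp h𝓔 measurable_nz norm_nz_le
    (fun _ => norm_nz) (EstC_cone (α := -4) (β := -(101 / 100)) (m := -(399 / 200)) he
      measurableSet_Ici (by positivity) (by norm_num) (EstC_in hκ (by norm_num))
      (lint_rpow_lt (a := P ^ (-(4 / 5 : ℝ))) (by norm_num) (by positivity)))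
    (by positivity) (vb P hP3) (by norm_num) (by norm_num) (by positivity) (by
      have := EstC_num (a := -(51 / 50) * (-(101 / 100) + 1)) (b := -(4 / 5) * (-(399 / 200) + 1))
        (c := -1 + 3) (θ := 141 / 50) hP1 hN (by norm_num)
      rw [hpow, hpow]
      have h3 := mul_le_mul_of_nonneg_left this (show 0 ≤ Cb * Real.pi by positivity)
      have h4 : 0 ≤ Cb * Real.pi * P ^ (141 / 50 : ℝ) := by positivity
      norm_num at h3 ⊢
      linarith) (by norm_num)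
  have hR : 0 ≤ P ^ (141 / 100 : ℝ) := by positivity
  refine (b₁.add ((b₂.const_mul zero_le_two).add ((b₃.const_mul (c := 5) (by norm_num)).add
    (b₄.const_mul (c := 10) (by norm_num)) (m₃.const_mul _).aemeasurable (by positivity)
    (by positivity)) (m₂.const_mul _).aemeasurable (by positivity) (by positivity))
    m₁.aemeasurable (by positivity) (by positivity)).mono (Eventually.of_forall fun q => ?_) ?_
  · have q₁ := p₁ q
    have q₂ := p₂ q
    have q₃ := p₃ q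
    have q₄ := p₄ q
    by_cases hz : q.1 ∈ RI P r₂ e
    swap
    · simp only [indicator_of_notMem hz, mul_zero]
      positivity
    have hz0 := RI_ne_zero hP0 hz
    have hr : 0 < ‖q.1‖ := norm_pos_iff.2 hz0
    have hq := RI_qq hP0 hz
    have hq0 : 0 < qq e q.1 := lt_of_lt_of_le (by positivity) hq
    have hQ := en_pos q.2
    have hp : 0 < ang (relVel q.2) (nz q.1) := pp_pos q.1 q.2
    have hγ : 0 < ang (relVel q.2) e := lt_of_lt_of_le (by positivity) (inv_en_sq_le_ang q.2 e he.le)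
    have hF := H.F0 q
    obtain ⟨s₁, s₂⟩ := EstC_split hr hq0 (pp_le_gg (v := q.2) he hz0)
    have t₁ : F q * (√(pp q.1 q.2) / (‖q.1‖ ^ 2 * qq e q.1)) ≤
        g₁ q + 2 * g₂ q + 4 * (F q * (‖q.1‖ ^ 2 * √(qq e q.1))⁻¹) := by
      rcases le_total (P ^ (-(7 / 10 : ℝ))) ‖q.1‖ with h | h
      · have := k₁ q _ (√(pp q.1 q.2) / (‖q.1‖ ^ 2 * qq e q.1)) (mul_pos hQ (pp_pos _ _)).le le_rfl
          h hq (by unfold pp; logs)
        have h5 : 0 ≤ F q * (‖q.1‖ ^ 2 * √(qq e q.1))⁻¹ := by positivity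
        linarith
      · have := k₂ q (‖q.1‖⁻¹ * (en q.2 * gg e q.2 ^ 2)) (√(gg e q.2) / (‖q.1‖ ^ 2 * qq e q.1))
          (by positivity)
          (by rw [indicator_of_mem (show q ∈ Prod.fst ⁻¹' S from ⟨hz, h⟩)]) ⟨hr, h⟩ hq
          (by unfold gg; logs)
        nlinarith [mul_le_mul_of_nonneg_left s₂ hF]
    have t₂ : F q * (‖q.1‖ ^ 2 * √(qq e q.1))⁻¹ ≤ g₃ q + 2 * g₄ q := by
      rcases le_total (P ^ (-(4 / 5 : ℝ))) ‖q.1‖ with h | h
      · have h5 : Real.log (qq e q.1) ≤ Real.log 2 :=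
          Real.log_le_log hq0 (ang_le_two he.le (norm_nz_le q.1))
        have h6 := Real.log_pos one_lt_two
        have := k₄ q _ ((‖q.1‖ ^ 2 * √(qq e q.1))⁻¹ / 2) (mul_pos hQ (pp_pos _ _)).le le_rfl
          h hq (by unfold pp; logs)
        linarith
      · have := k₃ q (‖q.1‖⁻¹ * (en q.2 * gg e q.2 ^ 2)) (‖q.1‖ ^ 2 * √(qq e q.1))⁻¹
          (by positivity)
          (by rw [indicator_of_mem (show q ∈ Prod.fst ⁻¹' S from ⟨hz, h.trans
            (Real.rpow_le_rpow_of_exponent_le hP1 (by norm_num))⟩)]) ⟨hr, h⟩ hq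
          (by unfold gg; logs)
        linarith
    simp only [indicator_of_mem hz, mT1, s₁, mul_add]
    linarith
  · have hs := Real.sqrt_nonneg y
    have u₂ : (2 * y) ^ (1 / 2 : ℝ) ≤ 2 * (1 + √y) := by
      rw [← Real.sqrt_eq_rpow]
      exact Real.sqrt_le_iff.2 ⟨by positivity, by nlinarith [Real.sq_sqrt hy]⟩
    have u₃ : (2 * y) ^ (1 / 3 : ℝ) ≤ 2 * (1 + √y) := by
      rcases le_total (2 * y) 1 with h | h
      · linarith [Real.rpow_le_one (by positivity) h (show (0 : ℝ) ≤ 1 / 3 by norm_num)]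
      · exact (Real.rpow_le_rpow_of_exponent_le h (by norm_num)).trans u₂
    have v₂ := mul_le_mul_of_nonneg_right u₂ (mul_nonneg h₂ hR)
    have v₃ := mul_le_mul_of_nonneg_right u₃ (mul_nonneg h₃ hR)
    beta_reduce
    rw [← hA₁, ← hA₂, ← hA₃, ← hA₄]
    linarith only [v₂, v₃, mul_nonneg (mul_nonneg h₁ hR) hs, mul_nonneg (mul_nonneg h₄ hR) hs]

end Crest.Agent.R106
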