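import Crest.Agent.R106.Vel
import Crest.Agent.R106.Geom
import Crest.Agent.R106.Stress

/-!
# Row 106: mismatch terms, `T` part
-/

set_option autoImplicit false
set_option linter.unusedVariables false
set_option linter.unusedSectionVars false

open MeasureTheory Metric Set Filter Topology
open scoped ContDiff ENNReal RealInnerProductSpace
open Crest.AnalysisR.VecCalc3 Crest.AnalysisR.PDE.RVM

noncomputable section

namespace Crest.Agent.R106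

theorem EstC2_cone (β : ℝ) (hβ : -1 < β) : ∃ K : ℝ, 0 ≤ K ∧ ∀ e : R3, ‖e‖ = 1 → ∀ A : ℝ → ℝ,
    Measurable A → (∀ r, 0 ≤ A r) → ∀ C : ℝ,
    ∫⁻ r in Ioi (0 : ℝ), ENNReal.ofReal (r ^ 2 * A r) ≤ ENNReal.ofReal C →
    Bd (fun z => A ‖z‖ * qq e z ^ β) (K * C) := by
  have hβ' : 0 < β + 1 := by linarith
  have hK : 0 ≤ (2 : ℝ) ^ (β + 1) / (β + 1) := by positivity
  refine ⟨2 * Real.pi * (2 ^ (β + 1) / (β + 1)), by positivity, fun e he A mA A0 C hC => ?_⟩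
  rw [mul_assoc (2 * Real.pi)]
  refine Bd.cone he (g := fun x => A x.1 * x.2 ^ β) (G := fun r => A r * (2 ^ (β + 1) / (β + 1)))
    (by fun_prop) (fun r hr => ?_) ?_
  · simp only [ENNReal.ofReal_mul (A0 r)]
    rw [lintegral_const_mul' _ _ ENNReal.ofReal_ne_top]
    exact mul_le_mul_right ((lintegral_mono_set Ioo_subset_Ioc_self).trans
      (lint_rpow_gt hβ zero_le_two)) _
  · refine le_trans (le_of_eq ?_) (Vel_cmul hK hC)
    refine lintegral_congr fun r => ?_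
    congr 1
    ring

theorem EstC2_near {ρ : ℝ} : ∫⁻ r in Ioi (0 : ℝ),
    ENNReal.ofReal (r ^ 2 * if r ≤ ρ then (r ^ 2)⁻¹ else 0) ≤ ENNReal.ofReal (1 * ρ) := by
  refine Vel_one measurableSet_Ioi measurableSet_Ioc (fun r hr => ?_) (Vel_const zero_le_one)
  have hr : 0 < r := hr
  split_ifs with h
  · exact Or.inr ⟨⟨hr, h⟩, (mul_inv_cancel₀ (by positivity)).le⟩
  · exact Or.inl (mul_zero _).le

theorem EstC2_far {ρ : ℝ} (hρ : 0 < ρ) : ∫⁻ r in Ioi (0 : ℝ),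
    ENNReal.ofReal (r ^ 2 * if ρ ≤ r then (r ^ 4)⁻¹ else 0) ≤ ENNReal.ofReal ρ⁻¹ := by
  have h1 := lint_rpow_lt (β := -2) (by norm_num) hρ
  rw [show (-2 : ℝ) + 1 = -1 by norm_num, Real.rpow_neg_one, neg_neg, div_one] at h1
  refine Vel_one measurableSet_Ioi measurableSet_Ici (fun r hr => ?_) h1
  have hr : 0 < r := hr
  split_ifs with h
  · refine Or.inr ⟨h, le_of_eq ?_⟩
    rw [Real.rpow_neg hr.le, Real.rpow_two]
    field_simp
  · exact Or.inl (mul_zero _).le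

theorem EstC2_velI0 (P a b : ℝ) (z v : R3) : 0 ≤ velI P a b (nz z) v :=
  indicator_nonneg (fun v _ => mul_nonneg (Real.rpow_nonneg (en_pos v).le _)
    (Real.rpow_nonneg (pp_pos z v).le _)) v

theorem EstC2_mvel (P a b : ℝ) : Measurable fun q : R3 × R3 => velI P a b (nz q.1) q.2 := by
  have h2 : Measurable fun q : R3 × R3 => (nz q.1, q.2) :=
    (measurable_nz.comp measurable_fst).prodMk measurable_snd
  have h3 := (measurable_velI P a b).comp h2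
  simpa only [Function.comp_def] using h3

theorem EstC2_F {M P F : ℝ} (a b : ℝ) (z v : R3) (hM : F ≤ M) (hP : P < en v → F = 0) :
    F * (en v ^ a * pp z v ^ b) ≤ M * velI P a b (nz z) v := by
  by_cases h : en v ≤ P
  · rw [velI, indicator_of_mem (show v ∈ {v : R3 | en v ≤ P} from h)]
    exact mul_le_mul_of_nonneg_right hM (mul_nonneg (Real.rpow_nonneg (en_pos v).le _)
      (Real.rpow_nonneg (pp_pos z v).le _))
  · rw [velI, indicator_of_notMem (show v ∉ {v : R3 | en v ≤ P} from h), hP (not_le.1 h)]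
    simp

theorem EstC2_split {p q Q r : ℝ} (hp : 0 < p) (hq : 0 < q) (hQ : 0 < Q) (hr : 0 < r) :
    (√p + √q) / (√q * Q ^ 2 * r ^ 2 * p * √p) =
      (r ^ 2)⁻¹ * q ^ (-(1 / 2) : ℝ) * (Q ^ (-2 : ℝ) * p ^ (-1 : ℝ)) +
      (r ^ 2)⁻¹ * (Q ^ (-2 : ℝ) * p ^ (-(3 / 2) : ℝ)) := by
  have h1 : 0 < √p := Real.sqrt_pos.2 hp
  have h2 : 0 < √q := Real.sqrt_pos.2 hq
  have h3 : p ^ (-(3 / 2) : ℝ) = (p * √p)⁻¹ := by
    rw [Real.rpow_neg hp.le, Real.sqrt_eq_rpow, ← Real.rpow_one_add' hp.le (by norm_num)]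
    norm_num
  rw [h3, Real.rpow_neg hq.le, ← Real.sqrt_eq_rpow, Real.rpow_neg hQ.le, Real.rpow_two,
    Real.rpow_neg_one]
  field_simp

theorem EstC2_cs {F p q Q r w L Y : ℝ} (hF : 0 ≤ F) (hp : 0 < p) (hQ : 0 < Q) (hr : 0 < r)
    (hw : 0 ≤ w) (hL : 0 ≤ L) (hq : 0 ≤ q) (h1 : 1 ≤ w * (L * q))
    (hY : F * (Q ^ (-5 : ℝ) * p ^ (-3 : ℝ)) ≤ Y) :
    F * ((r ^ 2)⁻¹ * (Q ^ (-2 : ℝ) * p ^ (-(3 / 2) : ℝ))) ≤
      √(F * (w * Q)) * √(L * ((r ^ 4)⁻¹ * q * Y)) := by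
  rw [← Real.sqrt_mul (by positivity)]
  refine Real.le_sqrt_of_sq_le ?_
  have e1 : (Q ^ (-2 : ℝ)) ^ 2 = Q * Q ^ (-5 : ℝ) := by
    rw [← Real.rpow_natCast, ← Real.rpow_mul hQ.le, ← Real.rpow_one_add' hQ.le (by norm_num)]
    norm_num
  have e2 : (p ^ (-(3 / 2) : ℝ)) ^ 2 = p ^ (-3 : ℝ) := by
    rw [← Real.rpow_natCast, ← Real.rpow_mul hp.le]
    norm_num
  have hX : 0 ≤ F * (Q ^ (-5 : ℝ) * p ^ (-3 : ℝ)) := by positivity
  calc _ = 1 * (F * Q * (r ^ 4)⁻¹ * (F * (Q ^ (-5 : ℝ) * p ^ (-3 : ℝ)))) := by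
        rw [mul_pow, mul_pow, mul_pow, e1, e2]; ring
    _ ≤ (w * (L * q)) * (F * Q * (r ^ 4)⁻¹ * Y) := by gcongr
    _ = _ := by ring

theorem EstC2_geo {P r₂ δ : ℝ} {e W z : R3} (hP1 : 1 ≤ P) (hr₂ : r₂ ≤ 1 / 4) (hg : Geo P δ e W)
    (hδ : 64 * δ ^ 2 ≤ P ^ (-(11 / 10 : ℝ))) (hz : z ∈ RI P r₂ e) :
    0 < ‖z‖ ∧ ‖z‖ ≤ 1 ∧ 0 < qq e z ∧
      1 ≤ qq W z * (2 * P ^ (1 / 2 : ℝ) * qq e z ^ (-(3 / 5) : ℝ)) := by
  have hP0 : 0 < P := by linarith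
  have hz0 := RI_ne_zero hP0 hz
  have hr : 0 < ‖z‖ := norm_pos_iff.2 hz0
  have hr1 : ‖z‖ ≤ 1 := by have := hz.2; linarith
  have hq : P ^ (-(51 / 50 : ℝ)) ≤ qq e z :=
    le_trans (le_div_self (by positivity) (Real.sqrt_pos.2 hr) (Real.sqrt_le_one.2 hr1))
      (RI_qq hP0 hz)
  have hq0 : 0 < qq e z := lt_of_lt_of_le (by positivity) hq
  have hw := (hg.qq_cmp hz0 (hδ.trans (le_trans
    (Real.rpow_le_rpow_of_exponent_le hP1 (by norm_num)) hq))).1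
  refine ⟨hr, hr1, hq0, ?_⟩
  have h1 : qq e z * qq e z ^ (-(3 / 5) : ℝ) = qq e z ^ (2 / 5 : ℝ) := by
    rw [← Real.rpow_one_add' hq0.le (by norm_num)]
    norm_num
  have h2 : (P ^ (-(51 / 50 : ℝ))) ^ (2 / 5 : ℝ) ≤ qq e z ^ (2 / 5 : ℝ) :=
    Real.rpow_le_rpow (by positivity) hq (by norm_num)
  have h3 : 1 ≤ P ^ (1 / 2 : ℝ) * (P ^ (-(51 / 50 : ℝ))) ^ (2 / 5 : ℝ) := by
    rw [← Real.rpow_mul hP0.le, ← Real.rpow_add hP0]
    exact Real.one_le_rpow hP1 (by norm_num)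
  calc 1 ≤ P ^ (1 / 2 : ℝ) * (qq e z * qq e z ^ (-(3 / 5) : ℝ)) := by
        rw [h1]; exact h3.trans (by gcongr)
    _ = qq e z / 2 * (2 * P ^ (1 / 2 : ℝ) * qq e z ^ (-(3 / 5) : ℝ)) := by ring
    _ ≤ _ := by gcongr

theorem est_mT2 : Est (fun P r₂ _ e _ _ _ z v => (RI P r₂ e).indicator (fun z => mT2 e z v) z)
    (fun P s _ _ _ => P ^ (3 / 2 : ℝ) * (1 + √s)) := by
  intro M 𝓔 T r₂ hM h𝓔 hT hr₂ hr₂'
  obtain ⟨K₁, hK₁, c₁⟩ := EstC2_cone (-(1 / 2)) (by norm_num)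
  obtain ⟨K₂, hK₂, c₂⟩ := EstC2_cone 0 (by norm_num)
  obtain ⟨K₃, hK₃, c₃⟩ := EstC2_cone (-(3 / 5)) (by norm_num)
  obtain ⟨V₁, hV₁, v₁⟩ := vel_log (-2) (by norm_num)
  obtain ⟨V₂, hV₂, v₂⟩ := vel_lt (-2) (-(3 / 2)) (by norm_num) (by norm_num)
  obtain ⟨V₃, hV₃, v₃⟩ := vel_lt (-5) (-3) (by norm_num) (by norm_num)
  obtain ⟨P₁, hP₁⟩ := exists_delta_small
  obtain ⟨P₂, hP₂⟩ := log_pow_le 1 (ε := 1 / 2) (by norm_num)
  refine ⟨M * V₁ * K₁ + M * V₂ * K₂ + √(2 * M * V₃ * K₃), max (max P₁ P₂) 3, by positivity,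
    fun P hP τ t δ e W F Ez Bz s y y₁ y₂ H => ?_⟩
  have hP3 : 3 ≤ P := (le_max_right _ _).trans hP
  have hP1 : 1 ≤ P := by linarith
  have hP0 : 0 < P := by linarith
  obtain ⟨hN, hN'⟩ := hP₂ P ((le_max_right _ _).trans ((le_max_left _ _).trans hP))
  rw [Real.rpow_one] at hN'
  have hδ := hP₁ P ((le_max_left _ _).trans ((le_max_left _ _).trans hP)) δ e W H.geo
  have he := H.geo.e1
  set ρ : ℝ := P ^ (-(1 / 2) : ℝ) with hρ
  have hρ0 : 0 < ρ := by positivity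
  have mqq := measurable_qq e
  have mqW := measurable_qq W
  have men := measurable_en
  have mF := H.mF
  have hq0 : ∀ z, 0 ≤ qq e z := fun z => ang_nonneg he.le (norm_nz_le z)
  have hw0 : ∀ z, 0 ≤ qq W z := fun z => ang_nonneg H.geo.W1.le (norm_nz_le z)
  have hν : ∀ᵐ z : R3, ‖nz z‖ = 1 := (ae_qq_pos he).mono fun z hz => norm_nz hz.1
  have mA : ∀ a : ℝ, Measurable fun r : ℝ => if r ≤ a then (r ^ 2)⁻¹ else 0 := fun a =>
    Measurable.ite measurableSet_Iic (by fun_prop) measurable_const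
  have A0 : ∀ a r : ℝ, 0 ≤ if r ≤ a then (r ^ 2)⁻¹ else 0 := fun a r => by
    split_ifs <;> positivity
  have mB : Measurable fun r : ℝ => if ρ ≤ r then (r ^ 4)⁻¹ else 0 :=
    Measurable.ite measurableSet_Ici (by fun_prop) measurable_const
  have B0 : ∀ r : ℝ, 0 ≤ if ρ ≤ r then (r ^ 4)⁻¹ else 0 := fun r => by
    split_ifs <;> positivity
  have mc : ∀ {A : ℝ → ℝ} (β : ℝ), Measurable A → Measurable fun z : R3 => A ‖z‖ * qq e z ^ β :=
    fun β h => (h.comp measurable_norm).mul (mqq.pow_const β)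
  have mv : ∀ {c : R3 → ℝ} (a b : ℝ), Measurable c →
      Measurable fun q : R3 × R3 => c q.1 * velI P a b (nz q.1) q.2 := fun a b h =>
    (h.comp measurable_fst).mul (EstC2_mvel P a b)
  have b₁ := (Bd.prod_vel (mc _ (mA 1)) measurable_nz
    (fun z => mul_nonneg (A0 _ _) (Real.rpow_nonneg (hq0 z) _)) hν
    (c₁ e he _ (mA 1) (A0 1) _ EstC2_near) (by positivity) (v₁ P hP3)).const_mul hM
  have b₂ := (Bd.prod_vel (mc _ (mA ρ)) measurable_nz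
    (fun z => mul_nonneg (A0 _ _) (Real.rpow_nonneg (hq0 z) _)) hν
    (c₂ e he _ (mA ρ) (A0 ρ) _ EstC2_near) (by positivity) (v₂ P hP1)).const_mul hM
  have b₃ := ((Bd.prod_vel (mc _ mB) measurable_nz
    (fun z => mul_nonneg (B0 _) (Real.rpow_nonneg (hq0 z) _)) hν
    (c₃ e he _ mB B0 _ (EstC2_far hρ0)) (by positivity) (v₃ P hP1)).const_mul hM).const_mul
    (c := 2 * P ^ (1 / 2 : ℝ)) (by positivity)
  have b₄ := H.sp.cs b₃ (Measurable.aemeasurable (by fun_prop))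
    ((((mv _ _ (mc _ mB)).const_mul _).const_mul _).aemeasurable) H.s0 (by positivity)
    (Eventually.of_forall fun _ => le_rfl)
  refine ((b₁.add b₂ ((mv _ _ (mc _ (mA 1))).const_mul _).aemeasurable (by positivity)
    (by positivity)).add b₄ (((mv _ _ (mc _ (mA 1))).const_mul _).add
      ((mv _ _ (mc _ (mA ρ))).const_mul _)).aemeasurable (by positivity) (by positivity)).mono
    (Eventually.of_forall fun q => ?_) ?_
  · have n₁ := mul_nonneg hM (mul_nonneg (mul_nonneg (A0 1 ‖q.1‖)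
      (Real.rpow_nonneg (hq0 q.1) (-(1 / 2)))) (EstC2_velI0 P (-2) (-1) q.1 q.2))
    have n₂ := mul_nonneg hM (mul_nonneg (mul_nonneg (A0 ρ ‖q.1‖)
      (Real.rpow_nonneg (hq0 q.1) 0)) (EstC2_velI0 P (-2) (-(3 / 2)) q.1 q.2))
    by_cases hz : q.1 ∈ RI P r₂ e
    swap
    · simp only [indicator_of_notMem hz, mul_zero]
      positivity
    obtain ⟨hr, hr1, hq, hw⟩ := EstC2_geo hP1 hr₂' H.geo hδ hz
    have hF := fun a b => EstC2_F a b q.1 q.2 (H.FM q) (H.FP q)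
    simp only [indicator_of_mem hz]
    rw [mT2, EstC2_split (pp_pos _ _) hq (en_pos _) hr, mul_add, add_assoc]
    refine add_le_add ?_ ?_
    · rw [if_pos hr1, mul_left_comm, mul_left_comm M]
      exact mul_le_mul_of_nonneg_left (hF _ _) (by positivity)
    · rcases le_total ‖q.1‖ ρ with h | h
      · refine le_add_of_le_of_nonneg ?_ (by positivity)
        rw [if_pos h, Real.rpow_zero, mul_one, mul_left_comm, mul_left_comm M]
        exact mul_le_mul_of_nonneg_left (hF _ _) (by positivity)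
      · refine le_add_of_nonneg_of_le n₂ ?_
        rw [if_pos h, mul_left_comm M]
        exact EstC2_cs (H.F0 q) (pp_pos _ _) (en_pos _) hr (hw0 _) (by positivity) (by positivity)
          hw (hF _ _)
  · have e0 : P ^ (3 / 2 : ℝ) = P * P ^ (1 / 2 : ℝ) := by
      rw [← Real.rpow_one_add' hP0.le (by norm_num)]; norm_num
    have e1 : P ^ ((-2 : ℝ) + 3) * Real.log P ≤ P ^ (3 / 2 : ℝ) := by
      rw [e0, show (-2 : ℝ) + 3 = 1 by norm_num, Real.rpow_one]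
      gcongr
    have e2 : P ^ ((-2 : ℝ) - 2 * -(3 / 2) + 1) * ρ = P ^ (3 / 2 : ℝ) := by
      rw [hρ, ← Real.rpow_add hP0]; norm_num
    have e3 : P ^ (1 / 2 : ℝ) * P ^ ((-5 : ℝ) - 2 * -3 + 1) * ρ⁻¹ = (P ^ (3 / 2 : ℝ)) ^ 2 := by
      rw [hρ, ← Real.rpow_neg hP0.le, ← Real.rpow_add hP0, ← Real.rpow_add hP0,
        ← Real.rpow_natCast, ← Real.rpow_mul hP0.le]
      norm_num
    have e4 : √(2 * P ^ (1 / 2 : ℝ) * (M * (V₃ * P ^ ((-5 : ℝ) - 2 * -3 + 1) * (K₃ * ρ⁻¹)))) =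
        √(2 * M * V₃ * K₃) * P ^ (3 / 2 : ℝ) := by
      rw [← Real.sqrt_sq (show 0 ≤ P ^ (3 / 2 : ℝ) by positivity), ← e3,
        ← Real.sqrt_mul (by positivity)]
      congr 1
      ring
    rw [e4]
    have hX : 0 ≤ P ^ (3 / 2 : ℝ) := by positivity
    have hs : 0 ≤ √s := Real.sqrt_nonneg _
    have f1 : M * (V₁ * (P ^ ((-2 : ℝ) + 3) * Real.log P) * (K₁ * (1 * 1))) ≤
        M * V₁ * K₁ * (P ^ (3 / 2 : ℝ) * (1 + √s)) := by
      calc _ = M * V₁ * K₁ * (P ^ ((-2 : ℝ) + 3) * Real.log P * 1) := by ring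
        _ ≤ _ := by gcongr; linarith
    have f2 : M * (V₂ * P ^ ((-2 : ℝ) - 2 * -(3 / 2) + 1) * (K₂ * (1 * ρ))) ≤
        M * V₂ * K₂ * (P ^ (3 / 2 : ℝ) * (1 + √s)) := by
      calc _ = M * V₂ * K₂ * (P ^ ((-2 : ℝ) - 2 * -(3 / 2) + 1) * ρ * 1) := by ring
        _ ≤ _ := by rw [e2]; gcongr; linarith
    have f3 : √s * (√(2 * M * V₃ * K₃) * P ^ (3 / 2 : ℝ)) ≤
        √(2 * M * V₃ * K₃) * (P ^ (3 / 2 : ℝ) * (1 + √s)) := by
      calc _ = √(2 * M * V₃ * K₃) * (P ^ (3 / 2 : ℝ) * √s) := by ring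
        _ ≤ _ := by gcongr; linarith
    linarith

end Crest.Agent.R106
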