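import Crest.Agent.R106.Vel
import Crest.Agent.R106.Geom
import Crest.Agent.R106.Stress

/-!
# Row 106: mismatch terms, `S` part
-/

set_option autoImplicit false
set_option linter.unusedVariables false
set_option linter.unusedSectionVars false

open MeasureTheory Metric Set Filter Topology
open scoped ContDiff ENNReal RealInnerProductSpace
open Crest.AnalysisR.VecCalc3 Crest.AnalysisR.PDE.RVM

noncomputable section

namespace Crest.Agent.R106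

theorem estD_cs {x A U : ℝ} (hA : 0 ≤ A) (h : x ^ 2 ≤ A * U) : x ≤ √A * √U := by
  rw [← Real.sqrt_mul hA]
  exact Real.le_sqrt_of_sq_le h

theorem estD_num {a b D Z : ℝ} (ha : 0 ≤ a) (hZ : 0 ≤ Z) (h : a * b ≤ D * Z ^ 2) :
    √a * √b ≤ √D * Z := by
  rw [← Real.sqrt_mul ha]
  refine (Real.sqrt_le_sqrt h).trans_eq ?_
  rw [Real.sqrt_mul' _ (sq_nonneg Z), Real.sqrt_sq hZ]

theorem estD_one_le {x : ℝ} (hx : 0 ≤ x) (h : 1 ≤ x ^ 2) : 1 ≤ x := by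
  nlinarith

/-- case (i) -/
theorem estD_i {r q w K τ₀ τ η : ℝ} (hr : 0 < r) (hη : 0 ≤ η) (hK : 0 ≤ K) (h0 : 0 ≤ τ₀)
    (h1 : K ^ 2 * τ₀ * η ^ 3 = 1) (hτ : τ₀ ≤ τ) (hl : η ≤ r * q) (hw : q / 2 ≤ w)
    (h : τ * (r * q) ≤ r ^ 2) : 1 ≤ 2 * K * w * r ^ 2 := by
  have hl0 : 0 ≤ r * q := hη.trans hl
  have h2 : 1 ≤ K * r * (r * q) := by
    refine estD_one_le (by positivity) ?_
    calc (1 : ℝ) = K ^ 2 * τ₀ * η ^ 3 := h1.symm
      _ ≤ K ^ 2 * τ * (r * q) ^ 3 := by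
        have := h0.trans hτ
        gcongr
      _ = K ^ 2 * (τ * (r * q)) * (r * q) ^ 2 := by ring
      _ ≤ K ^ 2 * r ^ 2 * (r * q) ^ 2 := by gcongr
      _ = (K * r * (r * q)) ^ 2 := by ring
  calc (1 : ℝ) ≤ K * r * (r * q) := h2
    _ = 2 * K * (q / 2) * r ^ 2 := by ring
    _ ≤ 2 * K * w * r ^ 2 := by gcongr

/-- case (ii) -/
theorem estD_ii {r q w γ K τ₀ τ η : ℝ} (hr : 0 < r) (hη : 0 < η) (hK : 0 ≤ K)
    (h1 : K ^ 2 * τ₀ * η ^ 3 = 1) (hτ : τ₀ ≤ τ) (hτ1 : τ ≤ 1) (hl : η ≤ r * q) (hw : q / 2 ≤ w)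
    (hγ : q ≤ 2 * γ) (h : r ^ 2 ≤ τ * (r * q)) : 1 ≤ 8 * K * (w / (r * q) * γ ^ 2) * r ^ 2 := by
  have hl0 : 0 < r * q := hη.trans_le hl
  have hq : 0 < q := (mul_pos_iff_of_pos_left hr).1 hl0
  have h3 : r * q ≤ q ^ 2 := by
    have h4 : r * r ≤ r * q := by nlinarith
    have h5 : r ≤ q := le_of_mul_le_mul_left h4 hr
    nlinarith
  have h2 : 1 ≤ K * (r * q) * q := by
    refine estD_one_le (by positivity) ?_
    calc (1 : ℝ) = K ^ 2 * τ₀ * η ^ 3 := h1.symm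
      _ ≤ K ^ 2 * 1 * (r * q) ^ 3 := by
        have := hτ.trans hτ1
        gcongr
      _ = K ^ 2 * (r * q) ^ 2 * (r * q) := by ring
      _ ≤ K ^ 2 * (r * q) ^ 2 * q ^ 2 := by gcongr
      _ = (K * (r * q) * q) ^ 2 := by ring
  have hγ' : q / 2 ≤ γ := by linarith
  have hw0 : 0 ≤ w := le_trans (by positivity) hw
  calc (1 : ℝ) ≤ K * (r * q) * q := h2
    _ = 8 * K * (q / 2 / (r * q) * (q / 2) ^ 2) * r ^ 2 := by
      field_simp
      ring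
    _ ≤ 8 * K * (w / (r * q) * γ ^ 2) * r ^ 2 := by gcongr

/-- case (iii) -/
theorem estD_iii {r q p K η : ℝ} (hr : 0 < r) (hη : 0 ≤ η) (hK : 0 ≤ K) (h1 : K * η ^ 2 = 1)
    (hl : η ≤ r * q) (h : q ≤ 16 * p) : 1 ≤ 256 * K * p ^ 2 * r ^ 2 := by
  calc (1 : ℝ) = K * η ^ 2 := h1.symm
    _ ≤ K * (r * (16 * p)) ^ 2 := by
      have : η ≤ r * (16 * p) := hl.trans (by gcongr)
      gcongr
    _ = 256 * K * p ^ 2 * r ^ 2 := by ring

theorem estD_pt1 {F M r Q p c U : ℝ} (hF : 0 ≤ F) (hM : F ≤ M) (hr : 0 < r) (hQ : 0 < Q)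
    (hp : 0 < p) (hc : 0 ≤ c) (h : M * F * Q ≤ U * r ^ 2) :
    F * (√c / (r * Q * p)) ≤ √(c * (Q ^ (-3 : ℝ) * p ^ (-2 : ℝ))) * √U := by
  refine estD_cs (by positivity) ?_
  rw [Real.rpow_neg hQ.le, Real.rpow_neg hp.le, Real.rpow_ofNat, Real.rpow_ofNat, mul_pow, div_pow,
    Real.sq_sqrt hc]
  have h2 : F * F * Q ≤ U * r ^ 2 := le_trans (by gcongr) h
  calc F ^ 2 * (c / (r * Q * p) ^ 2) = c * ((Q ^ 3)⁻¹ * (p ^ 2)⁻¹) * (F * F * Q / r ^ 2) := by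
        field_simp
    _ ≤ c * ((Q ^ 3)⁻¹ * (p ^ 2)⁻¹) * U := by
        gcongr
        exact (div_le_iff₀ (by positivity)).2 h2

theorem estD_pt2 {F M r Q p c U : ℝ} (hF : 0 ≤ F) (hM : F ≤ M) (hr : 0 < r) (hQ : 0 < Q)
    (hp : 0 < p) (hc : 0 ≤ c) (h : M * F * Q ≤ U * (p * r ^ 2)) :
    F * (√c / (r * Q * p)) ≤ √(c * (Q ^ (-3 : ℝ) * p ^ (-1 : ℝ))) * √U := by
  refine estD_cs (by positivity) ?_
  rw [Real.rpow_neg hQ.le, Real.rpow_neg_one, Real.rpow_ofNat, mul_pow, div_pow,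
    Real.sq_sqrt hc]
  have h2 : F * F * Q ≤ U * (p * r ^ 2) := le_trans (by gcongr) h
  calc F ^ 2 * (c / (r * Q * p) ^ 2) = c * ((Q ^ 3)⁻¹ * p⁻¹) * (F * F * Q / (p * r ^ 2)) := by
        field_simp
    _ ≤ c * ((Q ^ 3)⁻¹ * p⁻¹) * U := by
        gcongr
        exact (div_le_iff₀ (by positivity)).2 h2

/-- the pointwise bound -/
theorem estD_point {M 𝓔 T r₂ P τ t δ : ℝ} {e W : R3} {F : R3 × R3 → ℝ} {Ez Bz : R3 → R3}
    {s y y₁ y₂ : ℝ} (H : Frz M 𝓔 T r₂ P τ t δ e W F Ez Bz s y y₁ y₂) (hM : 0 ≤ M)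
    (hr₂' : r₂ ≤ 1 / 4) (hP1 : 1 ≤ P) (hδ : 64 * δ ^ 2 ≤ P ^ (-(11 / 10 : ℝ))) {c : R3 → ℝ}
    (hc : c = (ball (0 : R3) t).indicator fun z => Tf (Ez z) (Bz z) 1 0 1 (nz z)) {K K' : ℝ}
    (hK : K = P ^ (11 / 10 : ℝ)) (hK' : K' = P ^ (73 / 50 : ℝ)) (z v : R3) :
    F (z, v) * (RI P r₂ e ∩ {z | P ^ (-(73 / 100 : ℝ)) ≤ lam e z}).indicator
        (fun z' => mSg (Tf (Ez z) (Bz z) 1 0 1 (nz z)) z' v) z ≤
      √(c z * velI P (-3) (-2) (nz z) v) * √(8 * M * K * (F (z, v) * (qq W z * en v) +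
        (RL P τ e).indicator
          (fun z' => F (z, v) * (qq W z' / lam e z' * (en v * gg e v ^ 2))) z)) +
      √(c z * velI P (-3) (-1) (nz z) v) * √(256 * M * K' * (F (z, v) * (en v * pp z v))) := by
  have hP0 : 0 < P := by linarith
  have K0 : 0 ≤ K := by rw [hK]; positivity
  have K0' : 0 ≤ K' := by rw [hK']; positivity
  have hcf : ∀ z, 0 ≤ Tf (Ez z) (Bz z) 1 0 1 (nz z) := fun z =>
    Tf_nonneg _ _ (by simp) (norm_nz_le z)
  by_cases hz : z ∈ RI P r₂ e ∩ {z | P ^ (-(73 / 100 : ℝ)) ≤ lam e z}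
  swap
  · rw [indicator_of_notMem hz, mul_zero]
    positivity
  by_cases hF : F (z, v) = 0
  · rw [hF, zero_mul]
    positivity
  have hz0 : z ≠ 0 := RI_ne_zero hP0 hz.1
  have hr : 0 < ‖z‖ := norm_pos_iff.2 hz0
  have hQ : en v ≤ P := not_lt.1 fun h => hF (H.FP (z, v) h)
  have ht : z ∈ ball (0 : R3) t := mem_ball_zero_iff.2 (not_le.1 fun h => hF (H.Ft (z, v) h))
  have hcz : c z = Tf (Ez z) (Bz z) 1 0 1 (nz z) := by rw [hc, indicator_of_mem ht]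
  have hv : ∀ a b : ℝ, velI P a b (nz z) v = en v ^ a * pp z v ^ b := fun a b =>
    indicator_of_mem (s := {v : R3 | en v ≤ P}) hQ _
  have hl : P ^ (-(73 / 100 : ℝ)) ≤ ‖z‖ * qq e z := lam_eq e hz0 ▸ hz.2
  have hη : 0 < P ^ (-(73 / 100 : ℝ)) := by positivity
  have hq0 : 0 < qq e z := (mul_pos_iff_of_pos_left hr).1 (hη.trans_le hl)
  have hq : 64 * δ ^ 2 ≤ qq e z := by
    have h1 : ‖z‖ ≤ 1 := by linarith [hz.1.2]
    have h2 : ‖z‖ * qq e z ≤ qq e z := mul_le_of_le_one_left hq0.le h1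
    exact hδ.trans ((Real.rpow_le_rpow_of_exponent_le hP1 (by norm_num)).trans (hl.trans h2))
  have hw := (H.geo.qq_cmp hz0 hq).1
  have hw0 : 0 ≤ qq W z := le_trans (by positivity) hw
  have hKe : K ^ 2 * P ^ (-(1 / 100 : ℝ)) * (P ^ (-(73 / 100 : ℝ))) ^ 3 = 1 := by
    rw [hK, ← Real.rpow_natCast, ← Real.rpow_natCast, ← Real.rpow_mul hP0.le,
      ← Real.rpow_mul hP0.le, ← Real.rpow_add hP0, ← Real.rpow_add hP0]
    norm_num
  have hKe' : K' * (P ^ (-(73 / 100 : ℝ))) ^ 2 = 1 := by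
    rw [hK', ← Real.rpow_natCast, ← Real.rpow_mul hP0.le, ← Real.rpow_add hP0]
    norm_num
  have F0 := H.F0 (z, v)
  have FM := H.FM (z, v)
  have Q0 := en_pos v
  have p0 := pp_pos z v
  have hMFQ : 0 ≤ M * F (z, v) * en v := by positivity
  have hi0 : 0 ≤ (RL P τ e).indicator
      (fun z' => F (z, v) * (qq W z' / lam e z' * (en v * gg e v ^ 2))) z := by
    refine indicator_apply_nonneg fun _ => ?_
    rw [lam_eq e hz0]
    positivity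
  rw [indicator_of_mem hz, mSg, hv, hv, hcz]
  by_cases h3 : qq e z ≤ 16 * pp z v
  · refine le_add_of_nonneg_of_le (by positivity) (estD_pt2 F0 FM hr Q0 p0 (hcf z) ?_)
    have h4 := estD_iii hr hη.le K0' hKe' hl h3
    calc M * F (z, v) * en v = M * F (z, v) * en v * 1 := (mul_one _).symm
      _ ≤ M * F (z, v) * en v * (256 * K' * pp z v ^ 2 * ‖z‖ ^ 2) := by gcongr
      _ = _ := by ring
  refine le_add_of_le_of_nonneg (estD_pt1 F0 FM hr Q0 p0 (hcf z) ?_) (by positivity)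
  by_cases h1 : τ * (‖z‖ * qq e z) ≤ ‖z‖ ^ 2
  · have h4 := estD_i hr hη.le K0 (by positivity) hKe H.τ0 hl hw h1
    calc M * F (z, v) * en v = M * F (z, v) * en v * 1 := (mul_one _).symm
      _ ≤ M * F (z, v) * en v * (2 * K * qq W z * ‖z‖ ^ 2) := by gcongr
      _ = 2 * M * K * (F (z, v) * (qq W z * en v) + 0) * ‖z‖ ^ 2 := by ring
      _ ≤ _ := by gcongr; norm_num
  · have h2 : ‖z‖ ^ 2 ≤ τ * (‖z‖ * qq e z) := (not_le.1 h1).le
    have hRL : z ∈ RL P τ e :=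
      ⟨(Real.rpow_le_rpow_of_exponent_le hP1 (by norm_num)).trans hz.2, lam_eq e hz0 ▸ h2⟩
    have h4 := estD_ii hr hη K0 hKe H.τ0 H.τ1 hl hw
      (qq_le_gg H.geo.e1 hz0 (not_le.1 h3).le) h2
    rw [indicator_of_mem hRL, lam_eq e hz0]
    calc M * F (z, v) * en v = M * F (z, v) * en v * 1 := (mul_one _).symm
      _ ≤ M * F (z, v) * en v * (8 * K * (qq W z / (‖z‖ * qq e z) * gg e v ^ 2) * ‖z‖ ^ 2) := by
        gcongr
      _ = 8 * M * K * (0 + F (z, v) * (qq W z / (‖z‖ * qq e z) * (en v * gg e v ^ 2))) *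
        ‖z‖ ^ 2 := by ring
      _ ≤ _ := by gcongr; positivity

/-- the size of the bound -/
theorem estD_size {C₁ C₂ M 𝓔 P K K' s y : ℝ} (hC₁ : 0 ≤ C₁) (hC₂ : 0 ≤ C₂) (hM : 0 ≤ M)
    (h𝓔 : 0 ≤ 𝓔) (hP1 : 1 ≤ P) (s0 : 0 ≤ s) (y0 : 0 ≤ y) (hlog : Real.log P ^ 2 ≤ P ^ (1 : ℝ))
    (hK : K = P ^ (11 / 10 : ℝ)) (hK' : K' = P ^ (73 / 50 : ℝ)) :
    √(C₁ * P ^ (-3 - 2 * -2 + 1 : ℝ) * 𝓔) * √(8 * M * K * (s + y)) +
        √(C₂ * Real.log P ^ 2 * 𝓔) * √(256 * M * K' * 𝓔) ≤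
      (√(C₁ * 𝓔 * (8 * M)) + √(C₂ * 𝓔 * (256 * M * 𝓔))) *
        (P ^ (156 / 100 : ℝ) * (1 + √s + √y)) := by
  have hP0 : 0 < P := by linarith
  have K0 : 0 ≤ K := by rw [hK]; positivity
  have K0' : 0 ≤ K' := by rw [hK']; positivity
  have hX : (P ^ (156 / 100 : ℝ)) ^ 2 = P ^ (78 / 25 : ℝ) := by
    rw [← Real.rpow_natCast, ← Real.rpow_mul hP0.le]
    norm_num
  have e₁ : P ^ (-3 - 2 * -2 + 1 : ℝ) * K ≤ (P ^ (156 / 100 : ℝ)) ^ 2 := by
    rw [hX, hK, ← Real.rpow_add hP0]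
    exact Real.rpow_le_rpow_of_exponent_le hP1 (by norm_num)
  have e₂ : Real.log P ^ 2 * K' ≤ (P ^ (156 / 100 : ℝ)) ^ 2 := by
    refine (mul_le_mul_of_nonneg_right hlog K0').trans ?_
    rw [hX, hK', ← Real.rpow_add hP0]
    exact Real.rpow_le_rpow_of_exponent_le hP1 (by norm_num)
  have a1 := Real.sqrt_nonneg s
  have a2 := Real.sqrt_nonneg y
  have e₃ : s + y ≤ (1 + √s + √y) ^ 2 := by
    nlinarith [Real.sq_sqrt s0, Real.sq_sqrt y0, mul_nonneg a1 a2]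
  have e₄ : 1 ≤ (1 + √s + √y) ^ 2 := one_le_pow₀ (by linarith)
  rw [add_mul]
  refine add_le_add (estD_num (by positivity) (by positivity) ?_)
    (estD_num (by positivity) (by positivity) ?_)
  · calc C₁ * P ^ (-3 - 2 * -2 + 1 : ℝ) * 𝓔 * (8 * M * K * (s + y)) =
        C₁ * 𝓔 * (8 * M) * (P ^ (-3 - 2 * -2 + 1 : ℝ) * K * (s + y)) := by ring
      _ ≤ C₁ * 𝓔 * (8 * M) * ((P ^ (156 / 100 : ℝ)) ^ 2 * (1 + √s + √y) ^ 2) := by gcongr
      _ = _ := by ring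
  · calc C₂ * Real.log P ^ 2 * 𝓔 * (256 * M * K' * 𝓔) =
        C₂ * 𝓔 * (256 * M * 𝓔) * (Real.log P ^ 2 * K' * 1) := by ring
      _ ≤ C₂ * 𝓔 * (256 * M * 𝓔) * ((P ^ (156 / 100 : ℝ)) ^ 2 * (1 + √s + √y) ^ 2) := by gcongr
      _ = _ := by ring

theorem estD_mw {c : R3 → ℝ} (mc : Measurable c) (P a b : ℝ) :
    Measurable fun q : R3 × R3 => c q.1 * velI P a b (nz q.1) q.2 := by
  have h := (mc.comp measurable_fst).mul ((measurable_velI P a b).comp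
      ((measurable_nz.comp measurable_fst).prodMk (measurable_snd (α := R3) (β := R3))))
  exact h

theorem estD_m1 {F : R3 × R3 → ℝ} (mF : Measurable F) (W : R3) :
    Measurable fun q : R3 × R3 => F q * (qq W q.1 * en q.2) :=
  mF.mul (((measurable_qq W).comp measurable_fst).mul (measurable_en.comp measurable_snd))

theorem estD_m2 {F : R3 × R3 → ℝ} (mF : Measurable F) (P τ : ℝ) (e W : R3) :
    Measurable fun q : R3 × R3 => (RL P τ e).indicator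
      (fun z => F q * (qq W z / lam e z * (en q.2 * gg e q.2 ^ 2))) q.1 := by
  have h3 : (fun q : R3 × R3 => (RL P τ e).indicator
      (fun z => F q * (qq W z / lam e z * (en q.2 * gg e q.2 ^ 2))) q.1) =
      (Prod.fst ⁻¹' RL P τ e).indicator
        fun q => F q * (qq W q.1 / lam e q.1 * (en q.2 * gg e q.2 ^ 2)) := rfl
  rw [h3]
  exact (mF.mul ((((measurable_qq W).comp measurable_fst).div
    ((measurable_lam e).comp measurable_fst)).mul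
    ((measurable_en.comp measurable_snd).mul
      (((measurable_gg e).comp measurable_snd).pow_const 2)))).indicator
    (measurable_fst (measurableSet_RL P τ e))

theorem estD_m3 {F : R3 × R3 → ℝ} (mF : Measurable F) :
    Measurable fun q : R3 × R3 => F q * (en q.2 * pp q.1 q.2) :=
  mF.mul ((measurable_en.comp measurable_snd).mul measurable_pp)

theorem est_mSg_high : Est (fun P r₂ _ e _ cf _ z v =>
      (RI P r₂ e ∩ {z | P ^ (-(73 / 100 : ℝ)) ≤ lam e z}).indicator (fun z => mSg cf z v) z)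
    (fun P s y _ _ => P ^ (156 / 100 : ℝ) * (1 + √s + √y)) := by
  intro M 𝓔 T r₂ hM h𝓔 hT hr₂ hr₂'
  obtain ⟨C₁, hC₁, v₁⟩ := vel_lt (-3) (-2) (by norm_num) (by norm_num)
  obtain ⟨C₂, hC₂, v₂⟩ := vel_log2
  obtain ⟨P₁, hP₁⟩ := exists_delta_small
  obtain ⟨P₂, hP₂⟩ := log_pow_le 2 one_pos
  refine ⟨√(C₁ * 𝓔 * (8 * M)) + √(C₂ * 𝓔 * (256 * M * 𝓔)), max 3 (max P₁ P₂), by positivity, ?_⟩
  intro P hP τ t δ e W F Ez Bz s y y₁ y₂ H
  have hP3 : 3 ≤ P := (le_max_left _ _).trans hP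
  have hP1 : 1 ≤ P := by linarith
  have hP0 : 0 < P := by linarith
  have hδ := hP₁ P ((le_max_left _ _).trans ((le_max_right _ _).trans hP)) δ e W H.geo
  have hlog := (hP₂ P ((le_max_right _ _).trans ((le_max_right _ _).trans hP))).2
  rw [Real.rpow_ofNat] at hlog
  obtain ⟨c, hc⟩ : ∃ c : R3 → ℝ,
    c = (ball (0 : R3) t).indicator fun z => Tf (Ez z) (Bz z) 1 0 1 (nz z) := ⟨_, rfl⟩
  have hcf : ∀ z, 0 ≤ Tf (Ez z) (Bz z) 1 0 1 (nz z) := fun z =>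
    Tf_nonneg _ _ (by simp) (norm_nz_le z)
  have mc : Measurable c := by
    rw [hc]
    exact (measurable_cf H.mE H.mB).indicator measurableSet_ball
  have c0 : ∀ z, 0 ≤ c z := fun z => by
    rw [hc]
    exact indicator_nonneg (fun z _ => hcf z) z
  have bc : Bd c 𝓔 := by
    rw [hc]
    exact H.cf
  have hν : ∀ᵐ z : R3, ‖nz z‖ = 1 := (ae_qq_pos H.geo.e1).mono fun z hz => norm_nz hz.1
  have w₁ := Bd.prod_vel mc measurable_nz c0 hν bc (by positivity) (v₁ P hP1)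
  have w₂ := Bd.prod_vel mc measurable_nz c0 hν bc (by positivity) (v₂ P hP3)
  have mw := estD_mw mc P
  have m₁ := estD_m1 H.mF W
  have m₂ := estD_m2 H.mF P τ e W
  have m₃ := estD_m3 H.mF
  obtain ⟨K, hK⟩ : ∃ K : ℝ, K = P ^ (11 / 10 : ℝ) := ⟨_, rfl⟩
  obtain ⟨K', hK'⟩ : ∃ K : ℝ, K = P ^ (73 / 50 : ℝ) := ⟨_, rfl⟩
  have K0 : 0 ≤ K := by rw [hK]; positivity
  have K0' : 0 ≤ K' := by rw [hK']; positivity
  have s0 := H.s0
  have y0 := H.y0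
  have u₁ := (H.sp.add H.hy m₁.aemeasurable s0 y0).const_mul (c := 8 * M * K) (by positivity)
  have u₂ := H.cp.const_mul (c := 256 * M * K') (by positivity)
  have mu₁ := (m₁.add m₂).const_mul (8 * M * K)
  have mu₂ := m₃.const_mul (256 * M * K')
  have b₁ := Bd.cs w₁ u₁ (mw _ _).aemeasurable mu₁.aemeasurable (by positivity) (by positivity)
    (Eventually.of_forall fun _ => le_rfl)
  have b₂ := Bd.cs w₂ u₂ (mw _ _).aemeasurable mu₂.aemeasurable (by positivity) (by positivity)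
    (Eventually.of_forall fun _ => le_rfl)
  have b := b₁.add b₂ ((mw _ _).sqrt.mul mu₁.sqrt).aemeasurable (by positivity) (by positivity)
  exact b.mono (Eventually.of_forall fun q => estD_point H hM hr₂' hP1 hδ hc hK hK' q.1 q.2)
    (estD_size hC₁ hC₂ hM h𝓔 hP1 s0 y0 hlog hK hK')

end Crest.Agent.R106
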