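import Crest.Agent.R106.Vel
import Crest.Agent.R106.Geom
import Crest.Agent.R106.Stress

/-!
# Row 106: mismatch terms, `S` part
-/

set_option autoImplicit false
set_option linter.unusedVariables false
set_option linter.unusedSectionVars false

open MeasureTheory Metric Set Filter Topology
open scoped ContDiff ENNReal RealInnerProductSpace
open Crest.AnalysisR.VecCalc3 Crest.AnalysisR.PDE.RVM

noncomputable section

namespace Crest.Agent.R106

theorem estD2_le {g w u : ℝ} (hw : 0 ≤ w) (h : g ^ 2 ≤ w * u) : g ≤ √w * √u := by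
  rw [← Real.sqrt_mul hw]
  exact Real.le_sqrt_of_sq_le h

theorem estD2_ge {K w u : ℝ} (hw : 0 ≤ w) (hK : 0 ≤ K) (h : w * u ≤ K ^ 2) : √w * √u ≤ K := by
  rw [← Real.sqrt_mul hw]
  exact Real.sqrt_le_iff.2 ⟨hK, h⟩

theorem estD2_meas {c : R3 → ℝ} (mc : Measurable c) (P a b : ℝ) :
    Measurable fun q : R3 × R3 => c q.1 * velI P a b (nz q.1) q.2 := by
  have h1 : Measurable fun q : R3 × R3 => (nz q.1, q.2) :=
    (measurable_nz.comp measurable_fst).prodMk measurable_snd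
  have h2 := (measurable_velI P a b).comp h1
  simp only [Function.comp_def] at h2
  exact (mc.comp measurable_fst).mul h2

theorem estD2_prod {c : R3 → ℝ} {P a b Cz V : ℝ} (mc : Measurable c) (c0 : ∀ z, 0 ≤ c z)
    (hc : Bd c Cz) (hV0 : 0 ≤ V) (hV : ∀ ν : R3, ‖ν‖ = 1 → Bd (velI P a b ν) V) :
    Bd (fun q : R3 × R3 => c q.1 * velI P a b (nz q.1) q.2) (V * Cz) :=
  Bd.prod_vel mc measurable_nz c0 ((Measure.ae_ne volume (0 : R3)).mono fun z hz => norm_nz hz)
    hc hV0 hV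

theorem estD2_vel {P : ℝ} {v : R3} (h : en v ≤ P) (a b : ℝ) (z : R3) :
    velI P a b (nz z) v = en v ^ a * pp z v ^ b :=
  indicator_of_mem (s := {v : R3 | en v ≤ P}) h _

theorem estD2_supp {M 𝓔 T r₂ P τ t δ : ℝ} {e W : R3} {F : R3 × R3 → ℝ} {Ez Bz : R3 → R3}
    {s y y₁ y₂ : ℝ} (H : Frz M 𝓔 T r₂ P τ t δ e W F Ez Bz s y y₁ y₂) {q : R3 × R3}
    (h : F q ≠ 0) : en q.2 ≤ P ∧ q.1 ∈ ball (0 : R3) t :=
  ⟨not_lt.1 fun h' => h (H.FP q h'), mem_ball_zero_iff.2 (not_le.1 fun h' => h (H.Ft q h'))⟩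

theorem est_mSg_low : Est (fun P r₂ _ e _ cf _ z v =>
      (RI P r₂ e ∩ {z | lam e z ≤ P ^ (-(73 / 100 : ℝ))}).indicator (fun z => mSg cf z v) z)
    (fun P _ _ _ _ => P ^ (164 / 100 : ℝ)) := by
  intro M 𝓔 T r₂ hM h𝓔 hT hr₂ hr₂'
  obtain ⟨C, hC, hv⟩ := vel_log (-1) (by norm_num)
  obtain ⟨C', hC', hc⟩ := cone_lam
  obtain ⟨P₂, hP₂⟩ := log_pow_le 3 (ε := 1 / 100) (by norm_num)
  refine ⟨C * M * √(2 * C' * 𝓔), max P₂ 3, by positivity,
    fun P hP τ t δ e W F Ez Bz s y y₁ y₂ H => ?_⟩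
  beta_reduce
  have hP3 : 3 ≤ P := (le_max_right _ _).trans hP
  have hP0 : 0 < P := by linarith
  obtain ⟨hN, hN'⟩ := hP₂ P ((le_max_left _ _).trans hP)
  have hN0 : 0 ≤ Real.log P := by linarith
  have m1 := (measurable_cf H.mE H.mB).indicator (measurableSet_ball (x := (0 : R3)) (ε := t))
  have m2 : Measurable fun z : R3 => M ^ 2 * {z : R3 | lam e z ≤ P ^ (-(73 / 100 : ℝ)) ∧
      ‖z‖ ≤ 1}.indicator (fun z => (‖z‖ ^ 2)⁻¹) z :=
    (Measurable.indicator (by fun_prop) ((measurableSet_le (measurable_lam e)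
      measurable_const).inter (measurableSet_le measurable_norm measurable_const))).const_mul _
  have c0 : ∀ z, 0 ≤ Tf (Ez z) (Bz z) 1 0 1 (nz z) := fun z =>
    Tf_nonneg _ _ (by simp) (norm_nz_le z)
  have h1 := estD2_prod m1 (indicator_nonneg fun z _ => c0 z) H.cf (by positivity) (hv P hP3)
  have h2 := estD2_prod m2 (fun z => mul_nonneg (sq_nonneg _)
    (indicator_nonneg (fun z _ => by positivity) z))
    ((hc _ (by positivity) (Real.rpow_le_one_of_one_le_of_nonpos (by linarith) (by norm_num)) e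
      H.geo.e1).const_mul (sq_nonneg M)) (by positivity) (hv P hP3)
  rw [← Real.rpow_neg hP0.le, neg_neg, Real.log_rpow hP0] at h2
  refine (h1.cs h2 (estD2_meas m1 _ _ _).aemeasurable (estD2_meas m2 _ _ _).aemeasurable
    (by positivity) (by positivity) (ae_of_all _ fun q => ?_)).mono (ae_of_all _ fun _ => le_rfl)
    (estD2_ge (by positivity) (by positivity) ?_)
  · by_cases hF : F q = 0
    · rw [hF, zero_mul]
      positivity
    by_cases hz : q.1 ∈ RI P r₂ e ∩ {z | lam e z ≤ P ^ (-(73 / 100 : ℝ))}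
    swap
    · rw [indicator_of_notMem hz, mul_zero]
      positivity
    obtain ⟨a1, a2⟩ := estD2_supp H hF
    have a3 := en_pos q.2
    have a4 := pp_pos q.1 q.2
    have a5 := c0 q.1
    rw [indicator_of_mem hz, indicator_of_mem a2, estD2_vel a1,
      indicator_of_mem (by exact ⟨hz.2, hz.1.2.trans (by linarith)⟩), Real.rpow_neg_one,
      Real.rpow_neg_one]
    refine estD2_le (by positivity) ?_
    rw [mul_pow, mSg, div_pow, Real.sq_sqrt a5]
    refine (mul_le_mul_of_nonneg_right (pow_le_pow_left₀ (H.F0 q) (H.FM q) 2)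
      (by positivity)).trans_eq ?_
    ring
  · have e1 : (P ^ (164 / 100 : ℝ)) ^ 2 =
        P ^ (-1 + 3 : ℝ) * P ^ (-1 + 3 : ℝ) * P ^ (-(73 / 100 : ℝ)) * P ^ (1 / 100 : ℝ) := by
      rw [← Real.rpow_add hP0, ← Real.rpow_add hP0, ← Real.rpow_add hP0, ← Real.rpow_natCast,
        ← Real.rpow_mul hP0.le]
      norm_num
    have e2 : Real.log P * Real.log P * (1 + 73 / 100 * Real.log P) ≤ 2 * P ^ (1 / 100 : ℝ) := by
      rw [Real.rpow_ofNat] at hN'
      nlinarith [mul_le_mul_of_nonneg_left hN (mul_nonneg hN0 hN0)]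
    rw [mul_pow, e1, mul_pow, Real.sq_sqrt (by positivity)]
    refine le_of_eq_of_le ?_ ((mul_le_mul_of_nonneg_left e2 (show 0 ≤ (C * M) ^ 2 * (C' * 𝓔) *
      (P ^ (-1 + 3 : ℝ) * P ^ (-1 + 3 : ℝ) * P ^ (-(73 / 100 : ℝ))) by positivity)).trans_eq ?_)
    · ring
    · ring

/-- `∫_{r ≤ ρ, q ≥ a} dz / (r² q)` -/
theorem estD2_cone {ρ a : ℝ} (hρ : 0 ≤ ρ) (ha : 0 < a) (ha2 : a ≤ 2) {e : R3} (he : ‖e‖ = 1) :
    Bd (fun z : R3 => (Iic ρ ×ˢ Ici a).indicator (fun x : ℝ × ℝ => (x.1 ^ 2)⁻¹ * x.2⁻¹)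
      (‖z‖, qq e z)) (2 * Real.pi * (Real.log (2 / a) * ρ)) := by
  have hl : 0 ≤ Real.log (2 / a) := Real.log_nonneg ((one_le_div ha).2 ha2)
  refine Bd.cone he (G := fun r => (Iic ρ).indicator (fun r => (r ^ 2)⁻¹ * Real.log (2 / a)) r)
    (Measurable.indicator (by fun_prop) (measurableSet_Iic.prod measurableSet_Ici))
    (fun r hr => ?_) ?_
  · by_cases h : r ∈ Iic ρ
    · rw [indicator_of_mem h]
      refine Vel_one measurableSet_Ioo measurableSet_Icc (fun q hq => ?_)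
        (Vel_cmul (by positivity) (lint_inv ha ha2))
      by_cases hq' : q ∈ Ici a
      · exact Or.inr ⟨⟨hq', hq.2.le⟩, by rw [indicator_of_mem (by exact ⟨h, hq'⟩)]⟩
      · exact Or.inl (by rw [indicator_of_notMem fun h' => hq' h'.2])
    · simp [h]
  · refine Vel_one measurableSet_Ioi measurableSet_Ioc (fun r hr => ?_) (Vel_const hl)
    by_cases h : r ∈ Iic ρ
    · have : (0 : ℝ) < r := hr
      exact Or.inr ⟨⟨hr, h⟩, by rw [indicator_of_mem h, mul_inv_cancel_left₀ (by positivity)]⟩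
    · exact Or.inl (by rw [indicator_of_notMem h, mul_zero])

theorem est_mSb : Est (fun P r₂ _ e _ _ b z v => (RI P r₂ e).indicator (fun z => mSb b z v) z)
    (fun P s _ _ _ => P ^ (142 / 100 : ℝ) * √s) := by
  intro M 𝓔 T r₂ hM h𝓔 hT hr₂ hr₂'
  obtain ⟨C, hC, hv⟩ := vel_gt (-1) 0 (by norm_num) (by norm_num)
  obtain ⟨C', hC', hv'⟩ := vel_log2
  obtain ⟨P₁, hP₁⟩ := exists_delta_small
  obtain ⟨P₂, hP₂⟩ := log_pow_le 2 (ε := 1 / 50) (by norm_num)
  refine ⟨C * M * √(24 * Real.pi) + √(4 * C' * M * 𝓔), max (max P₁ P₂) 3, by positivity,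
    fun P hP τ t δ e W F Ez Bz s y y₁ y₂ H => ?_⟩
  beta_reduce
  have hP3 : 3 ≤ P := (le_max_right _ _).trans hP
  have hP0 : 0 < P := by linarith
  have hP1 : 1 ≤ P := by linarith
  obtain ⟨hN, hN'⟩ := hP₂ P ((le_max_right _ _).trans ((le_max_left _ _).trans hP))
  have hδ := hP₁ P ((le_max_left _ _).trans ((le_max_left _ _).trans hP)) δ e W H.geo
  have hN0 : 0 ≤ Real.log P := by linarith
  have hs := H.s0
  rw [Real.rpow_ofNat] at hN'
  have mqq := measurable_qq e
  have mqW := measurable_qq W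
  have m1 : Measurable ((ball (0 : R3) t).indicator fun z => qq W z * ef (Ez z) (Bz z)) := by
    have := H.mE
    have := H.mB
    refine Measurable.indicator ?_ measurableSet_ball
    unfold ef
    fun_prop
  have m2 : Measurable fun z : R3 => 4 * M ^ 2 * (Iic (P ^ (-(6 / 5 : ℝ))) ×ˢ
      Ici (P ^ (-(51 / 50 : ℝ)))).indicator (fun x : ℝ × ℝ => (x.1 ^ 2)⁻¹ * x.2⁻¹)
        (‖z‖, qq e z) :=
    ((Measurable.indicator (by fun_prop) (measurableSet_Iic.prod measurableSet_Ici)).comp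
      (measurable_norm.prodMk mqq)).const_mul _
  have m3 : Measurable fun q : R3 × R3 =>
      4 * M * P ^ (141 / 50 : ℝ) * (F q * (en q.2 * pp q.1 q.2)) :=
    (H.mF.mul ((measurable_en.comp measurable_snd).mul measurable_pp)).const_mul _
  have c0 : ∀ z, 0 ≤ (ball (0 : R3) t).indicator (fun z => qq W z * ef (Ez z) (Bz z)) z :=
    indicator_nonneg fun z _ => mul_nonneg (ang_nonneg H.geo.W1.le (norm_nz_le z))
      (by unfold ef; positivity)
  have hl : Real.log (2 / P ^ (-(51 / 50 : ℝ))) ≤ 3 * Real.log P := by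
    rw [Real.log_div two_ne_zero (by positivity), Real.log_rpow hP0]
    linarith [Real.log_le_sub_one_of_pos (show (0 : ℝ) < 2 by norm_num)]
  have h1 := estD2_prod m1 c0 H.sf (by positivity) (hv P hP1)
  have hρ : 0 < P ^ (-(6 / 5 : ℝ)) := by positivity
  have ha : 0 < P ^ (-(51 / 50 : ℝ)) := by positivity
  have h2 := estD2_prod m2 (fun z => mul_nonneg (by positivity)
    (indicator_nonneg (fun x hx => by have := ha.trans_le hx.2; positivity) _))
    (((estD2_cone hρ.le ha ((Real.rpow_le_one_of_one_le_of_nonpos hP1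
      (by norm_num)).trans one_le_two) H.geo.e1).mono (ae_of_all _ fun _ => le_rfl)
      (show _ ≤ 2 * Real.pi * (3 * Real.log P * P ^ (-(6 / 5 : ℝ))) by gcongr)).const_mul
      (by positivity)) (by positivity) (hv P hP1)
  have h3 := estD2_prod m1 c0 H.sf (by positivity) (hv' P hP3)
  have h4 := H.cp.const_mul (c := 4 * M * P ^ (141 / 50 : ℝ)) (by positivity)
  have n1 := estD2_meas m1 P (-1) 0
  have n2 := estD2_meas m2 P (-1) 0
  refine ((h1.cs h2 n1.aemeasurable n2.aemeasurable (by positivity) (by positivity)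
    (ae_of_all _ fun _ => le_rfl)).add (h3.cs h4 (estD2_meas m1 _ _ _).aemeasurable
      m3.aemeasurable (by positivity) (by positivity) (ae_of_all _ fun _ => le_rfl))
    (n1.sqrt.mul n2.sqrt).aemeasurable (by positivity) (by positivity)).mono
    (ae_of_all _ fun q => ?_) ?_
  · by_cases hF : F q = 0
    · rw [hF, zero_mul]
      positivity
    by_cases hz : q.1 ∈ RI P r₂ e
    swap
    · rw [indicator_of_notMem hz, mul_zero]
      positivity
    obtain ⟨a1, a2⟩ := estD2_supp H hF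
    have a3 := en_pos q.2
    have a4 := pp_pos q.1 q.2
    have a5 := c0 q.1
    have hz0 := RI_ne_zero hP0 hz
    have hr : 0 < ‖q.1‖ := norm_pos_iff.2 hz0
    have hsr : 0 < √‖q.1‖ := Real.sqrt_pos.2 hr
    have a6 := RI_qq hP0 hz
    have a7 : P ^ (-(51 / 50 : ℝ)) ≤ qq e q.1 := le_trans (le_div_self (by positivity) hsr
      (Real.sqrt_le_one.2 (hz.2.trans (by linarith)))) a6
    have a8 := (H.geo.qq_cmp hz0 (hδ.trans ((Real.rpow_le_rpow_of_exponent_le hP1
      (by norm_num)).trans a7))).1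
    have a9 : 0 < qq e q.1 := lt_of_lt_of_le (by positivity) a7
    have b1 : qq e q.1 / 4 * ‖Bz q.1‖ ^ 2 ≤ qq W q.1 * ef (Ez q.1) (Bz q.1) := by
      have : ‖Bz q.1‖ ^ 2 / 2 ≤ ef (Ez q.1) (Bz q.1) := by
        unfold ef
        linarith [sq_nonneg ‖Ez q.1‖]
      linarith [mul_le_mul a8 this (by positivity) (by linarith)]
    have F0 := H.F0 q
    rw [indicator_of_mem a2] at a5
    rw [indicator_of_mem hz, indicator_of_mem a2, estD2_vel a1, estD2_vel a1, mSb]
    rcases le_total ‖q.1‖ (P ^ (-(6 / 5 : ℝ))) with h | h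
    · refine le_add_of_le_of_nonneg (estD2_le (by positivity) ?_) (by positivity)
      rw [indicator_of_mem (by exact ⟨h, a7⟩), Real.rpow_neg_one, Real.rpow_zero, mul_pow]
      refine (mul_le_mul_of_nonneg_right (pow_le_pow_left₀ F0 (H.FM q) 2)
        (by positivity)).trans (le_of_eq_of_le ?_ (mul_le_mul_of_nonneg_right
          (mul_le_mul_of_nonneg_right b1 (by positivity)) (by positivity)))
      field_simp
    · refine le_add_of_nonneg_of_le (by positivity) (estD2_le (by positivity) ?_)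
      have b2 : 1 ≤ P ^ (141 / 50 : ℝ) * (qq e q.1 * ‖q.1‖ ^ 2) := by
        have b3 : P ^ (-(3 / 5 : ℝ)) ≤ √‖q.1‖ := by
          refine Real.le_sqrt_of_sq_le (le_of_eq_of_le ?_ h)
          rw [← Real.rpow_natCast, ← Real.rpow_mul hP0.le]
          norm_num
        calc (1 : ℝ) = P ^ (141 / 50 : ℝ) * (P ^ (-(51 / 50 : ℝ)) *
              (P ^ (-(3 / 5 : ℝ)) * P ^ (-(6 / 5 : ℝ)))) := by
              rw [← Real.rpow_add hP0, ← Real.rpow_add hP0, ← Real.rpow_add hP0]
              norm_num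
          _ ≤ P ^ (141 / 50 : ℝ) * (qq e q.1 * √‖q.1‖ * (√‖q.1‖ * ‖q.1‖)) := by
              gcongr
              exact (div_le_iff₀ hsr).1 a6
          _ = _ := by rw [mul_assoc, ← mul_assoc √‖q.1‖, Real.mul_self_sqrt hr.le, sq]
      rw [Real.rpow_neg_one, Real.rpow_neg a3.le, Real.rpow_ofNat, mul_pow, sq (F q)]
      refine (mul_le_mul_of_nonneg_right (mul_le_mul_of_nonneg_right (H.FM q) F0)
        (by positivity)).trans ((le_mul_of_one_le_right (by positivity) b2).trans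
          (le_of_eq_of_le ?_ (mul_le_mul_of_nonneg_right
          (mul_le_mul_of_nonneg_right b1 (by positivity)) (by positivity))))
      field_simp
  · have e1 : (P ^ (142 / 100 : ℝ)) ^ 2 = P ^ (141 / 50 : ℝ) * P ^ (1 / 50 : ℝ) := by
      rw [← Real.rpow_add hP0, ← Real.rpow_natCast, ← Real.rpow_mul hP0.le]
      norm_num
    have e2 : P ^ (-1 + 3 : ℝ) * P ^ (-1 + 3 : ℝ) * P ^ (-(6 / 5 : ℝ)) ≤ P ^ (141 / 50 : ℝ) := by
      rw [← Real.rpow_add hP0, ← Real.rpow_add hP0]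
      exact Real.rpow_le_rpow_of_exponent_le hP1 (by norm_num)
    have e3 : Real.log P ≤ P ^ (1 / 50 : ℝ) := by nlinarith
    rw [add_mul]
    refine add_le_add (estD2_ge (by positivity) (by positivity) ?_)
      (estD2_ge (by positivity) (by positivity) ?_)
    · rw [mul_pow, mul_pow, mul_pow, mul_pow, e1, Real.sq_sqrt hs, Real.sq_sqrt (by positivity)]
      refine le_of_eq_of_le ?_ ((mul_le_mul_of_nonneg_left (mul_le_mul e2 e3 hN0 (by positivity))
        (show 0 ≤ C ^ 2 * M ^ 2 * (24 * Real.pi) * s by positivity)).trans_eq ?_)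
      · ring
      · ring
    · rw [mul_pow, mul_pow, e1, Real.sq_sqrt hs, Real.sq_sqrt (by positivity)]
      refine le_of_eq_of_le ?_ ((mul_le_mul_of_nonneg_left hN'
        (show 0 ≤ 4 * C' * M * 𝓔 * s * P ^ (141 / 50 : ℝ) by positivity)).trans_eq ?_)
      · ring
      · ring

end Crest.Agent.R106
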