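import Crest.Agent.R106.EstE0

/-!
# Row 106: the exit cost
-/

set_option autoImplicit false
set_option linter.unusedVariables false
set_option linter.unusedSectionVars false

open MeasureTheory Metric Set Filter Topology
open scoped ContDiff ENNReal RealInnerProductSpace
open Crest.AnalysisR.VecCalc3 Crest.AnalysisR.PDE.RVM

noncomputable section

namespace Crest.Agent.R106

/-- the remainder on the cone -/
def estE_c (e : R3) (a c : ℝ) (k : ℕ) (z : R3) : ℝ :=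
  if a ≤ ‖z‖ ∧ c / √‖z‖ ≤ qq e z then (‖z‖ ^ k)⁻¹ * (qq e z ^ 2)⁻¹ else 0

theorem estE_c_nonneg (e : R3) (a c : ℝ) (k : ℕ) (z : R3) : 0 ≤ estE_c e a c k z := by
  unfold estE_c
  split_ifs <;> positivity

theorem estE_c_meas2 (a c : ℝ) (k : ℕ) : Measurable fun x : ℝ × ℝ =>
    if a ≤ x.1 ∧ c / √x.1 ≤ x.2 then (x.1 ^ k)⁻¹ * (x.2 ^ 2)⁻¹ else 0 :=
  Measurable.ite ((measurableSet_le measurable_const measurable_fst).inter
    (measurableSet_le (by fun_prop) measurable_snd)) (by fun_prop) measurable_const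

theorem estE_c_meas (e : R3) (a c : ℝ) (k : ℕ) : Measurable (estE_c e a c k) :=
  (estE_c_meas2 a c k).comp (measurable_norm.prodMk (measurable_qq e))

theorem estE_cone {e : R3} (he : ‖e‖ = 1) {a c : ℝ} (ha : 0 < a) (hc : 0 < c) {k : ℕ}
    (hk : 4 ≤ k) : Bd (estE_c e a c k) (2 * Real.pi * (c⁻¹ * (2 * a ^ (7 / 2 - k : ℝ)))) := by
  have hk' : (4 : ℝ) ≤ k := by exact_mod_cast hk
  refine Bd.cone he (G := fun r => if a ≤ r then (r ^ k)⁻¹ * (√r / c) else 0)
    (estE_c_meas2 a c k) (fun r hr => ?_) ?_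
  · have hs : 0 < √r := Real.sqrt_pos.2 hr
    by_cases h : a ≤ r
    · refine (Vel_one measurableSet_Ioo measurableSet_Ici (fun q hq => ?_)
        (Vel_cmul (c := (r ^ k)⁻¹) (by positivity)
          (lint_rpow_lt (β := -2) (a := c / √r) (by norm_num) (by positivity)))).trans
        (ENNReal.ofReal_le_ofReal (le_of_eq ?_))
      · by_cases h' : c / √r ≤ q
        · refine Or.inr ⟨h', le_of_eq ?_⟩
          rw [if_pos ⟨h, h'⟩, Real.rpow_neg hq.1.le, Real.rpow_two]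
        · simp [h']
      · rw [if_pos h, show (-2 + 1 : ℝ) = -1 by norm_num, Real.rpow_neg_one, inv_div]
        norm_num
    · simp [h]
  · refine (Vel_one measurableSet_Ioi measurableSet_Ici (fun r hr => ?_)
      (Vel_cmul (c := c⁻¹) (by positivity)
        (lint_rpow_lt (β := 5 / 2 - k) (a := a) (by linarith) ha))).trans
      (ENNReal.ofReal_le_ofReal (mul_le_mul_of_nonneg_left ?_ (by positivity)))
    · have hr : 0 < r := hr
      by_cases h : a ≤ r
      · refine Or.inr ⟨h, le_of_eq ?_⟩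
        rw [if_pos h, Real.rpow_sub hr, Real.rpow_natCast, show (5 / 2 : ℝ) = 2 + 1 / 2 by norm_num,
          Real.rpow_add hr, Real.rpow_two, ← Real.sqrt_eq_rpow]
        field_simp
      · simp [h]
    · rw [show (5 / 2 - k + 1 : ℝ) = 7 / 2 - k by ring, div_le_iff₀ (by linarith)]
      have : 0 < a ^ (7 / 2 - k : ℝ) := by positivity
      nlinarith

theorem estE_pow4 {g a b u : ℝ} (ha : 0 ≤ a) (hb : 0 ≤ b) (hu : 0 ≤ u)
    (h : g ^ 4 ≤ a ^ 2 * b * u) : g ≤ √a * √(√b * √u) := by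
  refine le_of_pow_le_pow_left₀ (n := 4) (by norm_num) (by positivity) (h.trans_eq ?_)
  rw [show 4 = 2 * 2 from rfl, pow_mul, mul_pow, Real.sq_sqrt ha, Real.sq_sqrt (by positivity),
    mul_pow, mul_pow, Real.sq_sqrt hb, Real.sq_sqrt hu, mul_assoc]

theorem estE_root {b K U x : ℝ} (hK : 0 ≤ K) (hx : 0 ≤ x) (h : U ≤ K * x ^ 4) :
    √(√b * √U) ≤ √(√b * √K) * x := by
  calc √(√b * √U) ≤ √(√b * √(K * x ^ 4)) := by gcongr
    _ = _ := by
      rw [Real.sqrt_mul hK, show x ^ 4 = (x ^ 2) ^ 2 by ring, Real.sqrt_sq (sq_nonneg x),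
        ← mul_assoc, Real.sqrt_mul (by positivity), Real.sqrt_sq hx]

/-- the kernel for `θ² ≥ 16 φ̄²` -/
theorem estE_kE_le {e z v : R3} (hz : z ≠ 0) (hq : 0 < qq e z) (h : 16 * qq e z ≤ pp z v) :
    kE e z v ≤ 2 * √(pp z v) / (‖z‖ ^ 2 * √(qq e z)) := by
  have hp := pp_pos z v
  have hr : 0 < ‖z‖ := norm_pos_iff.2 hz
  have s1 := Real.sqrt_pos.2 hp
  have s2 := Real.sqrt_pos.2 hq
  have e1 := Real.mul_self_sqrt hp.le
  rw [kE, div_le_div_iff₀ (by positivity) (by positivity)]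
  calc _ ≤ 2 * (√(pp z v) * √(pp z v)) * (‖z‖ ^ 2 * √(qq e z)) := by
        rw [e1]
        exact mul_le_mul_of_nonneg_right (by linarith) (by positivity)
    _ = _ := by ring

theorem estE_kE_pow {e z v : R3} (hz : z ≠ 0) (hq : 0 < qq e z) (h : 16 * qq e z ≤ pp z v)
    {F M : ℝ} (F0 : 0 ≤ F) (FM : F ≤ M) :
    (F * kE e z v) ^ 4 ≤ 16 * (F ^ 3 * M) * (pp z v ^ 2 / (‖z‖ ^ 8 * qq e z ^ 2)) := by
  have hp := pp_pos z v
  have hr : 0 < ‖z‖ := norm_pos_iff.2 hz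
  have h0 : 0 ≤ kE e z v := by unfold kE; positivity
  have h1 := pow_le_pow_left₀ h0 (estE_kE_le hz hq h) 4
  have e1 : (2 * √(pp z v) / (‖z‖ ^ 2 * √(qq e z))) ^ 4 =
      16 * (pp z v ^ 2 / (‖z‖ ^ 8 * qq e z ^ 2)) := by
    rw [div_pow, mul_pow, mul_pow, show 4 = 2 * 2 from rfl, pow_mul (√_), pow_mul (√_),
      Real.sq_sqrt hp.le, Real.sq_sqrt hq.le]
    ring
  rw [e1] at h1
  calc _ = F ^ 3 * F * kE e z v ^ 4 := by ring
    _ ≤ F ^ 3 * M * (16 * (pp z v ^ 2 / (‖z‖ ^ 8 * qq e z ^ 2))) := by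
        have := F0.trans FM
        gcongr
    _ = _ := by ring

theorem estE_vel {P : ℝ} {z v : R3} (h : en v ≤ P) :
    velI P (-3) (-1) (nz z) v = (en v ^ 3)⁻¹ * (pp z v)⁻¹ := by
  rw [velI, indicator_of_mem (show v ∈ {v : R3 | en v ≤ P} from h), Real.rpow_neg_one,
    Real.rpow_neg (en_pos v).le, show (3 : ℝ) = (3 : ℕ) by norm_num, Real.rpow_natCast]
  rfl

theorem estE_vel0 (P a b : ℝ) (z v : R3) : 0 ≤ velI P a b (nz z) v :=
  indicator_nonneg (fun v _ => mul_nonneg (Real.rpow_nonneg (en_pos v).le _)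
    (Real.rpow_nonneg (pp_pos z v).le _)) v

theorem estE_vel_meas (P a b : ℝ) : Measurable fun q : R3 × R3 => velI P a b (nz q.1) q.2 := by
  have h := (measurable_velI P a b).comp
    ((measurable_nz.comp measurable_fst).prodMk measurable_snd : Measurable fun q : R3 × R3 => _)
  simpa only [Function.comp_def] using h

/-- the remainder on the phase space -/
theorem estE_rem (M : ℝ) (hM : 0 ≤ M) : ∃ K : ℝ, 0 ≤ K ∧ ∀ P, 3 ≤ P → ∀ e : R3, ‖e‖ = 1 →
    ∀ (α : ℝ) (k : ℕ), 4 ≤ k → ∀ σ : ℝ, Real.log P ^ 2 ≤ P ^ (3 / 100 : ℝ) →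
    3 / 100 + 51 / 50 + α * (k - 7 / 2) ≤ σ * 4 →
    ∃ U, 0 ≤ U ∧ U ≤ K * (P ^ σ) ^ 4 ∧ Bd (fun q : R3 × R3 =>
      (256 * M * estE_c e (P ^ (-α)) (P ^ (-(51 / 50 : ℝ))) k q.1) *
        velI P (-3) (-1) (nz q.1) q.2) U := by
  obtain ⟨C, hC, h⟩ := vel_log2
  refine ⟨C * (256 * M * (2 * Real.pi * 2)), by positivity, fun P hP e he α k hk σ hN hσ => ?_⟩
  have hP0 : 0 < P := by linarith
  refine ⟨_, ?_, ?_, Bd.prod_vel ((estE_c_meas _ _ _ _).const_mul _) measurable_nz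
    (fun z => mul_nonneg (by positivity) (estE_c_nonneg _ _ _ _ z))
    ((ae_qq_pos he).mono fun z hz => norm_nz hz.1)
    ((estE_cone he (by positivity) (by positivity) hk).const_mul (by positivity)) (by positivity)
    (h P hP)⟩
  · positivity
  · have h1 : P ^ (3 / 100 : ℝ) * ((P ^ (-(51 / 50 : ℝ)))⁻¹ * (P ^ (-α)) ^ (7 / 2 - k : ℝ)) ≤
        (P ^ σ) ^ 4 := by
      rw [← Real.rpow_neg hP0.le, ← Real.rpow_mul hP0.le, ← Real.rpow_add hP0, ← Real.rpow_add hP0,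
        ← Real.rpow_natCast, ← Real.rpow_mul hP0.le]
      refine Real.rpow_le_rpow_of_exponent_le (by linarith) ?_
      push_cast
      linarith
    calc _ = C * (256 * M * (2 * Real.pi * 2)) * (Real.log P ^ 2 *
          ((P ^ (-(51 / 50 : ℝ)))⁻¹ * (P ^ (-α)) ^ (7 / 2 - k : ℝ))) := by ring
      _ ≤ _ := mul_le_mul_of_nonneg_left
          ((mul_le_mul_of_nonneg_right hN (by positivity)).trans h1) (by positivity)

/-- the cap -/
def estE_cap (M P r₂ : ℝ) (e : R3) (q : R3 × R3) : ℝ :=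
  (RD P r₂ e).indicator (fun z => 17 * M * √(qq e z) / ‖z‖ ^ 2) q.1 *
    {v : R3 | ang (relVel v) (nz q.1) ≤ 16 * qq e q.1}.indicator
      (velI P 0 (-(1 / 2)) (nz q.1)) q.2

theorem estE_cap_meas (M P r₂ : ℝ) (e : R3) : Measurable (estE_cap M P r₂ e) := by
  have mqq := measurable_qq e
  have h2 := (estE_vel_meas P 0 (-(1 / 2))).indicator
    (measurableSet_le measurable_pp ((mqq.comp measurable_fst).const_mul 16))
  have h3 : Measurable ((RD P r₂ e).indicator fun z => 17 * M * √(qq e z) / ‖z‖ ^ 2) :=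
    Measurable.indicator (by fun_prop) (measurableSet_RD P r₂ e)
  have h4 := (h3.comp measurable_fst).mul h2
  convert h4 using 1
  funext q
  simp only [estE_cap, Pi.mul_apply, indicator_apply, mem_ofPred_eq, Function.comp, pp]

theorem estE_cap_bd (M : ℝ) (hM : 0 ≤ M) : ∃ C P₀ : ℝ, 0 ≤ C ∧ ∀ P, P₀ ≤ P → ∀ r₂ : ℝ,
    r₂ ≤ 1 / 4 → ∀ (δ : ℝ) (e W : R3), Geo P δ e W →
    Bd (estE_cap M P r₂ e) (C * P ^ (99 / 100 : ℝ)) := by
  obtain ⟨C, hC, h⟩ := vel_cap
  obtain ⟨C', P₁, hC', h'⟩ := cone_RD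
  obtain ⟨P₂, h₂⟩ := log_pow_le 1 (ε := 1 / 100) (by norm_num)
  refine ⟨68 * M * C * C', max (max P₁ P₂) 1, by positivity, fun P hP r₂ hr δ e W G => ?_⟩
  have hP1 : 1 ≤ P := (le_max_right _ _).trans hP
  have hP0 : 0 < P := by linarith
  have hN := (h₂ P ((le_max_right _ _).trans ((le_max_left _ _).trans hP))).2
  rw [Real.rpow_one] at hN
  have hb := (h' P ((le_max_left _ _).trans ((le_max_left _ _).trans hP)) r₂ hr δ e W G).const_mul
    (c := 68 * M * C * P ^ 3) (by positivity)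
  refine Bd.of_inner (estE_cap_meas M P r₂ e).aemeasurable ?_
    (hb.mono (Eventually.of_forall fun _ => le_rfl) ?_)
  · filter_upwards [ae_qq_pos G.e1] with z ⟨hz, hq⟩
    by_cases hD : z ∈ RD P r₂ e
    · simp only [estE_cap, indicator_of_mem hD]
      refine ((h P hP1 (nz z) (norm_nz hz) (16 * qq e z) (by positivity)).const_mul
        (by positivity)).mono (Eventually.of_forall fun _ => le_rfl) ?_
      have hw : 0 ≤ qq W z := ang_nonneg G.W1.le (norm_nz_le z)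
      rw [Real.sqrt_mul (by norm_num), show (16 : ℝ) = 4 ^ 2 by norm_num,
        Real.sqrt_sq (by norm_num)]
      calc _ = 68 * M * C * P ^ 3 * (√(qq e z) * √(qq e z) / ‖z‖ ^ 2) := by ring
        _ ≤ _ := by
          rw [Real.mul_self_sqrt hq.le]
          gcongr
          linarith
    · simp [estE_cap, indicator_of_notMem hD, Bd]
  · have h1 : P ^ 3 * (P ^ (-(101 / 50 : ℝ)) * P ^ (1 / 100 : ℝ)) = P ^ (99 / 100 : ℝ) := by
      rw [← Real.rpow_natCast, ← Real.rpow_add hP0, ← Real.rpow_add hP0]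
      norm_num
    calc _ = 68 * M * C * C' * (P ^ 3 * (P ^ (-(101 / 50 : ℝ)) * Real.log P)) := by ring
      _ ≤ _ := by rw [← h1]; gcongr

theorem estE_cap_le {M P r₂ F : ℝ} {e z v : R3} (hz : z ≠ 0) (hq : 0 < qq e z)
    (hD : z ∈ RD P r₂ e) (h : pp z v ≤ 16 * qq e z) (hv : en v ≤ P) (F0 : 0 ≤ F) (FM : F ≤ M) :
    F * kE e z v ≤ estE_cap M P r₂ e (z, v) := by
  have hp := pp_pos z v
  have hr : 0 < ‖z‖ := norm_pos_iff.2 hz
  have s1 := Real.sqrt_pos.2 hp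
  have s2 := Real.sqrt_pos.2 hq
  have e2 := Real.mul_self_sqrt hq.le
  have e1 : velI P 0 (-(1 / 2)) (nz z) v = (√(pp z v))⁻¹ := by
    rw [velI, indicator_of_mem (show v ∈ {v : R3 | en v ≤ P} from hv), Real.rpow_zero, one_mul,
      Real.sqrt_eq_rpow, ← Real.rpow_neg hp.le]
    rfl
  simp only [estE_cap, indicator_of_mem hD]
  rw [indicator_of_mem (by exact h), e1]
  calc _ ≤ M * (17 * (√(qq e z) * √(qq e z)) / (‖z‖ ^ 2 * √(pp z v) * √(qq e z))) := by
        rw [e2, kE]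
        have : 0 ≤ M := F0.trans FM
        gcongr
        linarith
    _ = _ := by field_simp

/-- geometry of the band -/
theorem estE_geo {P r₂ δ : ℝ} {e W z : R3} (hP1 : 1 ≤ P) (hr₂ : r₂ ≤ 1 / 4)
    (hg : Geo P δ e W) (hδ : 64 * δ ^ 2 ≤ P ^ (-(11 / 10 : ℝ))) (hI : z ∈ RI P r₂ e) :
    z ≠ 0 ∧ 0 < qq e z ∧ ‖z‖⁻¹ ≤ 2 * (qq W z / lam e z) ∧
      (P ^ (-(7 / 10 : ℝ)) ≤ ‖z‖ → P ^ (-(7 / 5 : ℝ)) ≤ lam e z) := by
  have hP0 : 0 < P := by linarith
  have hz0 := RI_ne_zero hP0 hI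
  have hr : 0 < ‖z‖ := norm_pos_iff.2 hz0
  have hs : 0 < √‖z‖ := Real.sqrt_pos.2 hr
  have hq := RI_qq hP0 hI
  have hq0 : 0 < qq e z := lt_of_lt_of_le (by positivity) hq
  have hs1 : √‖z‖ ≤ 1 := Real.sqrt_le_one.2 (by linarith [hI.2])
  have hq1 : 64 * δ ^ 2 ≤ qq e z := by
    refine hδ.trans (le_trans ?_ hq)
    rw [le_div_iff₀ hs]
    calc _ ≤ P ^ (-(11 / 10 : ℝ)) * 1 := by gcongr
      _ ≤ _ := by
        rw [mul_one]
        exact Real.rpow_le_rpow_of_exponent_le hP1 (by norm_num)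
  refine ⟨hz0, hq0, ?_, fun h7 => ?_⟩
  · have := (hg.qq_cmp hz0 hq1).1
    rw [lam_eq e hz0, mul_div_assoc', le_div_iff₀ (by positivity), ← mul_assoc,
      inv_mul_cancel₀ hr.ne']
    linarith
  · have h3 : P ^ (-(7 / 20 : ℝ)) ≤ √‖z‖ := by
      refine Real.le_sqrt_of_sq_le (le_trans (le_of_eq ?_) h7)
      rw [← Real.rpow_natCast, ← Real.rpow_mul hP0.le]
      norm_num
    rw [lam_eq e hz0]
    calc _ ≤ P ^ (-(51 / 50 : ℝ)) * P ^ (-(7 / 20 : ℝ)) := by
          rw [← Real.rpow_add hP0]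
          exact Real.rpow_le_rpow_of_exponent_le hP1 (by norm_num)
      _ ≤ P ^ (-(51 / 50 : ℝ)) * √‖z‖ := by gcongr
      _ = ‖z‖ * (P ^ (-(51 / 50 : ℝ)) / √‖z‖) := by
          rw [mul_div_assoc', mul_comm ‖z‖, mul_div_assoc, Real.div_sqrt]
      _ ≤ _ := by gcongr

theorem est_kE_band : Est (fun P r₂ _ e _ _ _ z v =>
      (RI P r₂ e ∩ RD P r₂ e).indicator (fun z => kE e z v) z)
    (fun P _ y _ y₂ => Real.log P * (P * √y) + P ^ (99 / 100 : ℝ) + P ^ (7 / 10 : ℝ) * √y₂) := by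
  intro M 𝓔 T r₂ hM h𝓔 hT hr₂ hr₂'
  obtain ⟨C₂, P₂, hC₂, h₂⟩ := est_kE_crit M 𝓔 T r₂ hM h𝓔 hT hr₂ hr₂'
  obtain ⟨C₁, P₁, hC₁, h₁⟩ := estE_cap_bd M hM
  obtain ⟨K, hK, hrem⟩ := estE_rem M hM
  obtain ⟨P₃, h₃⟩ := exists_delta_small
  obtain ⟨P₄, h₄⟩ := log_pow_le 2 (ε := 3 / 100) (by norm_num)
  refine ⟨4 * C₂ + C₁ + (1 + √𝓔) * √(√𝓔 * √K), max (max (max P₁ P₂) (max P₃ P₄)) 3, by positivity,
    fun P hP τ t δ e W F Ez Bz s y y₁ y₂ H => ?_⟩
  simp only [max_le_iff] at hP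
  obtain ⟨⟨⟨p1, p2⟩, p3, p4⟩, hP3⟩ := hP
  have hP1 : 1 ≤ P := by linarith
  have hP0 : 0 < P := by linarith
  obtain ⟨hN1, hN⟩ := h₄ P p4
  rw [Real.rpow_two] at hN
  have hδ := h₃ P p3 δ e W H.geo
  obtain ⟨U₆, u6, u6', b6⟩ := hrem P hP3 e H.geo.e1 (7 / 10) 6 (by norm_num) (7 / 10) hN
    (by norm_num)
  obtain ⟨U₈, u8, u8', b8⟩ := hrem P hP3 e H.geo.e1 (9 / 20) 8 (by norm_num) (99 / 100) hN
    (by norm_num)
  have men := measurable_en
  have mgg := measurable_gg e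
  have mqq := measurable_qq W
  have mlam := measurable_lam e
  have mF := H.mF
  have m2 : Measurable fun q : R3 × R3 => F q * (en q.2 * pp q.1 q.2) :=
    mF.mul ((men.comp measurable_snd).mul measurable_pp)
  have m1 : Measurable fun q : R3 × R3 =>
      (RE (P ^ (-(7 / 5 : ℝ))) (P ^ (-(9 / 20 : ℝ))) e).indicator
        (fun z => F q * (qq W z / lam e z * (en q.2 * gg e q.2))) q.1 := by
    have h : Measurable ((Prod.fst ⁻¹' RE (P ^ (-(7 / 5 : ℝ))) (P ^ (-(9 / 20 : ℝ))) e).indicator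
        fun q : R3 × R3 => F q * (qq W q.1 / lam e q.1 * (en q.2 * gg e q.2))) :=
      Measurable.indicator (by fun_prop) ((measurableSet_RE _ _ e).preimage measurable_fst)
    exact h
  have mu : ∀ (a : ℝ) (k : ℕ), Measurable fun q : R3 × R3 =>
      (256 * M * estE_c e a (P ^ (-(51 / 50 : ℝ))) k q.1) * velI P (-3) (-1) (nz q.1) q.2 :=
    fun a k => (((estE_c_meas e a _ k).comp measurable_fst).const_mul _).mul (estE_vel_meas _ _ _)
  have c6 := H.cp.cs b6 m2.aemeasurable (mu _ _).aemeasurable h𝓔 u6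
    (Eventually.of_forall fun _ => le_rfl)
  have c8 := H.cp.cs b8 m2.aemeasurable (mu _ _).aemeasurable h𝓔 u8
    (Eventually.of_forall fun _ => le_rfl)
  have n6 := m2.sqrt.mul (mu (P ^ (-(7 / 10 : ℝ))) 6).sqrt
  have n8 := m2.sqrt.mul (mu (P ^ (-(9 / 20 : ℝ))) 8).sqrt
  have g3 := H.hy₂.cs c6 m1.aemeasurable n6.aemeasurable H.y20 (by positivity)
    (Eventually.of_forall fun _ => le_rfl)
  have g4 := H.cp.cs c8 m2.aemeasurable n8.aemeasurable h𝓔 (by positivity)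
    (Eventually.of_forall fun _ => le_rfl)
  have g2 := (h₂ P p2 τ t δ e W F Ez Bz s y y₁ y₂ H).const_mul (c := 4) (by norm_num)
  have g1 := h₁ P p1 r₂ hr₂' δ e W H.geo
  have tot := g3.add (g4.add (g1.add g2 (estE_cap_meas M P r₂ e).aemeasurable (by positivity)
    (by positivity)) (m2.sqrt.mul n8.sqrt).aemeasurable (by positivity) (by positivity))
    (m1.sqrt.mul n6.sqrt).aemeasurable (by positivity) (by positivity)
  refine tot.mono (Eventually.of_forall fun ⟨z, v⟩ => ?_) ?_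
  · have F0 := H.F0 (z, v)
    have FM := H.FM (z, v)
    have a1 : 0 ≤ estE_cap M P r₂ e (z, v) :=
      mul_nonneg (indicator_nonneg (fun _ _ => by positivity) _)
        (indicator_nonneg (fun v _ => estE_vel0 _ _ _ _ v) _)
    have a2 : 0 ≤ (RI P r₂ e ∩ RD P r₂ e ∩ {z | ‖z‖ ≤ P ^ (-(7 / 10 : ℝ))}).indicator
        (fun z => √(gg e v) / (‖z‖ ^ 2 * √(qq e z))) z :=
      indicator_nonneg (fun _ _ => by positivity) _
    dsimp only
    by_cases hS : z ∈ RI P r₂ e ∩ RD P r₂ e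
    swap
    · rw [indicator_of_notMem hS, mul_zero]
      positivity
    by_cases hv : en v ≤ P
    swap
    · rw [show F (z, v) * (RI P r₂ e ∩ RD P r₂ e).indicator (fun z => kE e z v) z = 0 by
        rw [H.FP (z, v) (not_le.1 hv), zero_mul]]
      positivity
    rw [indicator_of_mem hS]
    obtain ⟨hz, hq, hw, hl⟩ := estE_geo hP1 hr₂' H.geo hδ hS.1
    have hr : 0 < ‖z‖ := norm_pos_iff.2 hz
    have hp := pp_pos z v
    have hQ := en_pos v
    rcases le_total (pp z v) (16 * qq e z) with hc | hc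
    · refine (estE_cap_le hz hq hS.2 hc hv F0 FM).trans ?_
      refine le_add_of_nonneg_of_le (by positivity) (le_add_of_nonneg_of_le (by positivity)
        (le_add_of_le_of_nonneg le_rfl (by positivity)))
    have hγ := pp_le_gg H.geo.e1 hz hc
    have h4 := estE_kE_pow hz hq hc F0 FM
    rcases le_total ‖z‖ (P ^ (-(7 / 10 : ℝ))) with h7 | h7
    · refine le_add_of_nonneg_of_le (by positivity) (le_add_of_nonneg_of_le (by positivity)
        (le_add_of_nonneg_of_le a1 ?_))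
      rw [indicator_of_mem (by exact ⟨hS, h7⟩)]
      have h5 : √(pp z v) ≤ 2 * √(gg e v) := by
        rw [Real.sqrt_le_left (by positivity), mul_pow, Real.sq_sqrt (by linarith)]
        linarith
      calc _ ≤ F (z, v) * (2 * √(pp z v) / (‖z‖ ^ 2 * √(qq e z))) :=
            mul_le_mul_of_nonneg_left (estE_kE_le hz hq hc) F0
        _ ≤ F (z, v) * (2 * (2 * √(gg e v)) / (‖z‖ ^ 2 * √(qq e z))) := by gcongr
        _ = _ := by ring
    rcases le_total ‖z‖ (P ^ (-(9 / 20 : ℝ))) with h9 | h9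
    · refine le_add_of_le_of_nonneg ?_ (by positivity)
      rw [indicator_of_mem (by exact ⟨hl h7, h9⟩), estE_vel hv, estE_c,
        if_pos ⟨h7, RI_qq hP0 hS.1⟩]
      have h5 : F (z, v) * (‖z‖⁻¹ / 2 * (en v * (pp z v / 2))) ≤
          F (z, v) * (qq W z / lam e z * (en v * gg e v)) := by
        have : ‖z‖⁻¹ / 2 ≤ qq W z / lam e z := by linarith
        have h6 : 0 ≤ qq W z / lam e z := le_trans (by positivity) this
        gcongr
        linarith
      refine estE_pow4 (le_trans (by positivity) h5) (by positivity) (by positivity) (h4.trans ?_)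
      refine le_trans (le_of_eq ?_) (mul_le_mul_of_nonneg_right (mul_le_mul_of_nonneg_right
        (pow_le_pow_left₀ (by positivity) h5 2) (by positivity)) (by positivity))
      field_simp
      ring
    · refine le_add_of_nonneg_of_le (by positivity) (le_add_of_le_of_nonneg ?_ (by positivity))
      rw [estE_vel hv, estE_c, if_pos ⟨h9, RI_qq hP0 hS.1⟩]
      refine estE_pow4 (by positivity) (by positivity) (by positivity) (h4.trans ?_)
      calc _ ≤ 256 * (F (z, v) ^ 3 * M) * (pp z v ^ 2 / (‖z‖ ^ 8 * qq e z ^ 2)) := by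
            gcongr
            norm_num
        _ = _ := by field_simp
  · have r6 := mul_le_mul_of_nonneg_left (estE_root (b := 𝓔) hK (by positivity) u6')
      (Real.sqrt_nonneg y₂)
    have r8 := mul_le_mul_of_nonneg_left (estE_root (b := 𝓔) hK (by positivity) u8')
      (Real.sqrt_nonneg 𝓔)
    have t1 : 0 ≤ Real.log P * (P * √y) := by positivity
    have t2 : 0 ≤ P ^ (99 / 100 : ℝ) := by positivity
    have t3 : 0 ≤ P ^ (7 / 10 : ℝ) * √y₂ := by positivity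
    have k0 : 0 ≤ √(√𝓔 * √K) := Real.sqrt_nonneg _
    have k1 : 0 ≤ √𝓔 * √(√𝓔 * √K) := by positivity
    dsimp only
    nlinarith [mul_nonneg hC₁ t1, mul_nonneg hC₁ t3, mul_nonneg hC₂ t2, mul_nonneg hC₂ t3,
      mul_nonneg k0 t1, mul_nonneg k0 t2, mul_nonneg k1 t1, mul_nonneg k1 t3]

end Crest.Agent.R106
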