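import Crest.Agent.R106.Vel
import Crest.Agent.R106.Geom
import Crest.Agent.R106.Stress

/-!
# Row 106: the critical exit cost
-/

set_option autoImplicit false
set_option linter.unusedVariables false
set_option linter.unusedSectionVars false

open MeasureTheory Metric Set Filter Topology
open scoped ContDiff ENNReal RealInnerProductSpace
open Crest.AnalysisR.VecCalc3 Crest.AnalysisR.PDE.RVM

noncomputable section

namespace Crest.Agent.R106

/-- the angular-radial integral: two logarithms -/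
theorem estE0_cone {P : ℝ} (hP : 1 ≤ Real.log P) (hP0 : 0 < P) {e : R3} (he : ‖e‖ = 1) :
    Bd (fun z : R3 => {x : ℝ × ℝ | x.1 ∈ Icc (P ^ (-(51 / 25 : ℝ)) / 4) 1 ∧
        x.2 ∈ Icc (P ^ (-(51 / 50 : ℝ)) / √x.1) (P ^ (-(101 / 100 : ℝ)) / √x.1)}.indicator
        (fun x => (x.1 ^ 3)⁻¹ * x.2⁻¹) (‖z‖, qq e z))
      (2 * Real.pi * (Real.log P * (5 * Real.log P))) := by
  have hP1 : 1 ≤ P := by
    by_contra h
    have := Real.log_nonpos hP0.le (not_le.1 h).le
    linarith
  set r₀ : ℝ := P ^ (-(51 / 25 : ℝ)) / 4 with hr₀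
  have hr0 : 0 < r₀ := by positivity
  have hr1 : r₀ ≤ 1 := by
    have := Real.rpow_le_one_of_one_le_of_nonpos hP1 (show -(51 / 25 : ℝ) ≤ 0 by norm_num)
    rw [hr₀]
    linarith
  have ha : 0 < P ^ (-(51 / 50 : ℝ)) := by positivity
  have hab : P ^ (-(51 / 50 : ℝ)) ≤ P ^ (-(101 / 100 : ℝ)) :=
    Real.rpow_le_rpow_of_exponent_le hP1 (by norm_num)
  refine Bd.cone he (G := fun r => (Icc r₀ 1).indicator (fun r => (r ^ 3)⁻¹ * Real.log P) r)
    (Measurable.indicator (by fun_prop) ?_) (fun r hr => ?_) ?_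
  · exact (measurableSet_Icc.preimage measurable_fst).inter
      ((measurableSet_le (by fun_prop) measurable_snd).inter
        (measurableSet_le measurable_snd (by fun_prop)))
  · by_cases h : r ∈ Icc r₀ 1
    · have hs : 0 < √r := Real.sqrt_pos.2 hr
      have h3 : 0 ≤ (r ^ 3)⁻¹ := by positivity
      calc _ ≤ ∫⁻ q, (Icc (P ^ (-(51 / 50 : ℝ)) / √r) (P ^ (-(101 / 100 : ℝ)) / √r)).indicator
              (fun q => ENNReal.ofReal (r ^ 3)⁻¹ * ENNReal.ofReal q⁻¹) q := by
            refine (setLIntegral_le_lintegral _ _).trans (lintegral_mono fun q => ?_)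
            by_cases hq : q ∈ Icc (P ^ (-(51 / 50 : ℝ)) / √r) (P ^ (-(101 / 100 : ℝ)) / √r)
            · rw [indicator_of_mem hq, indicator_of_mem (by exact ⟨h, hq⟩),
                ENNReal.ofReal_mul h3]
            · rw [indicator_of_notMem hq, indicator_of_notMem (fun h' => hq h'.2)]
              simp
        _ ≤ ENNReal.ofReal (r ^ 3)⁻¹ * ENNReal.ofReal (Real.log P) := by
            rw [lintegral_indicator measurableSet_Icc,
              lintegral_const_mul' _ _ ENNReal.ofReal_ne_top]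
            refine mul_le_mul_right ((lint_inv (by positivity) (by gcongr)).trans
              (ENNReal.ofReal_le_ofReal ?_)) _
            rw [div_div_div_cancel_right₀ hs.ne', ← Real.rpow_sub hP0, Real.log_rpow hP0]
            linarith
        _ = _ := by rw [indicator_of_mem h, ENNReal.ofReal_mul h3]
    · have : ∀ q : ℝ, (r, q) ∉ {x : ℝ × ℝ | x.1 ∈ Icc r₀ 1 ∧
          x.2 ∈ Icc (P ^ (-(51 / 50 : ℝ)) / √x.1) (P ^ (-(101 / 100 : ℝ)) / √x.1)} :=
        fun q h' => h h'.1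
      simp only [indicator_of_notMem (this _)]
      simp
  · calc _ ≤ ∫⁻ r, (Icc r₀ 1).indicator
            (fun r => ENNReal.ofReal (Real.log P) * ENNReal.ofReal r⁻¹) r := by
          refine (setLIntegral_le_lintegral _ _).trans (lintegral_mono fun r => ?_)
          by_cases h : r ∈ Icc r₀ 1
          · have hr : 0 < r := hr0.trans_le h.1
            rw [indicator_of_mem h, indicator_of_mem h, ← ENNReal.ofReal_mul (by linarith)]
            refine ENNReal.ofReal_le_ofReal (le_of_eq ?_)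
            field_simp
          · rw [indicator_of_notMem h, indicator_of_notMem h]
            simp
      _ ≤ _ := by
          rw [lintegral_indicator measurableSet_Icc, lintegral_const_mul' _ _ ENNReal.ofReal_ne_top,
            ENNReal.ofReal_mul (by linarith)]
          refine mul_le_mul_right ((lint_inv hr0 hr1).trans (ENNReal.ofReal_le_ofReal ?_)) _
          have h4 : Real.log 4 ≤ 2 := by
            have := Real.log_le_sub_one_of_pos (show (0 : ℝ) < 2 by norm_num)
            rw [show (4 : ℝ) = 2 ^ 2 by norm_num, Real.log_pow]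
            push_cast
            linarith
          rw [hr₀, one_div, Real.log_inv, Real.log_div (by positivity) (by norm_num),
            Real.log_rpow hP0]
          linarith

/-- geometry of the critical region -/
theorem estE0_geo {P r₂ τ δ : ℝ} {e W z : R3} (hP1 : 1 ≤ P) (h2 : 2 ≤ P ^ (1 / 100 : ℝ))
    (hg : Geo P δ e W) (hδ : 64 * δ ^ 2 ≤ P ^ (-(11 / 10 : ℝ))) (hτ : P ^ (-(1 / 100 : ℝ)) ≤ τ)
    (hz : z ∈ RI P r₂ e ∩ RD P r₂ e ∩ {z | ‖z‖ ≤ P ^ (-(7 / 10 : ℝ))}) :
    z ≠ 0 ∧ 0 < qq e z ∧ ‖z‖ ≤ 1 ∧ z ∈ RL P τ e ∧ ‖z‖⁻¹ ≤ 2 * (qq W z / lam e z) := by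
  obtain ⟨⟨hI, -⟩, h7⟩ := hz
  have h7 : ‖z‖ ≤ P ^ (-(7 / 10 : ℝ)) := h7
  have hP0 : 0 < P := by linarith
  have hz0 := RI_ne_zero hP0 hI
  have hr : 0 < ‖z‖ := norm_pos_iff.2 hz0
  have hs : 0 < √‖z‖ := Real.sqrt_pos.2 hr
  have hq := RI_qq hP0 hI
  have hq0 : 0 < qq e z := lt_of_lt_of_le (by positivity) hq
  have hr1 : ‖z‖ ≤ 1 := h7.trans (Real.rpow_le_one_of_one_le_of_nonpos hP1 (by norm_num))
  have hs1 : √‖z‖ ≤ 1 := Real.sqrt_le_one.2 hr1
  have hlam : P ^ (-(51 / 50 : ℝ)) * √‖z‖ ≤ lam e z := by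
    rw [lam_eq e hz0]
    calc _ = ‖z‖ * (P ^ (-(51 / 50 : ℝ)) / √‖z‖) := by
          rw [mul_div_assoc', mul_comm ‖z‖, mul_div_assoc, Real.div_sqrt]
      _ ≤ _ := by gcongr
  have hq1 : 64 * δ ^ 2 ≤ qq e z := by
    refine hδ.trans (le_trans ?_ hq)
    rw [le_div_iff₀ hs]
    calc _ ≤ P ^ (-(11 / 10 : ℝ)) * 1 := by gcongr
      _ ≤ _ := by
        rw [mul_one]
        exact Real.rpow_le_rpow_of_exponent_le hP1 (by norm_num)
  refine ⟨hz0, hq0, hr1, ⟨le_trans ?_ hlam, ?_⟩, ?_⟩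
  · have h3 : P ^ (-(51 / 50 : ℝ)) / 2 ≤ √‖z‖ := by
      refine Real.le_sqrt_of_sq_le (le_trans (le_of_eq ?_) (RI_norm hP0 hg.e1 hI))
      rw [div_pow, ← Real.rpow_natCast, ← Real.rpow_mul hP0.le]
      norm_num
    have h4 : P ^ (-(51 / 50 : ℝ)) * P ^ (-(51 / 50 : ℝ)) =
        P ^ (-(41 / 20 : ℝ)) * P ^ (1 / 100 : ℝ) := by
      rw [← Real.rpow_add hP0, ← Real.rpow_add hP0]
      norm_num
    have h5 : 0 < P ^ (-(41 / 20 : ℝ)) := by positivity
    have h6 : 0 < P ^ (-(51 / 50 : ℝ)) := by positivity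
    nlinarith
  · have h3 : √‖z‖ ≤ P ^ (-(7 / 20 : ℝ)) := by
      refine Real.sqrt_le_iff.2 ⟨by positivity, h7.trans (le_of_eq ?_)⟩
      rw [← Real.rpow_natCast, ← Real.rpow_mul hP0.le]
      norm_num
    have h4 : P ^ (-(7 / 10 : ℝ)) * P ^ (-(7 / 20 : ℝ)) ≤
        P ^ (-(1 / 100 : ℝ)) * P ^ (-(51 / 50 : ℝ)) := by
      rw [← Real.rpow_add hP0, ← Real.rpow_add hP0]
      exact Real.rpow_le_rpow_of_exponent_le hP1 (by norm_num)
    have hτ0 : 0 ≤ τ := le_trans (by positivity) hτ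
    calc ‖z‖ ^ 2 = ‖z‖ * √‖z‖ * √‖z‖ := by rw [mul_assoc, Real.mul_self_sqrt hr.le, sq]
      _ ≤ P ^ (-(7 / 10 : ℝ)) * P ^ (-(7 / 20 : ℝ)) * √‖z‖ := by gcongr
      _ ≤ τ * P ^ (-(51 / 50 : ℝ)) * √‖z‖ :=
          mul_le_mul_of_nonneg_right (h4.trans (by gcongr)) hs.le
      _ ≤ _ := by
          rw [mul_assoc]
          gcongr
  · have := (hg.qq_cmp hz0 hq1).1
    rw [lam_eq e hz0, mul_div_assoc', le_div_iff₀ (by positivity), ← mul_assoc,
      inv_mul_cancel₀ hr.ne']
    linarith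

/-- the critical estimate -/
theorem est_kE_crit : Est (fun P r₂ _ e _ _ _ z v =>
      (RI P r₂ e ∩ RD P r₂ e ∩ {z | ‖z‖ ≤ P ^ (-(7 / 10 : ℝ))}).indicator
        (fun z => √(gg e v) / (‖z‖ ^ 2 * √(qq e z))) z)
    (fun P _ y _ _ => Real.log P * (P * √y)) := by
  intro M 𝓔 T r₂ hM h𝓔 hT hr₂ hr₂'
  obtain ⟨C, hC, hcrit⟩ := vel_crit M
  obtain ⟨P₁, hP₁⟩ := exists_delta_small
  obtain ⟨P₂, hP₂⟩ := log_pow_le 1 one_pos
  refine ⟨C * (√2 * √(10 * Real.pi)), max (max P₁ P₂) (2 ^ 100), by positivity,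
    fun P hP τ t δ e W F Ez Bz s y y₁ y₂ H => ?_⟩
  have h100 : (2 : ℝ) ^ 100 ≤ P := (le_max_right _ _).trans hP
  have hP1 : 1 ≤ P := le_trans (by norm_num) h100
  have hP0 : 0 < P := by linarith
  have hN : 1 ≤ Real.log P := (hP₂ P ((le_max_right _ _).trans ((le_max_left _ _).trans hP))).1
  have hδ := hP₁ P ((le_max_left _ _).trans ((le_max_left _ _).trans hP)) δ e W H.geo
  have h2 : 2 ≤ P ^ (1 / 100 : ℝ) := by
    refine le_trans (le_of_eq ?_) (Real.rpow_le_rpow (by positivity) h100 (by norm_num))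
    rw [← Real.rpow_natCast, ← Real.rpow_mul (by norm_num)]
    norm_num
  set S := RI P r₂ e ∩ RD P r₂ e ∩ {z | ‖z‖ ≤ P ^ (-(7 / 10 : ℝ))} with hS
  have hgeo : ∀ z ∈ S, _ := fun z hz => estE0_geo hP1 h2 H.geo hδ H.τ0 hz
  have mS : MeasurableSet S := ((measurableSet_RI _ _ _).inter (measurableSet_RD _ _ _)).inter
    (measurableSet_le measurable_norm measurable_const)
  have men := measurable_en
  have mgg := measurable_gg e
  have mqq := measurable_qq e
  have mF := H.mF
  have h1 : Bd (fun q : R3 × R3 => (Prod.fst ⁻¹' S).indicator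
      (fun q => ‖q.1‖⁻¹ * (F q * (en q.2 * gg e q.2 ^ 2))) q) (2 * y) := by
    refine (H.hy.const_mul zero_le_two).mono (Eventually.of_forall fun q => ?_) le_rfl
    have hw : 0 ≤ F q * (en q.2 * gg e q.2 ^ 2) :=
      mul_nonneg (H.F0 q) (mul_nonneg (en_pos _).le (sq_nonneg _))
    by_cases hq : q.1 ∈ S
    · obtain ⟨-, -, -, h4, h5⟩ := hgeo _ hq
      rw [indicator_of_mem (show q ∈ Prod.fst ⁻¹' S from hq), indicator_of_mem h4]
      nlinarith [mul_le_mul_of_nonneg_right h5 hw]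
    · rw [indicator_of_notMem (show q ∉ Prod.fst ⁻¹' S from hq)]
      refine mul_nonneg zero_le_two (indicator_nonneg (fun z hz => ?_) _)
      have h6 : 0 < lam e z := lt_of_lt_of_le (by positivity) hz.1
      have h7 : 0 ≤ qq W z := by
        have h8 : ‖nz z‖ ≤ 1 := by
          rw [nz, norm_smul, norm_inv, norm_norm]
          exact inv_mul_le_one_of_le₀ le_rfl (norm_nonneg _)
        have h9 := real_inner_le_norm W (nz z)
        have := H.geo.W1
        unfold qq ang
        nlinarith [norm_nonneg W, norm_nonneg (nz z)]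
      exact mul_nonneg (H.F0 q) (mul_nonneg (div_nonneg h7 h6.le)
        (mul_nonneg (en_pos _).le (sq_nonneg _)))
  obtain ⟨G, mG, G0, hG, hG'⟩ := Bd.exists_inner
    (Measurable.indicator (by fun_prop) (mS.preimage measurable_fst)) h1
  have hu := estE0_cone hN hP0 H.geo.e1
  have hcs := (hG'.cs hu mG.aemeasurable ?_ (by have := H.y0; positivity) (by positivity)
    (Eventually.of_forall fun _ => le_rfl)).const_mul (c := C * P) (by positivity)
  swap
  · refine (Measurable.indicator (by fun_prop) ?_ |>.comp (measurable_norm.prodMk mqq)).aemeasurable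
    exact (measurableSet_Icc.preimage measurable_fst).inter
      ((measurableSet_le (by fun_prop) measurable_snd).inter
        (measurableSet_le measurable_snd (by fun_prop)))
  refine Bd.of_inner ?_ ?_ (hcs.mono (Eventually.of_forall fun _ => le_rfl) (le_of_eq ?_))
  · have : Measurable fun q : R3 × R3 => F q * (Prod.fst ⁻¹' S).indicator
        (fun q => √(gg e q.2) / (‖q.1‖ ^ 2 * √(qq e q.1))) q :=
      mF.mul (Measurable.indicator (by fun_prop) (mS.preimage measurable_fst))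
    exact this.aemeasurable
  · filter_upwards [hG] with z hz
    by_cases hzS : z ∈ S
    · obtain ⟨h0, hq0, hr1, -, -⟩ := hgeo _ hzS
      have hr : 0 < ‖z‖ := norm_pos_iff.2 h0
      have hb := hcrit P hP1 e H.geo.e1 (fun v => F (z, v)) (by fun_prop)
        (fun v => ⟨H.F0 _, H.FM _⟩) (fun v hv => H.FP _ hv) (‖z‖ * G z)
        (mul_nonneg hr.le (G0 z)) ((hz.const_mul hr.le).mono (Eventually.of_forall fun v => by
          rw [indicator_of_mem (show (z, v) ∈ Prod.fst ⁻¹' S from hzS),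
            mul_inv_cancel_left₀ hr.ne']) le_rfl)
      refine (hb.const_mul (c := (‖z‖ ^ 2 * √(qq e z))⁻¹) (by positivity)).mono
        (Eventually.of_forall fun v => le_of_eq ?_) (le_of_eq ?_)
      · rw [← hS, indicator_of_mem hzS]
        ring
      · rw [indicator_of_mem (by exact ⟨⟨RI_norm hP0 H.geo.e1 hzS.1.1, hr1⟩,
          RI_qq hP0 hzS.1.1, RD_qq hP0 h0 hzS.1.2⟩)]
        have hs : 0 < √‖z‖ := Real.sqrt_pos.2 hr
        have hsq : 0 < √(qq e z) := Real.sqrt_pos.2 hq0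
        have e1 : √((‖z‖ ^ 3)⁻¹ * (qq e z)⁻¹) = √‖z‖ * (‖z‖ ^ 2 * √(qq e z))⁻¹ := by
          refine Real.sqrt_eq_iff_mul_self_eq_of_pos (by positivity) |>.2 ?_
          have a1 := Real.mul_self_sqrt hr.le
          have a2 := Real.mul_self_sqrt hq0.le
          calc _ = (√‖z‖ * √‖z‖) * ((‖z‖ ^ 2)⁻¹ * (‖z‖ ^ 2)⁻¹) * (√(qq e z) * √(qq e z))⁻¹ := by
                ring
            _ = _ := by
                rw [a1, a2]
                field_simp
        dsimp only
        rw [e1, Real.sqrt_mul hr.le]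
        ring
    · simp only [← hS, indicator_of_notMem hzS, mul_zero, Bd]
      simp
  · have e1 : √(2 * Real.pi * (Real.log P * (5 * Real.log P))) = √(10 * Real.pi) * Real.log P := by
      rw [show 2 * Real.pi * (Real.log P * (5 * Real.log P)) = 10 * Real.pi * Real.log P ^ 2 by ring,
        Real.sqrt_mul (by positivity), Real.sqrt_sq (by linarith)]
    rw [e1, Real.sqrt_mul zero_le_two]
    ring

end Crest.Agent.R106
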