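import Crest.Agent.R106.Vel
import Crest.Agent.R106.Geom
import Crest.Agent.R106.Stress

/-!
# Row 106: the entry cost
-/

set_option autoImplicit false
set_option linter.unusedVariables false
set_option linter.unusedSectionVars false

open MeasureTheory Metric Set Filter Topology
open scoped ContDiff ENNReal RealInnerProductSpace
open Crest.AnalysisR.VecCalc3 Crest.AnalysisR.PDE.RVM

noncomputable section

namespace Crest.Agent.R106

theorem EstE2_meas (a : ℝ) :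
    Measurable ({x : ℝ × ℝ | x.1 ≤ 1 ∧ a ≤ x.2}.indicator fun x => x.2 ^ (-2 : ℝ)) :=
  Measurable.indicator (by fun_prop) ((measurableSet_le measurable_fst measurable_const).inter
    (measurableSet_le measurable_const measurable_snd))

theorem EstE2_cone {e : R3} (he : ‖e‖ = 1) {a : ℝ} (ha : 0 < a) :
    Bd (fun z : R3 => {x : ℝ × ℝ | x.1 ≤ 1 ∧ a ≤ x.2}.indicator (fun x => x.2 ^ (-2 : ℝ))
      (‖z‖, qq e z)) (2 * Real.pi * a⁻¹) := by
  refine Bd.cone he (G := (Iic 1).indicator fun _ => a⁻¹) (EstE2_meas a) (fun r hr => ?_) ?_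
  · by_cases h : r ≤ 1
    · calc _ ≤ ∫⁻ q, (Ici a).indicator (fun q => ENNReal.ofReal (q ^ (-2 : ℝ))) q := by
            refine (setLIntegral_le_lintegral _ _).trans (lintegral_mono fun q => ?_)
            by_cases hq : a ≤ q <;> simp [h, hq]
        _ ≤ _ := by
            rw [lintegral_indicator measurableSet_Ici, indicator_of_mem (by exact h)]
            refine (lint_rpow_lt (by norm_num) ha).trans_eq ?_
            norm_num [Real.rpow_neg_one]
    · simp [h]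
  · calc _ ≤ ∫⁻ r in Ioi (0 : ℝ), (Iic 1).indicator (fun _ => ENNReal.ofReal a⁻¹) r := by
          refine setLIntegral_mono' measurableSet_Ioi fun r hr => ?_
          by_cases h : r ≤ 1
          · rw [indicator_of_mem (by exact h), indicator_of_mem (by exact h)]
            exact ENNReal.ofReal_le_ofReal (mul_le_of_le_one_left (by positivity)
              (pow_le_one₀ (le_of_lt hr) h))
          · simp [h]
      _ = _ := by
          rw [lintegral_indicator_const measurableSet_Iic, Measure.restrict_apply measurableSet_Iic,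
            Iic_inter_Ioi]
          simp

theorem EstE2_vel (P a b : ℝ) (z v : R3) : 0 ≤ velI P a b (nz z) v :=
  indicator_nonneg (fun v _ => mul_nonneg (Real.rpow_nonneg (en_pos v).le _)
    (Real.rpow_nonneg (pp_pos z v).le _)) _

theorem EstE2_pt {F M Q p q w r r₂ l : ℝ} (hF : 0 ≤ F) (hM : F ≤ M) (hQ : 0 < Q) (hp : 0 < p)
    (hq : 0 < q) (hw : q / 2 ≤ w) (h2 : 0 < r₂) (hr : r₂ ≤ r) (hl : 0 < l) :
    F * ((p + q) / (r ^ 2 * √p * √q)) ≤ l * (F * (Q * p)) +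
      (l⁻¹ ^ 3 * (M / r₂ ^ 8 * q ^ (-2 : ℝ) * (Q ^ (-3 : ℝ) * p ^ (-1 : ℝ))) +
        √(F * (w * Q)) * √(2 * M / r₂ ^ 4 * 1 * (Q ^ (-1 : ℝ) * p ^ (-1 : ℝ)))) := by
  obtain ⟨p, hp', rfl⟩ : ∃ x, 0 < x ∧ p = x ^ 2 := ⟨_, Real.sqrt_pos.2 hp, (Real.sq_sqrt hp.le).symm⟩
  obtain ⟨q, hq', rfl⟩ : ∃ x, 0 < x ∧ q = x ^ 2 := ⟨_, Real.sqrt_pos.2 hq, (Real.sq_sqrt hq.le).symm⟩
  have hw0 : 0 ≤ w := le_trans (by positivity) hw
  rw [Real.sqrt_sq hp'.le, Real.sqrt_sq hq'.le, Real.rpow_neg_one, Real.rpow_neg_one,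
    Real.rpow_neg (by positivity), Real.rpow_neg hQ.le, Real.rpow_two, Real.rpow_ofNat,
    ← Real.sqrt_mul (by positivity)]
  have h3 : p / (r₂ ^ 2 * q) ≤ l * (Q * p ^ 2) +
      l⁻¹ ^ 3 * (1 / r₂ ^ 8 * ((q ^ 2) ^ 2)⁻¹ * ((Q ^ 3)⁻¹ * (p ^ 2)⁻¹)) := by
    refine le_of_pow_le_pow_left₀ (n := 3 + 1) (by norm_num) (by positivity) ?_
    calc (p / (r₂ ^ 2 * q)) ^ 4 = (l * (Q * p ^ 2)) ^ 3 *
          (l⁻¹ ^ 3 * (1 / r₂ ^ 8 * ((q ^ 2) ^ 2)⁻¹ * ((Q ^ 3)⁻¹ * (p ^ 2)⁻¹))) := by field_simp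
      _ ≤ _ := by
        rw [pow_succ _ 3]
        exact mul_le_mul (pow_le_pow_left₀ (by positivity) (le_add_of_nonneg_right
          (by positivity)) 3) (le_add_of_nonneg_left (by positivity)) (by positivity)
          (by positivity)
  have h4 : F * (q / (r₂ ^ 2 * p)) ≤ √(F * (w * Q) * (2 * M / r₂ ^ 4 * 1 * (Q⁻¹ * (p ^ 2)⁻¹))) := by
    refine Real.le_sqrt_of_sq_le ?_
    calc _ = F * (q ^ 2 / 2 * Q) * (2 * F / r₂ ^ 4 * 1 * (Q⁻¹ * (p ^ 2)⁻¹)) := by field_simp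
      _ ≤ _ := by gcongr
  have h5 := mul_le_mul_of_nonneg_right hM (by positivity :
    0 ≤ l⁻¹ ^ 3 * (1 / r₂ ^ 8 * ((q ^ 2) ^ 2)⁻¹ * ((Q ^ 3)⁻¹ * (p ^ 2)⁻¹)))
  calc _ ≤ F * ((p ^ 2 + q ^ 2) / (r₂ ^ 2 * p * q)) := by gcongr
    _ = F * (p / (r₂ ^ 2 * q)) + F * (q / (r₂ ^ 2 * p)) := by field_simp
    _ ≤ _ := by
      have h6 := mul_le_mul_of_nonneg_left h3 hF
      simp only [div_eq_mul_inv] at *
      linarith

theorem est_kE_entry : Est (fun P r₂ t e _ _ _ z v =>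
      (RI P r₂ e ∩ RF r₂ t).indicator (fun z => kE e z v) z)
    (fun P s _ _ _ => P ^ (1 / 2 : ℝ) + P * √(Real.log P * s)) := by
  intro M 𝓔 T r₂ hM h𝓔 hT hr₂ hr₂'
  obtain ⟨C₁, hC₁, v1⟩ := vel_log2
  obtain ⟨C₂, hC₂, v2⟩ := vel_log (-1) (by norm_num)
  obtain ⟨P₁, hP₁⟩ := exists_delta_small
  obtain ⟨P₂, hP₂⟩ := log_pow_le 2 (by norm_num : (0 : ℝ) < 49 / 50)
  set V := volume.real (closedBall (0 : R3) 1)
  have V0 : 0 ≤ V := measureReal_nonneg
  refine ⟨𝓔 + C₁ * (M / r₂ ^ 8 * (2 * Real.pi)) + √(C₂ * (2 * M / r₂ ^ 4 * V)), max (max P₁ P₂) 3,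
    by positivity, fun P hP τ t δ e W F Ez Bz s y y₁ y₂ H => ?_⟩
  simp only [max_le_iff] at hP
  obtain ⟨⟨p1, p2⟩, p3⟩ := hP
  have hP0 : 0 < P := by linarith
  obtain ⟨hN, hN2⟩ := hP₂ P p2
  have hδ := hP₁ P p1 δ e W H.geo
  have he := H.geo.e1
  have hs := H.s0
  have ha : 0 < P ^ (-(51 / 50 : ℝ)) := by positivity
  have hl : 0 < P ^ (1 / 2 : ℝ) := by positivity
  have hν : ∀ᵐ z : R3, ‖nz z‖ = 1 := (ae_qq_pos he).mono fun z hz => norm_nz hz.1
  have men := measurable_en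
  have mpp := measurable_pp
  have mqq := measurable_qq e
  have mqw := measurable_qq W
  have mF := H.mF
  have mv := fun a b => (measurable_velI P a b).comp
    ((measurable_nz.comp (measurable_fst (β := R3))).prodMk measurable_snd)
  have m1 := ((EstE2_meas (P ^ (-(51 / 50 : ℝ)))).comp (measurable_norm.prodMk mqq)).const_mul
    (M / r₂ ^ 8)
  have m2 : Measurable fun z : R3 => 2 * M / r₂ ^ 4 * (closedBall (0 : R3) 1).indicator 1 z :=
    (measurable_one.indicator measurableSet_closedBall).const_mul _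
  have n1 : ∀ z : R3, 0 ≤ M / r₂ ^ 8 * {x : ℝ × ℝ | x.1 ≤ 1 ∧ P ^ (-(51 / 50 : ℝ)) ≤ x.2}.indicator
      (fun x => x.2 ^ (-2 : ℝ)) (‖z‖, qq e z) := fun z => mul_nonneg (by positivity)
    (indicator_nonneg (fun x hx => Real.rpow_nonneg (ha.le.trans hx.2) _) _)
  have n2 : ∀ z : R3, 0 ≤ 2 * M / r₂ ^ 4 * (closedBall (0 : R3) 1).indicator 1 z := fun z =>
    mul_nonneg (by positivity) (indicator_nonneg (fun _ _ => zero_le_one) _)
  have b1 := (Bd.prod_vel m1 measurable_nz n1 hν ((EstE2_cone he ha).const_mul (by positivity))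
    (by positivity) (v1 P p3)).const_mul (c := (P ^ (1 / 2 : ℝ))⁻¹ ^ 3) (by positivity)
  have b2 := H.sp.cs (Bd.prod_vel m2 measurable_nz n2 hν ((Bd.of_integrable
    ((integrableOn_const measure_closedBall_lt_top.ne).integrable_indicator
      measurableSet_closedBall) (.of_forall (indicator_nonneg fun _ _ => zero_le_one))
    (integral_indicator_one measurableSet_closedBall).le).const_mul (by positivity))
    (by positivity) (v2 P p3)) (by fun_prop) ((m2.comp measurable_fst).mul (mv _ _)).aemeasurable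
    hs (by positivity) (.of_forall fun _ => le_rfl)
  refine ((H.cp.const_mul hl.le).add (b1.add b2 (((m1.comp measurable_fst).mul
    (mv _ _)).const_mul _).aemeasurable (by positivity) (by positivity)) (by fun_prop)
    (by positivity) (by positivity)).mono (.of_forall fun ⟨z, v⟩ => ?_) ?_
  · have f0 := H.F0 (z, v)
    have q0 := en_pos v
    have p0 := pp_pos z v
    by_cases h : z ∈ RI P r₂ e ∩ RF r₂ t ∧ en v ≤ P
    · obtain ⟨⟨h1, h2⟩, h3⟩ := h
      have hz := RI_ne_zero hP0 h1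
      have r1 : ‖z‖ ≤ 1 := h1.2.trans (by linarith)
      have hq : P ^ (-(51 / 50 : ℝ)) ≤ qq e z := le_trans (le_div_self ha.le
        (Real.sqrt_pos.2 (norm_pos_iff.2 hz)) (Real.sqrt_le_one.2 r1)) (RI_qq hP0 h1)
      have hw := (H.geo.qq_cmp hz ((hδ.trans
        (Real.rpow_le_rpow_of_exponent_le (by linarith) (by norm_num))).trans hq)).1
      simp only [velI, Function.comp, indicator_of_mem (show v ∈ {v | en v ≤ P} from h3)]
      rw [indicator_of_mem (show z ∈ RI P r₂ e ∩ RF r₂ t from ⟨h1, h2⟩),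
        indicator_of_mem (mem_closedBall_zero_iff.2 r1), indicator_of_mem (by exact ⟨r1, hq⟩)]
      exact EstE2_pt f0 (H.FM _) q0 p0 (ha.trans_le hq) hw hr₂ h2.1 hl
    · have := n1 z
      have := EstE2_vel P (-3) (-1) z v
      refine le_of_eq_of_le ?_ (by positivity)
      rcases not_and_or.1 h with h | h
      · simp [indicator_of_notMem h]
      · simp [H.FP (z, v) (not_le.1 h)]
  · have e1 : (P ^ (1 / 2 : ℝ))⁻¹ ^ 3 * (Real.log P ^ 2 * (P ^ (-(51 / 50 : ℝ)))⁻¹) ≤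
        P ^ (1 / 2 : ℝ) := by
      rw [Real.rpow_two] at hN2
      refine (mul_le_mul_of_nonneg_left (mul_le_mul_of_nonneg_right hN2 (by positivity))
        (by positivity)).trans_eq ?_
      rw [← Real.rpow_neg hP0.le, ← Real.rpow_neg hP0.le, ← Real.rpow_natCast,
        ← Real.rpow_mul hP0.le, ← Real.rpow_add hP0, ← Real.rpow_add hP0]
      norm_num
    have e2 : √s * √(C₂ * (P ^ (-1 + 3 : ℝ) * Real.log P) * (2 * M / r₂ ^ 4 * V)) =
        √(C₂ * (2 * M / r₂ ^ 4 * V)) * (P * √(Real.log P * s)) := by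
      rw [show (-1 + 3 : ℝ) = 2 by norm_num, Real.rpow_two, ← Real.sqrt_mul hs,
        show s * (C₂ * (P ^ 2 * Real.log P) * (2 * M / r₂ ^ 4 * V)) =
          C₂ * (2 * M / r₂ ^ 4 * V) * (P ^ 2 * (Real.log P * s)) by ring,
        Real.sqrt_mul (by positivity), Real.sqrt_mul (sq_nonneg P), Real.sqrt_sq hP0.le]
    have e3 := mul_le_mul_of_nonneg_left e1
      (by positivity : 0 ≤ C₁ * (M / r₂ ^ 8 * (2 * Real.pi)))
    have e4 : 0 ≤ (𝓔 + C₁ * (M / r₂ ^ 8 * (2 * Real.pi))) * (P * √(Real.log P * s)) := by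
      positivity
    have e5 : 0 ≤ √(C₂ * (2 * M / r₂ ^ 4 * V)) * P ^ (1 / 2 : ℝ) := by positivity
    rw [e2]
    linarith

end Crest.Agent.R106
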