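import Crest.Agent.R106.Vel
import Crest.Agent.R106.Geom
import Crest.Agent.R106.Stress

/-!
# Row 106: size of the potential
-/

set_option autoImplicit false
set_option linter.unusedVariables false
set_option linter.unusedSectionVars false

open MeasureTheory Metric Set Filter Topology
open scoped ContDiff ENNReal RealInnerProductSpace
open Crest.AnalysisR.VecCalc3 Crest.AnalysisR.PDE.RVM

noncomputable section

namespace Crest.Agent.R106

/-- the angular-radial integral over the region `RI` -/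
theorem EstF_cone {P r₂ α β : ℝ} (hP : 1 ≤ Real.log P) (hP0 : 0 < P) (hr₂ : r₂ ≤ 1 / 4)
    (hβ : β < -1) (hα : -1 ≤ 2 + α - (β + 1) / 2) {e : R3} (he : ‖e‖ = 1) :
    Bd ((RI P r₂ e).indicator fun z => ‖z‖ ^ α * qq e z ^ β)
      (2 * Real.pi * (P ^ (-(51 / 50 : ℝ) * (β + 1)) / (-(β + 1)) * (5 * Real.log P))) := by
  have hP1 : 1 ≤ P := by
    by_contra h
    have := Real.log_nonpos hP0.le (not_le.1 h).le
    linarith
  set r₀ : ℝ := P ^ (-(51 / 25 : ℝ)) / 4 with hr₀
  have hr0 : 0 < r₀ := by positivity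
  have hr1 : r₀ ≤ 1 := by
    have := Real.rpow_le_one_of_one_le_of_nonpos hP1 (show -(51 / 25 : ℝ) ≤ 0 by norm_num)
    rw [hr₀]
    linarith
  set a : ℝ := P ^ (-(51 / 50 : ℝ)) with ha'
  have ha : 0 < a := by positivity
  have hβ' : 0 < -(β + 1) := by linarith
  have hK : 0 ≤ a ^ (β + 1) / (-(β + 1)) := by positivity
  have key : Bd (fun z : R3 => {x : ℝ × ℝ | x.1 ∈ Icc r₀ 1 ∧ x.2 ∈ Ici (a / √x.1)}.indicator
        (fun x => x.1 ^ α * x.2 ^ β) (‖z‖, qq e z))
      (2 * Real.pi * (a ^ (β + 1) / (-(β + 1)) * (5 * Real.log P))) := by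
    refine Bd.cone he (G := fun r => (Icc r₀ 1).indicator
        (fun r => r ^ α * ((a / √r) ^ (β + 1) / (-(β + 1)))) r)
      (Measurable.indicator (by fun_prop) ?_) (fun r hr => ?_) ?_
    · exact (measurableSet_Icc.preimage measurable_fst).inter
        (measurableSet_le (by fun_prop) measurable_snd)
    · by_cases h : r ∈ Icc r₀ 1
      · have hs : 0 < √r := Real.sqrt_pos.2 hr
        have h3 : 0 ≤ r ^ α := by positivity
        calc _ ≤ ∫⁻ q, (Ici (a / √r)).indicator
                (fun q => ENNReal.ofReal (r ^ α) * ENNReal.ofReal (q ^ β)) q := by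
              refine (setLIntegral_le_lintegral _ _).trans (lintegral_mono fun q => ?_)
              by_cases hq : q ∈ Ici (a / √r)
              · rw [indicator_of_mem hq, indicator_of_mem (by exact ⟨h, hq⟩),
                  ENNReal.ofReal_mul h3]
              · rw [indicator_of_notMem hq, indicator_of_notMem (fun h' => hq h'.2)]
                simp
          _ ≤ ENNReal.ofReal (r ^ α) * ENNReal.ofReal ((a / √r) ^ (β + 1) / (-(β + 1))) := by
              rw [lintegral_indicator measurableSet_Ici,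
                lintegral_const_mul' _ _ ENNReal.ofReal_ne_top]
              exact mul_le_mul_right (lint_rpow_lt hβ (by positivity)) _
          _ = _ := by rw [indicator_of_mem h, ENNReal.ofReal_mul h3]
      · have : ∀ q : ℝ, (r, q) ∉ {x : ℝ × ℝ | x.1 ∈ Icc r₀ 1 ∧ x.2 ∈ Ici (a / √x.1)} :=
          fun q h' => h h'.1
        simp only [indicator_of_notMem (this _)]
        simp
    · calc _ ≤ ∫⁻ r, (Icc r₀ 1).indicator
              (fun r => ENNReal.ofReal (a ^ (β + 1) / (-(β + 1))) * ENNReal.ofReal r⁻¹) r := by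
            refine (setLIntegral_le_lintegral _ _).trans (lintegral_mono fun r => ?_)
            by_cases h : r ∈ Icc r₀ 1
            · have hr : 0 < r := hr0.trans_le h.1
              rw [indicator_of_mem h, indicator_of_mem h, ← ENNReal.ofReal_mul hK]
              refine ENNReal.ofReal_le_ofReal ?_
              have e1 : r ^ 2 * (r ^ α * ((a / √r) ^ (β + 1) / (-(β + 1)))) =
                  a ^ (β + 1) / (-(β + 1)) * r ^ (2 + α - (β + 1) / 2) := by
                rw [Real.div_rpow ha.le (Real.sqrt_nonneg _), Real.sqrt_eq_rpow,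
                  ← Real.rpow_mul hr.le, Real.rpow_sub hr, Real.rpow_add hr, Real.rpow_two,
                  show 1 / 2 * (β + 1) = (β + 1) / 2 by ring]
                ring
              rw [e1, ← Real.rpow_neg_one]
              exact mul_le_mul_of_nonneg_left
                (Real.rpow_le_rpow_of_exponent_ge hr h.2 hα) hK
            · rw [indicator_of_notMem h, indicator_of_notMem h]
              simp
        _ ≤ _ := by
            rw [lintegral_indicator measurableSet_Icc,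
              lintegral_const_mul' _ _ ENNReal.ofReal_ne_top, ENNReal.ofReal_mul hK]
            refine mul_le_mul_right ((lint_inv hr0 hr1).trans (ENNReal.ofReal_le_ofReal ?_)) _
            have h4 : Real.log 4 ≤ 2 := by
              have := Real.log_le_sub_one_of_pos (show (0 : ℝ) < 2 by norm_num)
              rw [show (4 : ℝ) = 2 ^ 2 by norm_num, Real.log_pow]
              push_cast
              linarith
            rw [hr₀, one_div, Real.log_inv, Real.log_div (by positivity) (by norm_num),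
              Real.log_rpow hP0]
            linarith
  refine key.mono (Eventually.of_forall fun z => ?_) (le_of_eq ?_)
  · by_cases hz : z ∈ RI P r₂ e
    · rw [indicator_of_mem hz, indicator_of_mem
        (by exact ⟨⟨RI_norm hP0 he hz, hz.2.trans (by linarith)⟩, RI_qq hP0 hz⟩)]
    · rw [indicator_of_notMem hz]
      refine indicator_nonneg (fun x hx => ?_) _
      have h1 : 0 < x.1 := hr0.trans_le hx.1.1
      have h2 : 0 < x.2 := lt_of_lt_of_le (by positivity) (mem_Ici.1 hx.2)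
      positivity
  · rw [ha', ← Real.rpow_mul hP0.le]

/-- Hölder with the cone weight `F v₀ θ²` -/
theorem EstF_holder {M 𝓔 P σ a b Cz V : ℝ} (hM : 0 ≤ M) (h𝓔 : 0 ≤ 𝓔) (hσ0 : 0 ≤ σ) (hσ1 : σ ≤ 1)
    (ha : a * (1 - σ) = -σ) (hb : b * (1 - σ) = 1 / 2 - σ) {F : R3 × R3 → ℝ} (mF : Measurable F)
    (hF : ∀ q, 0 ≤ F q ∧ F q ≤ M) (hFP : ∀ q, P < en q.2 → F q = 0)
    (hcp : Bd (fun q : R3 × R3 => F q * (en q.2 * pp q.1 q.2)) 𝓔)
    {u : R3 → ℝ} (mu : Measurable u) (u0 : ∀ z, 0 ≤ u z) (hu : Bd u Cz) (hCz : 0 ≤ Cz)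
    (hV0 : 0 ≤ V) (hV : ∀ ν : R3, ‖ν‖ = 1 → Bd (velI P a b ν) V)
    {k : R3 × R3 → ℝ} (hk : ∀ q, k q ≤ √(pp q.1 q.2) * u q.1 ^ (1 - σ)) :
    Bd (fun q : R3 × R3 => F q * k q) (𝓔 ^ σ * (M * (V * Cz)) ^ (1 - σ)) := by
  have hν : ∀ᵐ z : R3, ‖nz z‖ = 1 := by
    have : ∀ᵐ z : R3, z ≠ 0 := by
      rw [ae_iff]
      simp
    filter_upwards [this] with z hz using norm_nz hz
  have h1 := (Bd.prod_vel mu measurable_nz u0 hν hu hV0 hV).const_mul hM
  have men := measurable_en
  have mpp := measurable_pp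
  have vel0 : ∀ q : R3 × R3, 0 ≤ velI P a b (nz q.1) q.2 := fun q =>
    indicator_nonneg (fun v _ => mul_nonneg (Real.rpow_nonneg (en_pos v).le _)
      (Real.rpow_nonneg (pp_pos q.1 v).le _)) _
  have w0 : ∀ q : R3 × R3, 0 ≤ F q * (en q.2 * pp q.1 q.2) := fun q =>
    mul_nonneg (hF q).1 (mul_nonneg (en_pos _).le (pp_pos _ _).le)
  have r0 : ∀ q : R3 × R3, 0 ≤ M * (u q.1 * velI P a b (nz q.1) q.2) := fun q =>
    mul_nonneg hM (mul_nonneg (u0 _) (vel0 q))
  refine hcp.holder2 h1 (mF.mul ((men.comp measurable_snd).mul mpp)).aemeasurable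
    (((mu.comp measurable_fst).mul ((measurable_velI P a b).comp
      ((measurable_nz.comp measurable_fst).prodMk measurable_snd))).const_mul M).aemeasurable
    h𝓔 (by positivity) hσ0 hσ1 (Eventually.of_forall w0) (Eventually.of_forall r0)
    (Eventually.of_forall fun q => ?_)
  by_cases hq : en q.2 ≤ P
  · have hQ := en_pos q.2
    have hp := pp_pos q.1 q.2
    have hF0 := (hF q).1
    have hu0 := u0 q.1
    have hσ : 0 ≤ 1 - σ := by linarith
    have e1 : velI P a b (nz q.1) q.2 = en q.2 ^ a * pp q.1 q.2 ^ b := by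
      unfold velI
      rw [indicator_of_mem (by exact hq)]
      rfl
    have e2 : F q = F q ^ σ * F q ^ (1 - σ) := by
      rw [← Real.rpow_add' hF0 (by norm_num)]
      simp
    have e3 : (F q * (en q.2 * pp q.1 q.2)) ^ σ *
        (M * (u q.1 * (en q.2 ^ a * pp q.1 q.2 ^ b))) ^ (1 - σ) =
        F q ^ σ * M ^ (1 - σ) * (√(pp q.1 q.2) * u q.1 ^ (1 - σ)) := by
      have e4 : en q.2 ^ σ * en q.2 ^ (-σ) = 1 := by
        rw [← Real.rpow_add hQ]
        simp
      have e5 : pp q.1 q.2 ^ σ * pp q.1 q.2 ^ (1 / 2 - σ) = √(pp q.1 q.2) := by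
        rw [← Real.rpow_add hp, Real.sqrt_eq_rpow]
        congr 1
        ring
      rw [Real.mul_rpow hF0 (by positivity), Real.mul_rpow hQ.le hp.le,
        Real.mul_rpow hM (by positivity), Real.mul_rpow hu0 (by positivity),
        Real.mul_rpow (by positivity) (by positivity), ← Real.rpow_mul hQ.le,
        ← Real.rpow_mul hp.le, ha, hb, ← e5]
      linear_combination (F q ^ σ * M ^ (1 - σ) * u q.1 ^ (1 - σ) * pp q.1 q.2 ^ σ *
        pp q.1 q.2 ^ (1 / 2 - σ)) * e4
    rw [e1, e3]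
    calc F q * k q ≤ F q * (√(pp q.1 q.2) * u q.1 ^ (1 - σ)) :=
          mul_le_mul_of_nonneg_left (hk q) hF0
      _ = F q ^ σ * F q ^ (1 - σ) * (√(pp q.1 q.2) * u q.1 ^ (1 - σ)) := by rw [← e2]
      _ ≤ _ := by
          have := Real.rpow_le_rpow hF0 (hF q).2 hσ
          gcongr
  · rw [hFP q (not_le.1 hq), zero_mul]
    have := w0 q
    have := r0 q
    rw [hFP q (not_le.1 hq)] at *
    positivity

/-- the `z`-weight on `RI` -/
theorem EstF_u0 {P r₂ α β : ℝ} (hP0 : 0 < P) (e z : R3) :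
    0 ≤ (RI P r₂ e).indicator (fun z => ‖z‖ ^ α * qq e z ^ β) z := by
  refine indicator_nonneg (fun z hz => ?_) _
  have hr : 0 < ‖z‖ := norm_pos_iff.2 (RI_ne_zero hP0 hz)
  have hq : 0 < qq e z := lt_of_lt_of_le (by positivity) (RI_qq hP0 hz)
  positivity

theorem EstF_mu (P r₂ α β : ℝ) (e : R3) :
    Measurable ((RI P r₂ e).indicator fun z => ‖z‖ ^ α * qq e z ^ β) := by
  have mqq := measurable_qq e
  exact Measurable.indicator (by fun_prop) (measurableSet_RI _ _ _)

theorem est_kA : Est (fun P r₂ _ e _ _ _ z v => (RI P r₂ e).indicator (fun z => kA e z v) z)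
    (fun P _ _ _ _ => P ^ (78 / 100 : ℝ)) := by
  intro M 𝓔 T r₂ hM h𝓔 hT hr₂ hr₂'
  obtain ⟨C, hC, hvel⟩ := vel_log2
  obtain ⟨P₂, hP₂⟩ := log_pow_le 3 (ε := 6 / 100) (by norm_num)
  refine ⟨𝓔 ^ (3 / 4 : ℝ) * (M * (C * (10 * Real.pi / 3))) ^ (1 - 3 / 4 : ℝ), max P₂ 3,
    by positivity, fun P hP τ t δ e W F Ez Bz s y y₁ y₂ H => ?_⟩
  have hP3 : 3 ≤ P := (le_max_right _ _).trans hP
  have hP0 : 0 < P := by linarith
  obtain ⟨hN, hN'⟩ := hP₂ P ((le_max_left _ _).trans hP)
  have hu := EstF_cone (α := -4) (β := -4) hN hP0 hr₂' (by norm_num) (by norm_num) H.geo.e1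
  have hN0 : 0 ≤ Real.log P := by linarith
  refine (EstF_holder (σ := 3 / 4) hM h𝓔 (by norm_num) (by norm_num) (by norm_num) (by norm_num)
    H.mF (fun q => ⟨H.F0 q, H.FM q⟩) H.FP H.cp (EstF_mu _ _ _ _ _) (EstF_u0 hP0 e) hu
    (by norm_num; positivity) (by positivity) (hvel P hP3)
    (k := fun q => (RI P r₂ e).indicator (fun z => kA e z q.2) q.1) (fun q => ?_)).mono
    (Eventually.of_forall fun q => le_rfl) ?_
  · by_cases hz : q.1 ∈ RI P r₂ e
    · have hr : 0 < ‖q.1‖ := norm_pos_iff.2 (RI_ne_zero hP0 hz)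
      have hq : 0 < qq e q.1 := lt_of_lt_of_le (by positivity) (RI_qq hP0 hz)
      rw [indicator_of_mem hz, indicator_of_mem hz, Real.mul_rpow (by positivity) (by positivity),
        ← Real.rpow_mul hr.le, ← Real.rpow_mul hq.le,
        show (-4 : ℝ) * (1 - 3 / 4) = -1 by norm_num, Real.rpow_neg_one, Real.rpow_neg_one, kA]
      refine le_of_eq ?_
      field_simp
    · rw [indicator_of_notMem hz]
      have := EstF_u0 (r₂ := r₂) (α := -4) (β := -4) hP0 e q.1
      positivity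
  · rw [mul_assoc (𝓔 ^ (3 / 4 : ℝ))]
    refine mul_le_mul_of_nonneg_left ?_ (by positivity)
    have e1 : P ^ (78 / 100 : ℝ) = (P ^ (153 / 50 : ℝ) * P ^ (6 / 100 : ℝ)) ^ (1 - 3 / 4 : ℝ) := by
      rw [← Real.rpow_add hP0, ← Real.rpow_mul hP0.le]
      norm_num
    beta_reduce
    rw [e1, ← Real.mul_rpow (x := M * (C * (10 * Real.pi / 3))) (by positivity) (by positivity)]
    refine Real.rpow_le_rpow (by norm_num; positivity) ?_ (by norm_num)
    rw [show (-(51 / 50 : ℝ)) * (-4 + 1) = 153 / 50 by norm_num]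
    rw [show (3 : ℝ) = ((3 : ℕ) : ℝ) by norm_num, Real.rpow_natCast] at hN'
    calc _ = M * (C * (10 * Real.pi / 3)) * (P ^ (153 / 50 : ℝ) * Real.log P ^ 3) := by ring
      _ ≤ _ := by gcongr

theorem est_kP (M 𝓔 : ℝ) (hM : 0 ≤ M) (h𝓔 : 0 ≤ 𝓔) : ∃ C P₀ : ℝ, 0 ≤ C ∧ ∀ P, P₀ ≤ P →
    ∀ (r₂ : ℝ) (e : R3) (F : R3 × R3 → ℝ), r₂ ≤ 1 / 4 → ‖e‖ = 1 → Measurable F →
    (∀ q, 0 ≤ F q ∧ F q ≤ M) → (∀ q, P < en q.2 → F q = 0) →
    Bd (fun q : R3 × R3 => F q * (en q.2 * pp q.1 q.2)) 𝓔 →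
    Bd (fun q : R3 × R3 => F q * (RI P r₂ e).indicator (fun z => kP e z q.2) q.1)
      (C * P ^ (41 / 100 : ℝ)) := by
  obtain ⟨C, hC, hvel⟩ := vel_gt (-(7 / 3)) (-(2 / 3)) (by norm_num) (by norm_num)
  obtain ⟨P₂, hP₂⟩ := log_pow_le 1 (ε := 1 / 50) (by norm_num)
  refine ⟨𝓔 ^ (7 / 10 : ℝ) * (M * (C * (15 * Real.pi))) ^ (1 - 7 / 10 : ℝ), max P₂ 1,
    by positivity, fun P hP r₂ e F hr₂ he mF hF hFP hcp => ?_⟩
  have hP1 : 1 ≤ P := (le_max_right _ _).trans hP
  have hP0 : 0 < P := by linarith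
  obtain ⟨hN, hN'⟩ := hP₂ P ((le_max_left _ _).trans hP)
  have hu := EstF_cone (α := -(10 / 3)) (β := -(5 / 3)) hN hP0 hr₂ (by norm_num) (by norm_num) he
  have hN0 : 0 ≤ Real.log P := by linarith
  refine (EstF_holder (σ := 7 / 10) hM h𝓔 (by norm_num) (by norm_num) (by norm_num) (by norm_num)
    mF hF hFP hcp (EstF_mu _ _ _ _ _) (EstF_u0 hP0 e) hu
    (by norm_num; positivity) (by positivity) (hvel P hP1)
    (k := fun q => (RI P r₂ e).indicator (fun z => kP e z q.2) q.1) (fun q => ?_)).mono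
    (Eventually.of_forall fun q => le_rfl) ?_
  · by_cases hz : q.1 ∈ RI P r₂ e
    · have hr : 0 < ‖q.1‖ := norm_pos_iff.2 (RI_ne_zero hP0 hz)
      have hq : 0 < qq e q.1 := lt_of_lt_of_le (by positivity) (RI_qq hP0 hz)
      have hsq : 0 < √(qq e q.1) := Real.sqrt_pos.2 hq
      rw [indicator_of_mem hz, indicator_of_mem hz, Real.mul_rpow (by positivity) (by positivity),
        ← Real.rpow_mul hr.le, ← Real.rpow_mul hq.le,
        show (-(10 / 3) : ℝ) * (1 - 7 / 10) = -1 by norm_num,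
        show (-(5 / 3) : ℝ) * (1 - 7 / 10) = -(1 / 2) by norm_num, Real.rpow_neg_one,
        Real.rpow_neg hq.le, ← Real.sqrt_eq_rpow, kP]
      refine le_of_eq ?_
      field_simp
    · rw [indicator_of_notMem hz]
      have := EstF_u0 (r₂ := r₂) (α := -(10 / 3)) (β := -(5 / 3)) hP0 e q.1
      positivity
  · rw [mul_assoc (𝓔 ^ (7 / 10 : ℝ))]
    refine mul_le_mul_of_nonneg_left ?_ (by positivity)
    have e1 : P ^ (41 / 100 : ℝ) = (P ^ (2 / 3 : ℝ) * P ^ (17 / 25 : ℝ) * P ^ (1 / 50 : ℝ)) ^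
        (1 - 7 / 10 : ℝ) := by
      rw [← Real.rpow_add hP0, ← Real.rpow_add hP0, ← Real.rpow_mul hP0.le]
      norm_num
    rw [e1, ← Real.mul_rpow (x := M * (C * (15 * Real.pi))) (by positivity) (by positivity)]
    refine Real.rpow_le_rpow (by norm_num; positivity) ?_ (by norm_num)
    rw [show (-(51 / 50 : ℝ)) * (-(5 / 3) + 1) = 17 / 25 by norm_num,
      show (-(7 / 3) : ℝ) + 3 = 2 / 3 by norm_num]
    rw [Real.rpow_one] at hN'
    calc _ = M * (C * (15 * Real.pi)) * (P ^ (2 / 3 : ℝ) * P ^ (17 / 25 : ℝ) * Real.log P) := by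
          ring
      _ ≤ _ := by gcongr

end Crest.Agent.R106
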