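import Crest.Agent.R106.Vel
import Crest.Agent.R106.Geom
import Crest.Agent.R106.Stress

/-!
# Row 106: size of the transversal part of the potential
-/

set_option autoImplicit false
set_option linter.unusedVariables false
set_option linter.unusedSectionVars false

open MeasureTheory Metric Set Filter Topology
open scoped ContDiff ENNReal RealInnerProductSpace
open Crest.AnalysisR.VecCalc3 Crest.AnalysisR.PDE.RVM

noncomputable section

namespace Crest.Agent.R106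

theorem EstF2_cone {α β : ℝ} (hα : -3 < α) (hβ : -1 < β) : ∃ K : ℝ, 0 ≤ K ∧ ∀ e : R3, ‖e‖ = 1 →
    ∀ R, 0 ≤ R →
      Bd (fun z : R3 => if ‖z‖ ≤ R then ‖z‖ ^ α * qq e z ^ β else 0) (K * R ^ (α + 3)) := by
  have h1 : 0 < β + 1 := by linarith
  have h2 : 0 < α + 3 := by linarith
  have hk : 0 ≤ (2 : ℝ) ^ (β + 1) / (β + 1) := by positivity
  refine ⟨2 * Real.pi * (2 ^ (β + 1) / (β + 1)) / (α + 3), by positivity, fun e he R hR => ?_⟩
  refine (Bd.cone he (g := fun x => if x.1 ≤ R then x.1 ^ α * x.2 ^ β else 0)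
    (G := fun r => if r ≤ R then r ^ α * (2 ^ (β + 1) / (β + 1)) else 0)
    ((Vel_meas α β).ite (measurableSet_le measurable_fst measurable_const) measurable_const)
    (fun r hr => ?_) (Vel_one measurableSet_Ioi measurableSet_Ioc (fun r hr => ?_)
      (Vel_cmul hk (lint_rpow_gt (β := α + 2) (by linarith) hR)))).mono
    (.of_forall fun _ => le_rfl) (le_of_eq ?_)
  · split_ifs
    · exact Vel_cmul (Real.rpow_nonneg hr.le _)
        ((lintegral_mono_set Ioo_subset_Ioc_self).trans (lint_rpow_gt hβ zero_le_two))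
    · simp
  · split_ifs with h
    · exact .inr ⟨⟨hr, h⟩, le_of_eq (by rw [Real.rpow_add hr, Real.rpow_two]; ring)⟩
    · exact .inl (mul_zero _).le
  · rw [show α + 2 + 1 = α + 3 by ring]
    ring

theorem EstF2_gen {M : ℝ} (hM : 0 ≤ M) (σ α β a b k ρ θ : ℝ) (hα : -3 < α) (hβ : -1 < β)
    (ha : -3 < a) (hb : -1 < b) (h0 : 0 ≤ σ) (h1 : σ ≤ 1)
    (hθ : (k + (a + 3) + ρ * (α + 3)) * (1 - σ) ≤ θ) : ∃ C : ℝ, 0 ≤ C ∧ ∀ P, 1 ≤ P →
    ∀ e : R3, ‖e‖ = 1 → ∀ (F w : R3 × R3 → ℝ) (W : ℝ), Measurable F → Measurable w →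
      (∀ q, 0 ≤ F q) → (∀ q, F q ≤ M) → (∀ q, P < en q.2 → F q = 0) → (∀ q, 0 ≤ w q) → 0 ≤ W →
      Bd (fun q => F q * w q) W → ∃ h : R3 × R3 → ℝ, Measurable h ∧ (∀ q, 0 ≤ h q) ∧
        Bd h (W ^ σ * (C * P ^ θ)) ∧ ∀ q x, ‖q.1‖ ≤ P ^ ρ → x ≤ w q ^ σ *
          (P ^ k * (‖q.1‖ ^ α * qq e q.1 ^ β * (en q.2 ^ a * pp q.1 q.2 ^ b))) ^ (1 - σ) →
          F q * x ≤ h q := by
  obtain ⟨K, hK, hc⟩ := EstF2_cone hα hβ
  obtain ⟨V, hV, hv⟩ := vel_gt a b ha hb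
  refine ⟨(M * V * K) ^ (1 - σ), by positivity, fun P hP e he F w W mF mw F0 FM FP w0 hW hw => ?_⟩
  have hP0 : 0 < P := by linarith
  have mc : Measurable fun z : R3 => if ‖z‖ ≤ P ^ ρ then ‖z‖ ^ α * qq e z ^ β else 0 :=
    ((measurable_norm.pow_const _).mul ((measurable_qq e).pow_const _)).ite
      (measurableSet_le measurable_norm measurable_const) measurable_const
  have q0 : ∀ z, 0 ≤ qq e z := fun z => ang_nonneg he.le (norm_nz_le z)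
  have c0 : ∀ z : R3, 0 ≤ if ‖z‖ ≤ P ^ ρ then ‖z‖ ^ α * qq e z ^ β else 0 := fun z => by
    have := q0 z
    positivity
  have hu := (Bd.prod_vel mc measurable_nz c0 ((Measure.ae_ne volume 0).mono fun z => norm_nz)
    (hc e he _ (by positivity)) (by positivity) (hv P hP)).const_mul
    (show 0 ≤ M * P ^ k by positivity)
  have mu := ((mc.comp measurable_fst).mul ((measurable_velI P a b).comp
    ((measurable_nz.comp measurable_fst).prodMk measurable_snd))).const_mul (M * P ^ k)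
  have u0 : ∀ q : R3 × R3, 0 ≤ M * P ^ k * ((if ‖q.1‖ ≤ P ^ ρ then ‖q.1‖ ^ α * qq e q.1 ^ β else 0) *
      velI P a b (nz q.1) q.2) := fun q => mul_nonneg (by positivity) (mul_nonneg (c0 _)
    (indicator_nonneg (fun v _ => mul_nonneg (Real.rpow_nonneg (en_pos v).le _)
      (Real.rpow_nonneg (pp_pos q.1 v).le _)) _))
  refine ⟨_, ((mF.mul mw).pow_const σ).mul (mu.pow_const (1 - σ)), fun q => mul_nonneg
    (Real.rpow_nonneg (mul_nonneg (F0 q) (w0 q)) _) (Real.rpow_nonneg (u0 q) _),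
    (hw.holder2 hu (mF.mul mw).aemeasurable mu.aemeasurable hW (by positivity) h0 h1
      (.of_forall fun q => mul_nonneg (F0 q) (w0 q)) (.of_forall u0)
      (.of_forall fun _ => le_rfl)).mono (.of_forall fun _ => le_rfl)
      (mul_le_mul_of_nonneg_left ?_ (by positivity)), fun q x hq hx => ?_⟩
  · rw [← Real.rpow_mul hP0.le, show M * P ^ k * (V * P ^ (a + 3) * (K * P ^ (ρ * (α + 3)))) =
      M * V * K * (P ^ k * P ^ (a + 3) * P ^ (ρ * (α + 3))) by ring, ← Real.rpow_add hP0,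
      ← Real.rpow_add hP0, Real.mul_rpow (by positivity) (by positivity), ← Real.rpow_mul hP0.le]
    exact mul_le_mul_of_nonneg_left (Real.rpow_le_rpow_of_exponent_le hP hθ) (by positivity)
  rcases lt_or_ge P (en q.2) with h | h
  · rw [FP q h, zero_mul]
    exact mul_nonneg (Real.rpow_nonneg (mul_nonneg (F0 q) (w0 q)) _) (Real.rpow_nonneg (u0 q) _)
  have h2 := q0 q.1
  have h3 := en_pos q.2
  have h4 := pp_pos q.1 q.2
  have h5 := F0 q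
  have h6 := w0 q
  have h7 : F q ≤ F q ^ σ * M ^ (1 - σ) := by
    refine le_of_eq_of_le ?_ (mul_le_mul_of_nonneg_left
      (Real.rpow_le_rpow h5 (FM q) (sub_nonneg.2 h1)) (by positivity))
    rw [← Real.rpow_add' h5 (by simp), add_sub_cancel, Real.rpow_one]
  refine (mul_le_mul_of_nonneg_left hx h5).trans
    ((mul_le_mul_of_nonneg_right h7 (by positivity)).trans_eq ?_)
  simp only [Pi.mul_apply, Function.comp_apply, if_pos hq, velI,
    indicator_of_mem (s := {v : R3 | en v ≤ P}) h]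
  rw [Real.mul_rpow h5 h6, mul_assoc M, Real.mul_rpow hM (by rw [← pp]; positivity), ← pp]
  ring

theorem EstF2_log {x : ℝ} (h : 0 < x) : ∃ l, x = Real.exp l := ⟨_, (Real.exp_log h).symm⟩

theorem EstF2_A {P r q Q p : ℝ} (hP : 0 < P) (hr : 0 < r) (hq : 0 < q) (hQ : 0 < Q) (hp : 0 < p)
    (h : P ^ (-(41 / 20 : ℝ)) ≤ r) : √p / r ≤ (Q * p) ^ (2 / 3 : ℝ) * (P ^ (41 / 2000 : ℝ) *
      (r ^ (-(299 / 100 : ℝ)) * q ^ (0 : ℝ) * (Q ^ (-2 : ℝ) * p ^ (-(1 / 2 : ℝ))))) ^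
        (1 - 2 / 3 : ℝ) := by
  obtain ⟨P, rfl⟩ := EstF2_log hP
  obtain ⟨r, rfl⟩ := EstF2_log hr
  obtain ⟨q, rfl⟩ := EstF2_log hq
  obtain ⟨Q, rfl⟩ := EstF2_log hQ
  obtain ⟨p, rfl⟩ := EstF2_log hp
  simp only [Real.sqrt_eq_rpow, ← Real.exp_mul, ← Real.exp_add, ← Real.exp_sub,
    Real.exp_le_exp] at h ⊢
  linarith

theorem EstF2_B {P r q Q p : ℝ} (hP : 0 < P) (hr : 0 < r) (hq : 0 < q) (hQ : 1 ≤ Q) (hp : 0 < p)
    (h : P ^ (-(51 / 50 : ℝ)) / √r ≤ q) (h' : P ^ (-(7 / 10 : ℝ)) ≤ r) :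
    p / (r * √q) ≤ (Q * p) ^ (3 / 4 : ℝ) * (P ^ (137408 / 100000 : ℝ) *
      (r ^ (-(2998 / 1000 : ℝ)) * q ^ (-(996 / 1000 : ℝ)) *
        (Q ^ (-(2995 / 1000 : ℝ)) * p ^ (1 : ℝ)))) ^ (1 - 3 / 4 : ℝ) := by
  obtain ⟨P, rfl⟩ := EstF2_log hP
  obtain ⟨r, rfl⟩ := EstF2_log hr
  obtain ⟨q, rfl⟩ := EstF2_log hq
  obtain ⟨Q, rfl⟩ := EstF2_log (one_pos.trans_le hQ)
  obtain ⟨p, rfl⟩ := EstF2_log hp
  simp only [Real.sqrt_eq_rpow, ← Real.exp_mul, ← Real.exp_add, ← Real.exp_sub,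
    Real.exp_le_exp, Real.one_le_exp_iff] at h h' hQ ⊢
  linarith

theorem EstF2_C {P r q Q p g : ℝ} (hP : 0 < P) (hr : 0 < r) (hq : 0 < q) (hQ : 0 < Q) (hp : 0 < p)
    (hg : 0 < g) (h : P ^ (-(51 / 50 : ℝ)) / √r ≤ q) (h' : r ≤ 1) :
    g / (r * √q) ≤ (Q * g ^ 2 / r) ^ (1 / 2 : ℝ) * (P ^ (102 / 10000 : ℝ) *
      (r ^ (-1 : ℝ) * q ^ (-(99 / 100 : ℝ)) * (Q ^ (-1 : ℝ) * p ^ (0 : ℝ)))) ^ (1 - 1 / 2 : ℝ) := by
  obtain ⟨P, rfl⟩ := EstF2_log hP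
  obtain ⟨r, rfl⟩ := EstF2_log hr
  obtain ⟨q, rfl⟩ := EstF2_log hq
  obtain ⟨Q, rfl⟩ := EstF2_log hQ
  obtain ⟨p, rfl⟩ := EstF2_log hp
  obtain ⟨g, rfl⟩ := EstF2_log hg
  simp only [Real.sqrt_eq_rpow, sq, ← Real.exp_mul, ← Real.exp_add, ← Real.exp_sub,
    Real.exp_le_exp, Real.exp_le_one_iff] at h h' ⊢
  linarith

theorem EstF2_D {P r q c τ : ℝ} (hP : 0 < P) (hr : 0 < r) (hq : 0 < q) (hc : 1 ≤ c)
    (hτ : P ^ (-(1 / 100 : ℝ)) ≤ τ) (h : P ^ (-(51 / 50 : ℝ)) / √r ≤ q)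
    (h1 : P ^ (-(51 / 25 : ℝ)) / c ≤ r) (h2 : c ≤ P ^ (1 / 100 : ℝ)) :
    P ^ (-(41 / 20 : ℝ)) ≤ r ∧ (r ≤ P ^ (-(7 / 10 : ℝ)) → P ^ (-(11 / 10 : ℝ)) ≤ q ∧
      P ^ (-(41 / 20 : ℝ)) ≤ r * q ∧ r ^ 2 ≤ τ * (r * q)) := by
  obtain ⟨τ, rfl⟩ := EstF2_log ((Real.rpow_pos_of_pos hP _).trans_le hτ)
  obtain ⟨P, rfl⟩ := EstF2_log hP
  obtain ⟨r, rfl⟩ := EstF2_log hr
  obtain ⟨q, rfl⟩ := EstF2_log hq
  obtain ⟨c, rfl⟩ := EstF2_log (one_pos.trans_le hc)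
  simp only [Real.sqrt_eq_rpow, sq, ← Real.exp_mul, ← Real.exp_add, ← Real.exp_sub,
    Real.exp_le_exp, Real.one_le_exp_iff] at h h1 h2 hc hτ ⊢
  exact ⟨by linarith, fun h3 => ⟨by linarith, by linarith, by linarith⟩⟩

theorem est_kPp : Est (fun P r₂ _ e _ _ _ z v => (RI P r₂ e).indicator (fun z => kPp e z v) z)
    (fun P _ y _ _ => P ^ (31 / 100 : ℝ) * √y + P ^ (69 / 200 : ℝ)) := by
  classical
  intro M 𝓔 T r₂ hM h𝓔 _ _ hr₂
  obtain ⟨C₁, c₁, H₁⟩ := EstF2_gen hM (2 / 3) (-(299 / 100)) 0 (-2) (-(1 / 2)) (41 / 2000) 0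
    (69 / 200) (by norm_num) (by norm_num) (by norm_num) (by norm_num) (by norm_num) (by norm_num)
    (by norm_num)
  obtain ⟨C₂, c₂, H₂⟩ := EstF2_gen hM (3 / 4) (-(2998 / 1000)) (-(996 / 1000)) (-(2995 / 1000)) 1
    (137408 / 100000) 0 (69 / 200) (by norm_num) (by norm_num) (by norm_num) (by norm_num)
    (by norm_num) (by norm_num) (by norm_num)
  obtain ⟨C₃, c₃, H₃⟩ := EstF2_gen hM (1 / 2) (-1) (-(99 / 100)) (-1) 0 (102 / 10000) (-(7 / 10))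
    (31 / 100) (by norm_num) (by norm_num) (by norm_num) (by norm_num) (by norm_num) (by norm_num)
    (by norm_num)
  obtain ⟨P₁, hP₁⟩ := exists_delta_small
  obtain ⟨P₂, hP₂⟩ := eventually_atTop.1 (((tendsto_rpow_atTop (show (0 : ℝ) < 1 / 100 by
    norm_num)).eventually_ge_atTop 4).and ((eventually_ge_atTop 1).and (eventually_ge_atTop P₁)))
  refine ⟨5 * (𝓔 ^ (2 / 3 : ℝ) * C₁) + 𝓔 ^ (3 / 4 : ℝ) * C₂ + 2 * (√2 * C₃), P₂, by positivity,
    fun P hP τ t δ e W F Ez Bz s y y₁ y₂ h => ?_⟩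
  obtain ⟨h4, h1, hδ⟩ := hP₂ P hP
  have hP0 : 0 < P := by linarith
  have he := h.geo.e1
  have hy := h.y0
  have hz : ∀ z ∈ RI P r₂ e, z ≠ 0 ∧ 0 < ‖z‖ ∧ 0 < qq e z ∧ ‖z‖ ≤ 1 := fun z hz =>
    have h2 := norm_pos_iff.2 (RI_ne_zero hP0 hz)
    ⟨RI_ne_zero hP0 hz, h2, lt_of_lt_of_le (by positivity) (RI_qq hP0 hz), by linarith [hz.2]⟩
  have hD := fun z (h2 : z ∈ RI P r₂ e) => EstF2_D hP0 (hz z h2).2.1 (hz z h2).2.2.1 (by norm_num)
    h.τ0 (RI_qq hP0 h2) (RI_norm hP0 he h2) h4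
  have mw := (measurable_en.comp measurable_snd).mul measurable_pp
  have w0 : ∀ q : R3 × R3, 0 ≤ en q.2 * pp q.1 q.2 := fun q =>
    (mul_pos (en_pos _) (pp_pos _ _)).le
  obtain ⟨g₁, m₁, p₁, b₁, l₁⟩ := H₁ P h1 e he F _ 𝓔 h.mF mw h.F0 h.FM h.FP w0 h𝓔 h.cp
  obtain ⟨g₂, m₂, p₂, b₂, l₂⟩ := H₂ P h1 e he F _ 𝓔 h.mF mw h.F0 h.FM h.FP w0 h𝓔 h.cp
  obtain ⟨g₃, m₃, p₃, b₃, l₃⟩ := H₃ P h1 e he F (fun q => if q.1 ∈ RI P r₂ e ∧
      ‖q.1‖ ≤ P ^ (-(7 / 10 : ℝ)) then en q.2 * gg e q.2 ^ 2 / ‖q.1‖ else 0) (2 * y) h.mF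
    ((((measurable_en.comp measurable_snd).mul (((measurable_gg e).comp measurable_snd).pow_const
      2)).div measurable_fst.norm).ite ((measurable_fst (measurableSet_RI P r₂ e)).inter
      (measurableSet_le measurable_fst.norm measurable_const)) measurable_const) h.F0 h.FM h.FP
    (fun q => by have := en_pos q.2; positivity) (by positivity)
    ((h.hy.const_mul zero_le_two).mono (.of_forall fun q => by
      have h2 := en_pos q.2
      have h3 := h.F0 q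
      split_ifs with h5
      · obtain ⟨a1, a2, a3, -⟩ := hz _ h5.1
        obtain ⟨a4, a5, a6⟩ := (hD _ h5.1).2 h5.2
        rw [← lam_eq e a1] at a5 a6
        rw [indicator_of_mem (show q.1 ∈ RL P τ e from ⟨a5, a6⟩), lam_eq e a1, mul_left_comm]
        refine mul_le_mul_of_nonneg_left ?_ h3
        rw [← mul_assoc, div_eq_inv_mul]
        refine mul_le_mul_of_nonneg_right ?_ (by positivity)
        rw [← mul_div_assoc, le_div_iff₀ (by positivity), inv_mul_cancel_left₀ a2.ne']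
        linarith [(h.geo.qq_cmp a1 ((hP₁ P hδ δ e W h.geo).trans a4)).1]
      · rw [mul_zero]
        refine mul_nonneg zero_le_two (indicator_nonneg (fun z h6 => mul_nonneg h3 (mul_nonneg
          (div_nonneg (ang_nonneg h.geo.W1.le (norm_nz_le z)) (le_trans (by positivity) h6.1))
          (by positivity))) _)) le_rfl)
  refine (((b₁.const_mul (c := 5) (by norm_num)).add b₂ (m₁.const_mul 5).aemeasurable
    (by positivity) (by positivity)).add (b₃.const_mul zero_le_two)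
    ((m₁.const_mul 5).add m₂).aemeasurable (by positivity) (by positivity)).mono
    (.of_forall fun q => ?_) ?_
  · have s₁ := p₁ q
    have s₂ := p₂ q
    have s₃ := p₃ q
    beta_reduce
    by_cases h5 : q.1 ∈ RI P r₂ e
    swap
    · rw [indicator_of_notMem h5, mul_zero]
      positivity
    obtain ⟨a1, a2, a3, a4⟩ := hz _ h5
    have a5 := pp_pos q.1 q.2
    have a6 := h.F0 q
    have a7 := Real.sqrt_pos.2 a3
    have k1 := l₁ q _ (by rwa [Real.rpow_zero]) (EstF2_A hP0 a2 a3 (en_pos _) a5 (hD _ h5).1)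
    have e1 : kPp e q.1 q.2 = pp q.1 q.2 / (‖q.1‖ * √(qq e q.1)) + √(pp q.1 q.2) / ‖q.1‖ := by
      rw [kPp, mul_add, Real.mul_self_sqrt a5.le]
      field_simp
    rw [indicator_of_mem h5, e1, mul_add]
    rcases le_total (P ^ (-(7 / 10 : ℝ))) ‖q.1‖ with h6 | h6
    · linarith [l₂ q _ (by rwa [Real.rpow_zero])
        (EstF2_B hP0 a2 a3 (one_le_en _) a5 (RI_qq hP0 h5) h6)]
    rcases le_total (16 * qq e q.1) (pp q.1 q.2) with h7 | h7
    · have h8 := pp_le_gg he a1 h7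
      have k3 := l₃ q (gg e q.2 / (‖q.1‖ * √(qq e q.1))) h6 (by
        rw [if_pos ⟨h5, h6⟩]
        exact EstF2_C hP0 a2 a3 (en_pos _) a5 (by linarith) (RI_qq hP0 h5) a4)
      have := mul_le_mul_of_nonneg_left (div_le_div_of_nonneg_right h8
        (mul_pos a2 a7).le) a6
      rw [mul_div_assoc] at this
      linarith
    · have h8 : pp q.1 q.2 / (‖q.1‖ * √(qq e q.1)) ≤ 4 * (√(pp q.1 q.2) / ‖q.1‖) := by
        have h9 : √(pp q.1 q.2) ≤ 4 * √(qq e q.1) :=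
          Real.sqrt_le_iff.2 ⟨by positivity, by rw [mul_pow, Real.sq_sqrt a3.le]; linarith⟩
        rw [div_le_iff₀ (by positivity)]
        calc pp q.1 q.2 = √(pp q.1 q.2) * √(pp q.1 q.2) := (Real.mul_self_sqrt a5.le).symm
          _ ≤ √(pp q.1 q.2) * (4 * √(qq e q.1)) := by gcongr
          _ = _ := by field_simp
      linarith [mul_le_mul_of_nonneg_left h8 a6]
  · beta_reduce
    rw [← Real.sqrt_eq_rpow, Real.sqrt_mul zero_le_two]
    have t1 : 0 ≤ (5 * (𝓔 ^ (2 / 3 : ℝ) * C₁) + 𝓔 ^ (3 / 4 : ℝ) * C₂) *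
      (P ^ (31 / 100 : ℝ) * √y) := by positivity
    have t2 : 0 ≤ 2 * (√2 * C₃) * P ^ (69 / 200 : ℝ) := by positivity
    linarith

end Crest.Agent.R106
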