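import Crest.Agent.R106.Defs
import Crest.Agent.R244.Flow

/-!
# Row 106: smooth solutions of the linear transport equation
-/

set_option autoImplicit false
set_option linter.unusedVariables false
set_option linter.unusedSectionVars false

open MeasureTheory Metric Set Filter Topology
open scoped ContDiff ENNReal RealInnerProductSpace
open Crest.AnalysisR.VecCalc3 Crest.AnalysisR.PDE.RVM

noncomputable section

namespace Crest.Agent.R106

section Flow

variable {G : Type} [NormedAddCommGroup G] [NormedSpace ℝ G]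

/-- Uniqueness on an interval. -/
theorem Flow_uniq {β : G → G} (hβ : ContDiff ℝ ∞ β) {c₁ c₂ : ℝ → G} {δ : ℝ}
    (h₁ : ∀ t ∈ Ioo (-δ) δ, HasDerivAt c₁ (β (c₁ t)) t)
    (h₂ : ∀ t ∈ Ioo (-δ) δ, HasDerivAt c₂ (β (c₂ t)) t) (h₀ : c₁ 0 = c₂ 0) :
    ∀ t ∈ Ioo (-δ) δ, c₁ t = c₂ t := by
  intro t ht
  have key : ∀ s ∈ Ioo (-δ) δ, c₁ s = c₂ s → c₁ =ᶠ[𝓝 s] c₂ := fun s hs h =>
    R244.ode_eventuallyEq' (hβ.of_le (by exact_mod_cast le_top)).contDiffAt
      (eventually_of_mem (Ioo_mem_nhds hs.1 hs.2) h₁)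
      (eventually_of_mem (Ioo_mem_nhds hs.1 hs.2) h₂) h
  have h0 : (0 : ℝ) ∈ Ioo (-δ) δ := ⟨by linarith [ht.1, ht.2], by linarith [ht.1, ht.2]⟩
  have h := isPreconnected_Ioo.subset_of_closure_inter_subset (u := {s | c₁ =ᶠ[𝓝 s] c₂})
    isOpen_setOfPred_eventually_nhds ⟨0, h0, key 0 h0 h₀⟩ fun s hs =>
      key s hs.2 (tendsto_nhds_unique_of_frequently_eq (h₁ s hs.2).continuousAt
        (h₂ s hs.2).continuousAt ((mem_closure_iff_frequently.1 hs.1).mono fun _ h =>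
          (show c₁ =ᶠ[𝓝 _] c₂ from h).self_of_nhds))
  exact (show c₁ =ᶠ[𝓝 _] c₂ from h ht).self_of_nhds

/-- Gluing of solutions on growing intervals. -/
theorem Flow_glue {β : G → G} (hβ : ContDiff ℝ ∞ β) (z : G)
    (h : ∀ T : ℝ, 0 < T → ∃ c : ℝ → G, c 0 = z ∧ ∀ t ∈ Ioo (-T) T, HasDerivAt c (β (c t)) t) :
    ∃ c : ℝ → G, c 0 = z ∧ ∀ t, HasDerivAt c (β (c t)) t := by
  choose! c h0 hc using h
  refine ⟨fun t => c (|t| + 1) t, h0 _ (by positivity), fun t => ?_⟩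
  have h1 : ∀ s, |s| < |t| + 1 → c (|s| + 1) s = c (|t| + 2) s := fun s hs =>
    Flow_uniq hβ (hc _ (by positivity)) (fun r hr => hc _ (by positivity) r
      ⟨by linarith [hr.1], by linarith [hr.2]⟩)
      ((h0 _ (by positivity)).trans (h0 _ (by positivity)).symm) s
      ⟨by linarith [neg_abs_le s], by linarith [le_abs_self s]⟩
  beta_reduce
  rw [h1 t (by linarith)]
  refine (hc _ (by positivity) t ⟨by linarith [neg_abs_le t],
    by linarith [le_abs_self t]⟩).congr_of_eventuallyEq ?_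
  filter_upwards [(continuous_abs.tendsto t).eventually (gt_mem_nhds (lt_add_one _))] with s hs
    using h1 s hs

/-- The group law. -/
theorem Flow_add {β : G → G} (hβ : ContDiff ℝ ∞ β) {φ : G → ℝ → G} (h0 : ∀ y, φ y 0 = y)
    (hφ : ∀ y t, HasDerivAt (φ y) (β (φ y t)) t) (y : G) (s t : ℝ) :
    φ (φ y s) t = φ y (s + t) :=
  Flow_uniq hβ (δ := |t| + 1) (c₂ := fun t => φ y (s + t)) (fun r _ => hφ _ r)
    (fun r _ => (hφ y (s + r)).comp_const_add s r) (by rw [h0, add_zero]) t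
    ⟨by linarith [neg_abs_le t], by linarith [le_abs_self t]⟩

/-- Local flows. -/
def Flow_LF (β : G → G) (φ : G → ℝ → G) (z : G) : Prop :=
  ∃ r > (0 : ℝ), ∃ δ > (0 : ℝ), ∀ y ∈ ball z r, φ y 0 = y ∧
    ∀ t ∈ Ioo (-δ) δ, HasDerivAt (φ y) (β (φ y t)) t

theorem Flow_LF.eq {β : G → G} (hβ : ContDiff ℝ ∞ β) {φ ψ : G → ℝ → G} {z : G}
    (h : Flow_LF β φ z) (h' : Flow_LF β ψ z) :
    (fun p : G × ℝ => φ p.1 p.2) =ᶠ[𝓝 (z, 0)] fun p => ψ p.1 p.2 := by
  obtain ⟨r, hr, δ, hδ, h⟩ := h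
  obtain ⟨r', hr', δ', hδ', h'⟩ := h'
  have hm := lt_min hδ hδ'
  filter_upwards [prod_mem_nhds (inter_mem (ball_mem_nhds z hr) (ball_mem_nhds z hr'))
    (Ioo_mem_nhds (neg_lt_zero.2 hm) hm)] with p hp
  exact Flow_uniq hβ
    (fun t ht => (h _ hp.1.1).2 t (Ioo_subset_Ioo (neg_le_neg (min_le_left _ _))
      (min_le_left _ _) ht))
    (fun t ht => (h' _ hp.1.2).2 t (Ioo_subset_Ioo (neg_le_neg (min_le_right _ _))
      (min_le_right _ _) ht)) ((h _ hp.1.1).1.trans (h' _ hp.1.2).1.symm) _ hp.2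

end Flow

set_option maxSynthPendingDepth 3 in
/-- Local flows of smooth fields are smooth. -/
theorem Flow_local (n : ℕ) : ∀ (G : Type) [NormedAddCommGroup G] [NormedSpace ℝ G]
    [CompleteSpace G] (β : G → G), ContDiff ℝ ∞ β → ∀ (φ : G → ℝ → G) (z : G), Flow_LF β φ z →
    ContDiffAt ℝ n (fun p : G × ℝ => φ p.1 p.2) (z, 0) := by
  induction n with
  | zero =>
    intro G _ _ _ β hβ φ z hφ
    obtain ⟨r, hr, δ, hδ, Φ, D, hc, h⟩ := R244.exists_local_flow isOpen_univ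
      (hβ.of_le (by exact_mod_cast le_top)).contDiffOn (mem_univ z)
    refine ContDiffAt.congr_of_eventuallyEq ?_ (hφ.eq hβ
      ⟨r, hr, δ, hδ, fun y hy => ⟨(h y hy).1, fun t ht => ((h y hy).2.2 t ht).2.1⟩⟩)
    exact contDiffAt_zero.2
      ⟨_, prod_mem_nhds (ball_mem_nhds z hr) (Ioo_mem_nhds (neg_lt_zero.2 hδ) hδ), hc⟩
  | succ n ih =>
    intro G _ _ _ β hβ φ z hφ
    obtain ⟨r, hr, δ, hδ, Φ, D, -, h⟩ := R244.exists_local_flow isOpen_univ
      (hβ.of_le (by exact_mod_cast le_top)).contDiffOn (mem_univ z)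
    refine ContDiffAt.congr_of_eventuallyEq ?_ (hφ.eq hβ
      ⟨r, hr, δ, hδ, fun y hy => ⟨(h y hy).1, fun t ht => ((h y hy).2.2 t ht).2.1⟩⟩)
    have h1 := ih (G × (G →L[ℝ] G)) (fun q => (β q.1, (fderiv ℝ β q.1).comp q.2))
      ((hβ.comp contDiff_fst).prodMk
        (((hβ.fderiv_right (m := ∞) (by simp)).comp contDiff_fst).clm_comp contDiff_snd))
      (fun q t => (Φ q.1 t, (D q.1 t).comp q.2)) (z, ContinuousLinearMap.id ℝ G)
      ⟨r, hr, δ, hδ, fun q hq => by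
        have hq' : q.1 ∈ ball z r := (le_max_left _ _).trans_lt (mem_ball.1 hq)
        obtain ⟨a1, a2, a3⟩ := h _ hq'
        refine ⟨by simp only [a1, a2, ContinuousLinearMap.id_comp], fun t ht => ?_⟩
        refine (a3 t ht).2.1.prodMk ?_
        have := (a3 t ht).2.2.2.clm_comp (hasDerivAt_const t q.2)
        simpa [ContinuousLinearMap.comp_assoc] using this⟩
    have h2 := h1.comp (z, (0 : ℝ)) (f := fun p : G × ℝ => ((p.1, ContinuousLinearMap.id ℝ G), p.2))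
      ((contDiffAt_fst.prodMk contDiffAt_const).prodMk contDiffAt_snd)
    have h3 : ContDiffAt ℝ n (fun p : G × ℝ => D p.1 p.2) (z, 0) := h2.snd
    have h4 : ContDiffAt ℝ n (fun p : G × ℝ =>
        ContinuousLinearMap.toSpanSingleton ℝ (β (Φ p.1 p.2))) (z, 0) :=
      (ContinuousLinearMap.toSpanSingletonLIE ℝ G).contDiff.contDiffAt.comp (z, 0)
        ((hβ.of_le (by exact_mod_cast le_top)).contDiffAt.comp (z, 0) h2.fst)
    have hn : (n : WithTop ℕ∞) ≠ ((⊤ : ℕ∞) : WithTop ℕ∞) := by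
      exact_mod_cast ENat.natCast_ne_top n
    have h5 : ∀ᶠ p : G × ℝ in 𝓝 (z, 0), p ∈ ball z r ×ˢ Ioo (-δ) δ :=
      prod_mem_nhds (ball_mem_nhds z hr) (Ioo_mem_nhds (neg_lt_zero.2 hδ) hδ)
    push_cast
    refine contDiffAt_succ_iff_hasFDerivAt.2 ⟨fun p => (D p.1 p.2).coprod
      (ContinuousLinearMap.toSpanSingleton ℝ (β (Φ p.1 p.2))), ?_, ?_⟩
    · refine ⟨_, h5.eventually_nhds.and ((h3.eventually hn).and (h4.eventually hn)),
        fun p hp => ?_⟩
      exact (hasStrictFDerivAt_uncurry_coprod (f := Φ) (f₁ := D)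
        (f₂ := fun y t => ContinuousLinearMap.toSpanSingleton ℝ (β (Φ y t)))
        (hp.1.mono fun q hq => ((h _ hq.1).2.2 _ hq.2).2.2.1.hasFDerivAt)
        (hp.1.mono fun q hq => ((h _ hq.1).2.2 _ hq.2).2.1.hasFDerivAt)
        hp.2.1.continuousAt hp.2.2.continuousAt).hasFDerivAt
    · exact (h3.clm_comp (contDiffAt_const (c := ContinuousLinearMap.fst ℝ G ℝ))).add
        (h4.clm_comp (contDiffAt_const (c := ContinuousLinearMap.snd ℝ G ℝ)))

/-- Global flows of smooth fields are smooth. -/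
theorem Flow_smooth {G : Type} [NormedAddCommGroup G] [NormedSpace ℝ G] [CompleteSpace G]
    {β : G → G} (hβ : ContDiff ℝ ∞ β) {φ : G → ℝ → G} (h0 : ∀ y, φ y 0 = y)
    (hφ : ∀ y t, HasDerivAt (φ y) (β (φ y t)) t) : ContDiff ℝ ∞ fun p : G × ℝ => φ p.1 p.2 := by
  refine contDiff_infty.2 fun n => contDiff_iff_contDiffAt.2 fun ⟨y, t⟩ => ?_
  have hn : (n : WithTop ℕ∞) ≠ ((⊤ : ℕ∞) : WithTop ℕ∞) := by
      exact_mod_cast ENat.natCast_ne_top n
  have hl : ∀ z, ContDiffAt ℝ n (fun p : G × ℝ => φ p.1 p.2) (z, 0) := fun z =>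
    Flow_local n G β hβ φ z ⟨1, one_pos, 1, one_pos, fun y _ => ⟨h0 y, fun t _ => hφ y t⟩⟩
  have h := isPreconnected_univ.subset_of_closure_inter_subset
    (u := {t : ℝ | ContDiffAt ℝ n (fun p : G × ℝ => φ p.1 p.2) (y, t)})
    (isOpen_iff_mem_nhds.2 fun t ht =>
      (Continuous.prodMk_right y).continuousAt.eventually (ContDiffAt.eventually ht hn))
    ⟨0, trivial, hl y⟩ fun t ht => ?_
  · exact h (mem_univ t)
  have h1 : Tendsto (fun s => (φ y s, t - s)) (𝓝 t) (𝓝 (φ y t, 0)) := by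
    rw [← sub_self t]
    exact ((hφ y t).continuousAt.prodMk (continuous_sub_left t).continuousAt)
  obtain ⟨s, hs, hs'⟩ := ((mem_closure_iff_frequently.1 ht.1).and_eventually
    (h1.eventually ((hl (φ y t)).eventually hn))).exists
  have h2 : ContDiffAt ℝ n (fun p : G × ℝ => (φ p.1 s, p.2 - s)) (y, t) :=
    (ContDiffAt.comp (y, t) (g := fun p : G × ℝ => φ p.1 p.2) (f := fun p : G × ℝ => (p.1, s))
      (show ContDiffAt ℝ n (fun p : G × ℝ => φ p.1 p.2) (y, s) from hs)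
      (contDiffAt_fst.prodMk contDiffAt_const)).prodMk (contDiffAt_snd.sub contDiffAt_const)
  have h3 := ContDiffAt.comp (y, t) (f := fun p : G × ℝ => (φ p.1 s, p.2 - s)) hs' h2
  refine h3.congr_of_eventuallyEq (Eventually.of_forall fun p => ?_)
  simp only [Function.comp_apply, Flow_add hβ h0 hφ, add_sub_cancel]

theorem exists_transport {F : Type} [NormedAddCommGroup F] [NormedSpace ℝ F]
    [FiniteDimensional ℝ F] (b : ℝ × F → F) (hb : ContDiff ℝ ∞ b)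
    (hbd : ∀ T₁ : ℝ, ∃ L : ℝ, ∀ s y, |s| ≤ T₁ →
      ‖b (s, y)‖ ≤ L ∧ ‖fderiv ℝ (fun y => b (s, y)) y‖ ≤ L)
    (f₀ : F → ℝ) (hf : ContDiff ℝ ∞ f₀) :
    ∃ f : ℝ × F → ℝ, ContDiff ℝ ∞ f ∧ (∀ y, f (0, y) = f₀ y) ∧
      ∀ p, fderiv ℝ f p (1, b p) = 0 := by
  have := FiniteDimensional.complete ℝ F
  have hβ : ContDiff ℝ ∞ fun p : ℝ × F => ((1 : ℝ), b p) := contDiff_const.prodMk hb
  have hex : ∀ p : ℝ × F, ∃ c : ℝ → ℝ × F, c 0 = p ∧ ∀ t, HasDerivAt c (1, b (c t)) t := by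
    refine fun p => Flow_glue hβ p fun T hT => ?_
    obtain ⟨L, hL⟩ := hbd (|p.1| + T)
    have hL0 : 0 ≤ L := (norm_nonneg _).trans (hL 0 0 (by rw [abs_zero]; positivity)).1
    have hm : ∀ t ∈ Icc (-T) T, |p.1 + t| ≤ |p.1| + T := fun t ht =>
      (abs_add_le _ _).trans (add_le_add le_rfl (abs_le.2 ht))
    lift L to NNReal using hL0
    lift T to NNReal using hT.le
    have hPL : IsPicardLindelof (fun t y => b (p.1 + t, y)) (tmin := -T) (tmax := T)
        ⟨0, neg_nonpos.2 hT.le, hT.le⟩ p.2 (L * T) 0 L L :=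
      ⟨fun t ht => (lipschitzWith_of_nnnorm_fderiv_le (𝕜 := ℝ)
          ((hb.differentiable (by simp)).comp (by fun_prop))
          fun y => (hL _ y (hm t ht)).2).lipschitzOnWith,
        fun y _ => (hb.continuous.comp (by fun_prop)).continuousOn,
        fun t ht y _ => (hL _ y (hm t ht)).1, by simp⟩
    obtain ⟨α, h0, hα⟩ := hPL.exists_eq_forall_mem_Icc_hasDerivWithinAt₀
    refine ⟨fun t => (p.1 + t, α t), Prod.ext (add_zero _) h0, fun t ht => ?_⟩
    exact ((hasDerivAt_id' t).const_add p.1).prodMk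
      ((hα t (Ioo_subset_Icc_self ht)).hasDerivAt (Icc_mem_nhds ht.1 ht.2))
  choose φ h0 hφ using hex
  have hs := Flow_smooth hβ h0 hφ
  have h1 : ∀ p s, (φ p s).1 = p.1 + s := fun p s => by
    have h2 : ∀ t, HasDerivAt (fun t => (φ p t).1 - t) 0 t := fun t =>
      ((hasFDerivAt_fst.comp_hasDerivAt t (hφ p t)).sub (hasDerivAt_id' t)).congr_deriv
        (sub_self (1 : ℝ))
    have h3 := is_const_of_deriv_eq_zero (fun t => (h2 t).differentiableAt)
      (fun t => (h2 t).deriv) s 0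
    simp only [h0, sub_zero] at h3
    linarith
  have hfs : ContDiff ℝ ∞ fun p : ℝ × F => f₀ (φ p (-p.1)).2 :=
    hf.comp (hs.comp (contDiff_id.prodMk contDiff_fst.neg)).snd
  refine ⟨_, hfs, fun y => by simp only [neg_zero, h0], fun p => ?_⟩
  have h2 := (hfs.differentiable (by simp) (φ p 0)).hasFDerivAt.comp_hasDerivAt 0 (hφ p 0)
  rw [h0] at h2
  refine h2.unique ((hasDerivAt_const (0 : ℝ) (f₀ (φ p (-p.1)).2)).congr_of_eventuallyEq
    (Eventually.of_forall fun s => ?_))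
  simp only [Function.comp_apply, Flow_add hβ h0 hφ, h1]
  rw [show s + -(p.1 + s) = -p.1 by ring]

end Crest.Agent.R106
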