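import Crest.Agent.R106.Stress

/-!
# Row 106: the stress tensor: conservation
-/

set_option autoImplicit false
set_option linter.unusedVariables false
set_option linter.unusedSectionVars false

open MeasureTheory Metric Set Filter Topology
open scoped ContDiff ENNReal RealInnerProductSpace
open Crest.AnalysisR.VecCalc3 Crest.AnalysisR.PDE.RVM

noncomputable section

namespace Crest.Agent.R106

section
variable {f : PS → ℝ} {E B : ST → R3}

theorem StressB_Tf : ContDiff ℝ ∞ fun p : (R3 × R3) × (ℝ × R3) × (ℝ × R3) =>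
    Tf p.1.1 p.1.2 p.2.1.1 p.2.1.2 p.2.2.1 p.2.2.2 := by
  obtain ⟨L, hL⟩ := exists_crossL
  have h1 : ContDiff ℝ ∞ fun p : (R3 × R3) × (ℝ × R3) × (ℝ × R3) => ef p.1.1 p.1.2 :=
    (((contDiff_norm_sq ℝ).comp contDiff_fst.fst).add
      ((contDiff_norm_sq ℝ).comp contDiff_fst.snd)).div_const 2
  have h2 : ContDiff ℝ ∞ fun p : (R3 × R3) × (ℝ × R3) × (ℝ × R3) => cross3 p.1.1 p.1.2 := by
    simp only [← hL]
    fun_prop
  have a0 : ContDiff ℝ ∞ fun p : (R3 × R3) × (ℝ × R3) × (ℝ × R3) => p.2.1.1 := by fun_prop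
  have a1 : ContDiff ℝ ∞ fun p : (R3 × R3) × (ℝ × R3) × (ℝ × R3) => p.2.1.2 := by fun_prop
  have b0 : ContDiff ℝ ∞ fun p : (R3 × R3) × (ℝ × R3) × (ℝ × R3) => p.2.2.1 := by fun_prop
  have b1 : ContDiff ℝ ∞ fun p : (R3 × R3) × (ℝ × R3) × (ℝ × R3) => p.2.2.2 := by fun_prop
  have e0 : ContDiff ℝ ∞ fun p : (R3 × R3) × (ℝ × R3) × (ℝ × R3) => p.1.1 := by fun_prop
  have e1 : ContDiff ℝ ∞ fun p : (R3 × R3) × (ℝ × R3) × (ℝ × R3) => p.1.2 := by fun_prop
  exact ((((a0.mul b0).mul h1).sub (a0.mul (h2.inner ℝ b1))).sub (b0.mul (h2.inner ℝ a1))).add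
    (((h1.mul (a1.inner ℝ b1)).sub ((e0.inner ℝ a1).mul (e0.inner ℝ b1))).sub
      ((e1.inner ℝ a1).mul (e1.inner ℝ b1)))

theorem StressB_Tw : ContDiff ℝ ∞ fun p : R3 × (ℝ × R3) × (ℝ × R3) =>
    Tw p.1 p.2.1.1 p.2.1.2 p.2.2.1 p.2.2.2 := by
  have h1 : ContDiff ℝ ∞ fun p : R3 × (ℝ × R3) × (ℝ × R3) => relVel p.1 :=
    contDiff_relVel.comp contDiff_fst
  exact ((contDiff_en.comp contDiff_fst).mul
    (contDiff_snd.fst.fst.sub (h1.inner ℝ contDiff_snd.fst.snd))).mul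
    (contDiff_snd.snd.fst.sub (h1.inner ℝ contDiff_snd.snd.snd))

theorem contDiff_TT (hf : ContDiff ℝ ∞ f) (hv : VSupp f) (hE : ContDiff ℝ ∞ E)
    (hB : ContDiff ℝ ∞ B) :
    ContDiff ℝ ∞ fun a : ST × (ℝ × R3) × (ℝ × R3) =>
      TT f E B a.1 a.2.1.1 a.2.1.2 a.2.2.1 a.2.2.2 := by
  have h1 : R240.LocC fun z : (ST × (ℝ × R3) × (ℝ × R3)) × R3 =>
      f (z.1.1.1, z.1.1.2, z.2) * Tw z.2 z.1.2.1.1 z.1.2.1.2 z.1.2.2.1 z.1.2.2.2 := by
    refine ⟨(hf.comp (by fun_prop)).mul (StressB_Tw.comp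
      (f := fun z : (ST × (ℝ × R3) × (ℝ × R3)) × R3 => (z.2, z.1.2)) (by fun_prop)), fun p₀ => ?_⟩
    obtain ⟨R, hR⟩ := hv (|p₀.1.1| + 1)
    refine ⟨closedBall 0 R, isCompact_closedBall _ _, ?_⟩
    have hc : Continuous fun p : ST × (ℝ × R3) × (ℝ × R3) => |p.1.1| := by fun_prop
    filter_upwards [hc.continuousAt.eventually_lt_const (lt_add_one |p₀.1.1|)] with p hp y hy
    rw [hR _ _ _ hp.le (not_le.1 fun h1 => hy (mem_closedBall_zero_iff.2 h1)), zero_mul]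
  exact (StressB_Tf.comp (f := fun a : ST × (ℝ × R3) × (ℝ × R3) => ((E a.1, B a.1), a.2))
    (((hE.comp contDiff_fst).prodMk (hB.comp contDiff_fst)).prodMk contDiff_snd)).add
    (h1.contDiff_integral volume)

/-- derivative of `Tf` in the fields -/
def StressB_D (E B e β : R3) (a₀ : ℝ) (a : R3) (b₀ : ℝ) (b : R3) : ℝ :=
  a₀ * b₀ * (⟪E, e⟫ + ⟪B, β⟫) - a₀ * ⟪cross3 e B + cross3 E β, b⟫ -
    b₀ * ⟪cross3 e B + cross3 E β, a⟫ +
    ((⟪E, e⟫ + ⟪B, β⟫) * ⟪a, b⟫ - (⟪e, a⟫ * ⟪E, b⟫ + ⟪E, a⟫ * ⟪e, b⟫) -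
      (⟪β, a⟫ * ⟪B, b⟫ + ⟪B, a⟫ * ⟪β, b⟫))

theorem StressB_line {E B : ℝ → R3} {e β : R3} {t : ℝ} (hE : HasDerivAt E e t)
    (hB : HasDerivAt B β t) (a₀ : ℝ) (a : R3) (b₀ : ℝ) (b : R3) :
    HasDerivAt (fun s => Tf (E s) (B s) a₀ a b₀ b) (StressB_D (E t) (B t) e β a₀ a b₀ b) t := by
  obtain ⟨L, hL⟩ := exists_crossL
  have h1 : HasDerivAt (fun s => ef (E s) (B s)) (⟪E t, e⟫ + ⟪B t, β⟫) t := by
    have := (hE.norm_sq.fun_add hB.norm_sq).div_const 2
    refine this.congr_deriv ?_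
    ring
  have h2 : HasDerivAt (fun s => cross3 (E s) (B s)) (cross3 e (B t) + cross3 (E t) β) t := by
    simp only [← hL]
    exact (L.hasDerivAt_of_bilinear (fun _ => hE) fun _ => hB).congr_deriv (add_comm _ _)
  have h3 : ∀ {u : ℝ → R3} {u' : R3}, HasDerivAt u u' t → ∀ c : R3,
      HasDerivAt (fun s => ⟪u s, c⟫) ⟪u', c⟫ t := fun hu c => by
    simpa using hu.inner ℝ (hasDerivAt_const t c)
  exact (((h1.const_mul (a₀ * b₀)).fun_sub ((h3 h2 b).const_mul a₀)).fun_sub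
    ((h3 h2 a).const_mul b₀)).fun_add (((h1.mul_const _).fun_sub
      ((h3 hE a).fun_mul (h3 hE b))).fun_sub ((h3 hB a).fun_mul (h3 hB b)))

theorem StressB_fderiv (hE : ContDiff ℝ ∞ E) (hB : ContDiff ℝ ∞ B) (a₀ : ℝ) (a : R3) (b₀ : ℝ)
    (b : R3) (p w : ST) : DifferentiableAt ℝ (fun q => Tf (E q) (B q) a₀ a b₀ b) p ∧
    fderiv ℝ (fun q => Tf (E q) (B q) a₀ a b₀ b) p w =
      StressB_D (E p) (B p) (fderiv ℝ E p w) (fderiv ℝ B p w) a₀ a b₀ b := by
  have h0 : ContDiff ℝ ∞ fun q => Tf (E q) (B q) a₀ a b₀ b :=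
    StressB_Tf.comp (f := fun q : ST => ((E q, B q), (a₀, a), (b₀, b)))
      ((hE.prodMk hB).prodMk contDiff_const)
  have h1 : HasDerivAt (fun s : ℝ => p + s • w) w 0 := by
    have := ((hasDerivAt_id' (0 : ℝ)).smul_const w).const_add p
    rwa [one_smul] at this
  have e0 : p + (0 : ℝ) • w = p := by simp
  have h2 : ∀ {F : Type} [NormedAddCommGroup F] [NormedSpace ℝ F] {u : ST → F}, ContDiff ℝ ∞ u →
      HasDerivAt (fun s : ℝ => u (p + s • w)) (fderiv ℝ u p w) 0 := fun hu =>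
    (hu.differentiable (by simp) p).hasFDerivAt.comp_hasDerivAt_of_eq 0 h1 e0.symm
  refine ⟨h0.differentiable (by simp) p, (h2 h0).unique ?_⟩
  have h3 := StressB_line (h2 hE) (h2 hB) a₀ a b₀ b
  rwa [e0] at h3

theorem StressB_inner (x y : R3) : ⟪x, y⟫ = x 0 * y 0 + x 1 * y 1 + x 2 * y 2 := by
  simp [PiLp.inner_apply, Fin.sum_univ_three, mul_comm]

theorem StressB_alg (E B j a : R3) (ρ a₀ : ℝ) (Ex Bx : Fin 3 → R3)
    (h1 : ∑ i, Ex i i = ρ) (h2 : ∑ i, Bx i i = 0) :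
    StressB_D E B (WithLp.toLp 2 ![Bx 1 2 - Bx 2 1, Bx 2 0 - Bx 0 2, Bx 0 1 - Bx 1 0] - j)
        (-WithLp.toLp 2 ![Ex 1 2 - Ex 2 1, Ex 2 0 - Ex 0 2, Ex 0 1 - Ex 1 0]) a₀ a 1 0 -
      ∑ i, StressB_D E B (Ex i) (Bx i) a₀ a 0 (EuclideanSpace.single i 1) =
    -(a₀ * ⟪j, E⟫ - ⟪cross3 j B, a⟫ - ρ * ⟪E, a⟫) := by
  simp only [Fin.sum_univ_three] at h1 h2 ⊢
  simp [StressB_D, StressB_inner, cross3]
  linear_combination (E 0 * a 0 + E 1 * a 1 + E 2 * a 2) * h1 +
    (B 0 * a 0 + B 1 * a 1 + B 2 * a 2) * h2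

theorem StressB_pd {G : ST → R3} (hG : ContDiff ℝ ∞ G) (p : ST) (i k : Fin 3) :
    pderiv (fun y => G (p.1, y) k) i p.2 = fderiv ℝ G p (0, EuclideanSpace.single i 1) k := by
  have hd := hG.differentiable (by simp)
  have h1 := (EuclideanSpace.proj k : R3 →L[ℝ] ℝ).differentiable.comp hd
  refine (CalcB_sliceX h1 p _).trans ?_
  exact DFunLike.congr_fun
    ((EuclideanSpace.proj k : R3 →L[ℝ] ℝ).hasFDerivAt.comp p (hd p).hasFDerivAt).fderiv _

theorem StressB_vs {h : PS → ℝ} (hv : VSupp h) (g : PS → ℝ) : VSupp fun z => h z * g z :=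
  fun T₁ => (hv T₁).imp fun R hR s y v h1 h2 => by simp only [hR s y v h1 h2, zero_mul]

theorem StressB_mul {h : PS → ℝ} (hs : ContDiff ℝ ∞ h) {g : R3 → ℝ} (hg : ContDiff ℝ ∞ g)
    (z w : PS) : fderiv ℝ (fun z : PS => h z * g z.2.2) z w =
      fderiv ℝ h z w * g z.2.2 + h z * fderiv ℝ g z.2.2 w.2.2 := by
  have h3 : HasFDerivAt (fun z : PS => g z.2.2) ((fderiv ℝ g z.2.2).comp
      ((ContinuousLinearMap.snd ℝ R3 R3).comp (ContinuousLinearMap.snd ℝ ℝ (R3 × R3)))) z :=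
    HasFDerivAt.comp (g := g) (f := fun z : PS => z.2.2) z
      (hg.differentiable (by simp) _).hasFDerivAt
      ((ContinuousLinearMap.snd ℝ R3 R3).comp (ContinuousLinearMap.snd ℝ ℝ (R3 × R3))).hasFDerivAt
  refine (DFunLike.congr_fun ((hs.differentiable (by simp) z).hasFDerivAt.mul h3).fderiv w).trans ?_
  simp
  ring

theorem StressB_div0 {H : PS → R3} (hH : ContDiff ℝ ∞ H) (hvH : VSupp H) (p : ST) :
    Integrable (fun v => divV H (p.1, p.2, v)) ∧ ∫ v, divV H (p.1, p.2, v) = 0 := by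
  have h5 : ∀ i, ContDiff ℝ 1 fun w => H (p.1, p.2, w) i := fun i =>
    (EuclideanSpace.proj i : R3 →L[ℝ] ℝ).contDiff.comp ((hH.of_le (by simp)).comp (by fun_prop))
  have h6 : ∀ i, HasCompactSupport fun w => H (p.1, p.2, w) i := fun i =>
    (CalcB_cs hvH p).comp_left (g := fun u : R3 => u i) rfl
  have h7 : ∀ i : Fin 3, Integrable fun v =>
      fderiv ℝ (fun w => H (p.1, p.2, w) i) v (EuclideanSpace.single i 1) := fun i =>
    (((h5 i).continuous_fderiv (by simp)).clm_apply continuous_const).integrable_of_hasCompactSupport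
      ((h6 i).fderiv_apply ℝ _)
  simp only [divV, div3, pderiv]
  refine ⟨integrable_finsetSum _ fun i _ => h7 i, ?_⟩
  rw [integral_finsetSum _ fun i _ => h7 i]
  exact Finset.sum_eq_zero fun i _ => integral_fderiv_eq_zero' _ (h5 i) (h6 i) _

/-- the moment equation with a source -/
theorem StressB_moment {h : PS → ℝ} (hs : ContDiff ℝ ∞ h) (hv : VSupp h) (hE : ContDiff ℝ ∞ E)
    (hB : ContDiff ℝ ∞ B) (p : ST) :
    fderiv ℝ (rho h) p (1, 0) + ∑ i : Fin 3, fderiv ℝ (rho fun z => h z * relVel z.2.2 i) p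
        (0, EuclideanSpace.single i 1) =
      ∫ v, fderiv ℝ h (p.1, p.2, v) (1, relVel v, lor (E p) (B p) v) := by
  have hr : ∀ i, ContDiff ℝ ∞ fun v => relVel v i := fun i =>
    (EuclideanSpace.proj i : R3 →L[ℝ] ℝ).contDiff.comp contDiff_relVel
  have hc : ∀ w : PS, Continuous fun z => fderiv ℝ h z w := fun w =>
    (hs.continuous_fderiv (by simp)).clm_apply continuous_const
  have hi : ∀ w : PS, Integrable fun v => fderiv ℝ h (p.1, p.2, v) w := fun w =>
    integrable_slice (h := fun z => fderiv ℝ h z w) (hc w) (hv.fderiv w) p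
  have hi' : ∀ i, Integrable fun v =>
      fderiv ℝ h (p.1, p.2, v) (0, EuclideanSpace.single i 1, 0) * relVel v i := fun i =>
    integrable_slice (h := fun z => fderiv ℝ h z (0, EuclideanSpace.single i 1, 0) * relVel z.2.2 i)
      ((hc _).mul ((hr i).continuous.comp (by fun_prop))) (StressB_vs (hv.fderiv _) _) p
  have h2 : ∀ i, fderiv ℝ (rho fun z => h z * relVel z.2.2 i) p (0, EuclideanSpace.single i 1) =
      ∫ v, fderiv ℝ h (p.1, p.2, v) (0, EuclideanSpace.single i 1, 0) * relVel v i := fun i => by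
    have hs' : ContDiff ℝ ∞ fun z : PS => h z * relVel z.2.2 i :=
      hs.mul ((hr i).comp (by fun_prop))
    refine (fderiv_moment hs' (StressB_vs hv _) p _).trans
      (integral_congr_ae (.of_forall fun v => ?_))
    refine (StressB_mul hs (hr i) _ _).trans ?_
    simp
  obtain ⟨i7, h7⟩ := StressB_div0 (contDiff_frc hE hB hs)
    (fun T₁ => (hv T₁).imp fun R hR s y v h1 h2 => by simp only [frc, hR s y v h1 h2, zero_smul]) p
  have h8 : fderiv ℝ (rho h) p (1, 0) = ∫ v, fderiv ℝ h (p.1, p.2, v) (1, 0, 0) :=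
    fderiv_moment hs hv p (1, 0)
  have i8 := integrable_finsetSum Finset.univ fun i _ => hi' i
  rw [h8, Finset.sum_congr rfl fun i _ => h2 i, ← integral_finsetSum _ fun i _ => hi' i,
    ← integral_add (hi _) i8]
  have h10 := integral_add ((hi (1, 0, 0)).add i8) i7
  rw [h7, add_zero] at h10
  refine h10.symm.trans (integral_congr_ae (.of_forall fun v => ?_))
  have h9 : ((1, relVel v, lor (E p) (B p) v) : PS) =
      (1, 0, 0) + ∑ i, relVel v i • ((0, EuclideanSpace.single i 1, 0) : PS) +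
        (0, 0, lor (E p) (B p) v) := by
    simp [Prod.ext_iff, Prod.fst_sum, Prod.snd_sum, CalcB_sum]
  beta_reduce
  rw [h9, map_add, map_add, map_sum, divV_frc hs]
  simp only [map_smul, smul_eq_mul, Pi.add_apply, mul_comm]

/-- conservation of energy and momentum -/
theorem Sol.stress_div {T : ℝ} (h : Sol T f E B) (a₀ : ℝ) (a : R3) (p : ST) (hp : p.1 ∈ Icc 0 T) :
    fderiv ℝ (fun q => TT f E B q a₀ a 1 0) p (1, 0) -
      ∑ i : Fin 3, fderiv ℝ (fun q => TT f E B q a₀ a 0 (EuclideanSpace.single i 1)) p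
        (0, EuclideanSpace.single i 1) = 0 := by
  have hf := h.step.sf
  have hv := h.step.vf
  have hE := h.step.sE
  have hB := h.step.sB
  obtain ⟨L, hL⟩ := exists_crossL
  set g : R3 → ℝ := fun v => a₀ * en v - ⟪v, a⟫ with hg
  have hgs : ContDiff ℝ ∞ g := (contDiff_const.mul contDiff_en).sub (contDiff_id.inner ℝ contDiff_const)
  have hgd : ∀ v K, fderiv ℝ g v K = a₀ * ⟪relVel v, K⟫ - ⟪K, a⟫ := fun v K => by
    have h1 := ((contDiff_en.differentiable (by simp) v).hasFDerivAt.const_mul a₀).fun_sub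
      ((hasFDerivAt_id v).inner ℝ (hasFDerivAt_const a v))
    refine (DFunLike.congr_fun h1.fderiv K).trans ?_
    simp [fderiv_en]
  have hTw : ∀ v b₀ b, Tw v a₀ a b₀ b = g v * (b₀ - ⟪relVel v, b⟫) := fun v b₀ b => by
    have := (en_pos v).ne'
    simp only [Tw, hg]
    congr 1
    rw [relVel_eq, real_inner_smul_left]
    field_simp
  have hs : ContDiff ℝ ∞ fun z : PS => f z * g z.2.2 := hf.mul (hgs.comp (by fun_prop))
  have hv' : VSupp fun z : PS => f z * g z.2.2 := StressB_vs hv _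
  have hr : ∀ i, ContDiff ℝ ∞ fun v => relVel v i := fun i =>
    (EuclideanSpace.proj i : R3 →L[ℝ] ℝ).contDiff.comp contDiff_relVel
  have e1 : (fun q => TT f E B q a₀ a 1 0) =
      fun q => Tf (E q) (B q) a₀ a 1 0 + rho (fun z : PS => f z * g z.2.2) q := by
    funext q
    simp [TT, rho, hTw]
  have e2 : ∀ i : Fin 3, (fun q => TT f E B q a₀ a 0 (EuclideanSpace.single i 1)) =
      fun q => Tf (E q) (B q) a₀ a 0 (EuclideanSpace.single i 1) -
        rho (fun z : PS => f z * g z.2.2 * relVel z.2.2 i) q := fun i => by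
    funext q
    simp [TT, rho, hTw, EuclideanSpace.inner_single_right, integral_neg, sub_eq_add_neg, mul_assoc]
  have d1 := (contDiff_rho hs hv').differentiable (by simp) p
  have d2 : ∀ i, DifferentiableAt ℝ (rho fun z : PS => f z * g z.2.2 * relVel z.2.2 i) p := fun i =>
    (contDiff_rho (h := fun z : PS => f z * g z.2.2 * relVel z.2.2 i)
      (hs.mul ((hr i).comp (by fun_prop))) (StressB_vs hv' _)).differentiable (by simp) p
  have hM := StressB_moment hs hv' hE hB p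
  let Λ : R3 →L[ℝ] ℝ := a₀ • innerSL ℝ (E p) - (innerSL ℝ a).comp (L.flip (B p))
  have hΛ : ∀ u, Λ u = a₀ * ⟪u, E p⟫ - ⟪cross3 u (B p), a⟫ := fun u => by
    simp [Λ, hL, real_inner_comm]
  have i1 : Integrable fun v => f (p.1, p.2, v) • relVel v :=
    integrable_slice (h := fun z => f z • relVel z.2.2)
      (hf.continuous.smul (contDiff_relVel.continuous.comp (by fun_prop)))
      (fun T₁ => (hv T₁).imp fun R hR s y v h1 h2 => by simp only [hR s y v h1 h2, zero_smul]) p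
  have hS : ∫ v, fderiv ℝ (fun z : PS => f z * g z.2.2) (p.1, p.2, v)
      (1, relVel v, lor (E p) (B p) v) = Λ (cur f p) - rho f p * ⟪E p, a⟫ := by
    rw [cur, rho, ← Λ.integral_comp_comm i1, ← integral_mul_const,
      ← integral_sub (Λ.integrable_comp i1) ((integrable_slice hf.continuous hv p).mul_const _)]
    refine integral_congr_ae (.of_forall fun v => ?_)
    have h0 : fderiv ℝ f (p.1, p.2, v) (1, relVel v, lor (E p) (B p) v) = 0 :=
      h.step.vl (p.1, p.2, v) hp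
    beta_reduce
    rw [StressB_mul hf hgs, h0, hgd, map_smul, hΛ]
    simp only [lor, inner_add_left, inner_add_right, inner_cross3_left, smul_eq_mul]
    ring
  obtain ⟨m1, m2, m3, m4⟩ := h.step.mx p hp
  simp only [curl3, div3, StressB_pd hE, StressB_pd hB] at m1 m2 m3 m4
  have hA := StressB_alg (E p) (B p) (cur f p) a (rho f p) a₀
    (fun i => fderiv ℝ E p (0, EuclideanSpace.single i 1))
    (fun i => fderiv ℝ B p (0, EuclideanSpace.single i 1)) m3 m4
  rw [← m1, ← m2] at hA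
  rw [e1, fderiv_fun_add (StressB_fderiv hE hB a₀ a 1 0 p 0).1 d1]
  simp only [e2, fderiv_fun_sub (StressB_fderiv hE hB a₀ a 0 _ p 0).1 (d2 _), _root_.add_apply,
    _root_.sub_apply, (StressB_fderiv hE hB _ _ _ _ _ _).2, Finset.sum_sub_distrib]
  rw [hS, hΛ] at hM
  linarith

end

end Crest.Agent.R106
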