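import Crest.Agent.R106.SliceCV
import Crest.Agent.R106.StressB

/-!
# Row 106: the slice energy along the cones of a characteristic
-/

set_option autoImplicit false
set_option linter.unusedVariables false
set_option linter.unusedSectionVars false

open MeasureTheory Metric Set Filter Topology
open scoped ContDiff ENNReal RealInnerProductSpace
open Crest.AnalysisR.VecCalc3 Crest.AnalysisR.PDE.RVM

noncomputable section

namespace Crest.Agent.R106

theorem Slice_lint {T M 𝓔 : ℝ} {f : PS → ℝ} {E B : ST → R3} (h : Apri T M 𝓔 f E B)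
    (he : Continuous fun p => TT f E B p 1 0 1 0) {a c : ℝ} (ha : 0 ≤ a) (hc : c ≤ T) :
    ∫⁻ p : ST, (Icc a c ×ˢ (univ : Set R3)).indicator
      (fun p => ENNReal.ofReal (TT f E B p 1 0 1 0)) p ≤
      ENNReal.ofReal 𝓔 * ENNReal.ofReal (c - a) := by
  rw [lintegral_indicator (measurableSet_Icc.prod MeasurableSet.univ), Measure.volume_eq_prod,
    ← Measure.prod_restrict, Measure.restrict_univ,
    lintegral_prod _ he.measurable.ennreal_ofReal.aemeasurable]
  calc ∫⁻ s in Icc a c, ∫⁻ y, ENNReal.ofReal (TT f E B (s, y) 1 0 1 0)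
      ≤ ∫⁻ s in Icc a c, ENNReal.ofReal 𝓔 :=
        setLIntegral_mono' measurableSet_Icc fun s hs => h.sl s ⟨ha.trans hs.1, hs.2.trans hc⟩
    _ = ENNReal.ofReal 𝓔 * ENNReal.ofReal (c - a) := by
        rw [setLIntegral_const, Real.volume_Icc]

theorem Slice_fin {e : ST → ℝ} (he : Continuous e) {W : R3} (hW : ‖W‖ ≤ 1) (t r : ℝ) (x : R3) :
    ∫⁻ z, ENNReal.ofReal ((ball (0 : R3) r).indicator (fun z => qq W z * e (cp t x z)) z) < ⊤ := by
  have h1 : Continuous fun z : R3 => e (cp t x z) := he.comp (by unfold cp; fun_prop)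
  obtain ⟨C, hC⟩ := (isCompact_closedBall (0 : R3) r).exists_bound_of_continuousOn h1.continuousOn
  calc ∫⁻ z, ENNReal.ofReal ((ball (0 : R3) r).indicator (fun z => qq W z * e (cp t x z)) z)
      ≤ ∫⁻ z, (ball (0 : R3) r).indicator (fun _ => ENNReal.ofReal (2 * C)) z := by
        refine lintegral_mono fun z => ?_
        by_cases hz : z ∈ ball (0 : R3) r
        · simp only [indicator_of_mem hz]
          refine ENNReal.ofReal_le_ofReal ?_
          have h2 := hC z (ball_subset_closedBall hz)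
          have h3 : 0 ≤ qq W z := ang_nonneg hW (norm_nz_le z)
          have h4 : qq W z ≤ 2 := ang_le_two hW (norm_nz_le z)
          rw [Real.norm_eq_abs] at h2
          calc qq W z * e (cp t x z) ≤ qq W z * |e (cp t x z)| :=
                mul_le_mul_of_nonneg_left (le_abs_self _) h3
            _ ≤ 2 * C := mul_le_mul h4 h2 (abs_nonneg _) zero_le_two
        · simp only [indicator_of_notMem hz, ENNReal.ofReal_zero, le_refl]
    _ < ⊤ := by
        rw [lintegral_indicator_const measurableSet_ball]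
        exact ENNReal.mul_lt_top ENNReal.ofReal_lt_top measure_ball_lt_top

theorem Slice_meas {e : ST → ℝ} (he : Continuous e) {W X : ℝ → R3} (hW : Continuous W)
    (hX : Continuous X) (ρ : ℝ) : Measurable fun t : ℝ => ∫⁻ z, ENNReal.ofReal
      ((ball (0 : R3) (min ρ t)).indicator (fun z => qq (W t) z * e (cp t (X t) z)) z) := by
  have h1 : Measurable fun q : ℝ × R3 => qq (W q.1) q.2 * e (cp q.1 (X q.1) q.2) := by
    refine Measurable.mul ?_ (he.comp (by unfold cp; fun_prop)).measurable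
    exact measurable_const.sub ((hW.measurable.comp measurable_fst).inner
      (measurable_nz.comp measurable_snd))
  have h2 : MeasurableSet {q : ℝ × R3 | ‖q.2‖ < min ρ q.1} :=
    (isOpen_lt (by fun_prop) (by fun_prop)).measurableSet
  have h3 := (h1.indicator h2).ennreal_ofReal.lintegral_prod_right' (ν := volume)
  convert h3 using 4 with t z
  simp only [indicator, mem_ball_zero_iff, mem_ofPred_eq]

theorem Apri.slice {T M 𝓔 : ℝ} {f : PS → ℝ} {E B : ST → R3} (h : Apri T M 𝓔 f E B) (h𝓔 : 0 ≤ 𝓔)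
    {t₁ t₂ ρ : ℝ} (h₀ : 0 ≤ t₁) (h₁₂ : t₁ ≤ t₂) (hT : t₂ ≤ T) (hρ : 0 ≤ ρ) {X V : ℝ → R3}
    (hc : Char E B t₁ t₂ X V) :
    ∃ s : ℝ → ℝ, IntervalIntegrable s volume t₁ t₂ ∧ (∀ t, 0 ≤ s t) ∧
      (∀ t ∈ Icc t₁ t₂, Bd ((ball (0 : R3) (min ρ t)).indicator fun z =>
        qq (relVel (V t)) z * TT f E B (cp t (X t) z) 1 0 1 0) (s t)) ∧
      ∫ t in t₁..t₂, s t ≤ 𝓔 * min t₂ (t₂ - t₁ + ρ) := by
  have he : Continuous fun p => TT f E B p 1 0 1 0 :=
    (contDiff_TT h.sol.step.sf h.sol.step.vf h.sol.step.sE h.sol.step.sB).continuous.comp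
      (f := fun p : ST => (p, ((1 : ℝ), (0 : R3)), ((1 : ℝ), (0 : R3)))) (by fun_prop)
  have hW : Continuous fun t => relVel (V t) := contDiff_relVel.continuous.comp hc.cV
  have hm := Slice_meas he hW hc.cX ρ
  have hf := fun t => Slice_fin he (norm_relVel_lt_one (V t)).le t (min ρ t) (X t)
  set S : ℝ → ℝ≥0∞ := fun t => ∫⁻ z, ENNReal.ofReal ((ball (0 : R3) (min ρ t)).indicator
    (fun z => qq (relVel (V t)) z * TT f E B (cp t (X t) z) 1 0 1 0) z) with hS
  have hu : Measurable ((Icc (max 0 (t₁ - ρ)) t₂ ×ˢ (univ : Set R3)).indicator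
      fun p => ENNReal.ofReal (TT f E B p 1 0 1 0)) :=
    he.measurable.ennreal_ofReal.indicator (measurableSet_Icc.prod MeasurableSet.univ)
  have h1 := (slice_cv hc.cX hW hc.dX (fun t => norm_relVel_lt_one (V t)) hu).trans
    (Slice_lint h he (le_max_left _ _) hT)
  have h2 : ∫⁻ t in Ioo t₁ t₂, S t ≤ ENNReal.ofReal (𝓔 * min t₂ (t₂ - t₁ + ρ)) := by
    have e1 : t₂ - max 0 (t₁ - ρ) = min t₂ (t₂ - t₁ + ρ) := by
      rcases le_total 0 (t₁ - ρ) with h3 | h3
      · rw [max_eq_right h3, min_eq_right (by linarith)]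
        ring
      · rw [max_eq_left h3, min_eq_left (by linarith), sub_zero]
    rw [ENNReal.ofReal_mul h𝓔, ← e1]
    refine le_trans (setLIntegral_mono' measurableSet_Ioo fun t ht => lintegral_mono fun z => ?_) h1
    by_cases hz : z ∈ ball (0 : R3) (min ρ t)
    · have hz' := mem_ball_zero_iff.1 hz
      have h3 : cp t (X t) z ∈ Icc (max 0 (t₁ - ρ)) t₂ ×ˢ (univ : Set R3) := by
        refine ⟨⟨max_le ?_ ?_, ?_⟩, mem_univ _⟩
        · exact sub_nonneg.2 (hz'.le.trans (min_le_right _ _))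
        · exact sub_le_sub ht.1.le (hz'.le.trans (min_le_left _ _))
        · exact (sub_le_self _ (norm_nonneg _)).trans ht.2.le
      simp only [indicator_of_mem hz, indicator_of_mem h3]
      exact (ENNReal.ofReal_mul (ang_nonneg (norm_relVel_lt_one _).le (norm_nz_le z))).le
    · simp only [indicator_of_notMem hz, ENNReal.ofReal_zero, zero_le]
  refine ⟨fun t => (S t).toReal, (intervalIntegrable_iff_integrableOn_Ioo_of_le h₁₂).2
    (integrable_toReal_of_lintegral_ne_top hm.aemeasurable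
      (h2.trans_lt ENNReal.ofReal_lt_top).ne), fun t => ENNReal.toReal_nonneg,
    fun t _ => (ENNReal.ofReal_toReal (hf t).ne).ge, ?_⟩
  rw [intervalIntegral.integral_of_le h₁₂, integral_Ioc_eq_integral_Ioo,
    integral_toReal hm.aemeasurable (.of_forall hf)]
  exact ENNReal.toReal_le_of_le_ofReal
    (mul_nonneg h𝓔 (le_min (h₀.trans h₁₂) (by linarith))) h2

end Crest.Agent.R106
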