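import Crest.Agent.R106.MultId
import Crest.Agent.R106.Slice
import Crest.Agent.R106.Geom

/-!
# Row 106: the (lossy) energy flux through nearly null planes
-/

set_option autoImplicit false
set_option linter.unusedVariables false
set_option linter.unusedSectionVars false

open MeasureTheory Metric Set Filter Topology
open scoped ContDiff ENNReal RealInnerProductSpace
open Crest.AnalysisR.VecCalc3 Crest.AnalysisR.PDE.RVM

noncomputable section

namespace Crest.Agent.R106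

theorem Flux1_sT : ∃ K : ℝ, 0 ≤ K ∧ ∀ x, 0 ≤ deriv Real.smoothTransition x ∧
    deriv Real.smoothTransition x ≤ K ∧ (x ≤ 0 → deriv Real.smoothTransition x = 0) := by
  obtain ⟨K, hK⟩ := (isCompact_Icc (a := (0 : ℝ)) (b := 1)).exists_bound_of_continuousOn
    ((Real.smoothTransition.contDiff (n := 1)).continuous_deriv le_rfl).continuousOn
  have h0 := (norm_nonneg _).trans (hK 0 ⟨le_rfl, zero_le_one⟩)
  have h1 : ∀ x : ℝ, x ≤ 0 → deriv Real.smoothTransition x = 0 := fun x hx =>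
    IsLocalMin.deriv_eq_zero (.of_forall fun y =>
      (Real.smoothTransition.zero_of_nonpos hx).trans_le (Real.smoothTransition.nonneg y))
  refine ⟨K, h0, fun x => ⟨Real.smoothTransition.monotone.deriv_nonneg, ?_, h1 x⟩⟩
  rcases le_total x 0 with h | h
  · exact (h1 x h).trans_le h0
  rcases le_total x 1 with h' | h'
  · exact (le_abs_self _).trans (hK x ⟨h, h'⟩)
  · exact (IsLocalMax.deriv_eq_zero (.of_forall fun y => (Real.smoothTransition.le_one y).trans_eq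
      (Real.smoothTransition.one_of_one_le h').symm)).trans_le h0

/-- the logarithmic weight -/
theorem Flux1_a {η : ℝ} (hη : 0 < η) : ∃ a φ : ℝ → ℝ, ContDiff ℝ ∞ a ∧ Continuous φ ∧
    (∀ l, HasDerivAt a (φ l) l) ∧ (∀ l ≤ η / 2, a l = 0 ∧ φ l = 0) ∧ (∀ l, 0 ≤ a l ∧ 0 ≤ φ l) ∧
    (∀ l, η / 2 ≤ l → φ l ≤ l⁻¹ ∧ a l ≤ Real.log (l / (η / 2))) ∧ ∀ l, η ≤ l → φ l = l⁻¹ := by
  set φ : ℝ → ℝ := fun l => Real.smoothTransition (l / (η / 2) - 1) * l⁻¹ with hφ
  have h2 := half_pos hη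
  have z : ∀ l ≤ η / 2, φ l = 0 := fun l hl => mul_eq_zero_of_left
    (Real.smoothTransition.zero_of_nonpos (sub_nonpos.2 ((div_le_one h2).2 hl))) _
  have sm : ContDiff ℝ ∞ φ := contDiff_iff_contDiffAt.2 fun l => by
    rcases lt_or_ge l (η / 2) with h | h
    · exact contDiffAt_const.congr_of_eventuallyEq
        ((eventually_lt_nhds h).mono fun u hu => z u hu.le)
    · exact (Real.smoothTransition.contDiffAt.comp l (by fun_prop)).mul
        (contDiffAt_inv ℝ (h2.trans_le h).ne')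
  have d : ∀ l, HasDerivAt (fun l => ∫ u in (η / 2)..l, φ u) (φ l) l := fun l =>
    (sm.continuous.integral_hasStrictDerivAt _ l).hasDerivAt
  have z' : ∀ l ≤ η / 2, ∫ u in (η / 2)..l, φ u = 0 := fun l hl =>
    (intervalIntegral.integral_congr (g := fun _ => 0) fun u hu =>
      z u (hu.2.trans (max_le le_rfl hl))).trans intervalIntegral.integral_zero
  have p : ∀ l, 0 ≤ φ l := fun l => (le_total l (η / 2)).elim (fun h => (z l h).ge) fun h =>
    mul_nonneg (Real.smoothTransition.nonneg _) (inv_nonneg.2 (h2.le.trans h))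
  have q : ∀ l, η / 2 ≤ l → φ l ≤ l⁻¹ := fun l h =>
    mul_le_of_le_one_left (inv_nonneg.2 (h2.le.trans h)) (Real.smoothTransition.le_one _)
  refine ⟨_, φ, contDiff_infty_iff_deriv.2 ⟨fun l => (d l).differentiableAt,
    (funext fun l => (d l).deriv).symm ▸ sm⟩, sm.continuous, d, fun l h => ⟨z' l h, z l h⟩,
    fun l => ⟨(le_total l (η / 2)).elim (fun h => (z' l h).ge) fun h =>
      intervalIntegral.integral_nonneg h fun u _ => p u, p l⟩, fun l h => ⟨q l h, ?_⟩,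
    fun l h => ?_⟩
  · rw [← integral_inv_of_pos h2 (h2.trans_le h)]
    exact intervalIntegral.integral_mono_on h (sm.continuous.intervalIntegrable _ _)
      (intervalIntegral.intervalIntegrable_inv (f := id) (fun u hu =>
        (h2.trans_le ((uIcc_of_le h ▸ hu).1)).ne') continuousOn_id) fun u hu => q u hu.1
  · exact (congrArg (· * l⁻¹) (Real.smoothTransition.one_of_one_le
      (le_sub_iff_add_le.2 ((le_div_iff₀ h2).2 (by linarith))))).trans (one_mul _)

/-- integrals over a shell depending on a parameter -/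
theorem Flux1_cont {S : Type} [TopologicalSpace S] {σ ρ : ℝ} (hσ : 0 < σ) {H : S → R3 → R3 → ℝ}
    (hH : Continuous fun p : S × R3 × R3 => H p.1 p.2.1 p.2.2)
    (h0 : ∀ s z n, ‖z‖ ≤ σ ∨ ρ ≤ ‖z‖ → H s z n = 0) :
    (∀ s, Integrable fun z => H s z (nz z)) ∧ Continuous fun s => ∫ z, H s z (nz z) := by
  have e : ∀ s z, H s z (nz z) = H s z ((max ‖z‖ σ)⁻¹ • z) := fun s z => by
    rcases le_total ‖z‖ σ with h | h
    · rw [h0 s z _ (.inl h), h0 s z _ (.inl h)]
    · rw [max_eq_left h, nz]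
  have c : Continuous fun p : S × R3 => H p.1 p.2 ((max ‖p.2‖ σ)⁻¹ • p.2) :=
    hH.comp (f := fun p : S × R3 => (p.1, p.2, (max ‖p.2‖ σ)⁻¹ • p.2)) (continuous_fst.prodMk
      (continuous_snd.prodMk ((Continuous.inv₀ (by fun_prop) fun p =>
        (hσ.trans_le (le_max_right _ _)).ne').smul continuous_snd)))
  have k : ∀ s z, z ∉ closedBall (0 : R3) ρ → H s z ((max ‖z‖ σ)⁻¹ • z) = 0 := fun s z hz =>
    h0 s z _ (.inr (not_le.1 (mt mem_closedBall_zero_iff.2 hz)).le)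
  simp only [e]
  exact ⟨fun s => (c.comp (Continuous.prodMk_right s)).integrable_of_hasCompactSupport
    (.intro (isCompact_closedBall 0 ρ) (k s)), continuousOn_univ.1
      (continuousOn_integral_of_compact_support (isCompact_closedBall 0 ρ) c.continuousOn
        fun s z _ => k s z)⟩

theorem Flux1_le {g : R3 → ℝ} {C : ℝ} (hg : Integrable g) (h : Bd g C) (hC : 0 ≤ C) :
    ∫ z, g z ≤ C := by
  rw [integral_eq_lintegral_pos_part_sub_lintegral_neg_part hg]
  exact (sub_le_self _ ENNReal.toReal_nonneg).trans (ENNReal.toReal_le_of_le_ofReal hC h)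

theorem Flux1_lam {e : R3} (he : ‖e‖ = 1) (z : R3) : lam e z ≤ 2 * ‖z‖ := by
  have := abs_real_inner_le_norm e z
  rw [he, one_mul] at this
  unfold lam
  linarith [neg_abs_le ⟪e, z⟫]

theorem Flux1_inner {e ed : R3} (he : ‖e‖ = 1) (ho : ⟪e, ed⟫ = 0) (z : R3) {Q : ℝ} (hQ : 0 ≤ Q)
    (h : 2 * ‖z‖ * lam e z ≤ Q ^ 2) : |⟪ed, z⟫| ≤ ‖ed‖ * Q := by
  have h1 : ⟪ed, z⟫ = ⟪ed, z - ‖z‖ • e⟫ := by
    rw [inner_sub_right, inner_smul_right, real_inner_comm e, ho, mul_zero, sub_zero]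
  rw [h1]
  refine (abs_real_inner_le_norm _ _).trans (mul_le_mul_of_nonneg_left
    (le_of_sq_le_sq (le_trans (le_of_eq ?_) h) hQ) (norm_nonneg _))
  rw [norm_sub_sq_real, inner_smul_right, norm_smul, he, norm_norm, lam, real_inner_comm]
  ring

/-- the radial cut-off -/
theorem Flux1_b : ∃ K : ℝ, 0 ≤ K ∧ ∀ r₃ : ℝ, 0 < r₃ → ∃ b ψ : ℝ → ℝ, ContDiff ℝ ∞ b ∧ Continuous ψ ∧
    (∀ r, HasDerivAt b (-ψ r) r) ∧ (∀ r, 0 ≤ b r ∧ b r ≤ 1 ∧ 0 ≤ ψ r ∧ ψ r ≤ K / r₃) ∧
    (∀ r ≤ r₃, b r = 1) ∧ ∀ r, 2 * r₃ ≤ r → b r = 0 ∧ ψ r = 0 := by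
  obtain ⟨K, h0, h⟩ := Flux1_sT
  have h1 := Real.smoothTransition.contDiff (n := 1)
  refine ⟨K, h0, fun r₃ hr => ⟨fun r => Real.smoothTransition (2 - r / r₃),
    fun r => deriv Real.smoothTransition (2 - r / r₃) / r₃,
    Real.smoothTransition.contDiff.comp (by fun_prop),
    ((h1.continuous_deriv le_rfl).comp (by fun_prop)).div_const _, fun r => ?_,
    fun r => ⟨Real.smoothTransition.nonneg _, Real.smoothTransition.le_one _,
      div_nonneg (h _).1 hr.le, div_le_div_of_nonneg_right (h _).2.1 hr.le⟩,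
    fun r h2 => Real.smoothTransition.one_of_one_le (by linarith [(div_le_one hr).2 h2]),
    fun r h2 => ?_⟩⟩
  · refine ((h1.differentiable one_ne_zero _).hasDerivAt.comp r
      (((hasDerivAt_id r).div_const r₃).const_sub 2)).congr_deriv ?_
    simp only [id]
    ring
  · have h3 := sub_nonpos.2 ((le_div_iff₀ hr).2 h2)
    exact ⟨Real.smoothTransition.zero_of_nonpos h3, by simp only [(h _).2.2 h3, zero_div]⟩

theorem Flux1_int {S : Type} [TopologicalSpace S] {η ρ : ℝ} (hη : 0 < η) {a φ b ψ : ℝ → ℝ}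
    (ca : Continuous a) (cφ : Continuous φ) (cb : Continuous b) (cψ : Continuous ψ)
    (z0 : ∀ l ≤ η / 2, a l = 0 ∧ φ l = 0) (z1 : ∀ r, ρ ≤ r → b r = 0 ∧ ψ r = 0)
    {U : ST × R3 → ℝ} (cU : Continuous U) {τ : S → ℝ} {x W e ed : S → R3} (cτ : Continuous τ)
    (cx : Continuous x) (cW : Continuous W) (ce : Continuous e) (ced : Continuous ed)
    (he : ∀ s, ‖e s‖ = 1) :
    ((∀ s, Integrable fun z => φ (lam (e s) z) * b ‖z‖ * (qq (W s) z * U (cp (τ s) (x s) z, e s))) ∧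
      Continuous fun s => ∫ z, φ (lam (e s) z) * b ‖z‖ * (qq (W s) z * U (cp (τ s) (x s) z, e s))) ∧
    ∀ s, Integrable fun z => φ (lam (e s) z) * b ‖z‖ *
      ((ang (e s) (W s) - ⟪ed s, z⟫) * U (cp (τ s) (x s) z, nz z) -
        qq (W s) z * U (cp (τ s) (x s) z, e s)) + a (lam (e s) z) * -ψ ‖z‖ *
      (U (cp (τ s) (x s) z, nz z) - qq (W s) z * U (cp (τ s) (x s) z, 0)) := by
  have h0 : ∀ s z, ‖z‖ ≤ η / 4 ∨ ρ ≤ ‖z‖ →
      φ (lam (e s) z) * b ‖z‖ = 0 ∧ a (lam (e s) z) * -ψ ‖z‖ = 0 := fun s z h => by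
    rcases h with h | h
    · have := z0 (lam (e s) z) (by linarith [Flux1_lam (he s) z])
      simp only [this, zero_mul, and_self]
    · simp only [z1 _ h, neg_zero, mul_zero, and_self]
  refine ⟨Flux1_cont (σ := η / 4) (ρ := ρ) (by positivity) (H := fun s z n => φ (lam (e s) z) *
      b ‖z‖ * (ang (W s) n * U (cp (τ s) (x s) z, e s))) ?_ fun s z n h => ?_,
    (Flux1_cont (σ := η / 4) (ρ := ρ) (by positivity) (H := fun s z n => φ (lam (e s) z) * b ‖z‖ *
      ((ang (e s) (W s) - ⟪ed s, z⟫) * U (cp (τ s) (x s) z, n) -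
        ang (W s) n * U (cp (τ s) (x s) z, e s)) + a (lam (e s) z) * -ψ ‖z‖ *
      (U (cp (τ s) (x s) z, n) - ang (W s) n * U (cp (τ s) (x s) z, 0))) ?_
      fun s z n h => ?_).1⟩
  · unfold lam ang cp
    fun_prop
  · simp only [h0 s z h, zero_mul]
  · unfold lam ang cp
    fun_prop
  · simp only [h0 s z h, zero_mul, add_zero]

theorem flux_one : ∃ C : ℝ, 0 ≤ C ∧ ∀ (T M 𝓔 : ℝ) (f : PS → ℝ) (E B : ST → R3),
    Apri T M 𝓔 f E B → 0 ≤ 𝓔 → ∀ (η r₃ t₁ t₂ : ℝ), 0 < η → η ≤ r₃ → 2 * r₃ ≤ t₁ → t₁ ≤ t₂ →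
    t₂ ≤ T → ∀ X V e ed : ℝ → R3, Traj E B t₁ t₂ X V e ed →
    ∃ y : ℝ → ℝ, ContinuousOn y (Icc t₁ t₂) ∧ (∀ t ∈ Icc t₁ t₂, 0 ≤ y t ∧
      Bd ((RE η r₃ (e t)).indicator fun z => qq (relVel (V t)) z / lam (e t) z *
        TT f E B (cp t (X t) z) 1 0 1 (e t)) (y t)) ∧
      ∫ t in t₁..t₂, y t ≤ C * 𝓔 * ((1 + Real.log (r₃ / η)) * (1 + (t₂ - t₁) / r₃) +
        ∫ t in t₁..t₂, (ang (e t) (relVel (V t)) / η + ‖ed t‖ * √(r₃ / η))) := by
  obtain ⟨K, hK, hb⟩ := Flux1_b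
  refine ⟨3 + 6 * K, by positivity,
    fun T M 𝓔 f E B h h𝓔 η r₃ t₁ t₂ hη hr h₁ h₁₂ h₂ X V e ed tr => ?_⟩
  have hr0 := hη.trans_le hr
  obtain ⟨a, φ, sa, cφ, da, z0, p0, q0, o0⟩ := Flux1_a hη
  obtain ⟨b, ψ, sb, cψ, db, p1, o1, z1⟩ := hb r₃ hr0
  obtain ⟨U, hU⟩ : ∃ U : ST × R3 → ℝ, ∀ p n, TT f E B p 1 0 1 n = U (p, n) :=
    ⟨fun q => TT f E B q.1 1 0 1 q.2, fun _ _ => rfl⟩
  have cU : Continuous U := ((contDiff_TT h.sol.step.sf h.sol.step.vf h.sol.step.sE
    h.sol.step.sB).continuous.comp (f := fun q : ST × R3 => (q.1, ((1 : ℝ), (0 : R3)), (1 : ℝ), q.2))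
      (by fun_prop)).congr fun q => hU _ _
  have pU : ∀ t ∈ Icc t₁ t₂, ∀ z n : R3, ‖z‖ < t → ‖n‖ ≤ 1 → 0 ≤ U (cp t (X t) z, n) :=
    fun t ht z n hz hn => hU _ _ ▸ TT_nonneg (fun v => h.f0 _
      ⟨sub_nonneg.2 hz.le, (sub_le_self _ (norm_nonneg z)).trans (ht.2.trans h₂)⟩) (by simp) hn
  have pw : ∀ t z, 0 ≤ qq (relVel (V t)) z := fun t z =>
    ang_nonneg (norm_relVel_lt_one _).le (norm_nz_le z)
  have hD : ∀ p : ℝ × ℝ, fderiv ℝ (fun p : ℝ × ℝ => a p.1 * b p.2) p (1, 0) = φ p.1 * b p.2 ∧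
      fderiv ℝ (fun p : ℝ × ℝ => a p.1 * b p.2) p (0, 1) = a p.1 * -ψ p.2 := fun p => by
    have := (((da p.1).comp_hasFDerivAt p (hasFDerivAt_fst (𝕜 := ℝ))).fun_mul
      ((db p.2).comp_hasFDerivAt p (hasFDerivAt_snd (𝕜 := ℝ)))).fderiv
    simp only [Function.comp] at this
    simp [this, mul_comm]
  obtain ⟨c1, c2⟩ := h.sol.mult_id (G := fun p => a p.1 * b p.2) (by fun_prop) (half_pos hη)
    (fun l r hl => mul_eq_zero_of_left (z0 l hl).1 _)
    (fun l r hl => mul_eq_zero_of_right _ (z1 r hl).1) 0 h₁ h₁₂ h₂ tr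
  have T0 : ∀ p n, TT f E B p 0 0 1 n = 0 := fun p n => by simp [TT, Tf, Tw]
  simp only [zero_smul, hD, hU, T0, mul_zero, add_zero] at c1 c2
  obtain ⟨s, si, s0, sB, sI⟩ := h.slice h𝓔 (ρ := 2 * r₃) (by linarith) h₁₂ h₂ (by positivity) tr.ch
  have cW := contDiff_relVel.continuous.comp tr.ch.cV
  obtain ⟨⟨iY, cY⟩, iI⟩ := Flux1_int (S := Icc t₁ t₂) hη sa.continuous cφ sb.continuous cψ z0 z1 cU
    continuous_subtype_val (tr.ch.cX.comp continuous_subtype_val) (cW.comp continuous_subtype_val)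
    tr.ce.domRestrict tr.ced.domRestrict fun s => tr.e1 s s.2
  have hco := fun t (ht : t ∈ Icc t₁ t₂) => h.co t ⟨by linarith [ht.1], ht.2.trans h₂⟩ (X t)
  simp only [hU] at sB hco ⊢
  set Y : ℝ → R3 → ℝ := fun t z =>
    φ (lam (e t) z) * b ‖z‖ * (qq (relVel (V t)) z * U (cp t (X t) z, e t)) with hY
  set m : ℝ → ℝ := fun t => ang (e t) (relVel (V t)) / η + ‖ed t‖ * √(r₃ / η) with hm
  set L := 1 + Real.log (r₃ / η) with hL
  have L1 : 1 ≤ L := le_add_of_nonneg_right (Real.log_nonneg ((one_le_div hη).2 hr))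
  have hA : ∀ t ∈ Icc t₁ t₂, ∀ z : R3, ‖z‖ < 2 * r₃ → a (lam (e t) z) ≤ 3 * L := fun t ht z hz => by
    rcases le_total (lam (e t) z) (η / 2) with h3 | h3
    · linarith [(z0 _ h3).1]
    · refine (q0 _ h3).2.trans ((Real.log_le_log (div_pos ((half_pos hη).trans_le h3) (half_pos hη))
        (show _ ≤ 2 ^ 3 * (r₃ / η) from ?_)).trans ?_)
      · rw [div_le_iff₀ (half_pos hη)]
        field_simp
        linarith [Flux1_lam (tr.e1 t ht) z]
      · rw [Real.log_mul (by norm_num) (by positivity), Real.log_pow]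
        push_cast
        linarith [Real.log_two_lt_d9]
  have Y0 : ∀ t ∈ Icc t₁ t₂, ∀ z, 0 ≤ Y t z := fun t ht z => by
    rcases lt_or_ge ‖z‖ (2 * r₃) with hz | hz
    · exact mul_nonneg (mul_nonneg (p0 _).2 (p1 _).1)
        (mul_nonneg (pw t z) (pU t ht z _ (by linarith [ht.1]) (tr.e1 t ht).le))
    · simp only [hY, z1 _ hz, mul_zero, zero_mul, le_refl]
  have μ0 : ∀ t ∈ Icc t₁ t₂, 0 ≤ ang (e t) (relVel (V t)) := fun t ht =>
    ang_nonneg (tr.e1 t ht).le (norm_relVel_lt_one _).le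
  have m0 : ∀ t ∈ Icc t₁ t₂, 0 ≤ m t := fun t ht =>
    add_nonneg (div_nonneg (μ0 t ht) hη.le) (by positivity)
  have cy : ContinuousOn (fun t => ∫ z, Y t z) (Icc t₁ t₂) :=
    continuousOn_iff_continuous_domRestrict.2 cY
  have cm : ContinuousOn m (Icc t₁ t₂) :=
    ((continuousOn_const.sub (tr.ce.inner cW.continuousOn)).div_const _).add
      (tr.ced.norm.mul continuousOn_const)
  have c0 : ∀ t ∈ Icc t₁ t₂, ∀ z, 0 ≤ (ball (0 : R3) t).indicator
      (fun z => U (cp t (X t) z, nz z)) z := fun t ht z => indicator_nonneg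
    (fun z hz => pU t ht z _ (mem_ball_zero_iff.1 hz) (norm_nz_le z)) z
  refine ⟨_, cy, fun t ht => ⟨integral_nonneg (Y0 t ht),
    (Bd.of_integrable (iY ⟨t, ht⟩) (.of_forall (Y0 t ht)) le_rfl).mono (.of_forall fun z =>
      indicator_apply_le' (fun hz => le_of_eq ?_) fun _ => Y0 t ht z) le_rfl⟩, ?_⟩
  · change _ = Y t z
    simp only [hY, o0 _ hz.1, o1 _ hz.2]
    ring
  have i1 := cy.intervalIntegrable_of_Icc (μ := volume) h₁₂
  have i2 := (cm.intervalIntegrable_of_Icc (μ := volume) h₁₂).const_mul (3 * 𝓔)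
  have i3 := si.const_mul (3 * L * (K / r₃))
  have key := intervalIntegral.sub_le_integral_of_hasDeriv_right_of_le h₁₂ c1
    (fun t ht => (c2 t ht).hasDerivWithinAt)
    ((intervalIntegrable_iff_integrableOn_Icc_of_le h₁₂).1 ((i2.add i3).sub i1)) fun t ht' => by
      have ht := Ioo_subset_Icc_self ht'
      have hc : 0 ≤ 3 * L * (K / r₃) := by positivity
      refine le_sub_iff_add_le.2 ((integral_add (iI ⟨t, ht⟩) (iY ⟨t, ht⟩)).ge.trans
        (Flux1_le ((iI ⟨t, ht⟩).add (iY ⟨t, ht⟩)) ((((hco t ht).const_mul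
          (mul_nonneg zero_le_three (m0 t ht))).add ((sB t ht).const_mul hc)
          (((cU.measurable.comp ((by unfold cp; fun_prop : Measurable (cp t (X t))).prodMk
            measurable_nz)).indicator measurableSet_ball).const_mul _).aemeasurable
          (mul_nonneg (mul_nonneg zero_le_three (m0 t ht)) h𝓔) (mul_nonneg hc (s0 t))).mono
          (.of_forall fun z => ?_) (le_of_eq (by ring)))
          (add_nonneg (mul_nonneg (by positivity) (m0 t ht)) (mul_nonneg hc (s0 t)))))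
      change φ (lam (e t) z) * b ‖z‖ * ((ang (e t) (relVel (V t)) - ⟪ed t, z⟫) *
        U (cp t (X t) z, nz z) - qq (relVel (V t)) z * U (cp t (X t) z, e t)) +
        a (lam (e t) z) * -ψ ‖z‖ * (U (cp t (X t) z, nz z) -
          qq (relVel (V t)) z * U (cp t (X t) z, 0)) + Y t z ≤ _
      rcases lt_or_ge ‖z‖ (2 * r₃) with hz | hz
      · have hz' : ‖z‖ < t := by linarith [ht.1]
        have a1 := pU t ht z _ hz' (norm_nz_le z)
        have a2 := mul_nonneg (pw t z) (pU t ht z 0 hz' (by simp))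
        have a3 : φ (lam (e t) z) * (ang (e t) (relVel (V t)) - ⟪ed t, z⟫) ≤ 3 * m t := by
          rcases le_total (lam (e t) z) (η / 2) with h3 | h3
          · rw [(z0 _ h3).2, zero_mul]
            linarith [m0 t ht]
          · have b0 := (half_pos hη).trans_le h3
            have b1 := Flux1_inner (tr.e1 t ht) (tr.orth t ht) z
              (Q := lam (e t) z * (3 * √(r₃ / η))) (by positivity) (by
                rw [mul_pow, mul_pow, Real.sq_sqrt (by positivity), sq, mul_comm, mul_assoc]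
                refine mul_le_mul_of_nonneg_left ?_ b0.le
                rw [← mul_div_assoc, ← mul_div_assoc, le_div_iff₀ hη]
                nlinarith)
            have b2 : (lam (e t) z)⁻¹ ≤ (η / 2)⁻¹ := inv_anti₀ (half_pos hη) h3
            calc _ ≤ (lam (e t) z)⁻¹ * (ang (e t) (relVel (V t)) +
                    ‖ed t‖ * (lam (e t) z * (3 * √(r₃ / η)))) :=
                  (mul_le_mul_of_nonneg_left (by linarith [neg_abs_le ⟪ed t, z⟫]) (p0 _).2).trans
                    (mul_le_mul_of_nonneg_right (q0 _ h3).1 (add_nonneg (μ0 t ht) (by positivity)))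
              _ = (lam (e t) z)⁻¹ * ang (e t) (relVel (V t)) + 3 * (‖ed t‖ * √(r₃ / η)) := by
                  field_simp
              _ ≤ _ := by
                  have b3 := mul_le_mul_of_nonneg_right b2 (μ0 t ht)
                  have b4 := div_nonneg (μ0 t ht) hη.le
                  rw [inv_div, div_mul_eq_mul_div, mul_div_assoc] at b3
                  simp only [hm]
                  linarith
        have a4 := (mul_le_mul_of_nonneg_left a3 (p1 ‖z‖).1).trans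
          (mul_le_of_le_one_left (mul_nonneg zero_le_three (m0 t ht)) (p1 ‖z‖).2.1)
        rw [indicator_of_mem (mem_ball_zero_iff.2 hz'),
          indicator_of_mem (mem_ball_zero_iff.2 (lt_min hz hz'))]
        simp only [hY]
        linarith [mul_le_mul_of_nonneg_right a4 a1, mul_nonneg (mul_nonneg (p0 (lam (e t) z)).1
          (p1 ‖z‖).2.2.1) a1, mul_le_mul_of_nonneg_right (mul_le_mul (hA t ht z hz) (p1 ‖z‖).2.2.2
            (p1 ‖z‖).2.2.1 (by positivity)) a2]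
      · simp only [hY, z1 _ hz, neg_zero, mul_zero, zero_mul, add_zero]
        exact add_nonneg (mul_nonneg (mul_nonneg zero_le_three (m0 t ht)) (c0 t ht z))
          (mul_nonneg hc (indicator_nonneg (fun z hz => mul_nonneg (pw t z) (pU t ht z 0
            ((mem_ball_zero_iff.1 hz).trans_le (min_le_right _ _)) (by simp))) z))
  have hΦ : ∀ t ∈ Icc t₁ t₂, ∀ z, 0 ≤ a (lam (e t) z) * b ‖z‖ * U (cp t (X t) z, nz z) ∧
      a (lam (e t) z) * b ‖z‖ * U (cp t (X t) z, nz z) ≤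
        3 * L * (ball (0 : R3) t).indicator (fun z => U (cp t (X t) z, nz z)) z := fun t ht z => by
    rcases lt_or_ge ‖z‖ (2 * r₃) with hz | hz
    · have hz' : ‖z‖ < t := by linarith [ht.1]
      have a1 := pU t ht z _ hz' (norm_nz_le z)
      rw [indicator_of_mem (mem_ball_zero_iff.2 hz')]
      exact ⟨mul_nonneg (mul_nonneg (p0 _).1 (p1 _).1) a1, mul_le_mul_of_nonneg_right
        ((mul_le_of_le_one_right (p0 _).1 (p1 _).2.1).trans (hA t ht z hz)) a1⟩
    · simp only [z1 _ hz, mul_zero, zero_mul, le_refl, true_and]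
      exact mul_nonneg (by positivity) (c0 t ht z)
  have k1 : 0 ≤ ∫ z, a (lam (e t₂) z) * b ‖z‖ * U (cp t₂ (X t₂) z, nz z) :=
    integral_nonneg fun z => (hΦ t₂ ⟨h₁₂, le_rfl⟩ z).1
  have k2 : ∫ z, a (lam (e t₁) z) * b ‖z‖ * U (cp t₁ (X t₁) z, nz z) ≤ 3 * L * 𝓔 :=
    (Real.le_norm_self _).trans (((hco t₁ ⟨le_rfl, h₁₂⟩).const_mul (show 0 ≤ 3 * L by positivity)).norm_integral_le (by positivity) (.of_forall fun z =>
      (abs_of_nonneg (hΦ t₁ ⟨le_rfl, h₁₂⟩ z).1).trans_le (hΦ t₁ ⟨le_rfl, h₁₂⟩ z).2))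
  have k3 := mul_le_mul_of_nonneg_left (sI.trans (mul_le_mul_of_nonneg_left (min_le_right _ _) h𝓔))
    (show 0 ≤ 3 * L * (K / r₃) by positivity)
  have k4 : 0 ≤ ∫ t in t₁..t₂, m t := intervalIntegral.integral_nonneg h₁₂ m0
  have k5 : 0 ≤ (t₂ - t₁) / r₃ := div_nonneg (sub_nonneg.2 h₁₂) hr0.le
  rw [intervalIntegral.integral_sub (i2.add i3) i1, intervalIntegral.integral_add i2 i3,
    intervalIntegral.integral_const_mul, intervalIntegral.integral_const_mul] at key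
  rw [show 3 * L * (K / r₃) * (𝓔 * (t₂ - t₁ + 2 * r₃)) =
    3 * L * K * 𝓔 * ((t₂ - t₁) / r₃ + 2) by field_simp] at k3
  have k6 : 0 ≤ L * 𝓔 * ((t₂ - t₁) / r₃) := by positivity
  linarith [mul_nonneg hK k6, mul_nonneg hK (mul_nonneg h𝓔 k4)]

end Crest.Agent.R106
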