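import Crest.Agent.R106.Defs

/-!
# Row 106: the cut-off function and the algebra of the null flux estimate
-/

set_option autoImplicit false
set_option linter.unusedVariables false

open MeasureTheory Metric Set Filter Topology
open scoped ContDiff

noncomputable section

namespace Crest.Agent.R106

theorem flux2_sT_zero {x : ℝ} (h : x < 0 ∨ 1 < x) : deriv Real.smoothTransition x = 0 := by
  rcases h with h | h
  · have : Real.smoothTransition =ᶠ[𝓝 x] fun _ => 0 := by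
      filter_upwards [gt_mem_nhds h] with y hy using Real.smoothTransition.zero_of_nonpos hy.le
    rw [this.deriv_eq, deriv_const]
  · have : Real.smoothTransition =ᶠ[𝓝 x] fun _ => 1 := by
      filter_upwards [lt_mem_nhds h] with y hy using Real.smoothTransition.one_of_one_le hy.le
    rw [this.deriv_eq, deriv_const]

theorem flux2_sT : ∃ K : ℝ, 1 ≤ K ∧ ∀ x, 0 ≤ deriv Real.smoothTransition x ∧
    deriv Real.smoothTransition x ≤ K := by
  have hc : Continuous (deriv Real.smoothTransition) :=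
    (Real.smoothTransition.contDiff (n := 1)).continuous_deriv le_rfl
  obtain ⟨K, hK⟩ := isCompact_Icc.exists_bound_of_continuousOn (hc.continuousOn (s := Icc 0 1))
  refine ⟨max K 1, le_max_right _ _, fun x => ⟨Real.smoothTransition.monotone.deriv_nonneg, ?_⟩⟩
  by_cases hx : x ∈ Icc (0 : ℝ) 1
  · exact ((le_abs_self _).trans (hK x hx)).trans (le_max_left _ _)
  · rw [flux2_sT_zero (by simpa [or_iff_not_imp_left] using hx)]
    exact zero_le_one.trans (le_max_right _ _)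

/-- the properties of the cut-off function -/
structure Flux2G (K η τ : ℝ) (G : ℝ × ℝ → ℝ) : Prop where
  sm : ContDiff ℝ ∞ G
  z₁ : ∀ l r, l ≤ η / 3 → G (l, r) = 0
  z₂ : ∀ l r, 4 * τ ≤ r → G (l, r) = 0
  z₃ : ∀ l r, (l < η / 3 ∨ 3 / 2 * τ * l < r ^ 2) → G (l, r) = 0 ∧ fderiv ℝ G (l, r) = 0
  bd : ∀ l r L, η / 3 ≤ l → 0 ≤ r → Real.log (3 * l / η) ≤ L →
    0 ≤ G (l, r) ∧ G (l, r) ≤ L ∧ 0 ≤ fderiv ℝ G (l, r) (1, 0) ∧
      fderiv ℝ G (l, r) (1, 0) * l ≤ K * (1 + L) ∧ fderiv ℝ G (l, r) (0, 1) ≤ 0 ∧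
      -fderiv ℝ G (l, r) (0, 1) ≤ K * L * (r / (τ * l) + 1 / τ)
  lo : ∀ l r, η ≤ l → r ^ 2 ≤ τ * l → r ≤ 3 * τ → 1 / l ≤ fderiv ℝ G (l, r) (1, 0)

theorem flux2_fst {G : ℝ × ℝ → ℝ} (hG : ContDiff ℝ ∞ G) {l r d : ℝ}
    (h : HasDerivAt (fun l => G (l, r)) d l) : fderiv ℝ G (l, r) (1, 0) = d :=
  (((hG.differentiable (by simp)) (l, r)).hasFDerivAt.comp_hasDerivAt l
    ((hasDerivAt_id l).prodMk (hasDerivAt_const l r))).unique h

theorem flux2_snd {G : ℝ × ℝ → ℝ} (hG : ContDiff ℝ ∞ G) {l r d : ℝ}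
    (h : HasDerivAt (fun r => G (l, r)) d r) : fderiv ℝ G (l, r) (0, 1) = d :=
  (((hG.differentiable (by simp)) (l, r)).hasFDerivAt.comp_hasDerivAt r
    ((hasDerivAt_const r l).prodMk (hasDerivAt_id r))).unique h

theorem flux2_G : ∃ K : ℝ, 1 ≤ K ∧ ∀ η τ : ℝ, 0 < η → 0 < τ → ∃ G, Flux2G K η τ G := by
  obtain ⟨K, hK, hs⟩ := flux2_sT
  refine ⟨5 * K, by linarith, fun η τ hη hτ => ?_⟩
  set σ := Real.smoothTransition with hσ
  have hd : ∀ x, HasDerivAt σ (deriv σ x) x := fun x =>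
    ((Real.smoothTransition.contDiff (n := 1)).differentiable one_ne_zero x).hasDerivAt
  have σ0 : ∀ x, 0 ≤ σ x := Real.smoothTransition.nonneg
  have σ1 : ∀ x, σ x ≤ 1 := Real.smoothTransition.le_one
  let G : ℝ × ℝ → ℝ := fun p => σ (3 * p.1 / η - 1) * Real.log (3 * p.1 / η) *
    σ (3 - 2 * (p.2 ^ 2 / (τ * p.1))) * σ (4 - p.2 / τ)
  have z₁ : ∀ l r, l ≤ η / 3 → G (l, r) = 0 := by
    intro l r h
    have : σ (3 * l / η - 1) = 0 := Real.smoothTransition.zero_of_nonpos (by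
      rw [sub_nonpos, div_le_one hη]; linarith)
    simp only [G, this, zero_mul]
  have z₃ : ∀ p : ℝ × ℝ, (p.1 < η / 3 ∨ 3 / 2 * τ * p.1 < p.2 ^ 2) → G p = 0 := by
    rintro ⟨l, r⟩ h
    by_cases hl : l ≤ η / 3
    · exact z₁ l r hl
    · have h' : 3 / 2 * τ * l < r ^ 2 := h.resolve_left fun h => hl h.le
      have hl0 : 0 < τ * l := mul_pos hτ (by linarith)
      have : σ (3 - 2 * (r ^ 2 / (τ * l))) = 0 := Real.smoothTransition.zero_of_nonpos (by
        have : 3 / 2 ≤ r ^ 2 / (τ * l) := by rw [le_div_iff₀ hl0]; linarith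
        linarith)
      simp only [G, this, mul_zero, zero_mul]
  have sm : ContDiff ℝ ∞ G := by
    rw [contDiff_iff_contDiffAt]
    intro p
    by_cases hp : 0 < p.1
    · have h1 : 3 * p.1 / η ≠ 0 := by positivity
      have h2 : τ * p.1 ≠ 0 := by positivity
      have hσ' : ContDiff ℝ ∞ σ := Real.smoothTransition.contDiff
      refine (((hσ'.contDiffAt.comp p ?_).mul (ContDiffAt.log ?_ h1)).mul
        (hσ'.contDiffAt.comp p ?_)).mul (hσ'.contDiffAt.comp p ?_)
      · fun_prop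
      · fun_prop
      · exact contDiffAt_const.sub (contDiffAt_const.mul
          (ContDiffAt.div (by fun_prop) (by fun_prop) h2))
      · fun_prop
    · refine (contDiffAt_const (c := (0 : ℝ))).congr_of_eventuallyEq ?_
      have : ∀ᶠ q : ℝ × ℝ in 𝓝 p, q.1 < η / 3 :=
        continuous_fst.continuousAt.eventually (gt_mem_nhds (by linarith))
      filter_upwards [this] with q hq using z₁ q.1 q.2 hq.le
  have dl : ∀ l r, 0 < l → fderiv ℝ G (l, r) (1, 0) =
      ((deriv σ (3 * l / η - 1) * (3 / η) * Real.log (3 * l / η) + σ (3 * l / η - 1) * (1 / l)) *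
        σ (3 - 2 * (r ^ 2 / (τ * l))) + σ (3 * l / η - 1) * Real.log (3 * l / η) *
          (deriv σ (3 - 2 * (r ^ 2 / (τ * l))) * (2 * (r ^ 2 / (τ * l)) / l))) *
        σ (4 - r / τ) := by
    intro l r hl
    have h1 : HasDerivAt (fun l : ℝ => 3 * l / η) (3 / η) l := by
      simpa using ((hasDerivAt_id l).const_mul 3).div_const η
    have h2 : HasDerivAt (fun l : ℝ => Real.log (3 * l / η)) (1 / l) l := by
      convert h1.log (by positivity) using 1
      field_simp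
    have h3 : HasDerivAt (fun l : ℝ => 3 - 2 * (r ^ 2 / (τ * l))) (2 * (r ^ 2 / (τ * l)) / l) l := by
      refine ((((hasDerivAt_const l (r ^ 2)).fun_div ((hasDerivAt_id' l).const_mul τ)
        (by positivity)).const_mul 2).const_sub 3).congr_deriv ?_
      field_simp
      ring
    exact flux2_fst sm (((((hd _).comp l (h1.sub_const 1)).mul h2).mul
      ((hd _).comp l h3)).mul_const (σ (4 - r / τ)))
  have dr : ∀ l r, fderiv ℝ G (l, r) (0, 1) =
      σ (3 * l / η - 1) * Real.log (3 * l / η) *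
        (deriv σ (3 - 2 * (r ^ 2 / (τ * l))) * (-(4 * (r / (τ * l))))) * σ (4 - r / τ) +
      σ (3 * l / η - 1) * Real.log (3 * l / η) * σ (3 - 2 * (r ^ 2 / (τ * l))) *
        (deriv σ (4 - r / τ) * (-(1 / τ))) := by
    intro l r
    have h3 : HasDerivAt (fun r : ℝ => 3 - 2 * (r ^ 2 / (τ * l))) (-(4 * (r / (τ * l)))) r := by
      refine ((((hasDerivAt_pow 2 r).div_const (τ * l)).const_mul 2).const_sub 3).congr_deriv ?_
      push_cast
      ring
    have h4 : HasDerivAt (fun r : ℝ => 4 - r / τ) (-(1 / τ)) r :=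
      ((hasDerivAt_id r).div_const τ).const_sub 4
    exact flux2_snd sm ((((hd _).comp r h3).const_mul
      (σ (3 * l / η - 1) * Real.log (3 * l / η))).mul ((hd _).comp r h4))
  refine ⟨G, sm, z₁, fun l r h => ?_, fun l r h => ⟨z₃ _ h, ?_⟩, fun l r L hl hr hL => ?_,
    fun l r hl hr hr' => ?_⟩
  · have : σ (4 - r / τ) = 0 := Real.smoothTransition.zero_of_nonpos (by
      rw [sub_nonpos, le_div_iff₀ hτ]; exact h)
    simp only [G, this, mul_zero]
  · have ho : IsOpen {p : ℝ × ℝ | p.1 < η / 3 ∨ 3 / 2 * τ * p.1 < p.2 ^ 2} :=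
      (isOpen_lt continuous_fst continuous_const).union
        (isOpen_lt (f := fun p : ℝ × ℝ => 3 / 2 * τ * p.1) (g := fun p : ℝ × ℝ => p.2 ^ 2)
          (by fun_prop) (by fun_prop))
    have : G =ᶠ[𝓝 (l, r)] fun _ => 0 := by
      filter_upwards [ho.mem_nhds (show (l, r) ∈ _ from h)] with q hq using z₃ q hq
    rw [this.fderiv_eq, fderiv_fun_const]
    rfl
  · have hl0 : 0 < l := by linarith
    have hu : 1 ≤ 3 * l / η := by rw [le_div_iff₀ hη]; linarith
    have hlog : 0 ≤ Real.log (3 * l / η) := Real.log_nonneg hu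
    have hL0 : 0 ≤ L := hlog.trans hL
    rw [dl l r hl0, dr l r]
    simp only [G]
    have hx : 0 ≤ r ^ 2 / (τ * l) := by positivity
    have hy : 0 ≤ r / (τ * l) := by positivity
    have a1 : deriv σ (3 * l / η - 1) * (3 * l / η) ≤ 2 * K := by
      by_cases h : 3 * l / η ≤ 2
      · rw [mul_comm]
        exact mul_le_mul h (hs _).2 (hs _).1 (by norm_num)
      · rw [flux2_sT_zero (Or.inr (by linarith))]
        linarith
    have a2 : deriv σ (3 - 2 * (r ^ 2 / (τ * l))) * (2 * (r ^ 2 / (τ * l))) ≤ 3 * K := by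
      by_cases h : 2 * (r ^ 2 / (τ * l)) ≤ 3
      · rw [mul_comm]
        exact mul_le_mul h (hs _).2 (hs _).1 (by norm_num)
      · rw [flux2_sT_zero (Or.inl (by linarith))]
        linarith
    have b1 := σ0 (3 * l / η - 1)
    have b1' := σ1 (3 * l / η - 1)
    have b2 := σ0 (3 - 2 * (r ^ 2 / (τ * l)))
    have b2' := σ1 (3 - 2 * (r ^ 2 / (τ * l)))
    have b3 := σ0 (4 - r / τ)
    have b3' := σ1 (4 - r / τ)
    have c1 := hs (3 * l / η - 1)
    have c2 := hs (3 - 2 * (r ^ 2 / (τ * l)))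
    have c3 := hs (4 - r / τ)
    generalize σ (3 * l / η - 1) = s₁ at *
    generalize σ (3 - 2 * (r ^ 2 / (τ * l))) = s₂ at *
    generalize σ (4 - r / τ) = s₃ at *
    generalize deriv σ (3 * l / η - 1) = d₁ at *
    generalize deriv σ (3 - 2 * (r ^ 2 / (τ * l))) = d₂ at *
    generalize deriv σ (4 - r / τ) = d₃ at *
    generalize Real.log (3 * l / η) = g at *
    generalize r ^ 2 / (τ * l) = x at *
    generalize r / (τ * l) = y at *
    obtain ⟨c1, c1'⟩ := c1
    obtain ⟨c2, c2'⟩ := c2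
    obtain ⟨c3, c3'⟩ := c3
    have e1 : s₁ * g ≤ L := (mul_le_of_le_one_left hlog b1').trans hL
    have e0 : 0 ≤ s₁ * g := by positivity
    refine ⟨by positivity, ?_, by positivity, ?_, ?_, ?_⟩
    · exact (mul_le_of_le_one_right (by positivity) b3').trans
        ((mul_le_of_le_one_right e0 b2').trans e1)
    · have : ((d₁ * (3 / η) * g + s₁ * (1 / l)) * s₂ + s₁ * g * (d₂ * (2 * x / l))) * s₃ * l =
          ((d₁ * (3 * l / η) * g + s₁) * s₂ + s₁ * g * (d₂ * (2 * x))) * s₃ := by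
        field_simp
      rw [this]
      have f1 : d₁ * (3 * l / η) * g ≤ 2 * K * L :=
        mul_le_mul a1 hL hlog (by linarith)
      have f2 : s₁ * g * (d₂ * (2 * x)) ≤ L * (3 * K) :=
        mul_le_mul e1 a2 (by positivity) hL0
      have f3 : (d₁ * (3 * l / η) * g + s₁) * s₂ ≤ d₁ * (3 * l / η) * g + s₁ :=
        mul_le_of_le_one_right (by positivity) b2'
      refine (mul_le_of_le_one_right (by positivity) b3').trans ?_
      nlinarith
    · have f1 : 0 ≤ s₁ * g * (d₂ * (4 * y)) * s₃ := by positivity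
      have f2 : 0 ≤ s₁ * g * s₂ * (d₃ * (1 / τ)) := by positivity
      linarith
    · have f1 : s₁ * g * (d₂ * (4 * y)) * s₃ ≤ L * (K * (4 * y)) :=
        (mul_le_of_le_one_right (by positivity) b3').trans
          (mul_le_mul e1 (by gcongr) (by positivity) hL0)
      have f2 : s₁ * g * s₂ * (d₃ * (1 / τ)) ≤ L * (K * (1 / τ)) :=
        mul_le_mul ((mul_le_of_le_one_right e0 b2').trans e1) (by gcongr) (by positivity) hL0
      have f3 : 0 ≤ L * (K * y) := by positivity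
      have f4 : 0 ≤ L * (K * (1 / τ)) := by positivity
      linarith
  · have hl0 : 0 < l := by linarith
    have hu : 3 ≤ 3 * l / η := by rw [le_div_iff₀ hη]; linarith
    have hlog : 0 ≤ Real.log (3 * l / η) := Real.log_nonneg (by linarith)
    have e1 : σ (3 * l / η - 1) = 1 := Real.smoothTransition.one_of_one_le (by linarith)
    have e2 : σ (3 - 2 * (r ^ 2 / (τ * l))) = 1 := Real.smoothTransition.one_of_one_le (by
      have : r ^ 2 / (τ * l) ≤ 1 := by rw [div_le_one (by positivity)]; exact hr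
      linarith)
    have e3 : σ (4 - r / τ) = 1 := Real.smoothTransition.one_of_one_le (by
      have : r / τ ≤ 3 := by rw [div_le_iff₀ hτ]; exact hr'
      linarith)
    rw [dl l r hl0, e1, e2, e3]
    have c1 := (hs (3 * l / η - 1)).1
    have c2 := (hs (3 - 2 * (r ^ 2 / (τ * l)))).1
    have f1 : 0 ≤ deriv σ (3 * l / η - 1) * (3 / η) * Real.log (3 * l / η) := by positivity
    have f2 : 0 ≤ 1 * Real.log (3 * l / η) *
        (deriv σ (3 - 2 * (r ^ 2 / (τ * l))) * (2 * (r ^ 2 / (τ * l)) / l)) := by positivity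
    linarith

theorem flux2_young {s m a b κ : ℝ} (hm : 0 ≤ m) (ha : m ≤ a) (hb : m ≤ b) (hκ : 0 < κ) :
    s * m ≤ κ * b + s ^ 2 * a / κ := by
  have h1 : 0 ≤ s ^ 2 * a / κ := by have := hm.trans ha; positivity
  have h2 : 0 ≤ κ * b := by have := hm.trans hb; positivity
  by_cases h : s ≤ κ
  · have : s * m ≤ κ * b := mul_le_mul h hb hm hκ.le
    linarith
  · have h3 : s * m ≤ s ^ 2 * a / κ := by
      rw [le_div_iff₀ hκ]
      have h4 : 0 ≤ s := by linarith
      have h5 := hm.trans ha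
      calc s * m * κ ≤ s * a * s := by gcongr; linarith
        _ = s ^ 2 * a := by ring
    linarith

/-- the pointwise inequality -/
theorem flux2_alg {r q w μ s A τ Λ d g Gr G Tll Tln Tl0 c e₀ Td : ℝ} (hr : 0 < r) (hq : 0 < q)
    (hτ : 0 < τ) (hw1 : q / 2 ≤ w) (hw2 : w ≤ 2 * q) (hμ0 : 0 ≤ μ) (hμ1 : μ ≤ q / 64)
    (hμ2 : μ ≤ d) (hs : s ^ 2 ≤ 2 * r ^ 2 * q * A ^ 2) (hrq : r ≤ 3 / 2 * τ * q)
    (hg0 : 0 ≤ g) (hg : g * (r * q) ≤ Λ) (hGr0 : Gr ≤ 0) (hGr : -Gr ≤ Λ * (3 / (τ * q)))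
    (hG0 : 0 ≤ G) (hG : G ≤ Λ) (hA : 0 ≤ A) (t1 : 0 ≤ Tll) (t2 : 0 ≤ Tln) (t3 : 0 ≤ Tl0)
    (t4 : 0 ≤ c) (t5 : 0 ≤ e₀) (f1 : Tln ≤ 2 * c) (f2 : Tln ≤ 2 * Tll + 2 * q * Tl0)
    (f3 : Tl0 ≤ 2 * c + 2 * q * e₀) (f4 : Td ≤ A * c) :
    g * ((μ + s) * Tln - w * Tll) + Gr * (Tln - w * Tl0) + G * Td + 1 / 2 * (g * w * Tll) ≤
      197 * Λ * (τ * A ^ 2) * c + 17 * Λ / τ * c + 14 * Λ / τ * (w * e₀) +
        2 * d * (g * q * Tl0) := by
  have hw : 0 < w := by linarith
  have hΛ : 0 ≤ Λ := hG0.trans hG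
  have hd : 0 ≤ d := hμ0.trans hμ2
  -- the `μ` term
  have k1 : g * (μ * Tln) ≤ 1 / 16 * (g * w * Tll) + 2 * d * (g * q * Tl0) := by
    have a1 : μ * Tln ≤ μ * (2 * Tll + 2 * q * Tl0) := by gcongr
    have a2 : μ * (2 * Tll) ≤ w / 32 * (2 * Tll) := by gcongr; linarith
    have a3 : μ * (2 * q * Tl0) ≤ d * (2 * q * Tl0) := by gcongr
    calc g * (μ * Tln) ≤ g * (w / 32 * (2 * Tll) + d * (2 * q * Tl0)) := by
          gcongr; linarith
      _ = _ := by ring
  -- the rotation term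
  have hm : 0 ≤ min Tln (2 * Tll) := le_min t2 (by positivity)
  have k2 : g * (s * min Tln (2 * Tll)) ≤ 1 / 8 * (g * w * Tll) + 192 * Λ * (τ * A ^ 2) * c := by
    have a1 := flux2_young (s := s) hm ((min_le_left _ _).trans f1) (min_le_right _ _)
      (κ := w / 16) (by positivity)
    have a2 : s ^ 2 * (2 * c) / (w / 16) ≤ 128 * r ^ 2 * A ^ 2 * c := by
      rw [div_le_iff₀ (by positivity)]
      calc s ^ 2 * (2 * c) ≤ 2 * r ^ 2 * q * A ^ 2 * (2 * c) := by gcongr
        _ ≤ 2 * r ^ 2 * (2 * w) * A ^ 2 * (2 * c) := by gcongr; linarith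
        _ = _ := by ring
    have a3 : g * r ^ 2 ≤ Λ * (3 / 2 * τ) := by
      calc g * r ^ 2 = g * r * r := by ring
        _ ≤ g * r * (3 / 2 * τ * q) := by gcongr
        _ = g * (r * q) * (3 / 2 * τ) := by ring
        _ ≤ _ := by gcongr
    calc g * (s * min Tln (2 * Tll)) ≤ g * (w / 16 * (2 * Tll) + 128 * r ^ 2 * A ^ 2 * c) := by
          gcongr; linarith
      _ = 1 / 8 * (g * w * Tll) + 128 * (g * r ^ 2) * A ^ 2 * c := by ring
      _ ≤ 1 / 8 * (g * w * Tll) + 128 * (Λ * (3 / 2 * τ)) * A ^ 2 * c := by gcongr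
      _ = _ := by ring
  have k3 : g * (s * (Tln - min Tln (2 * Tll))) ≤
      4 * Λ / τ * c + 8 * Λ / τ * (w * e₀) + 4 * Λ * (τ * A ^ 2) * c := by
    have b1 : Tln - min Tln (2 * Tll) ≤ q * (4 * c + 8 * (w * e₀)) := by
      have b2 : q * Tl0 ≤ q * (2 * c + 2 * (2 * w) * e₀) := by
        gcongr
        refine f3.trans ?_
        gcongr
        linarith
      have b3 : 0 ≤ q * Tl0 := by positivity
      rcases min_choice Tln (2 * Tll) with h | h <;> rw [h] <;> nlinarith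
    have a1 := flux2_young (s := s) (sub_nonneg.2 (min_le_left Tln (2 * Tll)))
      (show Tln - min Tln (2 * Tll) ≤ 2 * c by linarith) b1 (κ := r / τ) (by positivity)
    have a2 : s ^ 2 * (2 * c) / (r / τ) ≤ 4 * (r * q) * (τ * A ^ 2) * c := by
      rw [div_le_iff₀ (by positivity)]
      calc s ^ 2 * (2 * c) ≤ 2 * r ^ 2 * q * A ^ 2 * (2 * c) := by gcongr
        _ = _ := by field_simp; ring
    calc g * (s * (Tln - min Tln (2 * Tll)))
        ≤ g * (r / τ * (q * (4 * c + 8 * (w * e₀))) + 4 * (r * q) * (τ * A ^ 2) * c) := by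
          gcongr; linarith
      _ = g * (r * q) * ((4 * c + 8 * (w * e₀)) / τ + 4 * (τ * A ^ 2) * c) := by ring
      _ ≤ Λ * ((4 * c + 8 * (w * e₀)) / τ + 4 * (τ * A ^ 2) * c) := by gcongr
      _ = _ := by ring
  have k4 : Gr * (Tln - w * Tl0) ≤ 12 * Λ / τ * c + 6 * Λ / τ * (w * e₀) := by
    have a1 : Gr * Tln ≤ 0 := mul_nonpos_of_nonpos_of_nonneg hGr0 t2
    have a2 : w * Tl0 ≤ q * (4 * c + 2 * (w * e₀)) := by
      have b1 : w * Tl0 ≤ w * (2 * c + 2 * q * e₀) := by gcongr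
      have b2 : w * (2 * c) ≤ 2 * q * (2 * c) := by gcongr
      linarith
    have a3 : -Gr * (w * Tl0) ≤ Λ * (3 / (τ * q)) * (q * (4 * c + 2 * (w * e₀))) :=
      mul_le_mul hGr a2 (by positivity) (by positivity)
    have a4 : Λ * (3 / (τ * q)) * (q * (4 * c + 2 * (w * e₀))) =
        12 * Λ / τ * c + 6 * Λ / τ * (w * e₀) := by field_simp; ring
    linarith
  have k5 : G * Td ≤ Λ / τ * c + Λ * (τ * A ^ 2) * c := by
    have a1 : A ≤ 1 / τ + τ * A ^ 2 := by
      have := flux2_young (s := A) zero_le_one le_rfl le_rfl (κ := 1 / τ) (by positivity)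
      rw [mul_one, mul_one, mul_one, div_div_eq_mul_div, div_one] at this
      linarith
    calc G * Td ≤ G * (A * c) := by gcongr
      _ ≤ Λ * ((1 / τ + τ * A ^ 2) * c) := by gcongr
      _ = _ := by ring
  have k6 : 0 ≤ g * w * Tll := by positivity
  have e1 : 17 * Λ / τ * c = 4 * Λ / τ * c + 12 * Λ / τ * c + Λ / τ * c := by ring
  have e2 : 14 * Λ / τ * (w * e₀) = 8 * Λ / τ * (w * e₀) + 6 * Λ / τ * (w * e₀) := by ring
  rw [e1, e2]
  linarith

end Crest.Agent.R106
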