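import Crest.Agent.R106.Flux1
import Crest.Agent.R106.Flux2AuxA

/-!
# Row 106: pointwise estimates for the null flux
-/

set_option autoImplicit false
set_option linter.unusedVariables false

open MeasureTheory Metric Set Filter Topology
open scoped ContDiff ENNReal RealInnerProductSpace
open Crest.AnalysisR.VecCalc3 Crest.AnalysisR.PDE.RVM

noncomputable section

namespace Crest.Agent.R106

theorem flux2_integral_le {α : Type*} [MeasureSpace α] {g : α → ℝ} {C : ℝ} (h : Bd g C)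
    (hC : 0 ≤ C) : ∫ a, g a ≤ C := by
  by_cases hg : Integrable g
  · rw [integral_eq_lintegral_pos_part_sub_lintegral_neg_part hg]
    have := ENNReal.toReal_le_of_le_ofReal hC h
    have h2 := ENNReal.toReal_nonneg (a := ∫⁻ a, ENNReal.ofReal (-g a))
    linarith
  · rw [integral_undef hg]
    exact hC

/-- parametric integrals of functions supported in a shell -/
theorem flux2_par {F : ℝ → R3 → ℝ} {t₁ t₂ ε ρ : ℝ} (hε : 0 < ε)
    (hF : ContinuousOn (fun a : ℝ × R3 => F a.1 a.2) (Icc t₁ t₂ ×ˢ {0}ᶜ))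
    (h0 : ∀ t ∈ Icc t₁ t₂, ∀ z, (‖z‖ < ε ∨ ρ < ‖z‖) → F t z = 0) :
    (∀ t ∈ Icc t₁ t₂, Integrable (F t)) ∧ ContinuousOn (fun t => ∫ z, F t z) (Icc t₁ t₂) := by
  have hc : ContinuousOn F.uncurry (Icc t₁ t₂ ×ˢ univ) := by
    intro a ha
    by_cases hz : a.2 = 0
    · refine (continuousWithinAt_const (b := (0 : ℝ))).congr_of_eventuallyEq ?_
        (h0 a.1 ha.1 a.2 (Or.inl (by rw [hz, norm_zero]; exact hε)))
      have : ∀ᶠ b : ℝ × R3 in 𝓝 a, ‖b.2‖ < ε :=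
        continuous_snd.norm.continuousAt.eventually (gt_mem_nhds (by simpa [hz] using hε))
      filter_upwards [self_mem_nhdsWithin, nhdsWithin_le_nhds this] with b hb hb'
        using h0 b.1 hb.1 b.2 (Or.inl hb')
    · refine (hF a ⟨ha.1, hz⟩).mono_of_mem_nhdsWithin ?_
      have : ∀ᶠ b : ℝ × R3 in 𝓝 a, b.2 ≠ 0 := continuous_snd.continuousAt.eventually_ne hz
      filter_upwards [self_mem_nhdsWithin, nhdsWithin_le_nhds this] with b hb hb'
        using ⟨hb.1, hb'⟩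
  have hs : ∀ t z, t ∈ Icc t₁ t₂ → z ∉ closedBall (0 : R3) ρ → F t z = 0 := fun t z ht hz =>
    h0 t ht z (Or.inr (by simpa using hz))
  refine ⟨fun t ht => ?_, continuousOn_integral_of_compact_support (isCompact_closedBall 0 ρ) hc hs⟩
  have : Continuous (F t) := continuousOn_univ.1
    (hc.comp (Continuous.prodMk_right t).continuousOn fun z _ => ⟨ht, trivial⟩)
  exact this.integrable_of_hasCompactSupport
    (HasCompactSupport.intro (isCompact_closedBall 0 ρ) fun z hz => hs t z ht hz)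

theorem flux2_lam_le {e : R3} (he : ‖e‖ = 1) (z : R3) : lam e z ≤ 2 * ‖z‖ := by
  have := abs_real_inner_le_norm e z
  rw [he, one_mul] at this
  unfold lam
  linarith [neg_abs_le ⟪e, z⟫]

theorem flux2_supp {η τ : ℝ} {e z : R3} (hη : 0 < η) (hτ : 0 < τ) (he : ‖e‖ = 1)
    (h1 : η / 3 ≤ lam e z) (h2 : ‖z‖ ^ 2 ≤ 3 / 2 * τ * lam e z) :
    z ≠ 0 ∧ 0 < ‖z‖ ∧ 0 < qq e z ∧ qq e z ≤ 2 ∧ ‖z‖ ≤ 3 / 2 * τ * qq e z ∧ ‖z‖ ≤ 3 * τ := by
  have hz : z ≠ 0 := by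
    rintro rfl
    simp only [lam, norm_zero, inner_zero_right, sub_zero] at h1
    linarith
  have hr : 0 < ‖z‖ := norm_pos_iff.2 hz
  rw [lam_eq e hz] at h1 h2
  have hq : 0 < qq e z := (mul_pos_iff_of_pos_left hr).1 (by linarith)
  have hq2 : qq e z ≤ 2 := ang_le_two he.le (norm_nz_le z)
  have h3 : ‖z‖ ≤ 3 / 2 * τ * qq e z := le_of_mul_le_mul_left (by linarith) hr
  exact ⟨hz, hr, hq, hq2, h3, by nlinarith⟩

theorem flux2_rot {e ed z : R3} (he : ‖e‖ = 1) (orth : ⟪e, ed⟫ = 0) (hz : z ≠ 0) :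
    (-⟪ed, z⟫) ^ 2 ≤ 2 * ‖z‖ ^ 2 * qq e z * ‖ed‖ ^ 2 := by
  have hr : ‖z‖ ≠ 0 := norm_ne_zero_iff.2 hz
  have h1 : -⟪ed, z⟫ = ‖z‖ * ⟪ed, e - nz z⟫ := by
    rw [inner_sub_right, real_inner_comm e ed, orth, nz, real_inner_smul_right]
    field_simp
    ring
  have h2 : ⟪ed, e - nz z⟫ ^ 2 ≤ (‖ed‖ * ‖e - nz z‖) ^ 2 :=
    sq_le_sq' (by linarith [abs_real_inner_le_norm ed (e - nz z), neg_abs_le ⟪ed, e - nz z⟫])
      (real_inner_le_norm _ _)
  have h3 : ‖e - nz z‖ ^ 2 ≤ 2 * qq e z := norm_sub_sq_le_ang he.le (norm_nz_le z)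
  calc (-⟪ed, z⟫) ^ 2 = ‖z‖ ^ 2 * ⟪ed, e - nz z⟫ ^ 2 := by rw [h1, mul_pow]
    _ ≤ ‖z‖ ^ 2 * (‖ed‖ ^ 2 * ‖e - nz z‖ ^ 2) := by rw [← mul_pow ‖ed‖]; gcongr
    _ ≤ ‖z‖ ^ 2 * (‖ed‖ ^ 2 * (2 * qq e z)) := by gcongr
    _ = _ := by ring

variable {T M 𝓔 : ℝ} {f : PS → ℝ} {E B : ST → R3}

theorem flux2_f0 (h : Apri T M 𝓔 f E B) {t : ℝ} (htT : t ≤ T) (x : R3) {z : R3} (hz : ‖z‖ ≤ t)
    (v : R3) : 0 ≤ f ((cp t x z).1, (cp t x z).2, v) :=
  h.f0 _ ⟨sub_nonneg.2 hz, (sub_le_self _ (norm_nonneg z)).trans htT⟩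

theorem flux2_F1 (h : Apri T M 𝓔 f E B) {p : ST} (h0 : ∀ v, 0 ≤ f (p.1, p.2, v)) {n : R3}
    (hn : ‖n‖ ≤ 1) (a₀ : ℝ) (a : R3) :
    TT f E B p a₀ a 1 n ≤ (|a₀| + ‖a‖) * TT f E B p 1 0 1 n := by
  rw [TT_comm p a₀ 1 a n, TT_comm p 1 1 0 n]
  exact (le_abs_self _).trans (abs_TT_le h.sol.step.sf.continuous h.sol.step.vf h0 hn a₀ a)

/-- the integrand of the null flux -/
def flux2Y (G : ℝ × ℝ → ℝ) (f : PS → ℝ) (E B : ST → R3) (t : ℝ) (x e W z : R3) : ℝ :=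
  fderiv ℝ G (lam e z, ‖z‖) (1, 0) * qq W z * TT f E B (cp t x z) 1 e 1 e

/-- the integrand of the multiplier identity -/
def flux2I (G : ℝ × ℝ → ℝ) (f : PS → ℝ) (E B : ST → R3) (t : ℝ) (x e W ed z : R3) : ℝ :=
  fderiv ℝ G (lam e z, ‖z‖) (1, 0) *
      ((ang e W - ⟪ed, z⟫) * TT f E B (cp t x z) 1 e 1 (nz z) -
        qq W z * TT f E B (cp t x z) 1 e 1 e) +
    fderiv ℝ G (lam e z, ‖z‖) (0, 1) *
      (TT f E B (cp t x z) 1 e 1 (nz z) - qq W z * TT f E B (cp t x z) 1 e 1 0) +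
    G (lam e z, ‖z‖) * TT f E B (cp t x z) 0 ed 1 (nz z)

variable {K η τ : ℝ} {G : ℝ × ℝ → ℝ}

theorem flux2_off (hG : Flux2G K η τ G) {e z : R3}
    (hz : ¬(η / 3 ≤ lam e z ∧ ‖z‖ ^ 2 ≤ 3 / 2 * τ * lam e z)) :
    G (lam e z, ‖z‖) = 0 ∧ fderiv ℝ G (lam e z, ‖z‖) = 0 :=
  hG.z₃ _ _ (by simpa only [not_and_or, not_le] using hz)

theorem flux2_log {e z : R3} {L : ℝ} (hη : 0 < η) (hτ1 : τ ≤ 1) (he : ‖e‖ = 1)
    (h1 : η / 3 ≤ lam e z) (hz : ‖z‖ ≤ 3 * τ) (hL : Real.log (18 / η) ≤ L) :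
    Real.log (3 * lam e z / η) ≤ L := by
  have h0 : 0 < lam e z := by linarith
  have := flux2_lam_le he z
  refine (Real.log_le_log (by positivity) ?_).trans hL
  gcongr
  linarith

theorem flux2_pt2 (h : Apri T M 𝓔 f E B) (hG : Flux2G K η τ G) (hη : 0 < η) (hτ : 0 < τ)
    (hτ1 : τ ≤ 1) {t L : ℝ} (ht : 4 * τ ≤ t) (htT : t ≤ T) (x : R3) {e W : R3} (he : ‖e‖ = 1)
    (hW : ‖W‖ ≤ 1) (hL : Real.log (18 / η) ≤ L) (hL0 : 0 ≤ L) (z : R3) :
    0 ≤ G (lam e z, ‖z‖) * TT f E B (cp t x z) 1 e 1 (nz z) ∧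
    G (lam e z, ‖z‖) * TT f E B (cp t x z) 1 e 1 (nz z) ≤
      2 * L * (ball (0 : R3) t).indicator (fun z => TT f E B (cp t x z) 1 0 1 (nz z)) z ∧
    0 ≤ flux2Y G f E B t x e W z ∧
    {z : R3 | η ≤ lam e z ∧ ‖z‖ ^ 2 ≤ τ * lam e z}.indicator
      (fun z => qq W z / lam e z * TT f E B (cp t x z) 1 e 1 e) z ≤ flux2Y G f E B t x e W z := by
  have hw : 0 ≤ qq W z := ang_nonneg hW (norm_nz_le z)
  by_cases hz : η / 3 ≤ lam e z ∧ ‖z‖ ^ 2 ≤ 3 / 2 * τ * lam e z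
  · obtain ⟨hz0, hr, hq, hq2, hrq, hr3⟩ := flux2_supp hη hτ he hz.1 hz.2
    have h0 := flux2_f0 h htT x (z := z) (by linarith)
    obtain ⟨g1, g2, g3, -⟩ := hG.bd _ _ L hz.1 hr.le (flux2_log hη hτ1 he hz.1 hr3 hL)
    have t1 : 0 ≤ TT f E B (cp t x z) 1 e 1 e := TT_nonneg h0 he.le he.le
    have t2 : 0 ≤ TT f E B (cp t x z) 1 e 1 (nz z) := TT_nonneg h0 he.le (norm_nz_le z)
    have hY : 0 ≤ flux2Y G f E B t x e W z := mul_nonneg (mul_nonneg g3 hw) t1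
    refine ⟨mul_nonneg g1 t2, ?_, hY, ?_⟩
    · have f1 := flux2_F1 h h0 (norm_nz_le z) 1 e
      rw [abs_one, he] at f1
      rw [indicator_of_mem (mem_ball_zero_iff.2 (by linarith))]
      calc _ ≤ L * ((1 + 1) * TT f E B (cp t x z) 1 0 1 (nz z)) := mul_le_mul g2 f1 t2 hL0
        _ = _ := by ring
    · refine indicator_apply_le' (fun hm => ?_) fun _ => hY
      have := hG.lo _ _ hm.1 hm.2 hr3
      calc qq W z / lam e z * TT f E B (cp t x z) 1 e 1 e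
          = 1 / lam e z * qq W z * TT f E B (cp t x z) 1 e 1 e := by ring
        _ ≤ _ := by unfold flux2Y; gcongr
  · obtain ⟨z1, z2⟩ := flux2_off hG hz
    have hY : flux2Y G f E B t x e W z = 0 := by simp [flux2Y, z2]
    rw [z1, zero_mul, hY]
    refine ⟨le_rfl, mul_nonneg (by linarith) (indicator_nonneg (fun z hz => TT_nonneg
      (flux2_f0 h htT x (mem_ball_zero_iff.1 hz).le) (by simp) (norm_nz_le z)) z), le_rfl, ?_⟩
    rw [indicator_of_notMem]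
    rintro ⟨h1, h2⟩
    exact hz ⟨by linarith, by nlinarith⟩

theorem flux2_pt (h : Apri T M 𝓔 f E B) (hG : Flux2G K η τ G) (hK : 1 ≤ K) (hη : 0 < η)
    (hτ : 0 < τ) (hτ1 : τ ≤ 1) {t L P δ d r₃ : ℝ} (ht : 4 * τ ≤ t) (htT : t ≤ T) (x : R3)
    {e W ed : R3} (geo : Geo P δ e W) (orth : ⟪e, ed⟫ = 0)
    (hδ : ∀ q, 0 ≤ q → η / 3 ≤ 3 / 2 * q ^ 2 → 64 * δ ^ 2 ≤ q) (hd : δ ^ 2 ≤ d) (hdr : d ≤ r₃)
    (hr₃ : r₃ ≤ t) (hL : Real.log (18 / η) ≤ L) (hL0 : 0 ≤ L) (z : R3) :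
    flux2I G f E B t x e W ed z + 1 / 2 * flux2Y G f E B t x e W z ≤
      (197 * (K * (1 + L)) * (τ * ‖ed‖ ^ 2) + 21 * (K * (1 + L)) / τ) *
        (ball (0 : R3) t).indicator (fun z => TT f E B (cp t x z) 1 0 1 (nz z)) z +
      22 * (K * (1 + L)) / τ * (ball (0 : R3) (min (4 * τ) t)).indicator
        (fun z => qq W z * TT f E B (cp t x z) 1 0 1 0) z +
      4 * (K * (1 + L)) * d * (RE (η / 3) r₃ e).indicator
        (fun z => qq W z / lam e z * TT f E B (cp t x z) 1 0 1 e) z := by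
  have he := geo.e1
  have hw : ∀ z, 0 ≤ qq W z := fun z => ang_nonneg geo.W1.le (norm_nz_le z)
  have hd0 : 0 ≤ d := (sq_nonneg δ).trans hd
  have hΛ : 0 ≤ K * (1 + L) := by positivity
  have n3 : 0 ≤ (RE (η / 3) r₃ e).indicator
      (fun z => qq W z / lam e z * TT f E B (cp t x z) 1 0 1 e) z :=
    indicator_nonneg (fun z hz => mul_nonneg (div_nonneg (hw z) (by linarith [hz.1]))
      (TT_nonneg (flux2_f0 h htT x (hz.2.trans hr₃)) (by simp) he.le)) z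
  by_cases hz : η / 3 ≤ lam e z ∧ ‖z‖ ^ 2 ≤ 3 / 2 * τ * lam e z
  · obtain ⟨hz0, hr, hq, hq2, hrq, hr3⟩ := flux2_supp hη hτ he hz.1 hz.2
    have h0 := flux2_f0 h htT x (z := z) (by linarith)
    have hf := h.sol.step.sf.continuous
    have hv := h.sol.step.vf
    obtain ⟨g1, g2, g3, g4, g5, g6⟩ :=
      hG.bd _ _ L hz.1 hr.le (flux2_log hη hτ1 he hz.1 hr3 hL)
    have hl := lam_eq e hz0
    have hδq : 64 * δ ^ 2 ≤ qq e z := hδ _ hq.le (by
      have a1 : ‖z‖ * qq e z ≤ 3 / 2 * τ * qq e z * qq e z := by gcongr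
      have a2 : 3 / 2 * τ * qq e z * qq e z ≤ 3 / 2 * 1 * qq e z * qq e z := by gcongr
      linarith [hz.1])
    obtain ⟨w1, w2⟩ := geo.qq_cmp hz0 hδq
    have t1 : 0 ≤ TT f E B (cp t x z) 1 e 1 e := TT_nonneg h0 he.le he.le
    have t2 : 0 ≤ TT f E B (cp t x z) 1 e 1 (nz z) := TT_nonneg h0 he.le (norm_nz_le z)
    have t3 : 0 ≤ TT f E B (cp t x z) 1 e 1 0 := TT_nonneg h0 he.le (by simp)
    have t4 : 0 ≤ TT f E B (cp t x z) 1 0 1 (nz z) := TT_nonneg h0 (by simp) (norm_nz_le z)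
    have t5 : 0 ≤ TT f E B (cp t x z) 1 0 1 0 := TT_nonneg h0 (by simp) (by simp)
    have f1 := flux2_F1 h h0 (norm_nz_le z) 1 e
    rw [abs_one, he, one_add_one_eq_two] at f1
    have f2 := TT_null_le (E := E) (B := B) hf hv h0 he.le he (norm_nz hz0)
    have f3 := TT_null_le (E := E) (B := B) hf hv h0 (a₀ := 1) (a := 0) (by simp)
      (norm_nz hz0) he
    have hang : ang (nz z) e = qq e z := by rw [qq, ang, ang, real_inner_comm]
    rw [hang, TT_comm (cp t x z) 1 1 0 e] at f3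
    have f4 := flux2_F1 h h0 (norm_nz_le z) 0 ed
    rw [abs_zero, zero_add] at f4
    have hGr : -fderiv ℝ G (lam e z, ‖z‖) (0, 1) ≤ K * (1 + L) * (3 / (τ * qq e z)) := by
      refine g6.trans (mul_le_mul (by nlinarith) ?_ (by rw [hl]; positivity) hΛ)
      have a1 : ‖z‖ / (τ * lam e z) = 1 / (τ * qq e z) := by rw [hl]; field_simp
      have a2 : 1 / τ ≤ 2 / (τ * qq e z) := by
        rw [div_le_div_iff₀ hτ (by positivity)]
        nlinarith
      have a3 : 3 / (τ * qq e z) = 1 / (τ * qq e z) + 2 / (τ * qq e z) := by ring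
      linarith
    have key := flux2_alg (d := d) hr hq hτ w1 w2 (ang_nonneg he.le geo.W1.le)
      (by linarith [geo.mu]) (geo.mu.trans hd) (flux2_rot he orth hz0) hrq g3
      (by rw [← hl]; exact g4) g5 hGr g1 (g2.trans (by nlinarith)) (norm_nonneg ed)
      t1 t2 t3 t4 t5 f1 f2 f3 f4
    rw [indicator_of_mem (mem_ball_zero_iff.2 (by linarith)),
      indicator_of_mem (mem_ball_zero_iff.2 (lt_min (by linarith) (by linarith)))]
    unfold flux2I flux2Y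
    rw [sub_eq_add_neg (ang e W)]
    refine key.trans ?_
    have hl0 : 0 < lam e z := by linarith [hz.1]
    have hw0 := hw z
    rw [← TT_comm (cp t x z) 1 1 0 e] at f3 t3 ⊢
    have last : 2 * d * (fderiv ℝ G (lam e z, ‖z‖) (1, 0) * qq e z *
        TT f E B (cp t x z) 1 0 1 e) ≤
        4 * (K * (1 + L)) / τ * TT f E B (cp t x z) 1 0 1 (nz z) +
        8 * (K * (1 + L)) / τ * (qq W z * TT f E B (cp t x z) 1 0 1 0) +
        4 * (K * (1 + L)) * d * (RE (η / 3) r₃ e).indicator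
          (fun z => qq W z / lam e z * TT f E B (cp t x z) 1 0 1 e) z := by
      by_cases hr' : ‖z‖ ≤ r₃
      · rw [indicator_of_mem (show z ∈ RE (η / 3) r₃ e from ⟨hz.1, hr'⟩)]
        have a1 : fderiv ℝ G (lam e z, ‖z‖) (1, 0) ≤ K * (1 + L) / lam e z := by
          rwa [le_div_iff₀ hl0]
        have a2 : 2 * d * (fderiv ℝ G (lam e z, ‖z‖) (1, 0) * qq e z *
            TT f E B (cp t x z) 1 0 1 e) ≤ 2 * d * (K * (1 + L) / lam e z * (2 * qq W z) *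
            TT f E B (cp t x z) 1 0 1 e) := by gcongr; linarith
        have a3 : 0 ≤ 4 * (K * (1 + L)) / τ * TT f E B (cp t x z) 1 0 1 (nz z) +
          8 * (K * (1 + L)) / τ * (qq W z * TT f E B (cp t x z) 1 0 1 0) := by positivity
        have a4 : 2 * d * (K * (1 + L) / lam e z * (2 * qq W z) * TT f E B (cp t x z) 1 0 1 e) =
          4 * (K * (1 + L)) * d * (qq W z / lam e z * TT f E B (cp t x z) 1 0 1 e) := by ring
        linarith
      · have a0 : d ≤ ‖z‖ := by linarith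
        have a1 : TT f E B (cp t x z) 1 0 1 e ≤ 2 * TT f E B (cp t x z) 1 0 1 (nz z) +
            2 * (2 * qq W z) * TT f E B (cp t x z) 1 0 1 0 := by
          refine f3.trans ?_
          gcongr
          linarith
        have a2 : K * (1 + L) ≤ K * (1 + L) / τ := le_div_self hΛ hτ hτ1
        have a3 := mul_nonneg (mul_nonneg (mul_nonneg zero_le_four hΛ) hd0) n3
        calc _ ≤ 2 * ‖z‖ * (fderiv ℝ G (lam e z, ‖z‖) (1, 0) * qq e z *
              TT f E B (cp t x z) 1 0 1 e) := by gcongr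
          _ = 2 * (fderiv ℝ G (lam e z, ‖z‖) (1, 0) * (‖z‖ * qq e z)) *
              TT f E B (cp t x z) 1 0 1 e := by ring
          _ ≤ 2 * (K * (1 + L) / τ) * (2 * TT f E B (cp t x z) 1 0 1 (nz z) +
              2 * (2 * qq W z) * TT f E B (cp t x z) 1 0 1 0) := by
            rw [← hl]
            gcongr
            exact g4.trans a2
          _ = 4 * (K * (1 + L)) / τ * TT f E B (cp t x z) 1 0 1 (nz z) +
              8 * (K * (1 + L)) / τ * (qq W z * TT f E B (cp t x z) 1 0 1 0) := by ring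
          _ ≤ _ := le_add_of_nonneg_right a3
    refine (add_le_add le_rfl last).trans (le_of_eq ?_)
    ring
  · obtain ⟨z1, z2⟩ := flux2_off hG hz
    have hY : flux2I G f E B t x e W ed z + 1 / 2 * flux2Y G f E B t x e W z = 0 := by
      simp [flux2I, flux2Y, z1, z2]
    have n1 : 0 ≤ (ball (0 : R3) t).indicator (fun z => TT f E B (cp t x z) 1 0 1 (nz z)) z :=
      indicator_nonneg (fun z hz => TT_nonneg (flux2_f0 h htT x (mem_ball_zero_iff.1 hz).le)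
        (by simp) (norm_nz_le z)) z
    have n2 : 0 ≤ (ball (0 : R3) (min (4 * τ) t)).indicator
        (fun z => qq W z * TT f E B (cp t x z) 1 0 1 0) z :=
      indicator_nonneg (fun z hz => mul_nonneg (hw z) (TT_nonneg (flux2_f0 h htT x
        ((mem_ball_zero_iff.1 hz).le.trans (min_le_right _ _))) (by simp) (by simp))) z
    rw [hY]
    positivity

end Crest.Agent.R106
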