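import Crest.Agent.R106.Flux1
import Crest.Agent.R106.Flux2AuxB

/-!
# Row 106: the null flux through nearly null planes
-/

set_option autoImplicit false
set_option linter.unusedVariables false
set_option linter.unusedSectionVars false

open MeasureTheory Metric Set Filter Topology
open scoped ContDiff ENNReal RealInnerProductSpace
open Crest.AnalysisR.VecCalc3 Crest.AnalysisR.PDE.RVM

noncomputable section

namespace Crest.Agent.R106

theorem flux2_num : ∃ P₀ : ℝ, ∀ P, P₀ ≤ P → 1 ≤ P ∧ 1 ≤ Real.log P ∧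
    (∀ δ e W, Geo P δ e W → ∀ q, 0 ≤ q → P ^ (-(41 / 20 : ℝ)) / 3 ≤ 3 / 2 * q ^ 2 →
      64 * δ ^ 2 ≤ q) ∧
    (∀ δ e W, Geo P δ e W → δ ^ 2 ≤ P ^ (-(57 / 50 : ℝ))) ∧
    Real.log (18 / P ^ (-(41 / 20 : ℝ))) ≤ 20 * Real.log P ∧
    P ^ (-(57 / 50 : ℝ)) * ((1 + Real.log (P ^ (-(2 / 3 : ℝ)) / (P ^ (-(41 / 20 : ℝ)) / 3))) *
      (1 + 1 / P ^ (-(2 / 3 : ℝ)))) ≤ 10 ∧
    P ^ (-(57 / 50 : ℝ)) * (P ^ (-(57 / 50 : ℝ)) / (P ^ (-(41 / 20 : ℝ)) / 3)) ≤ 3 ∧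
    P ^ (-(57 / 50 : ℝ)) * √(P ^ (-(2 / 3 : ℝ)) / (P ^ (-(41 / 20 : ℝ)) / 3)) ≤ 2 ∧
    P ^ (-(57 / 50 : ℝ)) ≤ P ^ (-(2 / 3 : ℝ)) ∧
    P ^ (-(41 / 20 : ℝ)) / 3 ≤ P ^ (-(2 / 3 : ℝ)) ∧
    P ^ (-(2 / 3 : ℝ)) ≤ P ^ (-(1 / 100 : ℝ)) := by
  obtain ⟨P₁, h₁⟩ := exists_delta_small
  obtain ⟨P₂, h₂⟩ := log_pow_le 1 (ε := 71 / 150) (by norm_num)
  obtain ⟨P₃, h₃⟩ := eventually_atTop.1
    ((tendsto_rpow_atTop (show (0 : ℝ) < 3 / 20 by norm_num)).eventually_ge_atTop 5)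
  refine ⟨max (max P₁ P₂) (max P₃ 1), fun P hP => ?_⟩
  simp only [max_le_iff] at hP
  obtain ⟨⟨p1, p2⟩, p3, hP1⟩ := hP
  have hP0 : 0 < P := by linarith
  obtain ⟨hN, hN'⟩ := h₂ P p2
  rw [Real.rpow_one] at hN'
  have pos : ∀ a : ℝ, 0 < P ^ a := Real.rpow_pos_of_pos hP0
  have mono : ∀ a b : ℝ, a ≤ b → P ^ a ≤ P ^ b := fun a b =>
    Real.rpow_le_rpow_of_exponent_le hP1
  have le1 : ∀ a : ℝ, a ≤ 0 → P ^ a ≤ 1 := fun a => Real.rpow_le_one_of_one_le_of_nonpos hP1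
  have mul : ∀ a b c : ℝ, a + b = c → P ^ a * P ^ b = P ^ c := fun a b c h => by
    rw [← Real.rpow_add hP0, h]
  have hη := pos (-(41 / 20))
  have hd := pos (-(57 / 50))
  have hr := pos (-(2 / 3))
  have n5 : P ^ (-(57 / 50 : ℝ)) * (P ^ (-(57 / 50 : ℝ)) / (P ^ (-(41 / 20 : ℝ)) / 3)) ≤ 3 := by
    rw [← mul_div_assoc, div_le_iff₀ (by positivity), mul _ _ (-(57 / 25)) (by norm_num)]
    linarith [mono (-(57 / 25)) (-(41 / 20)) (by norm_num)]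
  refine ⟨hP1, hN, fun δ e W g q hq h => (h₁ P p1 δ e W g).trans ?_, fun δ e W g => ?_, ?_, ?_,
    n5, ?_, mono _ _ (by norm_num), ?_, mono _ _ (by norm_num)⟩
  · refine le_of_sq_le_sq ?_ hq
    have a1 := mul (-(11 / 10)) (-(11 / 10)) (-(11 / 5)) (by norm_num)
    have a2 := mul (-(11 / 5)) (3 / 20) (-(41 / 20)) (by norm_num)
    have a3 := mul_le_mul_of_nonneg_left (h₃ P p3) (pos (-(11 / 5))).le
    have a4 := pos (-(11 / 5))
    rw [sq, a1]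
    linarith
  · rw [← mul (-(57 / 100)) (-(57 / 100)) _ (by norm_num), sq]
    exact mul_self_le_mul_self g.delta_nonneg g.dP
  · rw [Real.log_div (by norm_num) hη.ne', Real.log_rpow hP0]
    linarith [Real.log_le_sub_one_of_pos (show (0 : ℝ) < 18 by norm_num)]
  · have a1 : 1 + Real.log (P ^ (-(2 / 3 : ℝ)) / (P ^ (-(41 / 20 : ℝ)) / 3)) ≤
        5 * Real.log P := by
      rw [Real.log_div hr.ne' (by positivity), Real.log_div hη.ne' (by norm_num),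
        Real.log_rpow hP0, Real.log_rpow hP0]
      linarith [Real.log_le_sub_one_of_pos (show (0 : ℝ) < 3 by norm_num)]
    have a2 : 1 / P ^ (-(2 / 3 : ℝ)) = P ^ (2 / 3 : ℝ) := by
      rw [Real.rpow_neg hP0.le, one_div, inv_inv]
    have a3 : 1 ≤ P ^ (2 / 3 : ℝ) := Real.one_le_rpow hP1 (by norm_num)
    have a4 := mul (-(57 / 50)) (71 / 150) (-(2 / 3)) (by norm_num)
    have a5 := mul (-(2 / 3)) (2 / 3) 0 (by norm_num)
    rw [Real.rpow_zero] at a5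
    rw [a2]
    calc _ ≤ P ^ (-(57 / 50 : ℝ)) * (5 * P ^ (71 / 150 : ℝ) * (2 * P ^ (2 / 3 : ℝ))) := by
          gcongr <;> linarith
      _ = 10 * (P ^ (-(57 / 50 : ℝ)) * P ^ (71 / 150 : ℝ) * P ^ (2 / 3 : ℝ)) := by ring
      _ = 10 := by rw [a4, a5, mul_one]
  · refine le_of_sq_le_sq ?_ zero_le_two
    rw [mul_pow, Real.sq_sqrt (by positivity)]
    have a1 := mul_le_mul n5 (le1 (-(2 / 3)) (by norm_num)) hr.le (by norm_num)
    calc _ = P ^ (-(57 / 50 : ℝ)) * (P ^ (-(57 / 50 : ℝ)) / (P ^ (-(41 / 20 : ℝ)) / 3)) *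
          P ^ (-(2 / 3 : ℝ)) := by ring
      _ ≤ _ := by linarith
  · linarith [mono (-(41 / 20)) (-(2 / 3)) (by norm_num)]

section
variable {T M 𝓔 : ℝ} {f : PS → ℝ} {E B : ST → R3}

theorem flux2_cTT (h : Apri T M 𝓔 f E B) : Continuous fun a : ST × (ℝ × R3) × (ℝ × R3) =>
    TT f E B a.1 a.2.1.1 a.2.1.2 a.2.2.1 a.2.2.2 :=
  (contDiff_TT h.sol.step.sf h.sol.step.vf h.sol.step.sE h.sol.step.sB).continuous

theorem flux2_meas (h : Apri T M 𝓔 f E B) (t : ℝ) (x W : R3) :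
    Measurable (fun z => TT f E B (cp t x z) 1 0 1 (nz z)) ∧
    Measurable fun z => qq W z * TT f E B (cp t x z) 1 0 1 0 := by
  have hp : Measurable (cp t x) := Continuous.measurable (by unfold cp; fun_prop)
  exact ⟨(flux2_cTT h).measurable.comp (hp.prodMk ((measurable_const (a := ((1 : ℝ), (0 : R3)))).prodMk
      ((measurable_const (a := (1 : ℝ))).prodMk measurable_nz))),
    (measurable_qq W).mul ((flux2_cTT h).measurable.comp (hp.prodMk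
      (measurable_const (a := (((1 : ℝ), (0 : R3)), ((1 : ℝ), (0 : R3)))))))⟩

theorem flux2_cont (h : Apri T M 𝓔 f E B) {K η τ : ℝ} {G : ℝ × ℝ → ℝ} (hG : Flux2G K η τ G)
    (hη : 0 < η) (hτ : 0 < τ) {t₁ t₂ : ℝ} {X V e ed : ℝ → R3} (tr : Traj E B t₁ t₂ X V e ed) :
    ((∀ t ∈ Icc t₁ t₂, Integrable (flux2Y G f E B t (X t) (e t) (relVel (V t)))) ∧
      ContinuousOn (fun t => ∫ z, flux2Y G f E B t (X t) (e t) (relVel (V t)) z) (Icc t₁ t₂)) ∧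
    ∀ t ∈ Icc t₁ t₂, Integrable (flux2I G f E B t (X t) (e t) (relVel (V t)) (ed t)) := by
  set S : Set (ℝ × R3) := Icc t₁ t₂ ×ˢ {0}ᶜ
  have he : ContinuousOn (fun a : ℝ × R3 => e a.1) S :=
    tr.ce.comp continuousOn_fst fun a ha => ha.1
  have hed : ContinuousOn (fun a : ℝ × R3 => ed a.1) S :=
    tr.ced.comp continuousOn_fst fun a ha => ha.1
  have hn : ContinuousOn (fun a : ℝ × R3 => nz a.2) S := fun a ha =>
    ((contDiffAt_nz ha.2).continuousAt.comp continuousAt_snd).continuousWithinAt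
  have hW : ContinuousOn (fun a : ℝ × R3 => relVel (V a.1)) S :=
    (contDiff_relVel.continuous.comp (tr.ch.cV.comp continuous_fst)).continuousOn
  have hp : ContinuousOn (fun a : ℝ × R3 => cp a.1 (X a.1) a.2) S := by
    have := tr.ch.cX
    refine Continuous.continuousOn ?_
    unfold cp
    fun_prop
  have hT : ∀ (a₀ b₀ : ℝ) {a b : ℝ × R3 → R3}, ContinuousOn a S → ContinuousOn b S →
      ContinuousOn (fun x : ℝ × R3 => TT f E B (cp x.1 (X x.1) x.2) a₀ (a x) b₀ (b x)) S :=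
    fun a₀ b₀ a b ha hb => (flux2_cTT h).comp_continuousOn (hp.prodMk
      (((continuousOn_const (c := a₀)).prodMk ha).prodMk ((continuousOn_const (c := b₀)).prodMk hb)))
  have hl : ContinuousOn (fun a : ℝ × R3 => (lam (e a.1) a.2, ‖a.2‖)) S :=
    (continuousOn_snd.norm.sub (he.inner (𝕜 := ℝ) continuousOn_snd)).prodMk continuousOn_snd.norm
  have hD : ∀ v, ContinuousOn (fun a : ℝ × R3 => fderiv ℝ G (lam (e a.1) a.2, ‖a.2‖) v) S :=
    fun v => ((hG.sm.continuous_fderiv (by simp)).comp_continuousOn hl).clm_apply continuousOn_const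
  have hw : ContinuousOn (fun a : ℝ × R3 => qq (relVel (V a.1)) a.2) S :=
    continuousOn_const.sub (hW.inner (𝕜 := ℝ) hn)
  have off : ∀ t ∈ Icc t₁ t₂, ∀ z : R3, (‖z‖ < η / 6 ∨ 3 * τ < ‖z‖) →
      G (lam (e t) z, ‖z‖) = 0 ∧ fderiv ℝ G (lam (e t) z, ‖z‖) = 0 := by
    intro t ht z hz
    refine flux2_off hG fun hs => ?_
    have a1 := (flux2_supp hη hτ (tr.e1 t ht) hs.1 hs.2).2.2.2.2.2
    have a2 := flux2_lam_le (tr.e1 t ht) z
    rcases hz with hz | hz <;> linarith [hs.1]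
  refine ⟨flux2_par (F := fun t => flux2Y G f E B t (X t) (e t) (relVel (V t))) (ε := η / 6)
      (ρ := 3 * τ) (by linarith) (((hD _).mul hw).mul (hT 1 1 he he)) fun t ht z hz => ?_,
    (flux2_par (F := fun t => flux2I G f E B t (X t) (e t) (relVel (V t)) (ed t)) (ε := η / 6)
      (ρ := 3 * τ) (by linarith) ?_ fun t ht z hz => ?_).1⟩
  · simp [flux2Y, (off t ht z hz).2]
  · exact (((hD _).mul ((((continuousOn_const.sub (he.inner (𝕜 := ℝ) hW)).sub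
      (hed.inner (𝕜 := ℝ) continuousOn_snd)).mul (hT 1 1 he hn)).sub (hw.mul (hT 1 1 he he)))).add
      ((hD _).mul ((hT 1 1 he hn).sub (hw.mul (hT 1 1 he continuousOn_const))))).add
      ((hG.sm.continuous.comp_continuousOn hl).mul (hT 0 1 hed hn))
  · simp [flux2I, (off t ht z hz).1, (off t ht z hz).2]

end

theorem flux_two : ∃ C P₀ : ℝ, 0 ≤ C ∧ ∀ P, P₀ ≤ P → ∀ (T M 𝓔 : ℝ) (f : PS → ℝ) (E B : ST → R3),
    Apri T M 𝓔 f E B → 0 ≤ 𝓔 → ∀ (τ t₁ t₂ : ℝ), P ^ (-(1 / 100 : ℝ)) ≤ τ → τ ≤ 1 → 4 * τ ≤ t₁ →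
    t₁ ≤ t₂ → t₂ - t₁ ≤ τ → t₂ ≤ T → ∀ X V e ed : ℝ → R3, Traj E B t₁ t₂ X V e ed →
    (∀ t ∈ Icc t₁ t₂, ∃ δ, Geo P δ (e t) (relVel (V t))) →
    ∃ y : ℝ → ℝ, ContinuousOn y (Icc t₁ t₂) ∧ (∀ t ∈ Icc t₁ t₂, 0 ≤ y t ∧
      Bd ((RL P τ (e t)).indicator fun z => qq (relVel (V t)) z / lam (e t) z *
        TT f E B (cp t (X t) z) 1 (e t) 1 (e t)) (y t)) ∧
      ∫ t in t₁..t₂, y t ≤ C * 𝓔 * (Real.log P * (1 + τ * ∫ t in t₁..t₂, ‖ed t‖ ^ 2) +
        P ^ (-(1 / 5 : ℝ)) * ∫ t in t₁..t₂, ‖ed t‖ ^ 2) := by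
  obtain ⟨K, hK, hG⟩ := flux2_G
  obtain ⟨C₁, hC₁, h1⟩ := flux_one
  obtain ⟨P₀, hP₀⟩ := flux2_num
  refine ⟨42 * K * (330 + 60 * C₁), P₀, by positivity, fun P hP T M 𝓔 f E B h h𝓔 τ t₁ t₂ hτP hτ1
    ht₁ h₁₂ hlen hT X V e ed tr geo => ?_⟩
  obtain ⟨hP1, hN, n1, n2, n3, n4, n5, n6, n7, n8, n9⟩ := hP₀ P hP
  have hP0 : 0 < P := by linarith
  have hτ : 0 < τ := (Real.rpow_pos_of_pos hP0 _).trans_le hτP
  unfold RL
  have hη : 0 < P ^ (-(41 / 20 : ℝ)) := Real.rpow_pos_of_pos hP0 _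
  have hd0 : 0 < P ^ (-(57 / 50 : ℝ)) := Real.rpow_pos_of_pos hP0 _
  have hr0 : 0 < P ^ (-(2 / 3 : ℝ)) := Real.rpow_pos_of_pos hP0 _
  have hE0 : 0 ≤ P ^ (-(1 / 5 : ℝ)) := (Real.rpow_pos_of_pos hP0 _).le
  generalize P ^ (-(41 / 20 : ℝ)) = η at *
  generalize P ^ (-(57 / 50 : ℝ)) = d at *
  generalize P ^ (-(2 / 3 : ℝ)) = r₃ at *
  generalize Real.log P = N at *
  obtain ⟨G, hG⟩ := hG η τ hη hτ
  obtain ⟨y₁, cy₁, by₁, iy₁⟩ := h1 T M 𝓔 f E B h h𝓔 (η / 3) r₃ t₁ t₂ (by linarith) n8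
    (by linarith) h₁₂ hT X V e ed tr
  obtain ⟨s, is, s0, bs, ss⟩ := h.slice h𝓔 (by linarith) h₁₂ hT (ρ := 4 * τ) (by linarith) tr.ch
  obtain ⟨cΦ, dΦ⟩ := h.sol.mult_id hG.sm (η := η / 3) (by linarith) hG.z₁ hG.z₂ 1 ht₁ h₁₂ hT tr
  simp only [one_smul] at cΦ dΦ
  obtain ⟨⟨iY, cY⟩, iI⟩ := flux2_cont h hG hη hτ tr
  have hL0 : 0 ≤ 20 * N := by linarith
  have pt2 := fun t (ht : t ∈ Icc t₁ t₂) => flux2_pt2 h hG hη hτ hτ1 (ht₁.trans ht.1)
    (ht.2.trans hT) (X t) (tr.e1 t ht) (norm_relVel_lt_one (V t)).le n3 hL0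
  refine ⟨fun t => ∫ z, flux2Y G f E B t (X t) (e t) (relVel (V t)) z, cY, fun t ht =>
    ⟨integral_nonneg fun z => (pt2 t ht z).2.2.1,
      (Bd.of_integrable (iY t ht) (ae_of_all _ fun z => (pt2 t ht z).2.2.1) le_rfl).mono
        (ae_of_all _ fun z => (pt2 t ht z).2.2.2) le_rfl⟩, ?_⟩
  set Λ := K * (1 + 20 * N) with hΛ
  have hΛ0 : 0 ≤ Λ := by positivity
  set y := fun t => ∫ z, flux2Y G f E B t (X t) (e t) (relVel (V t)) z with hy
  have hco : ∀ t ∈ Icc t₁ t₂, Bd ((ball (0 : R3) t).indicator fun z =>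
      TT f E B (cp t (X t) z) 1 0 1 (nz z)) 𝓔 := fun t ht =>
    h.co t ⟨by linarith [ht.1], ht.2.trans hT⟩ (X t)
  have cA : ContinuousOn (fun t => ‖ed t‖ ^ 2) (Icc t₁ t₂) := tr.ced.norm.pow 2
  have jA : IntervalIntegrable (fun t => ‖ed t‖ ^ 2) volume t₁ t₂ :=
    cA.intervalIntegrable_of_Icc h₁₂
  have jy : IntervalIntegrable y volume t₁ t₂ := cY.intervalIntegrable_of_Icc h₁₂
  have jy₁ : IntervalIntegrable y₁ volume t₁ t₂ := cy₁.intervalIntegrable_of_Icc h₁₂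
  have hA0 : 0 ≤ ∫ t in t₁..t₂, ‖ed t‖ ^ 2 :=
    intervalIntegral.integral_nonneg h₁₂ fun t _ => sq_nonneg _
  -- the differential inequality
  have jφ : IntervalIntegrable (fun t => -(1 / 2) * y t + 197 * Λ * τ * 𝓔 * ‖ed t‖ ^ 2 +
      21 * Λ / τ * 𝓔 + 22 * Λ / τ * s t + 4 * Λ * d * y₁ t) volume t₁ t₂ :=
    ((((jy.const_mul _).add (jA.const_mul _)).add intervalIntegrable_const).add
      (is.const_mul _)).add (jy₁.const_mul _)
  have main := intervalIntegral.sub_le_integral_of_hasDeriv_right_of_le h₁₂ cΦ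
    (fun t ht => (dΦ t ht).hasDerivWithinAt)
    ((intervalIntegrable_iff_integrableOn_Icc_of_le h₁₂).1 jφ) (fun t ht => by
      have ht' : t ∈ Icc t₁ t₂ := Ioo_subset_Icc_self ht
      obtain ⟨δ, hδ⟩ := geo t ht'
      have k1 : 0 ≤ 197 * Λ * (τ * ‖ed t‖ ^ 2) + 21 * Λ / τ := by positivity
      have k2 : 0 ≤ 22 * Λ / τ := by positivity
      have k3 : 0 ≤ 4 * Λ * d := by positivity
      have m1 := (flux2_meas h t (X t) (relVel (V t))).1.indicator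
        (measurableSet_ball (x := (0 : R3)) (ε := t))
      have m2 := (flux2_meas h t (X t) (relVel (V t))).2.indicator
        (measurableSet_ball (x := (0 : R3)) (ε := min (4 * τ) t))
      have b1 := ((((hco t ht').const_mul k1).add ((bs t ht').const_mul k2)
        (m1.const_mul _).aemeasurable (mul_nonneg k1 h𝓔) (mul_nonneg k2 (s0 t))).add
        ((by₁ t ht').2.const_mul k3) ((m1.const_mul _).add (m2.const_mul _)).aemeasurable
        (add_nonneg (mul_nonneg k1 h𝓔) (mul_nonneg k2 (s0 t)))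
        (mul_nonneg k3 (by₁ t ht').1)).mono (ae_of_all _ (flux2_pt h hG hK hη hτ hτ1
          (ht₁.trans ht'.1) (ht'.2.trans hT) (X t) hδ (tr.orth t ht') (n1 δ _ _ hδ) (n2 δ _ _ hδ)
          n7 (by linarith [ht'.1]) n3 hL0)) le_rfl
      have b2 := flux2_integral_le b1 (add_nonneg (add_nonneg (mul_nonneg k1 h𝓔)
        (mul_nonneg k2 (s0 t))) (mul_nonneg k3 (by₁ t ht').1))
      rw [integral_add (iI t ht') ((iY t ht').const_mul _), integral_const_mul] at b2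
      change ∫ z, flux2I G f E B t (X t) (e t) (relVel (V t)) (ed t) z ≤ _
      simp only [hy]
      linarith)
  rw [intervalIntegral.integral_add ((((jy.const_mul _).add (jA.const_mul _)).add
      intervalIntegrable_const).add (is.const_mul _)) (jy₁.const_mul _),
    intervalIntegral.integral_add (((jy.const_mul _).add (jA.const_mul _)).add
      intervalIntegrable_const) (is.const_mul _),
    intervalIntegral.integral_add ((jy.const_mul _).add (jA.const_mul _)) intervalIntegrable_const,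
    intervalIntegral.integral_add (jy.const_mul _) (jA.const_mul _)] at main
  simp only [intervalIntegral.integral_const_mul, intervalIntegral.integral_const,
    smul_eq_mul] at main
  have Φ2 : 0 ≤ ∫ z, G (lam (e t₂) z, ‖z‖) * TT f E B (cp t₂ (X t₂) z) 1 (e t₂) 1 (nz z) :=
    integral_nonneg fun z => (pt2 t₂ ⟨h₁₂, le_rfl⟩ z).1
  have Φ1 : ∫ z, G (lam (e t₁) z, ‖z‖) * TT f E B (cp t₁ (X t₁) z) 1 (e t₁) 1 (nz z) ≤
      2 * (20 * N) * 𝓔 :=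
    flux2_integral_le (((hco t₁ ⟨le_rfl, h₁₂⟩).const_mul (by linarith)).mono
      (ae_of_all _ fun z => (pt2 t₁ ⟨le_rfl, h₁₂⟩ z).2.1) le_rfl) (by positivity)
  -- the energy flux
  have iy₂ : ∫ t in t₁..t₂, (ang (e t) (relVel (V t)) / (η / 3) + ‖ed t‖ * √(r₃ / (η / 3))) ≤
      τ * (d / (η / 3)) + √(r₃ / (η / 3)) * (1 + τ * ∫ t in t₁..t₂, ‖ed t‖ ^ 2) := by
    have c1 : ContinuousOn (fun t => ang (e t) (relVel (V t)) / (η / 3) +
        ‖ed t‖ * √(r₃ / (η / 3))) (Icc t₁ t₂) :=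
      ((continuousOn_const.sub (tr.ce.inner (𝕜 := ℝ) (contDiff_relVel.continuous.comp
        tr.ch.cV).continuousOn)).div_const _).add (tr.ced.norm.mul continuousOn_const)
    have c2 := intervalIntegral.integral_mono_on h₁₂ (c1.intervalIntegrable_of_Icc h₁₂)
      ((intervalIntegrable_const (c := d / (η / 3) + √(r₃ / (η / 3)) / τ)).add
        (jA.const_mul (√(r₃ / (η / 3)) * τ))) fun t ht => by
        obtain ⟨δ, hδ⟩ := geo t ht
        have a1 : ang (e t) (relVel (V t)) / (η / 3) ≤ d / (η / 3) := by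
          gcongr
          exact hδ.mu.trans (n2 δ _ _ hδ)
        have a2 := flux2_young (s := ‖ed t‖) zero_le_one le_rfl le_rfl (κ := 1 / τ)
          (by positivity)
        rw [mul_one, mul_one, mul_one, div_div_eq_mul_div, div_one] at a2
        have a3 := mul_le_mul_of_nonneg_right a2 (Real.sqrt_nonneg (r₃ / (η / 3)))
        have a4 : (1 / τ + ‖ed t‖ ^ 2 * τ) * √(r₃ / (η / 3)) =
          √(r₃ / (η / 3)) / τ + √(r₃ / (η / 3)) * τ * ‖ed t‖ ^ 2 := by ring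
        linarith
    rw [intervalIntegral.integral_add intervalIntegrable_const (jA.const_mul _),
      intervalIntegral.integral_const_mul, intervalIntegral.integral_const, smul_eq_mul] at c2
    have c3 : (t₂ - t₁) * (d / (η / 3) + √(r₃ / (η / 3)) / τ) ≤
        τ * (d / (η / 3) + √(r₃ / (η / 3)) / τ) := by gcongr
    have c4 : τ * (d / (η / 3) + √(r₃ / (η / 3)) / τ) = τ * (d / (η / 3)) + √(r₃ / (η / 3)) := by
      field_simp
    linarith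
  generalize (∫ t in t₁..t₂, ‖ed t‖ ^ 2) = A at *
  have hA1 : 0 ≤ τ * A := by positivity
  have k1 : d * ∫ t in t₁..t₂, y₁ t ≤ C₁ * 𝓔 * (15 * (1 + τ * A)) := by
    have hlog : 0 ≤ 1 + Real.log (r₃ / (η / 3)) :=
      add_nonneg zero_le_one (Real.log_nonneg (by rw [le_div_iff₀ (by linarith)]; linarith))
    have a1 : d * ((1 + Real.log (r₃ / (η / 3))) * (1 + (t₂ - t₁) / r₃)) ≤
        d * ((1 + Real.log (r₃ / (η / 3))) * (1 + 1 / r₃)) := by gcongr; linarith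
    have a2 : τ * (d * (d / (η / 3))) ≤ 1 * 3 := mul_le_mul hτ1 n5 (by positivity) zero_le_one
    have a3 : d * √(r₃ / (η / 3)) * (1 + τ * A) ≤ 2 * (1 + τ * A) := by gcongr
    have a4 := mul_le_mul_of_nonneg_left iy₂ hd0.le
    calc _ ≤ d * (C₁ * 𝓔 * _) := mul_le_mul_of_nonneg_left iy₁ hd0.le
      _ = C₁ * 𝓔 * (d * _) := mul_left_comm _ _ _
      _ ≤ _ := mul_le_mul_of_nonneg_left (by linarith) (mul_nonneg hC₁ h𝓔)
  have k2 : 22 * Λ / τ * ∫ t in t₁..t₂, s t ≤ 110 * (Λ * 𝓔) := by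
    have a1 : ∫ t in t₁..t₂, s t ≤ 𝓔 * (5 * τ) :=
      ss.trans (mul_le_mul_of_nonneg_left ((min_le_right _ _).trans (by linarith)) h𝓔)
    calc _ ≤ 22 * Λ / τ * (𝓔 * (5 * τ)) := by gcongr
      _ = _ := by field_simp; ring
  have k3 : (t₂ - t₁) * (21 * Λ / τ * 𝓔) ≤ 21 * (Λ * 𝓔) := by
    calc _ ≤ τ * (21 * Λ / τ * 𝓔) := by gcongr
      _ = _ := by field_simp
  have k4 : 20 * N * 𝓔 ≤ Λ * 𝓔 := mul_le_mul_of_nonneg_right (by rw [hΛ]; nlinarith) h𝓔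
  have k5 : 4 * Λ * d * ∫ t in t₁..t₂, y₁ t ≤ 60 * C₁ * (Λ * 𝓔 * (1 + τ * A)) := by
    have := mul_le_mul_of_nonneg_left k1 (mul_nonneg zero_le_four hΛ0)
    linarith
  have k6 : 0 ≤ Λ * 𝓔 := by positivity
  have k7 : 0 ≤ Λ * 𝓔 * (τ * A) := by positivity
  have k8 : ∫ t in t₁..t₂, y t ≤ 2 * (330 + 60 * C₁) * (Λ * 𝓔 * (1 + τ * A)) := by linarith
  have k9 : Λ ≤ 21 * K * N := by rw [hΛ]; nlinarith
  calc _ ≤ _ := k8
    _ ≤ 2 * (330 + 60 * C₁) * (21 * K * N * 𝓔 * (1 + τ * A)) := by gcongr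
    _ = 42 * K * (330 + 60 * C₁) * 𝓔 * (N * (1 + τ * A)) := by ring
    _ ≤ _ := mul_le_mul_of_nonneg_left (le_add_of_nonneg_right (by positivity)) (by positivity)

end Crest.Agent.R106
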