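import Crest.Agent.R106.PsiDer

/-!
# Row 106: the normal form of the force
-/

set_option autoImplicit false
set_option linter.unusedVariables false
set_option linter.unusedSectionVars false

open MeasureTheory Metric Set Filter Topology
open scoped ContDiff ENNReal RealInnerProductSpace
open Crest.AnalysisR.VecCalc3 Crest.AnalysisR.PDE.RVM

noncomputable section

namespace Crest.Agent.R106

section
variable {P r₂ Cc : ℝ} {χ₀ χ₁ : ℝ → ℝ} {f : PS → ℝ}

theorem ForceId_DG (hc : Cut P r₂ Cc χ₀ χ₁) (e ed W v K : R3) {z : R3} (hz : 2 * r₂ < ‖z‖) :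
    DG P χ₀ χ₁ e ed W z v K = 0 := by
  have h : Gk P χ₀ χ₁ =ᶠ[𝓝 (e, z, v)] 0 := by
    filter_upwards [(continuous_snd.fst.norm.continuousAt
      (x := ((e, z, v) : R3 × R3 × R3))).eventually_const_lt hz] with a ha
    exact hc.Gk_far _ _ _ ha.le
  rw [DG, h.fderiv_eq]
  simp

/-- the normal form of the force -/
theorem force_id (hc : Cut P r₂ Cc χ₀ χ₁) (hP : 0 < P) {T Cd : ℝ} {E B : ST → R3}
    (h : Sol T f E B) (hg : GSRem T Cd f (frc E B f) E B) {t : ℝ} (h₀ : 0 < r₂) (h₁ : 2 * r₂ < t)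
    (h₂ : t ≤ T) (x e V ed : R3) :
    Integrable (fun q : R3 × R3 => Fc f t x q • Hk P χ₀ χ₁ t e ed (relVel V) q.1 q.2
      (lor (E (cp t x q.1)) (B (cp t x q.1)) q.2)) ∧
    ‖(4 * Real.pi) • lor (E (t, x)) (B (t, x)) V -
        fderiv ℝ (PsiH P χ₀ χ₁ f) (t, x, e) (1, relVel V, ed) -
        ∫ q : R3 × R3, Fc f t x q • Hk P χ₀ χ₁ t e ed (relVel V) q.1 q.2
          (lor (E (cp t x q.1)) (B (cp t x q.1)) q.2)‖ ≤ Cd := by
  obtain ⟨g1, g2⟩ := hg t ⟨by linarith, h₂⟩ x (relVel V) (norm_relVel_lt_one V).le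
  obtain ⟨d1, d2⟩ := psi_deriv hc hP h h₁.le h₂ x e (relVel V) ed
  have hS : MeasurableSet (ball (0 : R3) t ×ˢ (univ : Set R3)) :=
    measurableSet_ball.prod MeasurableSet.univ
  have i1 := (integrable_indicator_iff hS).2 g1
  have key : (fun q : R3 × R3 => Fc f t x q • Hk P χ₀ χ₁ t e ed (relVel V) q.1 q.2
      (lor (E (cp t x q.1)) (B (cp t x q.1)) q.2)) = fun q =>
      (ball (0 : R3) t ×ˢ (univ : Set R3)).indicator (gsK (relVel V) f (frc E B f) t x) q -
        f (cq t x q) • DG P χ₀ χ₁ e ed (relVel V) q.1 q.2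
          (lor (E (cp t x q.1)) (B (cp t x q.1)) q.2) := by
    funext q
    by_cases hq : q.1 ∈ ball (0 : R3) t
    · rw [Fc, Hk, indicator_of_mem hq, indicator_of_mem hq,
        indicator_of_mem (show q ∈ ball (0 : R3) t ×ˢ (univ : Set R3) from ⟨hq, mem_univ _⟩),
        gsK, frc, kS_smul, smul_sub, smul_add]
      rfl
    · rw [Fc, indicator_of_notMem hq,
        indicator_of_notMem (show q ∉ ball (0 : R3) t ×ˢ (univ : Set R3) from fun h => hq h.1),
        ForceId_DG hc _ _ _ _ _ (h₁.trans_le (not_lt.1 fun h => hq (mem_ball_zero_iff.2 h))),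
        zero_smul, smul_zero, sub_zero]
  rw [key]
  refine ⟨i1.sub d1, ?_⟩
  rw [integral_sub i1 d1, integral_indicator hS, ← d2, sub_sub, add_sub_cancel]
  exact g2

end

end Crest.Agent.R106
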