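import Crest.Agent.R106.KerB0

/-!
# Row 106: the mismatch terms
-/

set_option autoImplicit false
set_option linter.unusedVariables false
set_option linter.unusedSectionVars false

open MeasureTheory Metric Set Filter Topology
open scoped ContDiff ENNReal RealInnerProductSpace
open Crest.AnalysisR.VecCalc3 Crest.AnalysisR.PDE.RVM

noncomputable section

namespace Crest.Agent.R106

theorem KerB_norm_le {a b : R3} (ha : ‖a‖ ≤ 1) (hb : ‖b‖ ≤ 1) {x : ℝ} (hx : 0 ≤ x)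
    (h : ang a b = x ^ 2) : ‖b - a‖ ≤ 3 / 2 * x := by
  have h1 := norm_sub_sq_le_ang ha hb
  rw [h, ← norm_neg, neg_sub] at h1
  exact abs_le_of_sq_le_sq' (by nlinarith [sq_nonneg x]) (by positivity) |>.2

theorem KerB_inner_le (a b : R3) {A B : ℝ} (ha : ‖a‖ ≤ A) (hb : ‖b‖ ≤ B) : |⟪a, b⟫| ≤ A * B :=
  (abs_real_inner_le_norm a b).trans
    (mul_le_mul ha hb (norm_nonneg _) ((norm_nonneg _).trans ha))

/-- the sizes of `a₀` and `a⊥` -/
theorem KerB_ab {n e W : R3} {δ y : ℝ} (hn : ‖n‖ = 1) (he : ‖e‖ = 1) (hW : ‖W‖ ≤ 1) (hy : 0 < y)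
    (hq : ang e n = y ^ 2) (dW : ‖W - e‖ ≤ δ) (mu : ang e W ≤ δ ^ 2) (hδ : δ ≤ y) :
    |1 - ang W n / y ^ 2| ≤ 3 * δ / y ∧
      ‖(W - e) - (1 - ang W n / y ^ 2) • (n - e)‖ ≤ 6 * δ := by
  have hδ0 : 0 ≤ δ := (norm_nonneg _).trans dW
  have hβ := KerB_norm_le he.le hn.le hy.le hq
  have hμ := ang_nonneg he.le hW
  have h1 := KerB_inner_le _ _ dW hβ
  have hee : ⟪e, e⟫ = (1 : ℝ) := by rw [real_inner_self_eq_norm_sq, he]; norm_num
  have h2 : y ^ 2 - ang W n = ⟪W - e, n - e⟫ - ang e W := by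
    rw [← hq]
    simp only [ang, inner_sub_left, inner_sub_right, hee, real_inner_comm W e]
    ring
  have h3 : |y ^ 2 - ang W n| ≤ 3 * δ * y := by
    rw [h2]
    have := abs_le.1 h1
    rw [abs_le]
    constructor <;> nlinarith [mul_nonneg hδ0 hy.le, mul_le_mul_of_nonneg_left hδ hδ0]
  have h4 : |1 - ang W n / y ^ 2| ≤ 3 * δ / y := by
    have : 1 - ang W n / y ^ 2 = (y ^ 2 - ang W n) / y ^ 2 := by field_simp
    rw [this, abs_div, abs_of_pos (by positivity : 0 < y ^ 2), div_le_div_iff₀ (by positivity) hy]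
    nlinarith
  refine ⟨h4, (norm_sub_le _ _).trans ?_⟩
  rw [norm_smul, Real.norm_eq_abs]
  have h5 : |1 - ang W n / y ^ 2| * ‖n - e‖ ≤ 3 * δ / y * (3 / 2 * y) :=
    mul_le_mul h4 hβ (norm_nonneg _) (by positivity)
  have h6 : 3 * δ / y * (3 / 2 * y) = 9 / 2 * δ := by field_simp; ring
  linarith

theorem KerB_r1 {x y c m : ℝ} (hx : 0 < x) (hy : 0 < y) (hy2 : y ≤ 3 / 2)
    (hc : |c| ≤ 3 / 2 * x * (3 / 2 * y)) (hm : m ≤ 3 / 2 * x) :
    |x ^ 2 - c| + y ^ 2 * m ≤ 5 * x * (x + y) := by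
  have hxy := mul_pos hx hy
  have hc' := abs_le.1 hc
  have h1 : |x ^ 2 - c| ≤ x ^ 2 + 9 / 4 * (x * y) := by
    rw [abs_le]; constructor <;> nlinarith
  have h2 : y ^ 2 * m ≤ y ^ 2 * (3 / 2 * x) := mul_le_mul_of_nonneg_left hm (by positivity)
  nlinarith [mul_le_mul_of_nonneg_left hy2 hxy.le]

theorem KerB_r2 {x y c : ℝ} (hx : 0 < x) (hy : 0 < y) (hx2 : x ≤ 3 / 2) (hy2 : y ≤ 3 / 2)
    (hc : |c| ≤ 3 / 2 * x * (3 / 2 * y)) : x ^ 2 + y ^ 2 - c ≤ 4 * (x + y) := by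
  have hc' := abs_le.1 hc
  nlinarith [mul_le_mul_of_nonneg_left hy2 hx.le, mul_le_mul_of_nonneg_left hx2 hx.le,
    mul_le_mul_of_nonneg_left hy2 hy.le]

theorem KerB_r3 {x : ℝ} (h : x ^ 2 ≤ 2) : x ≤ 3 / 2 := by nlinarith

/-- the size of `r² p a·∇Ψ̃` -/
theorem KerB_vec {n u e b : R3} {δ x y a₀ μ : ℝ} (hn : ‖n‖ = 1) (he : ‖e‖ = 1) (hu : ‖u‖ ≤ 1)
    (hx : 0 < x) (hy : 0 < y) (hp : ang u n = x ^ 2) (hq : ang e n = y ^ 2) (hδ0 : 0 ≤ δ)
    (ha : |a₀| ≤ 3 * δ / y) (hb : ‖b‖ ≤ 6 * δ) (hμ : |μ| ≤ δ * y) :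
    ‖a₀ • u + (ang u e / y ^ 2) • b - (⟪b, n - u⟫ / (x ^ 2 * y ^ 2)) • (ang u e • n - y ^ 2 • u) -
      (μ / (y ^ 2) ^ 2) • (ang u e • n - x ^ 2 • e)‖ ≤ 100 * δ * ((x + y) / y ^ 2) := by
  have hα := KerB_norm_le hu hn.le hx.le hp
  have hβ := KerB_norm_le he.le hn.le hy.le hq
  have hx2 : x ≤ 3 / 2 := KerB_r3 (hp ▸ ang_le_two hu hn.le)
  have hy2 : y ≤ 3 / 2 := KerB_r3 (hq ▸ ang_le_two he.le hn.le)
  have hnn : ⟪n, n⟫ = (1 : ℝ) := by rw [real_inner_self_eq_norm_sq, hn]; norm_num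
  have hγ : ang u e = x ^ 2 + y ^ 2 - ⟪n - u, n - e⟫ := by
    rw [← hp, ← hq]
    simp only [ang, inner_sub_left, inner_sub_right, hnn, real_inner_comm n e]
    ring
  have hαβ := KerB_inner_le _ _ hα hβ
  have hγ0 := ang_nonneg hu he.le
  have hγ1 : ang u e ≤ 4 * (x + y) := hγ ▸ KerB_r2 hx hy hx2 hy2 hαβ
  have hs := KerB_inner_le _ _ hb hα
  have e1 : ang u e • n - y ^ 2 • u = (x ^ 2 - ⟪n - u, n - e⟫) • n + y ^ 2 • (n - u) := by
    rw [hγ]; module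
  have e2 : ang u e • n - x ^ 2 • e = (y ^ 2 - ⟪n - u, n - e⟫) • n + x ^ 2 • (n - e) := by
    rw [hγ]; module
  have n1 : ‖ang u e • n - y ^ 2 • u‖ ≤ 5 * x * (x + y) := by
    rw [e1]
    refine (norm_add_le _ _).trans ?_
    rw [norm_smul, norm_smul, hn, mul_one, Real.norm_eq_abs, Real.norm_eq_abs,
      abs_of_pos (by positivity : 0 < y ^ 2)]
    exact KerB_r1 hx hy hy2 hαβ hα
  have n2 : ‖ang u e • n - x ^ 2 • e‖ ≤ 5 * y * (x + y) := by
    rw [e2]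
    refine (norm_add_le _ _).trans ?_
    rw [norm_smul, norm_smul, hn, mul_one, Real.norm_eq_abs, Real.norm_eq_abs,
      abs_of_pos (by positivity : 0 < x ^ 2)]
    rw [add_comm x y]
    exact KerB_r1 hy hx hx2 (by rw [mul_comm]; exact hαβ) hβ
  have t1 : ‖a₀ • u‖ ≤ 3 * δ * ((x + y) / y ^ 2) := by
    rw [norm_smul, Real.norm_eq_abs]
    calc |a₀| * ‖u‖ ≤ 3 * δ / y * 1 := mul_le_mul ha hu (norm_nonneg _) (by positivity)
      _ = 3 * δ * (y / y ^ 2) := by field_simp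
      _ ≤ _ := by gcongr; linarith
  have t2 : ‖(ang u e / y ^ 2) • b‖ ≤ 24 * δ * ((x + y) / y ^ 2) := by
    rw [norm_smul, Real.norm_eq_abs, abs_of_nonneg (by positivity)]
    calc ang u e / y ^ 2 * ‖b‖ ≤ 4 * (x + y) / y ^ 2 * (6 * δ) := by gcongr
      _ = _ := by ring
  have t3 : ‖(⟪b, n - u⟫ / (x ^ 2 * y ^ 2)) • (ang u e • n - y ^ 2 • u)‖ ≤
      45 * δ * ((x + y) / y ^ 2) := by
    rw [norm_smul, Real.norm_eq_abs, abs_div, abs_of_pos (by positivity : 0 < x ^ 2 * y ^ 2)]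
    calc |⟪b, n - u⟫| / (x ^ 2 * y ^ 2) * ‖ang u e • n - y ^ 2 • u‖
        ≤ 6 * δ * (3 / 2 * x) / (x ^ 2 * y ^ 2) * (5 * x * (x + y)) := by gcongr
      _ = _ := by field_simp; ring
  have t4 : ‖(μ / (y ^ 2) ^ 2) • (ang u e • n - x ^ 2 • e)‖ ≤ 5 * δ * ((x + y) / y ^ 2) := by
    rw [norm_smul, Real.norm_eq_abs, abs_div, abs_of_pos (by positivity : 0 < (y ^ 2) ^ 2)]
    calc |μ| / (y ^ 2) ^ 2 * ‖ang u e • n - x ^ 2 • e‖
        ≤ δ * y / (y ^ 2) ^ 2 * (5 * y * (x + y)) := by gcongr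
      _ = _ := by field_simp
  have h0 : 0 ≤ δ * ((x + y) / y ^ 2) := by positivity
  refine (norm_sub_le _ _).trans ?_
  have h1 := norm_sub_le (a₀ • u + (ang u e / y ^ 2) • b)
    ((⟪b, n - u⟫ / (x ^ 2 * y ^ 2)) • (ang u e • n - y ^ 2 • u))
  have h2 := norm_add_le (a₀ • u) ((ang u e / y ^ 2) • b)
  simp only [mul_assoc] at t1 t2 t3 t4 ⊢
  linarith

/-- the derivative of `Ψ̃` in the direction `p (a₀ n + b)` -/
theorem KerB_D {e z : R3} (hz : z ≠ 0) (hq : qq e z ≠ 0) (v b : R3) (a₀ : ℝ) :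
    fderiv ℝ psiU (e, z, v) (0, pp z v • (a₀ • nz z + b), 0) =
      (‖z‖ ^ 2)⁻¹ • (a₀ • relVel v + (gg e v / qq e z) • b -
        (⟪b, nz z - relVel v⟫ / (pp z v * qq e z)) • (gg e v • nz z - qq e z • relVel v) -
        (⟪a₀ • nz z + b, nz z - e⟫ / (qq e z) ^ 2) • (gg e v • nz z - pp z v • e)) := by
  have hr : ‖z‖ ≠ 0 := norm_ne_zero_iff.2 hz
  have hp : pp z v ≠ 0 := (pp_pos z v).ne'
  have hnn : ⟪nz z, nz z⟫ = (1 : ℝ) := by rw [real_inner_self_eq_norm_sq, norm_nz hz]; norm_num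
  have hA : accK v 0 = 0 := by simp [accK]
  have key : ∀ c : ℝ, c • z = (c * ‖z‖) • nz z := fun c => by
    rw [nz, smul_smul, mul_assoc, mul_inv_cancel₀ hr, mul_one]
  have h2 : ⟪a₀ • nz z + b, nz z - relVel v⟫ = a₀ * pp z v + ⟪b, nz z - relVel v⟫ := by
    rw [inner_add_left, real_inner_smul_left, inner_sub_right, hnn, pp, ang,
      real_inner_comm (nz z) (relVel v)]
  rw [fderiv_psiU hz hq, lam_eq e hz, hA, key, real_inner_smul_left, real_inner_smul_left, h2]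
  simp only [inner_zero_left, inner_zero_right, smul_zero, neg_zero, sub_zero, zero_div, zero_sub]
  generalize ⟪a₀ • nz z + b, nz z - e⟫ = μ
  generalize ⟪b, nz z - relVel v⟫ = s
  match_scalars <;> field_simp <;> ring

theorem KerB_kT_lin (a₀ t : ℝ) (a e z v : R3) :
    kT (a₀ + t) (a + t • e) z v = kT a₀ a z v + t • kT 1 e z v := by
  simp only [kT, inner_add_right, real_inner_smul_right]
  module

theorem KerB_kS_lin (a₀ t : ℝ) (a e z v K : R3) :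
    kS (a₀ + t) (a + t • e) z v K = kS a₀ a z v K + t • kS 1 e z v K := by
  simp only [kS, inner_add_right, real_inner_smul_right, inner_add_left, real_inner_smul_left]
  module

theorem KerB_rad {z : R3} (hz : z ≠ 0) (v K : R3) : ⟪nz z, radK z v K⟫ = 0 := by
  have hnn : ⟪nz z, nz z⟫ = (1 : ℝ) := by rw [real_inner_self_eq_norm_sq, norm_nz hz]; norm_num
  simp only [radK, real_inner_smul_right, inner_sub_right, hnn, pp, ang,
    real_inner_comm (nz z) (relVel v)]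
  ring

/-- the mismatch between the true velocity `W` and the reference direction `e` -/
theorem psi_mis : ∃ C : ℝ, 0 ≤ C ∧ ∀ (P δ : ℝ) (e W z v K : R3), Geo P δ e W → z ≠ 0 →
    0 < qq e z → δ ^ 2 ≤ qq e z →
    ‖kT 1 W z v + kS 1 W z v K -
        fderiv ℝ psiU (e, z, v) (0, pp z v • W - qq W z • relVel v, qq W z • K)‖ ≤
      C * (δ * (mT1 e z v + mT2 e z v + ‖radK z v K‖ / ‖z‖)) := by
  refine ⟨100, by norm_num, fun P δ e W z v K hG hz hq hδ => ?_⟩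
  have hn := norm_nz hz
  have hr : 0 < ‖z‖ := norm_pos_iff.2 hz
  have hp := pp_pos z v
  have hδ0 := hG.delta_nonneg
  have hQ := en_pos v
  have hnn : ⟪nz z, nz z⟫ = (1 : ℝ) := by rw [real_inner_self_eq_norm_sq, hn]; norm_num
  have hee : ⟪e, e⟫ = (1 : ℝ) := by rw [real_inner_self_eq_norm_sq, hG.e1]; norm_num
  have hx : 0 < √(pp z v) := Real.sqrt_pos.2 hp
  have hy : 0 < √(qq e z) := Real.sqrt_pos.2 hq
  have hx2 : pp z v = √(pp z v) ^ 2 := (Real.sq_sqrt hp.le).symm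
  have hy2 : qq e z = √(qq e z) ^ 2 := (Real.sq_sqrt hq.le).symm
  have hδy : δ ≤ √(qq e z) := Real.le_sqrt_of_sq_le hδ
  obtain ⟨ha, hb⟩ := KerB_ab hn hG.e1 hG.W1.le hy hy2 hG.dW hG.mu hδy
  rw [← hy2] at ha hb
  change |1 - qq W z / qq e z| ≤ _ at ha
  change ‖(W - e) - (1 - qq W z / qq e z) • (nz z - e)‖ ≤ _ at hb
  obtain ⟨t, ht⟩ : ∃ t, t = qq W z / qq e z := ⟨_, rfl⟩
  rw [← ht] at ha hb
  have htq : t * qq e z = qq W z := by rw [ht]; field_simp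
  obtain ⟨b, hbd⟩ : ∃ b, b = (W - e) - (1 - t) • (nz z - e) := ⟨_, rfl⟩
  rw [← hbd] at hb
  have hW : W = ((1 - t) • nz z + b) + t • e := by rw [hbd]; module
  have hbn : ⟪nz z, b⟫ = 0 := by
    have h1 := htq
    simp only [qq, ang] at h1
    rw [hbd]
    simp only [inner_sub_right, real_inner_smul_right, hnn, real_inner_comm W (nz z),
      real_inner_comm e (nz z)]
    linarith
  have han : ⟪nz z, (1 - t) • nz z + b⟫ = 1 - t := by
    rw [inner_add_right, real_inner_smul_right, hnn, hbn]; ring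
  have hμ : ⟪(1 - t) • nz z + b, nz z - e⟫ = ang e W := by
    have h1 : ang e W = 1 - (⟪(1 - t) • nz z + b, e⟫ + t) := by
      rw [ang]
      conv_lhs => rw [hW]
      rw [inner_add_right, real_inner_smul_right, hee, real_inner_comm, mul_one]
    rw [inner_sub_right, real_inner_comm, han, h1]; ring
  have hT : kT 1 W z v = kT (1 - t) ((1 - t) • nz z + b) z v + t • kT 1 e z v := by
    rw [← KerB_kT_lin, ← hW, sub_add_cancel]
  have hS : kS 1 W z v K = kS (1 - t) ((1 - t) • nz z + b) z v K + t • kS 1 e z v K := by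
    rw [← KerB_kS_lin, ← hW, sub_add_cancel]
  have hD : ((0 : R3), pp z v • W - qq W z • relVel v, qq W z • K) =
      ((0 : R3), pp z v • ((1 - t) • nz z + b), (0 : R3)) +
        t • ((0 : R3), pp z v • e - qq e z • relVel v, qq e z • K) := by
    rw [← htq]
    refine Prod.ext (by simp) (Prod.ext ?_ ?_)
    · show pp z v • W - (t * qq e z) • relVel v =
        pp z v • ((1 - t) • nz z + b) + t • (pp z v • e - qq e z • relVel v)
      conv_lhs => rw [hW]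
      module
    · show (t * qq e z) • K = 0 + t • qq e z • K
      module
  rw [hD, map_add, map_smul, psi_null hG.e1 hz hq, hT, hS]
  have e1 : ∀ A B C T S : R3, A + t • T + (B + t • S) - (C + t • (T + S)) = A + B - C :=
    fun A B C T S => by module
  rw [e1, KerB_D hz hq.ne', hμ]
  -- the three terms
  have hu := (norm_relVel_lt_one v).le
  have hα := KerB_norm_le hu hn.le hx.le hx2
  have t1 : ‖kT (1 - t) ((1 - t) • nz z + b) z v‖ ≤ 9 * (δ * mT2 e z v) := by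
    have h1 : (1 - t) - ⟪relVel v, (1 - t) • nz z + b⟫ =
        (1 - t) * pp z v + ⟪b, nz z - relVel v⟫ := by
      rw [inner_add_right, real_inner_smul_right, inner_sub_right, real_inner_comm (nz z) b, hbn,
        pp, ang, real_inner_comm b (relVel v)]
      ring
    have h2 := KerB_inner_le _ _ hb hα
    rw [kT, han, sub_self, zero_smul, sub_zero, h1, norm_smul, norm_smul, hn, mul_one,
      Real.norm_eq_abs, Real.norm_eq_abs, abs_of_pos (by positivity), mT2]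
    have h3 : |(1 - t) * pp z v + ⟪b, nz z - relVel v⟫| ≤
        3 * δ / √(qq e z) * pp z v + 6 * δ * (3 / 2 * √(pp z v)) := by
      refine (abs_add_le _ _).trans (add_le_add ?_ h2)
      rw [abs_mul, abs_of_pos hp]
      exact mul_le_mul_of_nonneg_right ha hp.le
    generalize √(pp z v) = x at *
    generalize √(qq e z) = y at *
    rw [hx2] at h3 ⊢
    calc (en v ^ 2 * ‖z‖ ^ 2 * (x ^ 2) ^ 2)⁻¹ * |(1 - t) * x ^ 2 + ⟪b, nz z - relVel v⟫|
        ≤ (en v ^ 2 * ‖z‖ ^ 2 * (x ^ 2) ^ 2)⁻¹ * (3 * δ / y * x ^ 2 + 6 * δ * (3 / 2 * x)) := by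
          gcongr
      _ = δ * ((3 * x + 9 * y) / (y * en v ^ 2 * ‖z‖ ^ 2 * x ^ 2 * x)) := by field_simp; ring
      _ ≤ δ * ((9 * x + 9 * y) / (y * en v ^ 2 * ‖z‖ ^ 2 * x ^ 2 * x)) := by gcongr; norm_num
      _ = _ := by ring
  have t2 : ‖kS (1 - t) ((1 - t) • nz z + b) z v K‖ ≤ 6 * (δ * (‖radK z v K‖ / ‖z‖)) := by
    have h2 := KerB_inner_le _ _ hb (le_refl ‖radK z v K‖)
    rw [kS, han, sub_self, zero_smul, zero_add, inner_add_left, real_inner_smul_left,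
      KerB_rad hz, mul_zero, zero_add, norm_smul, norm_smul, hn, mul_one,
      Real.norm_eq_abs, Real.norm_eq_abs, abs_of_pos (by positivity)]
    calc ‖z‖⁻¹ * |⟪b, radK z v K⟫| ≤ ‖z‖⁻¹ * (6 * δ * ‖radK z v K‖) := by gcongr
      _ = _ := by ring
  have hμ' : |ang e W| ≤ δ * √(qq e z) := by
    rw [abs_of_nonneg (ang_nonneg hG.e1.le hG.W1.le)]
    exact hG.mu.trans (by nlinarith)
  have t3 := KerB_vec hn hG.e1 hu hx hy hx2 hy2 hδ0 ha hb hμ'
  rw [← hx2, ← hy2] at t3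
  change ‖(1 - t) • relVel v + (gg e v / qq e z) • b -
    (⟪b, nz z - relVel v⟫ / (pp z v * qq e z)) • (gg e v • nz z - qq e z • relVel v) -
    (ang e W / (qq e z) ^ 2) • (gg e v • nz z - pp z v • e)‖ ≤ _ at t3
  generalize (1 - t) • relVel v + (gg e v / qq e z) • b -
    (⟪b, nz z - relVel v⟫ / (pp z v * qq e z)) • (gg e v • nz z - qq e z • relVel v) -
    (ang e W / (qq e z) ^ 2) • (gg e v • nz z - pp z v • e) = Y at t3 ⊢
  have t4 : ‖(‖z‖ ^ 2)⁻¹ • Y‖ ≤ 100 * (δ * mT1 e z v) := by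
    rw [norm_smul, Real.norm_eq_abs, abs_of_pos (by positivity), mT1]
    calc (‖z‖ ^ 2)⁻¹ * ‖Y‖
        ≤ (‖z‖ ^ 2)⁻¹ * (100 * δ * ((√(pp z v) + √(qq e z)) / qq e z)) := by gcongr
      _ = _ := by field_simp
  have p1 : 0 ≤ δ * mT2 e z v := by rw [mT2]; positivity
  have p2 : 0 ≤ δ * (‖radK z v K‖ / ‖z‖) := by positivity
  refine (norm_sub_le _ _).trans ?_
  have h1 := norm_add_le (kT (1 - t) ((1 - t) • nz z + b) z v)
    (kS (1 - t) ((1 - t) • nz z + b) z v K)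
  rw [mul_add, mul_add]
  linarith

end Crest.Agent.R106
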