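import Crest.Agent.R106.KerC0
import Crest.Agent.R106.KerB

/-!
# Row 106: the majorant of the total kernel
-/

set_option autoImplicit false
set_option linter.unusedVariables false
set_option linter.unusedSectionVars false

open MeasureTheory Metric Set Filter Topology
open scoped ContDiff ENNReal RealInnerProductSpace
open Crest.AnalysisR.VecCalc3 Crest.AnalysisR.PDE.RVM

noncomputable section

namespace Crest.Agent.R106

theorem KerC_rad {c cf b r p g : ℝ} (hp : 0 < p) (hg : 0 < g) (hr : 0 < r) :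
    c * ((√cf / p + b) / g) / r = c * √cf / (r * g * p) + c * b / (r * g) := by
  field_simp

/-- the direct kernels -/
theorem KerC_direct : ∃ C : ℝ, 0 ≤ C ∧ ∀ e W z v E B : R3, ‖e‖ = 1 → ‖W‖ ≤ 1 → z ≠ 0 →
    ‖kT 1 W z v + kS 1 W z v (lor E B v)‖ ≤
      C * (gT W z v + gSg (Tf E B 1 0 1 (nz z)) W z v + gSb ‖B‖ W z v) ∧
    ‖proj e (kT 1 W z v + kS 1 W z v (lor E B v))‖ ≤
      C * (gT W z v + gSg (Tf E B 1 0 1 (nz z)) W z v + gSp ‖B‖ e W z v) := by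
  obtain ⟨C1, h1, hT⟩ := norm_kT_le
  obtain ⟨C2, h2, hS⟩ := norm_kS_le
  obtain ⟨C3, h3, hR⟩ := norm_radK_le
  refine ⟨C1 + 4 * (C2 * C3), by positivity, fun e W z v E B he hW hz => ?_⟩
  have hr : 0 < ‖z‖ := norm_pos_iff.2 hz
  have hp := pp_pos z v
  have hg := en_pos v
  have a1 := hT W z v hW hz
  obtain ⟨a2, a3⟩ := hS e W z v (lor E B v) he hW hz
  have a4 := hR E B z v hz
  set cf := Tf E B 1 0 1 (nz z)
  have g1 : 0 ≤ gT W z v := by unfold gT; positivity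
  have g2 : 0 ≤ gSg cf W z v := by unfold gSg; positivity
  have g3 : 0 ≤ gSb ‖B‖ W z v := by unfold gSb; positivity
  have g4 : 0 ≤ gSp ‖B‖ e W z v := by unfold gSp; positivity
  have h23 : 0 ≤ C2 * C3 := by positivity
  constructor
  · have b1 : √(qq W z) * ‖radK z v (lor E B v)‖ / ‖z‖ ≤
        C3 * (gSg cf W z v + gSb ‖B‖ W z v) := by
      calc _ ≤ √(qq W z) * (C3 * ((√cf / pp z v + ‖B‖) / en v)) / ‖z‖ := by gcongr
        _ = C3 * (√(qq W z) * ((√cf / pp z v + ‖B‖) / en v) / ‖z‖) := by ring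
        _ = _ := by rw [KerC_rad hp hg hr]; rfl
    have b2 := a2.trans (mul_le_mul_of_nonneg_left b1 h2)
    refine (norm_add_le _ _).trans ?_
    nlinarith [mul_nonneg h1 g2, mul_nonneg h1 g3, mul_nonneg h23 g1, mul_nonneg h23 g2,
      mul_nonneg h23 g3]
  · have s1 : √(qq W z) ≤ 2 := KerA_sqrt (norm_nz hz) hW
    have s2 : √(qq e z) ≤ 2 := KerA_sqrt (norm_nz hz) he.le
    have b1 : √(qq W z) * (√(qq W z) + √(qq e z)) * ‖radK z v (lor E B v)‖ / ‖z‖ ≤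
        C3 * (4 * gSg cf W z v + gSp ‖B‖ e W z v) := by
      calc _ ≤ √(qq W z) * (√(qq W z) + √(qq e z)) * (C3 * ((√cf / pp z v + ‖B‖) / en v)) / ‖z‖ := by
            gcongr
        _ = C3 * (√(qq W z) * (√(qq W z) + √(qq e z)) * ((√cf / pp z v + ‖B‖) / en v) / ‖z‖) := by
            ring
        _ = C3 * ((√(qq W z) + √(qq e z)) * gSg cf W z v + gSp ‖B‖ e W z v) := by
            rw [KerC_rad hp hg hr]; unfold gSg gSp; ring
        _ ≤ _ := by gcongr; linarith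
    have b2 := a3.trans (mul_le_mul_of_nonneg_left b1 h2)
    rw [KerA_proj_add]
    refine (norm_add_le _ _).trans ?_
    have b3 := (norm_proj_le he _).trans a1
    nlinarith [mul_nonneg h1 g2, mul_nonneg h1 g4, mul_nonneg h23 g1, mul_nonneg h23 g2,
      mul_nonneg h23 g4]

/-- the product rule for `G = χ Ψ̃` -/
theorem KerC_DG {P r₂ Cc : ℝ} {χ₀ χ₁ : ℝ → ℝ} (h : Cut P r₂ Cc χ₀ χ₁) (hP : 0 < P) {e z : R3}
    (hz : z ≠ 0) (hq : qq e z ≠ 0) (v a b c : R3) :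
    fderiv ℝ (Gk P χ₀ χ₁) (e, z, v) (a, b, c) =
      chi P χ₀ χ₁ e z • fderiv ℝ psiU (e, z, v) (0, b, c) +
        chi P χ₀ χ₁ e z • fderiv ℝ psiU (e, z, v) (a, 0, 0) +
        fderiv ℝ (fun a : R3 × R3 => chi P χ₀ χ₁ a.1 a.2) (e, z) (a, b) • psi e z v := by
  let L : R3 × R3 × R3 →L[ℝ] R3 × R3 := (ContinuousLinearMap.fst ℝ R3 (R3 × R3)).prod
    ((ContinuousLinearMap.fst ℝ R3 R3).comp (ContinuousLinearMap.snd ℝ R3 (R3 × R3)))
  have h1 : HasFDerivAt (fun a : R3 × R3 => chi P χ₀ χ₁ a.1 a.2)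
      (fderiv ℝ (fun a : R3 × R3 => chi P χ₀ χ₁ a.1 a.2) (e, z)) (L (e, z, v)) :=
    ((h.contDiff_chi hP).differentiable (by simp) (e, z)).hasFDerivAt
  have h2 := h1.comp (e, z, v) L.hasFDerivAt
  have h3 : HasFDerivAt psiU (fderiv ℝ psiU (e, z, v)) (e, z, v) :=
    ((contDiffAt_psiU (v := v) hz hq).differentiableAt (by simp)).hasFDerivAt
  have h4 : HasFDerivAt (Gk P χ₀ χ₁) _ (e, z, v) := h2.smul h3
  rw [h4.fderiv, ← smul_add, ← map_add]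
  simp [L]

theorem KerC_sum {χ d C1 C2 C3 C4 T1 T2 T3 T4 : ℝ} {k D1 D2 ψ : R3} (h0 : 0 ≤ χ) (h1 : χ ≤ 1)
    (c1 : 0 ≤ C1) (c2 : 0 ≤ C2) (c3 : 0 ≤ C3) (c4 : 0 ≤ C4) (t1 : 0 ≤ T1) (t2 : 0 ≤ T2)
    (t3 : 0 ≤ T3) (t4 : 0 ≤ T4) (b1 : ‖k - D1‖ ≤ C1 * (1 + C3) * T1) (b2 : ‖D2‖ ≤ C2 * T2)
    (b3 : |d| * ‖ψ‖ ≤ C4 * (T2 + T3 + T4)) :
    ‖χ • k - (χ • D1 + χ • D2 + d • ψ)‖ ≤ (C1 * (1 + C3) + C2 + C4) * (T1 + T2 + T3 + T4) := by
  have e1 : χ • k - (χ • D1 + χ • D2 + d • ψ) = χ • (k - D1) - χ • D2 - d • ψ := by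
    rw [smul_sub]; abel
  have n1 : ∀ u : R3, ‖χ • u‖ ≤ ‖u‖ := fun u => by
    rw [norm_smul, Real.norm_of_nonneg h0]; exact mul_le_of_le_one_left (norm_nonneg _) h1
  have b4 : ‖χ • (k - D1) - χ • D2 - d • ψ‖ ≤ ‖k - D1‖ + ‖D2‖ + ‖d • ψ‖ :=
    (norm_sub_le _ _).trans (add_le_add_left ((norm_sub_le _ _).trans
      (add_le_add (n1 _) (n1 _))) _)
  rw [norm_smul d, Real.norm_eq_abs] at b4
  rw [e1]
  have h13 : 0 ≤ C1 * (1 + C3) := by positivity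
  nlinarith [mul_nonneg h13 t2, mul_nonneg h13 t3, mul_nonneg h13 t4, mul_nonneg c2 t1,
    mul_nonneg c2 t3, mul_nonneg c2 t4, mul_nonneg c4 t1]

theorem KerC_chi {P r₂ t A : ℝ} {e z v : R3} (hz : z ≠ 0) (hq : 0 < qq e z) (hI : z ∈ RI P r₂ e)
    (hlog : 0 < Real.log P) :
    ((RI P r₂ e).indicator (fun z => pp z v * A / √(qq e z)) z +
        (RI P r₂ e ∩ RD P r₂ e).indicator
          (fun z => (pp z v + qq e z) / (‖z‖ * Real.log P)) z +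
        (RI P r₂ e ∩ RF r₂ t).indicator (fun z => (pp z v + qq e z) / ‖z‖) z) *
      (kP e z v / pp z v) =
    A * kA e z v + (RI P r₂ e ∩ RD P r₂ e).indicator (fun z => kE e z v / Real.log P) z +
        (RI P r₂ e ∩ RF r₂ t).indicator (fun z => kE e z v) z := by
  have hr : 0 < ‖z‖ := norm_pos_iff.2 hz
  have hp := pp_pos z v
  have hsp : 0 < √(pp z v) := Real.sqrt_pos.2 hp
  have hsq : 0 < √(qq e z) := Real.sqrt_pos.2 hq
  rw [add_mul, add_mul, indicator_of_mem hI]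
  have hp2 := Real.mul_self_sqrt hp.le
  have hq2 := Real.mul_self_sqrt hq.le
  have c0 : (pp z v + qq e z) / ‖z‖ * (kP e z v / pp z v) = kE e z v := by
    unfold kP kE
    field_simp
    rw [sq, hp2]
  congr 2
  · unfold kP kA
    field_simp
    rw [sq, hq2]
  · by_cases hm : z ∈ RI P r₂ e ∩ RD P r₂ e
    · rw [indicator_of_mem hm, indicator_of_mem hm, ← c0]; field_simp
    · rw [indicator_of_notMem hm, indicator_of_notMem hm, zero_mul]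
  · by_cases hm : z ∈ RI P r₂ e ∩ RF r₂ t
    · rw [indicator_of_mem hm, indicator_of_mem hm, c0]
    · rw [indicator_of_notMem hm, indicator_of_notMem hm, zero_mul]

/-- the terms supported in the integration-by-parts region -/
theorem KerC_rest (Cc : ℝ) : ∃ C P₀ : ℝ, 0 ≤ C ∧ ∀ P, P₀ ≤ P → ∀ (r₂ t δ : ℝ) (χ₀ χ₁ : ℝ → ℝ)
    (e ed W z v E B : R3), 0 < r₂ → r₂ ≤ 1 / 4 → 2 * r₂ < t → Cut P r₂ Cc χ₀ χ₁ → Geo P δ e W →
    ⟪e, ed⟫ = 0 → z ≠ 0 → z ∈ RI P r₂ e →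
    ‖chi P χ₀ χ₁ e z • (kT 1 W z v + kS 1 W z v (lor E B v)) -
        DG P χ₀ χ₁ e ed W z v (lor E B v)‖ ≤
      C * (δ * (mT1 e z v + mT2 e z v + mSg (Tf E B 1 0 1 (nz z)) z v + mSb ‖B‖ z v) +
        ‖ed‖ * kA e z v + (RI P r₂ e ∩ RD P r₂ e).indicator (fun z => kE e z v / Real.log P) z +
        (RI P r₂ e ∩ RF r₂ t).indicator (fun z => kE e z v) z) := by
  obtain ⟨C1, h1, hM⟩ := psi_mis
  obtain ⟨C2, h2, hD⟩ := psi_dir
  obtain ⟨C3, h3, hR⟩ := norm_radK_le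
  obtain ⟨C4, h4, hψ⟩ := norm_psi_le
  obtain ⟨C5, P5, h5, hχ⟩ := chi_deriv Cc
  obtain ⟨P6, hδ⟩ := exists_delta_small
  refine ⟨C1 * (1 + C3) + C2 + C5 * C4, max 2 (max P5 P6), by positivity, ?_⟩
  intro P hP r₂ t δ χ₀ χ₁ e ed W z v E B hr₂ hr₂' ht hc hgeo hed hz hI
  have hP2 : 2 ≤ P := (le_max_left _ _).trans hP
  have hP5 : P5 ≤ P := (le_max_left _ _).trans ((le_max_right _ _).trans hP)
  have hP6 : P6 ≤ P := (le_max_right _ _).trans ((le_max_right _ _).trans hP)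
  have hP0 : 0 < P := by linarith
  have hlog : 0 < Real.log P := Real.log_pos (by linarith)
  have hr : 0 < ‖z‖ := norm_pos_iff.2 hz
  have hp := pp_pos z v
  have hg := en_pos v
  have hq1 : P ^ (-(51 / 50 : ℝ)) ≤ qq e z := by
    refine le_trans ?_ (RI_qq hP0 hI)
    refine le_div_self (by positivity) (Real.sqrt_pos.2 hr) ?_
    exact Real.sqrt_le_one.2 (by linarith [hI.2])
  have hq : 0 < qq e z := lt_of_lt_of_le (by positivity) hq1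
  have hδq : δ ^ 2 ≤ qq e z := by
    have a1 := hδ P hP6 δ e W hgeo
    have a2 : P ^ (-(11 / 10 : ℝ)) ≤ P ^ (-(51 / 50 : ℝ)) :=
      Real.rpow_le_rpow_of_exponent_le (by linarith) (by norm_num)
    nlinarith [sq_nonneg δ]
  have hδ0 := hgeo.delta_nonneg
  have hχ0 : 0 ≤ chi P χ₀ χ₁ e z := mul_nonneg (hc.r₀ _).1 (hc.r₁ _).1
  have hχ1 : chi P χ₀ χ₁ e z ≤ 1 := mul_le_one₀ (hc.r₀ _).2 (hc.r₁ _).1 (hc.r₁ _).2
  have a1 := hM P δ e W z v (lor E B v) hgeo hz hq hδq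
  have a2 := hD e ed z v hgeo.e1 hed hz hq
  have a3 := hR E B z v hz
  have a4 := (hψ e z v hgeo.e1 hz hq).1
  have a5 := hχ P hP5 r₂ t δ χ₀ χ₁ e ed W z v hr₂ hr₂' ht hc hgeo hed hz
  rw [DG, KerC_DG hc hP0 hz hq.ne']
  have g1 : 0 ≤ mT1 e z v := by unfold mT1; positivity
  have g2 : 0 ≤ mT2 e z v := by unfold mT2; positivity
  have g5 : 0 ≤ kA e z v := by unfold kA; positivity
  have g6 : 0 ≤ kE e z v := by unfold kE; positivity
  generalize Tf E B 1 0 1 (nz z) = cf at a3 ⊢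
  have g3 : 0 ≤ mSg cf z v := by unfold mSg; positivity
  have g4 : 0 ≤ mSb ‖B‖ z v := by unfold mSb; positivity
  have c1 : ‖radK z v (lor E B v)‖ / ‖z‖ ≤ C3 * (mSg cf z v + mSb ‖B‖ z v) := by
    calc _ ≤ C3 * ((√cf / pp z v + ‖B‖) / en v) / ‖z‖ := by gcongr
      _ = _ := by rw [KerC_rad hp hg hr]; unfold mSg mSb; ring
  have b2 : ‖psi e z v‖ ≤ C4 * (kP e z v / pp z v) := by
    rw [norm_smul, Real.norm_of_nonneg hp.le] at a4
    rw [← mul_div_assoc, le_div_iff₀ hp]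
    linarith
  have b3 := mul_le_mul a5 b2 (norm_nonneg _) ((abs_nonneg _).trans a5)
  rw [mul_mul_mul_comm, KerC_chi hz hq hI hlog] at b3
  refine KerC_sum hχ0 hχ1 h1 h2 h3 (by positivity) (by positivity) (by positivity)
    (indicator_apply_nonneg fun _ => by positivity) (indicator_apply_nonneg fun _ => g6)
    (a1.trans ?_) a2 b3
  rw [mul_assoc C1, mul_left_comm (1 + C3)]
  gcongr
  nlinarith [mul_nonneg h3 g1, mul_nonneg h3 g2]

/-- splitting of the total kernel -/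
theorem KerC_split (Cc : ℝ) : ∃ C P₀ : ℝ, 0 ≤ C ∧ ∀ P, P₀ ≤ P → ∀ (r₂ t δ : ℝ) (χ₀ χ₁ : ℝ → ℝ)
    (e ed W z v E B : R3), 0 < r₂ → r₂ ≤ 1 / 4 → 2 * r₂ < t → Cut P r₂ Cc χ₀ χ₁ → Geo P δ e W →
    ⟪e, ed⟫ = 0 → z ≠ 0 → ∃ (c G : ℝ) (R : R3), |c| ≤ 1 ∧ 0 ≤ G ∧
      (z ∉ RD P r₂ e ∪ RF r₂ t → c = 0) ∧ ‖R‖ ≤ C * G ∧
      Hk P χ₀ χ₁ t e ed W z v (lor E B v) = c • (kT 1 W z v + kS 1 W z v (lor E B v)) + R ∧
      gAll P r₂ t δ ‖ed‖ (Tf E B 1 0 1 (nz z)) ‖B‖ e W z v = (RD P r₂ e ∪ RF r₂ t).indicator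
        (fun y => gT W y v + gSg (Tf E B 1 0 1 (nz z)) W y v) z + G := by
  obtain ⟨C, P₀, hC, h⟩ := KerC_rest Cc
  refine ⟨C, max 2 P₀, hC, ?_⟩
  intro P hP r₂ t δ χ₀ χ₁ e ed W z v E B hr₂ hr₂' ht hc hgeo hed hz
  have hP2 : 2 ≤ P := (le_max_left _ _).trans hP
  by_cases hI : z ∈ RI P r₂ e
  · have h1 := h P ((le_max_right _ _).trans hP) r₂ t δ χ₀ χ₁ e ed W z v E B hr₂ hr₂' ht hc hgeo
      hed hz hI
    have hχ0 : 0 ≤ chi P χ₀ χ₁ e z := mul_nonneg (hc.r₀ _).1 (hc.r₁ _).1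
    have hχ1 : chi P χ₀ χ₁ e z ≤ 1 := mul_le_one₀ (hc.r₀ _).2 (hc.r₁ _).1 (hc.r₁ _).2
    have hb : z ∈ ball (0 : R3) t := mem_ball_zero_iff.2 (by linarith [hI.2])
    refine ⟨1 - chi P χ₀ χ₁ e z, _, _, abs_le.2 ⟨by linarith, by linarith⟩, ?_, fun hn => ?_, h1,
      ?_, ?_⟩
    · have hlog : 0 < Real.log P := Real.log_pos (by linarith)
      have hp := pp_pos z v
      have hg := en_pos v
      have hq : 0 ≤ qq e z := ang_nonneg hgeo.e1.le (norm_nz_le z)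
      have hδ0 := hgeo.delta_nonneg
      have g6 : 0 ≤ kE e z v := by unfold kE; positivity
      refine add_nonneg (add_nonneg ?_ (indicator_apply_nonneg fun _ => by positivity))
        (indicator_apply_nonneg fun _ => g6)
      unfold mT1 mT2 mSg mSb kA
      positivity
    · rw [mem_union, not_or] at hn
      have a1 : χ₀ (xb P e z) = 1 := hc.o₀ _ (not_lt.1 fun h' => hn.1 ⟨h'.le, hI.2⟩)
      have a2 : χ₁ ‖z‖ = 1 := hc.o₁ _ (not_lt.1 fun h' => hn.2 ⟨h'.le, by linarith [hI.2]⟩)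
      rw [chi, a1, a2]; norm_num
    · rw [Hk, indicator_of_mem hb, sub_smul, one_smul]; abel
    · rw [gAll, indicator_of_mem hI]; ring
  · have hD : DG P χ₀ χ₁ e ed W z v (lor E B v) = 0 := by
      have a1 : ContinuousAt (fun a : R3 × R3 × R3 => (a.1, a.2.1)) (e, z, v) := by fun_prop
      have a2 : Gk P χ₀ χ₁ =ᶠ[𝓝 (e, z, v)] fun _ => 0 := by
        filter_upwards [a1.eventually (hc.chi_zero hI)] with a ha
        rw [Gk, ha, zero_smul]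
      rw [DG, a2.fderiv_eq]; simp
    have hG : gAll P r₂ t δ ‖ed‖ (Tf E B 1 0 1 (nz z)) ‖B‖ e W z v =
        (RD P r₂ e ∪ RF r₂ t).indicator
          (fun y => gT W y v + gSg (Tf E B 1 0 1 (nz z)) W y v) z + 0 := by
      rw [gAll, indicator_of_notMem hI, indicator_of_notMem (fun h' : z ∈ RI P r₂ e ∩ RD P r₂ e => hI h'.1),
        indicator_of_notMem (fun h' : z ∈ RI P r₂ e ∩ RF r₂ t => hI h'.1)]
      ring
    by_cases hb : z ∈ ball (0 : R3) t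
    · refine ⟨1, 0, 0, by norm_num, le_rfl, fun hn => absurd ?_ hn, by simp, ?_, hG⟩
      · by_cases h2 : ‖z‖ ≤ 2 * r₂
        · refine Or.inl ⟨?_, h2⟩
          have a1 : xb P e z < P ^ (-(1 / 50 : ℝ)) := not_le.1 fun h' => hI ⟨h', h2⟩
          exact a1.le.trans (Real.rpow_le_rpow_of_exponent_le (by linarith) (by norm_num))
        · exact Or.inr ⟨by linarith, mem_ball_zero_iff.1 hb⟩
      · rw [Hk, indicator_of_mem hb, hD]; simp
    · refine ⟨0, 0, 0, by norm_num, le_rfl, fun _ => rfl, by simp, ?_, hG⟩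
      rw [Hk, indicator_of_notMem hb, hD]; simp

theorem ker_bound (Cc : ℝ) : ∃ C P₀ : ℝ, 0 ≤ C ∧ ∀ P, P₀ ≤ P → ∀ (r₂ t δ : ℝ) (χ₀ χ₁ : ℝ → ℝ)
    (e ed W z v E B : R3), 0 < r₂ → r₂ ≤ 1 / 4 → 2 * r₂ < t → Cut P r₂ Cc χ₀ χ₁ → Geo P δ e W →
    ⟪e, ed⟫ = 0 → z ≠ 0 →
    ‖Hk P χ₀ χ₁ t e ed W z v (lor E B v)‖ ≤
      C * (gAll P r₂ t δ ‖ed‖ (Tf E B 1 0 1 (nz z)) ‖B‖ e W z v +
        (RD P r₂ e ∪ RF r₂ t).indicator (fun z => gSb ‖B‖ W z v) z) ∧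
    ‖proj e (Hk P χ₀ χ₁ t e ed W z v (lor E B v))‖ ≤
      C * (gAll P r₂ t δ ‖ed‖ (Tf E B 1 0 1 (nz z)) ‖B‖ e W z v +
        (RD P r₂ e ∪ RF r₂ t).indicator (fun z => gSp ‖B‖ e W z v) z) := by
  obtain ⟨C1, h1, hd⟩ := KerC_direct
  obtain ⟨C2, P₀, h2, hs⟩ := KerC_split Cc
  refine ⟨C1 + C2, P₀, by positivity, ?_⟩
  intro P hP r₂ t δ χ₀ χ₁ e ed W z v E B hr₂ hr₂' ht hc hgeo hed hz
  obtain ⟨c, G, R, hc1, hG, hc0, hR, hH, hg⟩ :=
    hs P hP r₂ t δ χ₀ χ₁ e ed W z v E B hr₂ hr₂' ht hc hgeo hed hz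
  obtain ⟨d1, d2⟩ := hd e W z v E B hgeo.e1 hgeo.W1.le hz
  have hR' := (norm_proj_le hgeo.e1 R).trans hR
  have n1 : ∀ u : R3, ‖c • u‖ ≤ ‖u‖ := fun u => by
    rw [norm_smul, Real.norm_eq_abs]; exact mul_le_of_le_one_left (norm_nonneg _) hc1
  rw [hH, hg, KerA_proj_add, KerA_proj_smul]
  have hp := pp_pos z v
  have he := en_pos v
  by_cases hm : z ∈ RD P r₂ e ∪ RF r₂ t
  · simp only [indicator_of_mem hm]
    set cf := Tf E B 1 0 1 (nz z)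
    have g1 : 0 ≤ gT W z v := by unfold gT; positivity
    have g2 : 0 ≤ gSg cf W z v := by unfold gSg; positivity
    have g3 : 0 ≤ gSb ‖B‖ W z v := by unfold gSb; positivity
    have g4 : 0 ≤ gSp ‖B‖ e W z v := by unfold gSp; positivity
    constructor
    · refine (norm_add_le _ _).trans ((add_le_add ((n1 _).trans d1) hR).trans ?_)
      nlinarith [mul_nonneg h1 hG, mul_nonneg h2 g1, mul_nonneg h2 g2, mul_nonneg h2 g3]
    · refine (norm_add_le _ _).trans ((add_le_add ((n1 _).trans d2) hR').trans ?_)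
      nlinarith [mul_nonneg h1 hG, mul_nonneg h2 g1, mul_nonneg h2 g2, mul_nonneg h2 g4]
  · simp only [indicator_of_notMem hm, hc0 hm, zero_smul, zero_add, add_zero]
    constructor <;> nlinarith [mul_nonneg h1 hG]

end Crest.Agent.R106
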