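import Crest.Agent.R106.EstA
import Crest.Agent.R106.EstA2
import Crest.Agent.R106.EstB
import Crest.Agent.R106.EstB1
import Crest.Agent.R106.EstC
import Crest.Agent.R106.EstC2
import Crest.Agent.R106.EstD
import Crest.Agent.R106.EstD2
import Crest.Agent.R106.EstE
import Crest.Agent.R106.EstE2
import Crest.Agent.R106.EstF
import Crest.Agent.R106.EstF2
import Crest.Agent.R106.KerC

/-!
# Row 106: the force at a fixed time
-/

set_option autoImplicit false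
set_option linter.unusedVariables false
set_option linter.unusedSectionVars false

open MeasureTheory Metric Set Filter Topology
open scoped ContDiff ENNReal RealInnerProductSpace
open Crest.AnalysisR.VecCalc3 Crest.AnalysisR.PDE.RVM

noncomputable section

namespace Crest.Agent.R106

theorem Frozen_meas {F : R3 × R3 → ℝ} (hF : Measurable F) {S : Set R3} (hS : MeasurableSet S)
    (k : R3 × R3 → R3 → ℝ) (hk : Measurable fun q => k q q.1) :
    Measurable fun q : R3 × R3 => F q * S.indicator (k q) q.1 := by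
  have : (fun q : R3 × R3 => S.indicator (k q) q.1) =
      (Prod.fst ⁻¹' S).indicator fun q => k q q.1 := by
    funext q
    by_cases h : q.1 ∈ S <;> simp [Set.indicator, h]
  refine hF.mul ?_
  rw [this]
  exact hk.indicator (measurable_fst hS)

theorem Frozen_qq (e : R3) : Measurable fun q : R3 × R3 => qq e q.1 :=
  (measurable_qq e).comp measurable_fst

theorem Frozen_en : Measurable fun q : R3 × R3 => en q.2 := measurable_en.comp measurable_snd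

theorem Frozen_nm : Measurable fun q : R3 × R3 => ‖q.1‖ := measurable_fst.norm

theorem Frozen_gT (W : R3) : Measurable fun q : R3 × R3 => gT W q.1 q.2 := by
  have h : ∀ p w Q r : R3 × R3 → ℝ, Measurable p → Measurable w → Measurable Q → Measurable r →
      Measurable fun q => (√(p q) + √(w q)) / (Q q ^ 2 * r q ^ 2 * p q * √(p q)) := by
    intros; fun_prop
  exact h _ _ _ _ measurable_pp (Frozen_qq W) Frozen_en Frozen_nm

theorem Frozen_gSg (W : R3) {c : R3 × R3 → ℝ} (hc : Measurable c) :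
    Measurable fun q : R3 × R3 => gSg (c q) W q.1 q.2 := by
  have h : ∀ p w Q r : R3 × R3 → ℝ, Measurable p → Measurable w → Measurable Q → Measurable r →
      Measurable fun q => √(w q) * √(c q) / (r q * Q q * p q) := by
    intros; fun_prop
  exact h _ _ _ _ measurable_pp (Frozen_qq W) Frozen_en Frozen_nm

theorem Frozen_gSb (W : R3) {c : R3 × R3 → ℝ} (hc : Measurable c) :
    Measurable fun q : R3 × R3 => gSb (c q) W q.1 q.2 := by
  have h : ∀ w Q r : R3 × R3 → ℝ, Measurable w → Measurable Q → Measurable r →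
      Measurable fun q => √(w q) * c q / (r q * Q q) := by
    intros; fun_prop
  exact h _ _ _ (Frozen_qq W) Frozen_en Frozen_nm

theorem Frozen_gSp (e W : R3) {c : R3 × R3 → ℝ} (hc : Measurable c) :
    Measurable fun q : R3 × R3 => gSp (c q) e W q.1 q.2 := by
  have h : ∀ u w Q r : R3 × R3 → ℝ, Measurable u → Measurable w → Measurable Q → Measurable r →
      Measurable fun q => √(w q) * (√(w q) + √(u q)) * c q / (r q * Q q) := by
    intros; fun_prop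
  exact h _ _ _ _ (Frozen_qq e) (Frozen_qq W) Frozen_en Frozen_nm

theorem Frozen_mT1 (e : R3) : Measurable fun q : R3 × R3 => mT1 e q.1 q.2 := by
  have h : ∀ p w r : R3 × R3 → ℝ, Measurable p → Measurable w → Measurable r →
      Measurable fun q => (√(p q) + √(w q)) / (r q ^ 2 * w q) := by
    intros; fun_prop
  exact h _ _ _ measurable_pp (Frozen_qq e) Frozen_nm

theorem Frozen_mT2 (e : R3) : Measurable fun q : R3 × R3 => mT2 e q.1 q.2 := by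
  have h : ∀ p w Q r : R3 × R3 → ℝ, Measurable p → Measurable w → Measurable Q → Measurable r →
      Measurable fun q => (√(p q) + √(w q)) / (√(w q) * Q q ^ 2 * r q ^ 2 * p q * √(p q)) := by
    intros; fun_prop
  exact h _ _ _ _ measurable_pp (Frozen_qq e) Frozen_en Frozen_nm

theorem Frozen_mSg {c : R3 × R3 → ℝ} (hc : Measurable c) :
    Measurable fun q : R3 × R3 => mSg (c q) q.1 q.2 := by
  have h : ∀ p Q r : R3 × R3 → ℝ, Measurable p → Measurable Q → Measurable r →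
      Measurable fun q => √(c q) / (r q * Q q * p q) := by
    intros; fun_prop
  exact h _ _ _ measurable_pp Frozen_en Frozen_nm

theorem Frozen_mSb {c : R3 × R3 → ℝ} (hc : Measurable c) :
    Measurable fun q : R3 × R3 => mSb (c q) q.1 q.2 := by
  have h : ∀ Q r : R3 × R3 → ℝ, Measurable Q → Measurable r →
      Measurable fun q => c q / (r q * Q q) := by
    intros; fun_prop
  exact h _ _ Frozen_en Frozen_nm

theorem Frozen_kA (e : R3) : Measurable fun q : R3 × R3 => kA e q.1 q.2 := by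
  have h : ∀ p w r : R3 × R3 → ℝ, Measurable p → Measurable w → Measurable r →
      Measurable fun q => √(p q) / (r q * w q) := by
    intros; fun_prop
  exact h _ _ _ measurable_pp (Frozen_qq e) Frozen_nm

theorem Frozen_kE (e : R3) : Measurable fun q : R3 × R3 => kE e q.1 q.2 := by
  have h : ∀ p w r : R3 × R3 → ℝ, Measurable p → Measurable w → Measurable r →
      Measurable fun q => (p q + w q) / (r q ^ 2 * √(p q) * √(w q)) := by
    intros; fun_prop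
  exact h _ _ _ measurable_pp (Frozen_qq e) Frozen_nm

/-- a scaled term, measured against a common size `Z` -/
theorem Frozen_scale {g : R3 × R3 → ℝ} {C b a Z : ℝ} (h : Bd g (C * b)) (hC : 0 ≤ C) (ha : 0 ≤ a)
    (hZ : a * b ≤ Z) : Bd (fun q => a * g q) (C * Z) :=
  (h.const_mul ha).mono (Eventually.of_forall fun _ => le_rfl) (by
    calc a * (C * b) = C * (a * b) := by ring
      _ ≤ C * Z := by gcongr)

theorem Frozen_add {g g' : R3 × R3 → ℝ} {C C' Z : ℝ} (h : Bd g (C * Z)) (hm : Measurable g)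
    (hC : 0 ≤ C) (h' : Bd g' (C' * Z) ∧ 0 ≤ C') (hZ : 0 ≤ Z) :
    Bd (fun q => g q + g' q) ((C + C') * Z) ∧ 0 ≤ C + C' := by
  refine ⟨?_, add_nonneg hC h'.2⟩
  rw [add_mul]
  exact h.add h'.1 hm.aemeasurable (mul_nonneg hC hZ) (mul_nonneg h'.2 hZ)

theorem Frozen_union {S S' U : Set R3} (hU : U ⊆ S ∪ S') {k : R3 → ℝ} (z : R3) (hk : 0 ≤ k z) :
    U.indicator k z ≤ S.indicator k z + S'.indicator k z := by
  have h1 : 0 ≤ S.indicator k z := Set.indicator_apply_nonneg fun _ => hk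
  have h2 : 0 ≤ S'.indicator k z := Set.indicator_apply_nonneg fun _ => hk
  by_cases h : z ∈ U
  · rw [Set.indicator_of_mem h]
    rcases hU h with h' | h'
    · rw [Set.indicator_of_mem h']; linarith
    · rw [Set.indicator_of_mem h']; linarith
  · rw [Set.indicator_of_notMem h]; linarith

/-- pointwise decomposition of the majorant -/
theorem Frozen_pt (P r₂ t δ A cf b : ℝ) (e W z v : R3) (hδ : 0 ≤ δ) :
    gAll P r₂ t δ A cf b e W z v ≤
      1 * (RD P r₂ e).indicator (fun z => gT W z v) z +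
      (1 * (RF r₂ t).indicator (fun z => gT W z v) z +
      (1 * (RD P r₂ e).indicator (fun z => gSg cf W z v) z +
      (1 * (RF r₂ t).indicator (fun z => gSg cf W z v) z +
      (δ * (RI P r₂ e).indicator (fun z => mT1 e z v) z +
      (δ * (RI P r₂ e).indicator (fun z => mT2 e z v) z +
      (δ * (RI P r₂ e ∩ {z | P ^ (-(73 / 100 : ℝ)) ≤ lam e z}).indicator (fun z => mSg cf z v) z +
      (δ * (RI P r₂ e ∩ {z | lam e z ≤ P ^ (-(73 / 100 : ℝ))}).indicator (fun z => mSg cf z v) z +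
      (δ * (RI P r₂ e).indicator (fun z => mSb b z v) z +
      (A * (RI P r₂ e).indicator (fun z => kA e z v) z +
      ((Real.log P)⁻¹ * (RI P r₂ e ∩ RD P r₂ e).indicator (fun z => kE e z v) z +
      1 * (RI P r₂ e ∩ RF r₂ t).indicator (fun z => kE e z v) z)))))))))) := by
  have hp := pp_pos z v
  have he := en_pos v
  have h1 : (RD P r₂ e ∪ RF r₂ t).indicator (fun z => gT W z v) z ≤ _ :=
    Frozen_union (subset_refl _) z (by unfold gT; positivity)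
  have h2 : (RD P r₂ e ∪ RF r₂ t).indicator (fun z => gSg cf W z v) z ≤ _ :=
    Frozen_union (subset_refl _) z (by unfold gSg; positivity)
  have h3 : (RI P r₂ e).indicator (fun z => mSg cf z v) z ≤
      (RI P r₂ e ∩ {z | P ^ (-(73 / 100 : ℝ)) ≤ lam e z}).indicator (fun z => mSg cf z v) z +
      (RI P r₂ e ∩ {z | lam e z ≤ P ^ (-(73 / 100 : ℝ))}).indicator (fun z => mSg cf z v) z :=
    Frozen_union (fun z hz => by
      rcases le_total (P ^ (-(73 / 100 : ℝ))) (lam e z) with h | h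
      · exact Or.inl ⟨hz, h⟩
      · exact Or.inr ⟨hz, h⟩) z (by unfold mSg; positivity)
  have e1 : (RD P r₂ e ∪ RF r₂ t).indicator (fun z => gT W z v + gSg cf W z v) z =
      (RD P r₂ e ∪ RF r₂ t).indicator (fun z => gT W z v) z +
      (RD P r₂ e ∪ RF r₂ t).indicator (fun z => gSg cf W z v) z := by
    by_cases h : z ∈ RD P r₂ e ∪ RF r₂ t
    · simp only [Set.indicator_of_mem h]
    · simp only [Set.indicator_of_notMem h, add_zero]
  have e2 : (RI P r₂ e).indicator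
      (fun z => δ * (mT1 e z v + mT2 e z v + mSg cf z v + mSb b z v) + A * kA e z v) z =
      δ * ((RI P r₂ e).indicator (fun z => mT1 e z v) z + (RI P r₂ e).indicator (fun z => mT2 e z v) z +
        (RI P r₂ e).indicator (fun z => mSg cf z v) z + (RI P r₂ e).indicator (fun z => mSb b z v) z) +
      A * (RI P r₂ e).indicator (fun z => kA e z v) z := by
    by_cases h : z ∈ RI P r₂ e
    · simp only [Set.indicator_of_mem h]
    · simp only [Set.indicator_of_notMem h, add_zero, mul_zero]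
  have e3 : (RI P r₂ e ∩ RD P r₂ e).indicator (fun z => kE e z v / Real.log P) z =
      (Real.log P)⁻¹ * (RI P r₂ e ∩ RD P r₂ e).indicator (fun z => kE e z v) z := by
    by_cases h : z ∈ RI P r₂ e ∩ RD P r₂ e
    · simp only [Set.indicator_of_mem h, div_eq_inv_mul]
    · simp only [Set.indicator_of_notMem h, mul_zero]
  unfold gAll
  rw [e1, e2, e3]
  nlinarith [mul_le_mul_of_nonneg_left h3 hδ]

theorem Frozen_num {P s y y₂ δ A : ℝ} (hP3 : 3 ≤ P) (hs0 : 0 ≤ s) (hδ : 0 ≤ δ) (hA : 0 ≤ A)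
    (hdP : δ ≤ P ^ (-(57 / 100 : ℝ))) {Z : ℝ} (hZ : Z = fz1 P s y y₂ δ A) :
    0 ≤ Z ∧ 0 ≤ (Real.log P)⁻¹ ∧ 1 * P ^ (3 / 5 : ℝ) ≤ Z ∧ 1 * (P * Real.log P + P * √s) ≤ Z ∧
    1 * P ^ (199 / 200 : ℝ) ≤ Z ∧ 1 * (P * √s) ≤ Z ∧ δ * (P ^ (141 / 100 : ℝ) * (1 + √y)) ≤ Z ∧
    δ * (P ^ (3 / 2 : ℝ) * (1 + √s)) ≤ Z ∧ δ * (P ^ (156 / 100 : ℝ) * (1 + √s + √y)) ≤ Z ∧
    δ * P ^ (164 / 100 : ℝ) ≤ Z ∧ δ * (P ^ (142 / 100 : ℝ) * √s) ≤ Z ∧
    A * P ^ (78 / 100 : ℝ) ≤ Z ∧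
    (Real.log P)⁻¹ * (Real.log P * (P * √y) + P ^ (99 / 100 : ℝ) + P ^ (7 / 10 : ℝ) * √y₂) ≤ Z ∧
    1 * (P ^ (1 / 2 : ℝ) + P * √(Real.log P * s)) ≤ Z ∧ P ^ (199 / 200 : ℝ) * √s ≤ Z := by
  have hP1 : (1 : ℝ) ≤ P := by linarith
  have hP0 : (0 : ℝ) < P := by linarith
  have hL : 1 ≤ Real.log P := by
    rw [Real.le_log_iff_exp_le hP0]
    exact (Real.exp_one_lt_d9.le.trans (by norm_num)).trans hP3
  have hL0 : 0 < Real.log P := by linarith
  have hs : √s ≤ √(Real.log P * s) := Real.sqrt_le_sqrt (le_mul_of_one_le_left hs0 hL)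
  have hpow : ∀ a : ℝ, a ≤ 199 / 200 → P ^ a ≤ P ^ (199 / 200 : ℝ) := fun a ha =>
    Real.rpow_le_rpow_of_exponent_le hP1 ha
  have hdel : ∀ a u : ℝ, a ≤ 313 / 200 → 0 ≤ u → δ * (P ^ a * u) ≤ P ^ (199 / 200 : ℝ) * u := by
    intro a u ha hu
    rw [← mul_assoc]
    refine mul_le_mul_of_nonneg_right ?_ hu
    calc δ * P ^ a ≤ P ^ (-(57 / 100 : ℝ)) * P ^ a := by gcongr
      _ = P ^ (-(57 / 100 : ℝ) + a) := (Real.rpow_add hP0 _ _).symm
      _ ≤ _ := hpow _ (by linarith)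
  have hPs : P * √s ≤ P * √(Real.log P * s) := by gcongr
  have ss : 0 ≤ √s := Real.sqrt_nonneg _
  have sy : 0 ≤ √y := Real.sqrt_nonneg _
  have d5 := hdel (141 / 100) (1 + √y) (by norm_num) (by linarith)
  have d6 := hdel (3 / 2) (1 + √s) (by norm_num) (by linarith)
  have d7 := hdel (156 / 100) (1 + √s + √y) (by norm_num) (by linarith)
  have d9 := hdel (142 / 100) √s (by norm_num) ss
  have q1 := hpow (3 / 5) (by norm_num)
  have q2 := hpow (99 / 100) (by norm_num)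
  have q3 := hpow (1 / 2) (by norm_num)
  have h1 : (Real.log P)⁻¹ ≤ 1 := inv_le_one_of_one_le₀ hL
  have h2 : (Real.log P)⁻¹ * (P ^ (99 / 100 : ℝ) + P ^ (7 / 10 : ℝ) * √y₂) ≤
      P ^ (99 / 100 : ℝ) + P ^ (7 / 10 : ℝ) * √y₂ :=
    mul_le_of_le_one_left (by positivity) h1
  have h3 : (Real.log P)⁻¹ * (Real.log P * (P * √y) + P ^ (99 / 100 : ℝ) +
      P ^ (7 / 10 : ℝ) * √y₂) = P * √y + (Real.log P)⁻¹ *
        (P ^ (99 / 100 : ℝ) + P ^ (7 / 10 : ℝ) * √y₂) := by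
    field_simp; ring
  have t1 : 0 ≤ P * Real.log P := by positivity
  have t2 : 0 ≤ P * √(Real.log P * s) := by positivity
  have t3 : 0 ≤ P * √y := by positivity
  have t4 : 0 ≤ P ^ (199 / 200 : ℝ) := by positivity
  have t5 : 0 ≤ P ^ (199 / 200 : ℝ) * √s := by positivity
  have t6 : 0 ≤ P ^ (199 / 200 : ℝ) * √y := by positivity
  have t7 : 0 ≤ δ * P ^ (164 / 100 : ℝ) := by positivity
  have t8 : 0 ≤ A * P ^ (78 / 100 : ℝ) := by positivity
  have t9 : 0 ≤ P ^ (7 / 10 : ℝ) * √y₂ := by positivity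
  have hfz : Z = P * Real.log P + P * √(Real.log P * s) + P * √y +
      (P ^ (199 / 200 : ℝ) + P ^ (199 / 200 : ℝ) * √s + P ^ (199 / 200 : ℝ) * √y) +
      δ * P ^ (164 / 100 : ℝ) + A * P ^ (78 / 100 : ℝ) + P ^ (7 / 10 : ℝ) * √y₂ := by
    rw [hZ]; unfold fz1; ring
  rw [h3]
  rw [mul_add (P ^ (199 / 200 : ℝ)), mul_one] at d5 d6
  rw [mul_add (P ^ (199 / 200 : ℝ)), mul_add (P ^ (199 / 200 : ℝ)), mul_one] at d7
  refine ⟨?_, inv_nonneg.2 hL0.le, ?_, ?_, ?_, ?_, ?_, ?_, ?_, ?_, ?_, ?_, ?_, ?_, ?_⟩ <;> linarith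

theorem Frozen_gAll (M 𝓔 T r₂ : ℝ) (hM : 0 ≤ M) (h𝓔 : 0 ≤ 𝓔) (hT : 0 ≤ T) (h₀ : 0 < r₂)
    (h₁ : r₂ ≤ 1 / 4) : ∃ C P₀ : ℝ, 0 ≤ C ∧ ∀ P, P₀ ≤ P →
    ∀ (τ t δ A : ℝ) (e W : R3) (F : R3 × R3 → ℝ) (Ez Bz : R3 → R3) (s y y₁ y₂ : ℝ),
      Frz M 𝓔 T r₂ P τ t δ e W F Ez Bz s y y₁ y₂ → 0 ≤ A →
      Bd (fun q : R3 × R3 => F q *
        gAll P r₂ t δ A (Tf (Ez q.1) (Bz q.1) 1 0 1 (nz q.1)) ‖Bz q.1‖ e W q.1 q.2)
        (C * fz1 P s y y₂ δ A) := by
  obtain ⟨C1, P1, c1, H1⟩ := est_gT_near M 𝓔 T r₂ hM h𝓔 hT h₀ h₁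
  obtain ⟨C2, P2, c2, H2⟩ := est_gT_far M 𝓔 T r₂ hM h𝓔 hT h₀ h₁
  obtain ⟨C3, P3, c3, H3⟩ := est_gSg_near M 𝓔 T r₂ hM h𝓔 hT h₀ h₁
  obtain ⟨C4, P4, c4, H4⟩ := est_gSg_far M 𝓔 T r₂ hM h𝓔 hT h₀ h₁
  obtain ⟨C5, P5, c5, H5⟩ := est_mT1 M 𝓔 T r₂ hM h𝓔 hT h₀ h₁
  obtain ⟨C6, P6, c6, H6⟩ := est_mT2 M 𝓔 T r₂ hM h𝓔 hT h₀ h₁
  obtain ⟨C7, P7, c7, H7⟩ := est_mSg_high M 𝓔 T r₂ hM h𝓔 hT h₀ h₁
  obtain ⟨C8, P8, c8, H8⟩ := est_mSg_low M 𝓔 T r₂ hM h𝓔 hT h₀ h₁
  obtain ⟨C9, P9, c9, H9⟩ := est_mSb M 𝓔 T r₂ hM h𝓔 hT h₀ h₁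
  obtain ⟨C10, P10, c10, H10⟩ := est_kA M 𝓔 T r₂ hM h𝓔 hT h₀ h₁
  obtain ⟨C11, P11, c11, H11⟩ := est_kE_band M 𝓔 T r₂ hM h𝓔 hT h₀ h₁
  obtain ⟨C12, P12, c12, H12⟩ := est_kE_entry M 𝓔 T r₂ hM h𝓔 hT h₀ h₁
  refine ⟨C1 + (C2 + (C3 + (C4 + (C5 + (C6 + (C7 + (C8 + (C9 + (C10 + (C11 + C12)))))))))),
    max 3 (max P1 (max P2 (max P3 (max P4 (max P5 (max P6 (max P7 (max P8 (max P9 (max P10
      (max P11 P12))))))))))), by positivity, ?_⟩
  intro P hP τ t δ A e W F Ez Bz s y y₁ y₂ hz hA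
  simp only [max_le_iff] at hP
  obtain ⟨hP3, p1, p2, p3, p4, p5, p6, p7, p8, p9, p10, p11, p12⟩ := hP
  have hδ := hz.geo.delta_nonneg
  obtain ⟨hZ, hL, n1, n2, n3, n4, n5, n6, n7, n8, n9, n10, n11, n12, -⟩ :=
    Frozen_num (y := y) (y₂ := y₂) hP3 hz.s0 hδ hA hz.geo.dP rfl
  have mc : Measurable fun q : R3 × R3 => Tf (Ez q.1) (Bz q.1) 1 0 1 (nz q.1) :=
    (measurable_cf hz.mE hz.mB).comp measurable_fst
  have mb : Measurable fun q : R3 × R3 => ‖Bz q.1‖ := (hz.mB.comp measurable_fst).norm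
  have mRI := measurableSet_RI P r₂ e
  have mRD := measurableSet_RD P r₂ e
  have mRF := measurableSet_RF r₂ t
  have B1 := Frozen_scale (H1 P p1 τ t δ e W F Ez Bz s y y₁ y₂ hz) c1 zero_le_one n1
  have B2 := Frozen_scale (H2 P p2 τ t δ e W F Ez Bz s y y₁ y₂ hz) c2 zero_le_one n2
  have B3 := Frozen_scale (H3 P p3 τ t δ e W F Ez Bz s y y₁ y₂ hz) c3 zero_le_one n3
  have B4 := Frozen_scale (H4 P p4 τ t δ e W F Ez Bz s y y₁ y₂ hz) c4 zero_le_one n4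
  have B5 := Frozen_scale (H5 P p5 τ t δ e W F Ez Bz s y y₁ y₂ hz) c5 hδ n5
  have B6 := Frozen_scale (H6 P p6 τ t δ e W F Ez Bz s y y₁ y₂ hz) c6 hδ n6
  have B7 := Frozen_scale (H7 P p7 τ t δ e W F Ez Bz s y y₁ y₂ hz) c7 hδ n7
  have B8 := Frozen_scale (H8 P p8 τ t δ e W F Ez Bz s y y₁ y₂ hz) c8 hδ n8
  have B9 := Frozen_scale (H9 P p9 τ t δ e W F Ez Bz s y y₁ y₂ hz) c9 hδ n9
  have B10 := Frozen_scale (H10 P p10 τ t δ e W F Ez Bz s y y₁ y₂ hz) c10 hA n10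
  have B11 := Frozen_scale (H11 P p11 τ t δ e W F Ez Bz s y y₁ y₂ hz) c11 hL n11
  have B12 := Frozen_scale (H12 P p12 τ t δ e W F Ez Bz s y y₁ y₂ hz) c12 zero_le_one n12
  have mlo : MeasurableSet {z | P ^ (-(73 / 100 : ℝ)) ≤ lam e z} :=
    measurableSet_le measurable_const (measurable_lam e)
  have mhi : MeasurableSet {z | lam e z ≤ P ^ (-(73 / 100 : ℝ))} :=
    measurableSet_le (measurable_lam e) measurable_const
  have key := Frozen_add B1 ((Frozen_meas hz.mF mRD (fun q z => gT W z q.2) (Frozen_gT W)).const_mul _) c1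
    (Frozen_add B2 ((Frozen_meas hz.mF mRF (fun q z => gT W z q.2) (Frozen_gT W)).const_mul _) c2
    (Frozen_add B3 ((Frozen_meas hz.mF mRD
      (fun q z => gSg (Tf (Ez q.1) (Bz q.1) 1 0 1 (nz q.1)) W z q.2) (Frozen_gSg W mc)).const_mul _) c3
    (Frozen_add B4 ((Frozen_meas hz.mF mRF
      (fun q z => gSg (Tf (Ez q.1) (Bz q.1) 1 0 1 (nz q.1)) W z q.2) (Frozen_gSg W mc)).const_mul _) c4
    (Frozen_add B5 ((Frozen_meas hz.mF mRI (fun q z => mT1 e z q.2) (Frozen_mT1 e)).const_mul _) c5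
    (Frozen_add B6 ((Frozen_meas hz.mF mRI (fun q z => mT2 e z q.2) (Frozen_mT2 e)).const_mul _) c6
    (Frozen_add B7 ((Frozen_meas hz.mF (mRI.inter mlo)
      (fun q z => mSg (Tf (Ez q.1) (Bz q.1) 1 0 1 (nz q.1)) z q.2) (Frozen_mSg mc)).const_mul _) c7
    (Frozen_add B8 ((Frozen_meas hz.mF (mRI.inter mhi)
      (fun q z => mSg (Tf (Ez q.1) (Bz q.1) 1 0 1 (nz q.1)) z q.2) (Frozen_mSg mc)).const_mul _) c8
    (Frozen_add B9 ((Frozen_meas hz.mF mRI (fun q z => mSb ‖Bz q.1‖ z q.2) (Frozen_mSb mb)).const_mul _) c9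
    (Frozen_add B10 ((Frozen_meas hz.mF mRI (fun q z => kA e z q.2) (Frozen_kA e)).const_mul _) c10
    (Frozen_add B11 ((Frozen_meas hz.mF (mRI.inter mRD) (fun q z => kE e z q.2)
      (Frozen_kE e)).const_mul _) c11
      ⟨B12, c12⟩ hZ) hZ) hZ) hZ) hZ) hZ) hZ) hZ) hZ) hZ) hZ
  refine key.1.mono (Eventually.of_forall fun q => ?_) le_rfl
  have := mul_le_mul_of_nonneg_left (Frozen_pt P r₂ t δ A (Tf (Ez q.1) (Bz q.1) 1 0 1 (nz q.1))
    ‖Bz q.1‖ e W q.1 q.2 hδ) (hz.F0 q)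
  refine this.trans (le_of_eq ?_)
  ring

theorem frozen (M 𝓔 T r₂ Cc : ℝ) (hM : 0 ≤ M) (h𝓔 : 0 ≤ 𝓔) (hT : 0 ≤ T) (h₀ : 0 < r₂)
    (h₁ : r₂ ≤ 1 / 4) : ∃ C P₀ : ℝ, 0 ≤ C ∧ ∀ P, P₀ ≤ P →
    ∀ (τ t δ : ℝ) (e ed W : R3) (F : R3 × R3 → ℝ) (Ez Bz : R3 → R3) (s y y₁ y₂ : ℝ)
      (χ₀ χ₁ : ℝ → ℝ), Frz M 𝓔 T r₂ P τ t δ e W F Ez Bz s y y₁ y₂ → Cut P r₂ Cc χ₀ χ₁ →
      ⟪e, ed⟫ = 0 →
      ‖∫ q : R3 × R3, F q • proj e (Hk P χ₀ χ₁ t e ed W q.1 q.2 (lor (Ez q.1) (Bz q.1) q.2))‖ ≤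
        C * fz1 P s y y₂ δ ‖ed‖ ∧
      ‖∫ q : R3 × R3, F q • Hk P χ₀ χ₁ t e ed W q.1 q.2 (lor (Ez q.1) (Bz q.1) q.2)‖ ≤
        C * (fz1 P s y y₂ δ ‖ed‖ + fz2 P s y y₁) ∧
      ‖∫ q : R3 × R3, (pp q.1 q.2 * F q) • proj e (Gk P χ₀ χ₁ (e, q.1, q.2))‖ ≤
        C * (P ^ (31 / 100 : ℝ) * √y + P ^ (69 / 200 : ℝ)) := by
  obtain ⟨Ck, Pk, ck, Hker⟩ := ker_bound Cc
  obtain ⟨Ca, Pa, ca, Ha⟩ := Frozen_gAll M 𝓔 T r₂ hM h𝓔 hT h₀ h₁
  obtain ⟨Cp, Pp, cp', Hp⟩ := est_gSp M 𝓔 T r₂ hM h𝓔 hT h₀ h₁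
  obtain ⟨Cb, Pb, cb, Hb⟩ := est_gSb M 𝓔 T r₂ hM h𝓔 hT h₀ h₁
  obtain ⟨Cq, Pq, cq', Hq⟩ := est_kPp M 𝓔 T r₂ hM h𝓔 hT h₀ h₁
  obtain ⟨Cs, cs, Hs⟩ := norm_psi_le
  refine ⟨Ck * (Cp + Cb + Ca) + Cs * Cq, max 3 (max Pk (max Pa (max Pp (max Pb Pq)))),
    by positivity, ?_⟩
  intro P hP τ t δ e ed W F Ez Bz s y y₁ y₂ χ₀ χ₁ hz hcut horth
  simp only [max_le_iff] at hP
  obtain ⟨hP3, pk, pa, pp', pb, pq⟩ := hP
  have hP1 : (1 : ℝ) ≤ P := by linarith
  have hP0 : (0 : ℝ) < P := by linarith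
  have hδ := hz.geo.delta_nonneg
  have hL0 : 0 ≤ Real.log P := Real.log_nonneg hP1
  have hZ : 0 ≤ fz1 P s y y₂ δ ‖ed‖ := by unfold fz1; positivity
  have hZ2 : 0 ≤ fz2 P s y y₁ := by
    have := hz.s0
    have := hz.y0
    unfold fz2; positivity
  have hsp : P ^ (199 / 200 : ℝ) * √s ≤ fz1 P s y y₂ δ ‖ed‖ :=
    (Frozen_num hP3 hz.s0 hδ (norm_nonneg ed) hz.geo.dP rfl).2.2.2.2.2.2.2.2.2.2.2.2.2.2
  have mb : Measurable fun q : R3 × R3 => ‖Bz q.1‖ := (hz.mB.comp measurable_fst).norm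
  have mU := (measurableSet_RD P r₂ e).union (measurableSet_RF r₂ t)
  have BA := Ha P pa τ t δ ‖ed‖ e W F Ez Bz s y y₁ y₂ hz (norm_nonneg _)
  have hker := fun (q : R3 × R3) (hq : q.1 ≠ 0) =>
    Hker P pk r₂ t δ χ₀ χ₁ e ed W q.1 q.2 (Ez q.1) (Bz q.1) h₀ h₁ hz.tr hcut hz.geo horth hq
  refine ⟨?_, ?_, ?_⟩
  · have B1 := ((Hp P pp' τ t δ e W F Ez Bz s y y₁ y₂ hz).add BA
      (Frozen_meas hz.mF mU (fun q z => gSp ‖Bz q.1‖ e W z q.2)
        (Frozen_gSp e W mb)).aemeasurable (by positivity)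
      (by positivity)).const_mul ck
    refine (B1.norm_integral_le (by positivity) ?_).trans ?_
    · filter_upwards [ae_fst_ne_zero] with q hq
      rw [norm_smul, Real.norm_of_nonneg (hz.F0 q)]
      refine (mul_le_mul_of_nonneg_left (hker q hq).2 (hz.F0 q)).trans (le_of_eq ?_)
      ring
    · have h1 : Cp * (P ^ (199 / 200 : ℝ) * √s) ≤ Cp * fz1 P s y y₂ δ ‖ed‖ := by gcongr
      have h2 : 0 ≤ (Ck * Cb + Cs * Cq) * fz1 P s y y₂ δ ‖ed‖ := by positivity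
      nlinarith [mul_le_mul_of_nonneg_left h1 ck]
  · have B1 := ((Hb P pb τ t δ e W F Ez Bz s y y₁ y₂ hz).add BA
      (Frozen_meas hz.mF mU (fun q z => gSb ‖Bz q.1‖ W z q.2)
        (Frozen_gSb W mb)).aemeasurable (by positivity)
      (by positivity)).const_mul ck
    refine (B1.norm_integral_le (by positivity) ?_).trans ?_
    · filter_upwards [ae_fst_ne_zero] with q hq
      rw [norm_smul, Real.norm_of_nonneg (hz.F0 q)]
      refine (mul_le_mul_of_nonneg_left (hker q hq).1 (hz.F0 q)).trans (le_of_eq ?_)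
      ring
    · have h1 : 0 ≤ (Ck * (Cp + Cb) + Cs * Cq) * fz1 P s y y₂ δ ‖ed‖ := by positivity
      have h2 : 0 ≤ (Ck * (Cp + Ca) + Cs * Cq) * fz2 P s y y₁ := by positivity
      nlinarith
  · have B1 := (Hq P pq τ t δ e W F Ez Bz s y y₁ y₂ hz).const_mul cs
    refine (B1.norm_integral_le (by positivity) ?_).trans ?_
    · filter_upwards [ae_fst_ne_zero] with q hq
      have hF := hz.F0 q
      by_cases hI : q.1 ∈ RI P r₂ e
      · have hq0 : 0 < qq e q.1 := by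
          refine lt_of_lt_of_le ?_ (RI_qq hP0 hI)
          have : 0 < ‖q.1‖ := norm_pos_iff.2 hq
          positivity
        have hχ0 : 0 ≤ chi P χ₀ χ₁ e q.1 := mul_nonneg (hcut.r₀ _).1 (hcut.r₁ _).1
        have hχ1 : chi P χ₀ χ₁ e q.1 ≤ 1 := mul_le_one₀ (hcut.r₀ _).2 (hcut.r₁ _).1 (hcut.r₁ _).2
        have e1 : (pp q.1 q.2 * F q) • proj e (Gk P χ₀ χ₁ (e, q.1, q.2)) =
            (F q * chi P χ₀ χ₁ e q.1) • proj e (pp q.1 q.2 • psi e q.1 q.2) := by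
          simp only [Gk, KerA_proj_smul, smul_smul]
          congr 1; ring
        rw [e1, norm_smul, Real.norm_of_nonneg (mul_nonneg hF hχ0), Set.indicator_of_mem hI]
        calc F q * chi P χ₀ χ₁ e q.1 * ‖proj e (pp q.1 q.2 • psi e q.1 q.2)‖
            ≤ F q * 1 * (Cs * kPp e q.1 q.2) := by
              gcongr
              exact (Hs e q.1 q.2 hz.geo.e1 hq hq0).2
          _ = _ := by ring
      · have hχ : chi P χ₀ χ₁ e q.1 = 0 := by
          simp only [RI, Set.mem_ofPred_eq, not_and_or, not_le] at hI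
          rcases hI with h | h
          · rw [chi, hcut.z₀ _ h.le, zero_mul]
          · rw [chi, hcut.z₁ _ h.le, mul_zero]
        rw [Set.indicator_of_notMem hI]
        simp [Gk, hχ, proj]
    · have h1 : 0 ≤ Ck * (Cp + Cb + Ca) * (P ^ (31 / 100 : ℝ) * √y + P ^ (69 / 200 : ℝ)) := by
        positivity
      nlinarith

end Crest.Agent.R106
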