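import Crest.Agent.R106.KerC0
import Crest.Agent.R106.CalcC

/-!
# Row 106: derivative of the potential along the test trajectory
-/

set_option autoImplicit false
set_option linter.unusedVariables false
set_option linter.unusedSectionVars false

open MeasureTheory Metric Set Filter Topology
open scoped ContDiff ENNReal RealInnerProductSpace
open Crest.AnalysisR.VecCalc3 Crest.AnalysisR.PDE.RVM

noncomputable section

namespace Crest.Agent.R106

section aux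
open Crest.Agent.R240
variable {U : PS × R3 × R3 → R3}

theorem PsiDer_smul (hU : LocC U) (h0 : ∀ b, b.2.1 = 0 → U =ᶠ[𝓝 b] 0) {c : R3 × R3 → ℝ}
    (hc : ∀ q, q.1 ≠ 0 → ContDiffAt ℝ ∞ c q) : LocC fun b => c b.2 • U b := by
  refine ⟨contDiff_iff_contDiffAt.2 fun b => ?_, fun a => (hU.supp a).imp fun K hK =>
    ⟨hK.1, hK.2.mono fun a ha y hy => by rw [ha y hy, smul_zero]⟩⟩
  by_cases hb : b.2.1 = 0
  · exact (contDiffAt_const (c := 0)).congr_of_eventuallyEq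
      ((h0 b hb).mono fun x hx => by simp only [hx, Pi.zero_apply, smul_zero])
  · exact ((hc _ hb).comp b contDiffAt_snd).smul hU.smooth.contDiffAt

theorem PsiDer_ibp (hU : LocC U) (a : PS) (w : R3 × R3) :
    ∫ q, fderiv ℝ U (a, q) (0, w) = 0 := by
  obtain ⟨K, hK, h⟩ := hU.supp a
  rw [← integral_fderiv_eq_zero' (volume.prod volume) (u := fun q => U (a, q))
    ((hU.smooth.comp (contDiff_prodMk_right a)).of_le (by simp))
    (HasCompactSupport.intro hK h.self_of_nhds) w]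
  refine integral_congr_ae (Eventually.of_forall fun q => ?_)
  exact (congrArg (· w) ((hU.smooth.differentiable (by simp) (a, q)).hasFDerivAt.comp q
    (hasFDerivAt_prodMk_right a q)).fderiv).symm

theorem PsiDer_div (hU : LocC U) (h0 : ∀ b, b.2.1 = 0 → U =ᶠ[𝓝 b] 0) {c : Fin 3 → R3 × R3 → ℝ}
    (hc : ∀ i q, q.1 ≠ 0 → ContDiffAt ℝ ∞ (c i) q) (w : Fin 3 → R3 × R3)
    (hd : ∀ q, q.1 ≠ 0 → ∑ i, fderiv ℝ (c i) q (w i) = 0) (a : PS) :
    Integrable (fun q => fderiv ℝ U (a, q) (0, ∑ i, c i q • w i)) ∧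
      ∫ q, fderiv ℝ U (a, q) (0, ∑ i, c i q • w i) = 0 := by
  have e : (fun q => fderiv ℝ U (a, q) (0, ∑ i, c i q • w i)) =
      fun q => ∑ i, fderiv ℝ (fun b => c i b.2 • U b) (a, q) (0, w i) := by
    funext q
    by_cases hq : q.1 = 0
    · have h1 := h0 (a, q) hq
      have h2 : ∀ i, (fun b => c i b.2 • U b) =ᶠ[𝓝 (a, q)] 0 := fun i =>
        h1.mono fun x hx => by simp only [hx, Pi.zero_apply, smul_zero]
      refine Eq.trans ?_ (Finset.sum_eq_zero fun i _ => ?_).symm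
      · simp [h1.fderiv_eq]
      · simp [(h2 i).fderiv_eq]
    have h1 : ∀ i, fderiv ℝ (fun b => c i b.2 • U b) (a, q) (0, w i) =
        c i q • fderiv ℝ U (a, q) (0, w i) + fderiv ℝ (c i) q (w i) • U (a, q) := fun i =>
      congrArg (· (0, w i)) ((HasFDerivAt.comp (f := Prod.snd) (a, q)
        ((hc i q hq).differentiableAt (by simp)).hasFDerivAt hasFDerivAt_snd).smul
        (hU.smooth.differentiable (by simp) (a, q)).hasFDerivAt).fderiv
    have h2 : ((0, ∑ i, c i q • w i) : PS × R3 × R3) = ∑ i, c i q • ((0, w i) : PS × R3 × R3) := by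
      simp [Fin.sum_univ_three]
    simp only [h1, h2, Finset.sum_add_distrib, ← Finset.sum_smul, hd q hq, zero_smul, add_zero,
      map_sum, map_smul]
  have hi := fun i => ((PsiDer_smul hU h0 (hc i)).fderiv (0, w i)).integrable volume a
  rw [e]
  refine ⟨integrable_finsetSum _ fun i _ => hi i, ?_⟩
  rw [integral_finsetSum _ fun i _ => hi i]
  exact Finset.sum_eq_zero fun i _ => PsiDer_ibp (PsiDer_smul hU h0 (hc i)) a _

theorem PsiDer_nz {q : R3 × R3} (hq : q.1 ≠ 0) : ContDiffAt ℝ ∞ (fun q : R3 × R3 => nz q.1) q :=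
  (contDiffAt_nz hq).comp q contDiffAt_fst

theorem PsiDer_rel : ContDiff ℝ ∞ fun q : R3 × R3 => relVel q.2 := contDiff_relVel.comp contDiff_snd

theorem PsiDer_pp {q : R3 × R3} (hq : q.1 ≠ 0) :
    ContDiffAt ℝ ∞ (fun q : R3 × R3 => pp q.1 q.2) q :=
  contDiffAt_const.sub (PsiDer_rel.contDiffAt.inner ℝ (PsiDer_nz hq))

theorem PsiDer_qq (W : R3) {q : R3 × R3} (hq : q.1 ≠ 0) :
    ContDiffAt ℝ ∞ (fun q : R3 × R3 => qq W q.1) q :=
  contDiffAt_const.sub (contDiffAt_const.inner ℝ (PsiDer_nz hq))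

theorem PsiDer_left {c : R3 × R3 → ℝ} {q : R3 × R3} (hc : ContDiffAt ℝ ∞ c q) (w : R3) :
    fderiv ℝ c q (w, 0) = fderiv ℝ (fun z => c (z, q.2)) q.1 w :=
  (DFunLike.congr_fun (HasFDerivAt.comp (f := fun z => (z, q.2)) q.1
    (hc.differentiableAt (by simp)).hasFDerivAt (hasFDerivAt_prodMk_left q.1 q.2)).fderiv w).symm

theorem PsiDer_right {c : R3 × R3 → ℝ} {q : R3 × R3} (hc : ContDiffAt ℝ ∞ c q) (w : R3) :
    fderiv ℝ c q (0, w) = fderiv ℝ (fun v => c (q.1, v)) q.2 w :=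
  (DFunLike.congr_fun (HasFDerivAt.comp (f := fun v => (q.1, v)) q.2
    (hc.differentiableAt (by simp)).hasFDerivAt (hasFDerivAt_prodMk_right q.1 q.2)).fderiv w).symm

theorem PsiDer_coord {g : R3 × R3 → R3} {q : R3 × R3} (hg : ContDiffAt ℝ ∞ g q) (i : Fin 3) :
    ContDiffAt ℝ ∞ (fun q => g q i) q :=
  (EuclideanSpace.proj (𝕜 := ℝ) i).contDiff.contDiffAt.comp q hg

theorem PsiDer_divz (a W : R3) {z : R3} (hz : z ≠ 0) :
    ∑ i, fderiv ℝ (fun z => (qq a z • W - qq W z • a) i) z (EuclideanSpace.single i 1) = 0 := by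
  have hn := ((contDiffAt_nz hz).differentiableAt (by simp)).hasFDerivAt
  have h : ∀ a : R3, HasFDerivAt (qq a) (-(innerSL ℝ a).comp (fderiv ℝ nz z)) z := fun a =>
    ((innerSL ℝ a).hasFDerivAt.comp z hn).const_sub 1
  have h1 : ∀ i u, fderiv ℝ (fun z => (qq a z • W - qq W z • a) i) z u =
      W i * -⟪a, fderiv ℝ nz z u⟫ - a i * -⟪W, fderiv ℝ nz z u⟫ := fun i u =>
    congrArg (· u) (((h a).mul_const (W i)).sub ((h W).mul_const (a i))).fderiv
  simp only [h1, fderiv_nz hz, inner_smul_right, inner_sub_right, EuclideanSpace.inner_single_right]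
  simp [Fin.sum_univ_three, PiLp.inner_apply]
  ring

theorem PsiDer_divv (c : ℝ) (E B v : R3) :
    ∑ i, fderiv ℝ (fun v => (c • lor E B v) i) v (EuclideanSpace.single i 1) = 0 := by
  have h : ∀ i, fderiv ℝ (fun v => (c • lor E B v) i) v = c • fderiv ℝ (fun v => lor E B v i) v :=
    fun i => congrFun (fderiv_const_smul_field (f := fun v => lor E B v i) c) v
  have h2 := div3_lor E B v
  simp only [div3, pderiv] at h2
  simp only [h, smul_apply, ← Finset.smul_sum, h2, smul_zero]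

theorem PsiDer_sum1 (y : R3) :
    ∑ i, y i • ((EuclideanSpace.single i 1, 0) : R3 × R3) = (y, 0) := by
  ext j <;> fin_cases j <;> simp [Fin.sum_univ_three]

theorem PsiDer_sum2 (y : R3) :
    ∑ i, y i • ((0, EuclideanSpace.single i 1) : R3 × R3) = (0, y) := by
  ext j <;> fin_cases j <;> simp [Fin.sum_univ_three]

end aux

section
variable {P r₂ Cc : ℝ} {χ₀ χ₁ : ℝ → ℝ} {f : PS → ℝ}

/-- the integrand without the factor `θ²` -/
def PsiDer_U (P : ℝ) (χ₀ χ₁ : ℝ → ℝ) (f : PS → ℝ) (b : PS × R3 × R3) : R3 :=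
  f (cq b.1.1 b.1.2.1 b.2) • Gk P χ₀ χ₁ (b.1.2.2, b.2.1, b.2.2)

theorem PsiDer_G0 (hc : Cut P r₂ Cc χ₀ χ₁) (hP : 0 < P) {a : R3 × R3 × R3} (ha : a.2.1 = 0) :
    Gk P χ₀ χ₁ =ᶠ[𝓝 a] 0 := by
  obtain ⟨σ, hσ, h⟩ := hc.Gk_near hP (‖a.1‖ + 1)
  filter_upwards [(continuous_fst.norm.continuousAt (x := a)).eventually_lt_const (lt_add_one _),
    (continuous_snd.fst.norm.continuousAt (x := a)).eventually_lt_const
      (show ‖a.2.1‖ < σ by rwa [ha, norm_zero])] with x h1 h2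
  exact h _ _ _ h1.le h2.le

theorem PsiDer_U0 (hc : Cut P r₂ Cc χ₀ χ₁) (hP : 0 < P) (f : PS → ℝ) (b : PS × R3 × R3)
    (hb : b.2.1 = 0) : PsiDer_U P χ₀ χ₁ f =ᶠ[𝓝 b] 0 := by
  have h : ContinuousAt (fun b : PS × R3 × R3 => (b.1.2.2, b.2.1, b.2.2)) b := by fun_prop
  exact (h.eventually (PsiDer_G0 hc hP hb)).mono fun x hx => by
    rw [PsiDer_U, hx, Pi.zero_apply, smul_zero, Pi.zero_apply]

theorem PsiDer_cq {b : PS × R3 × R3} (hb : b.2.1 ≠ 0) :
    ContDiffAt ℝ ∞ (fun b : PS × R3 × R3 => cq b.1.1 b.1.2.1 b.2) b :=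
  (contDiffAt_fst.fst.sub (contDiffAt_snd.fst.norm ℝ hb)).prodMk (by fun_prop)

theorem PsiDer_locC (hc : Cut P r₂ Cc χ₀ χ₁) (hP : 0 < P) (hf : ContDiff ℝ ∞ f) (hv : VSupp f) :
    R240.LocC (PsiDer_U P χ₀ χ₁ f) := by
  refine ⟨contDiff_iff_contDiffAt.2 fun b => ?_, fun a => ?_⟩
  · by_cases hb : b.2.1 = 0
    · exact (contDiffAt_const (c := 0)).congr_of_eventuallyEq (PsiDer_U0 hc hP f b hb)
    · exact (hf.contDiffAt.comp b (PsiDer_cq hb)).smul
        ((hc.contDiff_Gk hP).contDiffAt.comp b (by fun_prop))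
  obtain ⟨R, hR⟩ := hv (|a.1| + 1 + 2 * r₂)
  refine ⟨closedBall 0 (2 * r₂) ×ˢ closedBall 0 R,
    (isCompact_closedBall _ _).prod (isCompact_closedBall _ _), ?_⟩
  filter_upwards [(continuous_fst.abs.continuousAt (x := a)).eventually_lt_const (lt_add_one _)]
    with a' ha y hy
  rcases le_total (2 * r₂) ‖y.1‖ with h | h
  · rw [PsiDer_U, hc.Gk_far _ _ _ h, smul_zero]
  · rw [PsiDer_U, cq, hR _ _ _ ((abs_sub _ _).trans (add_le_add ha.le (by rwa [abs_norm])))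
      (not_le.1 fun h' => hy ⟨mem_closedBall_zero_iff.2 h, mem_closedBall_zero_iff.2 h'⟩),
      zero_smul]

theorem PsiDer_PsiH : PsiH P χ₀ χ₁ f =
    fun a => ∫ q : R3 × R3, pp q.1 q.2 • PsiDer_U P χ₀ χ₁ f (a, q) := by
  funext a
  simp only [PsiH, PsiDer_U, mul_smul]

theorem contDiff_PsiH (hc : Cut P r₂ Cc χ₀ χ₁) (hP : 0 < P) (hf : ContDiff ℝ ∞ f) (hv : VSupp f) :
    ContDiff ℝ ∞ (PsiH P χ₀ χ₁ f) := by
  rw [PsiDer_PsiH]
  exact (PsiDer_smul (PsiDer_locC hc hP hf hv) (PsiDer_U0 hc hP f)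
    fun _ => PsiDer_pp).contDiff_integral volume

theorem integrable_Psi (hc : Cut P r₂ Cc χ₀ χ₁) (hP : 0 < P) (hf : ContDiff ℝ ∞ f) (hv : VSupp f)
    (t : ℝ) (x e : R3) :
    Integrable fun q : R3 × R3 => (pp q.1 q.2 * f (cq t x q)) • Gk P χ₀ χ₁ (e, q.1, q.2) := by
  simp only [mul_smul]
  exact (PsiDer_smul (PsiDer_locC hc hP hf hv) (PsiDer_U0 hc hP f)
    fun _ => PsiDer_pp).integrable volume (t, x, e)

theorem PsiDer_pt (hc : Cut P r₂ Cc χ₀ χ₁) (hP : 0 < P) {T : ℝ} {E B : ST → R3}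
    (h : Sol T f E B) {t : ℝ} (h₁ : 2 * r₂ ≤ t) (h₂ : t ≤ T) (x e W ed : R3) (q : R3 × R3) :
    f (cq t x q) • DG P χ₀ χ₁ e ed W q.1 q.2 (lor (E (cp t x q.1)) (B (cp t x q.1)) q.2) =
      fderiv ℝ (PsiDer_U P χ₀ χ₁ f) ((t, x, e), q) (pp q.1 q.2 • (1, W, ed),
        pp q.1 q.2 • W - qq W q.1 • relVel q.2,
        qq W q.1 • lor (E (cp t x q.1)) (B (cp t x q.1)) q.2) := by
  by_cases hq : q.1 = 0
  · rw [(PsiDer_U0 hc hP f ((t, x, e), q) hq).fderiv_eq, DG,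
      (PsiDer_G0 hc hP (a := (e, q.1, q.2)) hq).fderiv_eq]
    simp
  set K := lor (E (cp t x q.1)) (B (cp t x q.1)) q.2 with hK
  have a1 := hasFDerivAt_fst (𝕜 := ℝ) (p := (((t, x, e), q) : PS × R3 × R3))
  have a2 := hasFDerivAt_snd (𝕜 := ℝ) (p := (((t, x, e), q) : PS × R3 × R3))
  have hn := HasFDerivAt.comp (f := fun b : PS × R3 × R3 => b.2.1) ((t, x, e), q)
    ((contDiffAt_id.norm ℝ hq (n := ∞)).differentiableAt (by simp)).hasFDerivAt a2.fst
  have hc' := (a1.fst.sub hn).prodMk ((a1.snd.fst.sub a2.fst).prodMk a2.snd)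
  have hπ := a1.snd.snd.prodMk (a2.fst.prodMk a2.snd)
  have h1 := ((h.step.sf.differentiable (by simp) _).hasFDerivAt.comp _ hc').smul
    (((hc.contDiff_Gk hP).differentiable (by simp) _).hasFDerivAt.comp _ hπ)
  have h2 : fderiv ℝ f (cq t x q) (pp q.1 q.2 * 1 - fderiv ℝ (fun z : R3 => ‖z‖) q.1
      (pp q.1 q.2 • W - qq W q.1 • relVel q.2),
      pp q.1 q.2 • W - (pp q.1 q.2 • W - qq W q.1 • relVel q.2), qq W q.1 • K) •
      Gk P χ₀ χ₁ (e, q.1, q.2) = 0 := by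
    rcases le_total (2 * r₂) ‖q.1‖ with h3 | h3
    · rw [hc.Gk_far _ _ _ h3, smul_zero]
    have h4 : fderiv ℝ f (cq t x q) (1, relVel q.2, K) = 0 :=
      h.step.vl (cq t x q) ⟨sub_nonneg.2 (h3.trans h₁), (sub_le_self _ (norm_nonneg _)).trans h₂⟩
    have h5 : pp q.1 q.2 * 1 - ⟪nz q.1, pp q.1 q.2 • W - qq W q.1 • relVel q.2⟫ =
        qq W q.1 * 1 := by
      simp only [inner_sub_right, inner_smul_right, pp, qq, ang, real_inner_comm (nz q.1)]
      ring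
    rw [fderiv_norm' hq, h5, sub_sub_cancel]
    exact smul_eq_zero_of_left ((map_smul (fderiv ℝ f (cq t x q)) (qq W q.1)
      (1, relVel q.2, K)).trans (by rw [h4, smul_zero])) _
  have h6 : ∀ β : PS × R3 × R3, fderiv ℝ (PsiDer_U P χ₀ χ₁ f) ((t, x, e), q) β =
      f (cq t x q) • fderiv ℝ (Gk P χ₀ χ₁) (e, q.1, q.2) (β.1.2.2, β.2.1, β.2.2) +
      fderiv ℝ f (cq t x q) (β.1.1 - fderiv ℝ (fun z : R3 => ‖z‖) q.1 β.2.1, β.1.2.1 - β.2.1,
        β.2.2) • Gk P χ₀ χ₁ (e, q.1, q.2) := fun β => DFunLike.congr_fun h1.fderiv β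
  rw [h6]
  exact (add_eq_left.2 h2).symm

theorem psi_deriv (hc : Cut P r₂ Cc χ₀ χ₁) (hP : 0 < P) {T : ℝ} {E B : ST → R3}
    (h : Sol T f E B) {t : ℝ} (h₁ : 2 * r₂ ≤ t) (h₂ : t ≤ T) (x e W ed : R3) :
    Integrable (fun q : R3 × R3 => f (cq t x q) • DG P χ₀ χ₁ e ed W q.1 q.2
      (lor (E (cp t x q.1)) (B (cp t x q.1)) q.2)) ∧
    fderiv ℝ (PsiH P χ₀ χ₁ f) (t, x, e) (1, W, ed) =
      ∫ q : R3 × R3, f (cq t x q) • DG P χ₀ χ₁ e ed W q.1 q.2
        (lor (E (cp t x q.1)) (B (cp t x q.1)) q.2) := by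
  have hU := PsiDer_locC hc hP h.step.sf h.step.vf
  have h0 := PsiDer_U0 hc hP f
  have hΦ := PsiDer_smul hU h0 fun _ => PsiDer_pp
  have z1 : ∀ q : R3 × R3, q.1 ≠ 0 → ContDiffAt ℝ ∞
      (fun q : R3 × R3 => pp q.1 q.2 • W - qq W q.1 • relVel q.2) q := fun q hq =>
    ((PsiDer_pp hq).smul contDiffAt_const).sub ((PsiDer_qq W hq).smul PsiDer_rel.contDiffAt)
  have z2 : ∀ q : R3 × R3, q.1 ≠ 0 → ContDiffAt ℝ ∞
      (fun q : R3 × R3 => qq W q.1 • lor (E (cp t x q.1)) (B (cp t x q.1)) q.2) q := fun q hq => by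
    have hcp : ContDiffAt ℝ ∞ (fun q : R3 × R3 => cp t x q.1) q :=
      (contDiffAt_const.sub (contDiffAt_fst.norm ℝ hq)).prodMk (by fun_prop)
    exact (PsiDer_qq W hq).smul (contDiff_lor.contDiffAt.comp q
      ((h.step.sE.contDiffAt.comp q hcp).prodMk
        ((h.step.sB.contDiffAt.comp q hcp).prodMk contDiffAt_snd)))
  obtain ⟨i1, j1⟩ := PsiDer_div hU h0 (fun i q hq => PsiDer_coord (z1 q hq) i)
    (fun i => (EuclideanSpace.single i 1, 0)) (fun q hq => by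
      simp only [fun i => PsiDer_left (PsiDer_coord (z1 q hq) i)]
      exact PsiDer_divz _ W hq) (t, x, e)
  obtain ⟨i2, j2⟩ := PsiDer_div hU h0 (fun i q hq => PsiDer_coord (z2 q hq) i)
    (fun i => (0, EuclideanSpace.single i 1)) (fun q hq => by
      simp only [fun i => PsiDer_right (PsiDer_coord (z2 q hq) i)]
      exact PsiDer_divv _ _ _ _) (t, x, e)
  simp only [PsiDer_sum1, PsiDer_sum2] at i1 j1 i2 j2
  have i0 := (hΦ.fderiv ((1, W, ed), 0)).integrable volume (t, x, e)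
  have e0 : ∀ q : R3 × R3,
      f (cq t x q) • DG P χ₀ χ₁ e ed W q.1 q.2 (lor (E (cp t x q.1)) (B (cp t x q.1)) q.2) =
      fderiv ℝ (fun b : PS × R3 × R3 => pp b.2.1 b.2.2 • PsiDer_U P χ₀ χ₁ f b) ((t, x, e), q)
        ((1, W, ed), 0) + (fderiv ℝ (PsiDer_U P χ₀ χ₁ f) ((t, x, e), q)
        (0, pp q.1 q.2 • W - qq W q.1 • relVel q.2, 0) + fderiv ℝ (PsiDer_U P χ₀ χ₁ f) ((t, x, e), q)
        (0, 0, qq W q.1 • lor (E (cp t x q.1)) (B (cp t x q.1)) q.2)) := fun q => by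
    have e1 : fderiv ℝ (fun b : PS × R3 × R3 => pp b.2.1 b.2.2 • PsiDer_U P χ₀ χ₁ f b)
        ((t, x, e), q) ((1, W, ed), 0) =
        pp q.1 q.2 • fderiv ℝ (PsiDer_U P χ₀ χ₁ f) ((t, x, e), q) ((1, W, ed), 0) :=
      congrArg (· (1, W, ed)) ((R240.LocT.hasFDerivAt_left hΦ.smooth (t, x, e) q).unique
        ((R240.LocT.hasFDerivAt_left hU.smooth (t, x, e) q).const_smul (pp q.1 q.2)))
    rw [PsiDer_pt hc hP h h₁ h₂, e1, ← map_smul, ← map_add, ← map_add]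
    simp
  simp only [e0]
  refine ⟨i0.add (i1.add i2), ?_⟩
  refine Eq.trans ?_ (integral_add i0 (i1.add i2)).symm
  rw [integral_add' i1 i2, j1, j2, add_zero, add_zero, PsiDer_PsiH]
  exact hΦ.fderiv_integral volume _ _

end

end Crest.Agent.R106
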