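import Crest.Agent.R106.StressB
import Crest.Agent.R106.EstF
import Crest.Agent.R106.PsiDer

/-!
# Row 106: from the solution to the frozen configuration
-/

set_option autoImplicit false
set_option linter.unusedVariables false
set_option linter.unusedSectionVars false

open MeasureTheory Metric Set Filter Topology
open scoped ContDiff ENNReal RealInnerProductSpace
open Crest.AnalysisR.VecCalc3 Crest.AnalysisR.PDE.RVM

noncomputable section

namespace Crest.Agent.R106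

section
variable {T' M 𝓔 : ℝ} {f : PS → ℝ} {E B : ST → R3}

theorem FrzOf_time {t T' : ℝ} (tT' : t ≤ T') {z : R3} (hz : z ∈ ball (0 : R3) t) :
    t - ‖z‖ ∈ Icc 0 T' :=
  ⟨sub_nonneg.2 (mem_ball_zero_iff.1 hz).le, (sub_le_self _ (norm_nonneg z)).trans tT'⟩

theorem FrzOf_meas (hf : Continuous f) (t : ℝ) (x : R3) : Measurable (Fc f t x) := by
  have h1 : Continuous fun q : R3 × R3 => f (cq t x q) := hf.comp (by unfold cq; fun_prop)
  exact h1.measurable.indicator (measurable_fst measurableSet_ball)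

theorem FrzOf_nonneg (h : Apri T' M 𝓔 f E B) {t : ℝ} (tT' : t ≤ T') (x : R3) (q : R3 × R3) :
    0 ≤ Fc f t x q :=
  indicator_apply_nonneg fun hz => h.f0 _ (FrzOf_time tT' hz)

theorem FrzOf_le (h : Apri T' M 𝓔 f E B) {t : ℝ} (t0 : 0 ≤ t) (tT' : t ≤ T') (x : R3)
    (q : R3 × R3) : Fc f t x q ≤ M :=
  indicator_apply_le' (fun hz => h.fM _ (FrzOf_time tT' hz)) fun _ =>
    (h.f0 0 ⟨le_rfl, t0.trans tT'⟩).trans (h.fM 0 ⟨le_rfl, t0.trans tT'⟩)

theorem FrzOf_supp {P t : ℝ} (hsupp : ∀ p : PS, p.1 ∈ Icc 0 t → P < en p.2.2 → f p = 0) (x : R3)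
    (q : R3 × R3) (hq : P < en q.2) : Fc f t x q = 0 :=
  indicator_apply_eq_zero.2 fun hz => hsupp _ (FrzOf_time le_rfl hz) hq

/-- particle part of a flux -/
theorem FrzOf_part (h : Apri T' M 𝓔 f E B) {t C : ℝ} (tT' : t ≤ T') (x : R3) {S : Set R3}
    (hS : MeasurableSet S) (hSt : S ⊆ ball 0 t) {w : R3 → ℝ} (hw : Measurable w)
    (hw0 : ∀ z, 0 ≤ w z) {a : R3} (ha : ‖a‖ ≤ 1) {b : R3 → R3} (mb : Measurable b)
    (hb : ∀ z, ‖b z‖ ≤ 1)
    (hC : Bd (S.indicator fun z => w z * TT f E B (cp t x z) 1 a 1 (b z)) C) :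
    Bd (fun q : R3 × R3 => S.indicator (fun z => Fc f t x q * (w z * Tw q.2 1 a 1 (b z))) q.1)
      C := by
  have hf := h.sol.step.sf.continuous
  have m1 : Measurable fun q : R3 × R3 => relVel q.2 :=
    contDiff_relVel.continuous.measurable.comp measurable_snd
  have m2 : Measurable fun q : R3 × R3 => Fc f t x q * (w q.1 * Tw q.2 1 a 1 (b q.1)) :=
    (FrzOf_meas hf t x).mul ((hw.comp measurable_fst).mul
      (((measurable_en.comp measurable_snd).mul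
        (measurable_const.sub (m1.inner measurable_const))).mul
        (measurable_const.sub (m1.inner (mb.comp measurable_fst)))))
  refine Bd.of_inner (m2.indicator (measurable_fst hS)).aemeasurable (ae_of_all _ fun z => ?_) hC
  by_cases hz : z ∈ S
  · have e : ∀ v, Fc f t x (z, v) * (w z * Tw v 1 a 1 (b z)) =
        w z * (f ((cp t x z).1, (cp t x z).2, v) * Tw v 1 a 1 (b z)) := fun v => by
      rw [Fc, indicator_of_mem (hSt hz), mul_left_comm]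
      rfl
    simp only [indicator_of_mem hz, e]
    refine Bd.of_integrable ((integrable_Tw hf h.sol.step.vf _ _ _ _ _).const_mul _)
      (ae_of_all _ fun v => mul_nonneg (hw0 z) (mul_nonneg (h.f0 _ (FrzOf_time tT' (hSt hz)))
        (Tw_nonneg v ha (hb z)))) ?_
    rw [integral_const_mul]
    exact mul_le_mul_of_nonneg_left (le_add_of_nonneg_left (Tf_nonneg _ _ ha (hb z))) (hw0 z)
  · simp [indicator_of_notMem hz, Bd]

/-- field part of a flux -/
theorem FrzOf_field (h : Apri T' M 𝓔 f E B) {t C : ℝ} (tT' : t ≤ T') (x : R3) {w : R3 → ℝ}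
    (hw0 : ∀ z, 0 ≤ w z) {b : R3 → R3} (hb : ∀ z, ‖b z‖ ≤ 1)
    (hC : Bd ((ball (0 : R3) t).indicator fun z => w z * TT f E B (cp t x z) 1 0 1 (b z)) C) :
    Bd ((ball (0 : R3) t).indicator fun z =>
      w z * Tf (E (cp t x z)) (B (cp t x z)) 1 0 1 (b z)) C := by
  refine hC.mono (ae_of_all _ fun z => indicator_le_indicator' fun hz => ?_) le_rfl
  refine mul_le_mul_of_nonneg_left (le_add_of_nonneg_right (integral_nonneg fun v => ?_)) (hw0 z)
  exact mul_nonneg (h.f0 _ (FrzOf_time tT' hz)) (Tw_nonneg v (by simp) (hb z))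

theorem FrzOf_ind (t : ℝ) (x : R3) (q : R3 × R3) (g : R3 → ℝ) :
    (ball (0 : R3) t).indicator (fun z => Fc f t x q * g z) q.1 = Fc f t x q * g q.1 := by
  by_cases hz : q.1 ∈ ball (0 : R3) t
  · rw [indicator_of_mem hz]
  · rw [indicator_of_notMem hz, Fc, indicator_of_notMem hz, zero_mul]

theorem FrzOf_cp (h : Apri T' M 𝓔 f E B) {t : ℝ} (t0 : 0 ≤ t) (tT' : t ≤ T') (x : R3) :
    Bd (fun q : R3 × R3 => Fc f t x q * (en q.2 * pp q.1 q.2)) 𝓔 := by
  have h1 := FrzOf_part h tT' x measurableSet_ball Subset.rfl (w := fun _ => 1) measurable_const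
    (fun _ => zero_le_one) (a := 0) (by simp) measurable_nz norm_nz_le
    (C := 𝓔) (by simpa only [one_mul] using h.co t ⟨t0, tT'⟩ x)
  simpa [FrzOf_ind, Tw, pp, ang] using h1

theorem FrzOf_lam {e : R3} (he : ‖e‖ = 1) (z : R3) : 0 ≤ lam e z ∧ lam e z ≤ 2 * ‖z‖ := by
  have h1 := abs_le.1 (abs_real_inner_le_norm e z)
  rw [he, one_mul] at h1
  unfold lam
  constructor <;> linarith [h1.1, h1.2]

theorem Apri.frz (h : Apri T' M 𝓔 f E B) {T r₂ P τ t δ : ℝ} {x e W : R3} {s y y₁ y₂ : ℝ}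
    (hP : 1 ≤ P) (hg : Geo P δ e W) (τ0 : P ^ (-(1 / 100 : ℝ)) ≤ τ) (τ1 : τ ≤ 1) (hr : 0 < r₂)
    (tr : 2 * r₂ < t) (tT : t ≤ T) (tT' : t ≤ T') (hτ : 2 * τ < t)
    (hP' : P ^ (-(9 / 20 : ℝ)) < t)
    (hsupp : ∀ p : PS, p.1 ∈ Icc 0 t → P < en p.2.2 → f p = 0) (h𝓔 : 0 ≤ 𝓔)
    (s0 : 0 ≤ s) (y0 : 0 ≤ y) (y10 : 0 ≤ y₁) (y20 : 0 ≤ y₂)
    (hs : Bd ((ball (0 : R3) t).indicator fun z => qq W z * TT f E B (cp t x z) 1 0 1 0) s)
    (hy : Bd ((RL P τ e).indicator fun z =>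
      qq W z / lam e z * TT f E B (cp t x z) 1 e 1 e) y)
    (hy₁ : Bd ((RE (P ^ (-(41 / 20 : ℝ))) (P ^ (-(2 / 3 : ℝ))) e).indicator fun z =>
      qq W z / lam e z * TT f E B (cp t x z) 1 0 1 e) y₁)
    (hy₂ : Bd ((RE (P ^ (-(7 / 5 : ℝ))) (P ^ (-(9 / 20 : ℝ))) e).indicator fun z =>
      qq W z / lam e z * TT f E B (cp t x z) 1 0 1 e) y₂) :
    Frz M 𝓔 T r₂ P τ t δ e W (Fc f t x) (fun z => E (cp t x z)) (fun z => B (cp t x z))
      s y y₁ y₂ := by
  have t0 : 0 ≤ t := by linarith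
  have hτ0 : 0 < τ := (Real.rpow_pos_of_pos (by linarith) _).trans_le τ0
  have hc : Continuous (cp t x) := by
    unfold cp
    fun_prop
  have hq : ∀ z, 0 ≤ qq W z := fun z => ang_nonneg hg.W1.le (norm_nz_le z)
  have hw : ∀ z, 0 ≤ qq W z / lam e z := fun z => div_nonneg (hq z) (FrzOf_lam hg.e1 z).1
  have mw : Measurable fun z => qq W z / lam e z := (measurable_qq W).div (measurable_lam e)
  have hL : RL P τ e ⊆ ball 0 t := fun z hz => by
    rw [mem_ball_zero_iff]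
    by_contra h1
    have h2 := hz.2.trans (mul_le_mul_of_nonneg_left (FrzOf_lam hg.e1 z).2 hτ0.le)
    nlinarith
  have hE₂ : RE (P ^ (-(7 / 5 : ℝ))) (P ^ (-(9 / 20 : ℝ))) e ⊆ ball 0 t := fun z hz =>
    mem_ball_zero_iff.2 (hz.2.trans_lt hP')
  have hE₁ : RE (P ^ (-(41 / 20 : ℝ))) (P ^ (-(2 / 3 : ℝ))) e ⊆ ball 0 t := fun z hz =>
    mem_ball_zero_iff.2 ((hz.2.trans
      (Real.rpow_le_rpow_of_exponent_le hP (by norm_num))).trans_lt hP')
  refine ⟨hg, τ0, τ1, tr, tT, FrzOf_meas h.sol.step.sf.continuous t x,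
    (h.sol.step.sE.continuous.comp hc).measurable, (h.sol.step.sB.continuous.comp hc).measurable,
    FrzOf_nonneg h tT' x, FrzOf_le h t0 tT' x, FrzOf_supp hsupp x,
    fun q hq => indicator_of_notMem (by simpa using hq) _, s0, y0, y10, y20, ?_,
    FrzOf_cp h t0 tT' x, ?_, ?_, ?_, ?_, ?_⟩
  · simpa only [one_mul] using FrzOf_field h tT' x (w := fun _ => 1) (fun _ => zero_le_one)
      norm_nz_le (C := 𝓔) (by simpa only [one_mul] using h.co t ⟨t0, tT'⟩ x)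
  · simpa only [Tf_time] using FrzOf_field h tT' x hq (b := fun _ => 0) (by simp) hs
  · simpa [FrzOf_ind, Tw] using FrzOf_part h tT' x measurableSet_ball Subset.rfl (measurable_qq W)
      hq (a := 0) (by simp) (b := fun _ => 0) measurable_const (by simp) hs
  · simpa only [Tw, gg, ang, sq, mul_assoc] using FrzOf_part h tT' x (measurableSet_RL P τ e) hL mw
      hw hg.e1.le (b := fun _ => e) measurable_const (fun _ => hg.e1.le) hy
  · simpa only [Tw, gg, ang, inner_zero_right, sub_zero, mul_one] using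
      FrzOf_part h tT' x (measurableSet_RE _ _ e) hE₁ mw hw (a := 0) (by simp) (b := fun _ => e)
        measurable_const (fun _ => hg.e1.le) hy₁
  · simpa only [Tw, gg, ang, inner_zero_right, sub_zero, mul_one] using
      FrzOf_part h tT' x (measurableSet_RE _ _ e) hE₂ mw hw (a := 0) (by simp) (b := fun _ => e)
        measurable_const (fun _ => hg.e1.le) hy₂

end

/-- unconditional bound for the potential -/
theorem psi_sup (M 𝓔 Cc : ℝ) (h𝓔 : 0 ≤ 𝓔) : ∃ C P₀ : ℝ, 0 ≤ C ∧ ∀ P, P₀ ≤ P →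
    ∀ (T r₂ : ℝ) (f : PS → ℝ) (E B : ST → R3) (χ₀ χ₁ : ℝ → ℝ), Apri T M 𝓔 f E B →
    Cut P r₂ Cc χ₀ χ₁ → 0 < r₂ → r₂ ≤ 1 / 4 → ∀ (t : ℝ) (x e : R3), 2 * r₂ < t → t ≤ T →
    ‖e‖ = 1 → (∀ p : PS, p.1 ∈ Icc 0 t → P < en p.2.2 → f p = 0) →
    ‖PsiH P χ₀ χ₁ f (t, x, e)‖ ≤ C * P ^ (41 / 100 : ℝ) := by
  obtain ⟨C₁, P₀, hC₁, h₁⟩ := est_kP (max M 0) 𝓔 (le_max_right _ _) h𝓔
  obtain ⟨C₂, hC₂, h₂⟩ := norm_psi_le
  refine ⟨C₂ * C₁, max P₀ 0, mul_nonneg hC₂ hC₁,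
    fun P hP T r₂ f E B χ₀ χ₁ h hc hr hr' t x e tr tT he hsupp => ?_⟩
  have t0 : 0 ≤ t := by linarith
  have hP0 : 0 ≤ P := (le_max_right _ _).trans hP
  have h3 := (h₁ P ((le_max_left _ _).trans hP) r₂ e (Fc f t x) hr' he
    (FrzOf_meas h.sol.step.sf.continuous t x)
    (fun q => ⟨FrzOf_nonneg h tT x q, (FrzOf_le h t0 tT x q).trans (le_max_left _ _)⟩)
    (FrzOf_supp hsupp x) (FrzOf_cp h t0 tT x)).const_mul hC₂
  rw [mul_assoc]
  refine h3.norm_integral_le (by positivity) ?_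
  filter_upwards [Measure.quasiMeasurePreserving_fst.ae (ae_qq_pos he)] with q hq
  by_cases hz : q.1 ∈ RI P r₂ e
  · have hb : q.1 ∈ ball (0 : R3) t := mem_ball_zero_iff.2 (hz.2.trans_lt tr)
    have h4 : 0 ≤ f (cq t x q) := h.f0 _ (FrzOf_time tT hb)
    have h5 : 0 ≤ chi P χ₀ χ₁ e q.1 := mul_nonneg (hc.r₀ _).1 (hc.r₁ _).1
    have h6 : chi P χ₀ χ₁ e q.1 ≤ 1 := mul_le_one₀ (hc.r₀ _).2 (hc.r₁ _).1 (hc.r₁ _).2
    have e1 : (pp q.1 q.2 * f (cq t x q)) • Gk P χ₀ χ₁ (e, q.1, q.2) =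
        (f (cq t x q) * chi P χ₀ χ₁ e q.1) • (pp q.1 q.2 • psi e q.1 q.2) := by
      simp only [Gk, smul_smul]
      congr 1
      ring
    rw [e1, indicator_of_mem hz, Fc, indicator_of_mem hb, norm_smul,
      Real.norm_of_nonneg (mul_nonneg h4 h5), mul_left_comm]
    exact mul_le_mul (mul_le_of_le_one_right h4 h6) (h₂ e q.1 q.2 he hq.1 hq.2).1 (norm_nonneg _) h4
  · have h4 : chi P χ₀ χ₁ e q.1 = 0 := (hc.chi_zero hz).self_of_nhds
    simp [Gk, h4, indicator_of_notMem hz]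

end Crest.Agent.R106
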