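import Crest.Agent.R106.WaveA

/-!
# Row 106: representation formula, existence and uniqueness for the wave equation
-/

set_option autoImplicit false
set_option linter.unusedVariables false
set_option linter.unusedSectionVars false

open MeasureTheory Metric Set Filter Topology
open scoped ContDiff ENNReal RealInnerProductSpace
open Crest.AnalysisR.VecCalc3 Crest.AnalysisR.PDE.RVM

noncomputable section

namespace Crest.Agent.R106

section
variable {F : Type*} [NormedAddCommGroup F] [NormedSpace ℝ F] [CompleteSpace F]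

namespace WaveB

/-- directional derivative -/
def D (v : ST) (G : ST → F) : ST → F := fun q => fderiv ℝ G q v
/-- spatial unit vectors -/
abbrev ei (i : Fin 3) : ST := (0, EuclideanSpace.single i 1)

variable {G H : ST → F}

theorem sm (hG : ContDiff ℝ ∞ G) (v : ST) : ContDiff ℝ ∞ (D v G) :=
  (hG.fderiv_right (m := ∞) (by simp)).clm_apply contDiff_const

theorem box_eq (G : ST → F) :
    box G = fun p => D (1, 0) (D (1, 0) G) p - ∑ i, D (ei i) (D (ei i) G) p := rfl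

theorem sm_box (hG : ContDiff ℝ ∞ G) : ContDiff ℝ ∞ (box G) :=
  (sm (sm hG _) _).sub (ContDiff.sum fun _ _ => sm (sm hG _) _)

theorem D_comm (hG : ContDiff ℝ ∞ G) (v w p : ST) : D v (D w G) p = D w (D v G) p := by
  have h := ((hG.fderiv_right (m := ∞) (by simp)).differentiable (by simp) p).hasFDerivAt
  have e : ∀ v w, D v (D w G) p = fderiv ℝ (fderiv ℝ G) p v w := fun v w =>
    (DFunLike.congr_fun (h.clm_apply (hasFDerivAt_const w p)).fderiv v).trans (by simp)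
  rw [e, e]
  exact second_derivative_symmetric (fun y => (hG.differentiable (by simp) y).hasFDerivAt) h v w

theorem D_add (hG : ContDiff ℝ ∞ G) (hH : ContDiff ℝ ∞ H) (v : ST) :
    D v (fun q => G q + H q) = fun q => D v G q + D v H q := funext fun q =>
  DFunLike.congr_fun (fderiv_fun_add (hG.differentiable (by simp) q)
    (hH.differentiable (by simp) q)) v

theorem box_add (hG : ContDiff ℝ ∞ G) (hH : ContDiff ℝ ∞ H) (p : ST) :
    box (fun q => G q + H q) p = box G p + box H p := by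
  simp only [box_eq, D_add hG hH, D_add (sm hG _) (sm hH _), Finset.sum_add_distrib]
  abel

theorem D_time (hG : ContDiff ℝ ∞ G) {s : ℝ} {y : R3} {v : F}
    (h : HasDerivAt (fun s => G (s, y)) v s) : fderiv ℝ G (s, y) (1, 0) = v :=
  ((hG.differentiable (by simp) _).hasFDerivAt.comp_hasDerivAt s
    ((hasDerivAt_id s).prodMk (hasDerivAt_const s y))).unique h

theorem int (hG : Continuous G) (p : ST) : IntegrableOn (fun ζ : R3 =>
    (4 * Real.pi * ‖ζ‖)⁻¹ • G (p.1 * (1 - ‖ζ‖), p.2 - p.1 • ζ)) (ball 0 1) := by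
  simpa [cp, sub_eq_add_neg] using (duh_eq (G := fun q => G (p.1 * q.1, p.2 + p.1 • q.2))
    (by fun_prop) zero_le_one 0).1

theorem duh_add (hG : Continuous G) (hH : Continuous H) (p : ST) :
    duh (fun q => G q + H q) p = duh G p + duh H p := by
  simp only [duh, smul_add, integral_add (int hG p) (int hH p)]

theorem duh_box (hG : ContDiff ℝ ∞ G) (p : ST) : duh (box G) p =
    duh (D (1, 0) (D (1, 0) G)) p - ∑ i, duh (D (ei i) (D (ei i) G)) p := by
  have h := fun v => int (sm (sm hG v) v).continuous p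
  simp only [duh, box_eq, smul_sub, Finset.smul_sum]
  rw [integral_sub (h _) (integrable_finsetSum _ fun i _ => h _),
    integral_finsetSum _ fun i _ => h _, smul_sub, Finset.smul_sum]

/-- the vector field on the cone -/
def Xi (G : ST → F) (t : ℝ) (x : R3) (i : Fin 3) (z : R3) : F :=
  ‖z‖⁻¹ • (D (ei i) G (cp t x z) - nz z i • D (1, 0) G (cp t x z)) -
    (‖z‖⁻¹ * ‖z‖⁻¹ * nz z i) • G (cp t x z)

theorem Xi_sm (hG : ContDiff ℝ ∞ G) (t : ℝ) (x : R3) (i : Fin 3) {z : R3} (hz : z ≠ 0) :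
    ContDiffAt ℝ ∞ (Xi G t x i) z := by
  have h1 : ContDiffAt ℝ ∞ (fun z : R3 => ‖z‖) z := contDiffAt_norm ℝ hz
  have h2 := h1.inv (norm_ne_zero_iff.2 hz)
  have h3 : ContDiffAt ℝ ∞ (fun z => nz z i) z :=
    (EuclideanSpace.proj (𝕜 := ℝ) i).contDiff.contDiffAt.comp z (contDiffAt_nz hz)
  have h4 : ∀ {H : ST → F}, ContDiff ℝ ∞ H → ContDiffAt ℝ ∞ (fun z => H (cp t x z)) z := fun h =>
    h.contDiffAt.comp z ((contDiffAt_const.sub h1).prodMk (contDiffAt_const.sub contDiffAt_id))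
  exact (h2.smul ((h4 (sm hG _)).sub (h3.smul (h4 (sm hG _))))).sub
    (((h2.mul h2).mul h3).smul (h4 hG))

theorem nz_sq {z : R3} (hz : z ≠ 0) : nz z 0 ^ 2 + nz z 1 ^ 2 + nz z 2 ^ 2 = 1 := by
  have h := EuclideanSpace.real_norm_sq_eq (nz z)
  rw [norm_nz hz, Fin.sum_univ_three] at h
  linarith

theorem Xi_div (hG : ContDiff ℝ ∞ G) (t : ℝ) (x : R3) {z : R3} (hz : z ≠ 0) :
    ∑ i, fderiv ℝ (Xi G t x i) z (EuclideanSpace.single i 1) = ‖z‖⁻¹ • box G (cp t x z) := by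
  have key : ∀ i, fderiv ℝ (Xi G t x i) z (EuclideanSpace.single i 1) =
      (‖z‖⁻¹ • ((-nz z i • D (1, 0) (D (ei i) G) (cp t x z) - D (ei i) (D (ei i) G) (cp t x z)) -
        (nz z i • (-nz z i • D (1, 0) (D (1, 0) G) (cp t x z) - D (ei i) (D (1, 0) G) (cp t x z)) +
          (‖z‖⁻¹ * (1 - nz z i * nz z i)) • D (1, 0) G (cp t x z))) +
        -(‖z‖⁻¹ * ‖z‖⁻¹ * nz z i) • (D (ei i) G (cp t x z) - nz z i • D (1, 0) G (cp t x z))) -
      ((‖z‖⁻¹ * ‖z‖⁻¹ * nz z i) • (-nz z i • D (1, 0) G (cp t x z) - D (ei i) G (cp t x z)) +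
        ((-(‖z‖⁻¹ * ‖z‖⁻¹ * nz z i) * ‖z‖⁻¹ + ‖z‖⁻¹ * -(‖z‖⁻¹ * ‖z‖⁻¹ * nz z i)) * nz z i +
          ‖z‖⁻¹ * ‖z‖⁻¹ * (‖z‖⁻¹ * (1 - nz z i * nz z i))) • G (cp t x z)) := by
    intro i
    obtain ⟨u, hu⟩ : ∃ u : R3, u = EuclideanSpace.single i 1 := ⟨_, rfl⟩
    have e : ⟪nz z, u⟫ = nz z i := by simp [hu, EuclideanSpace.inner_single_right]
    have h1 : HasDerivAt (fun s : ℝ => ‖z + s • u‖) (nz z i) 0 := by
      rw [← e, ← fderiv_norm' hz]
      exact ((contDiffAt_norm (n := 1) ℝ hz).differentiableAt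
        one_ne_zero).hasFDerivAt.hasLineDerivAt u
    have h2 : HasDerivAt (fun s : ℝ => ‖z + s • u‖⁻¹) (-(‖z‖⁻¹ * ‖z‖⁻¹ * nz z i)) 0 :=
      (h1.inv (by simpa using hz)).congr_deriv (by simp only [zero_smul, add_zero]; ring)
    have h3 : HasDerivAt (fun s : ℝ => nz (z + s • u) i) (‖z‖⁻¹ * (1 - nz z i * nz z i)) 0 :=
      ((EuclideanSpace.proj (𝕜 := ℝ) i).hasFDerivAt.comp_hasDerivAt 0
        (((contDiffAt_nz hz).differentiableAt (by simp)).hasFDerivAt.hasLineDerivAt u)).congr_deriv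
        (by rw [fderiv_nz hz, e]; simp [hu])
    have h4 : ∀ {H : ST → F}, ContDiff ℝ ∞ H → HasDerivAt (fun s : ℝ => H (cp t x (z + s • u)))
        (-nz z i • D (1, 0) H (cp t x z) - D (ei i) H (cp t x z)) 0 := fun {H} h => by
      refine ((h.differentiable (by simp) (cp t x z)).hasFDerivAt.comp_hasDerivAt_of_eq 0
        ((h1.const_sub t).prodMk ((((hasDerivAt_id (0 : ℝ)).smul_const u).const_add z).const_sub x))
        (by simp [cp])).congr_deriv ?_
      rw [D, D, ← map_smul, ← map_sub]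
      simp [hu]
    have h5 := (h2.smul ((h4 (sm hG (ei i))).sub (h3.smul (h4 (sm hG (1, 0)))))).sub
      (((h2.mul h2).mul h3).smul (h4 hG))
    rw [← hu, HasDerivAt.unique (((Xi_sm hG t x i hz).differentiableAt
      (by simp)).hasFDerivAt.hasLineDerivAt u) h5]
    simp only [Pi.sub_apply, Pi.mul_apply, Pi.smul_apply', zero_smul, add_zero]
  simp only [key, box_eq, Fin.sum_univ_three, D_comm hG (1, 0) (ei _)]
  linear_combination (norm := module) nz_sq hz • (‖z‖⁻¹ • D (1, 0) (D (1, 0) G) (cp t x z) +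
    (3 * ‖z‖⁻¹ ^ 2) • D (1, 0) G (cp t x z) + (3 * ‖z‖⁻¹ ^ 3) • G (cp t x z))

theorem bd {F : Type*} [NormedAddCommGroup F] [NormedSpace ℝ F] {H : ST → F}
    (hH : ContDiff ℝ ∞ H) (c : ST) (ρ : ℝ) : ∃ C : ℝ, 0 ≤ C ∧ ∀ p ∈ closedBall c ρ,
      ‖H p‖ ≤ C ∧ ∀ q ∈ closedBall c ρ, ‖H p - H q‖ ≤ C * ‖p - q‖ := by
  obtain ⟨K, hK⟩ := hH.contDiffOn.exists_lipschitzOnWith (by simp) (convex_closedBall c ρ)
    (isCompact_closedBall c ρ)
  obtain ⟨B, hB⟩ := (isCompact_closedBall c ρ).exists_bound_of_continuousOn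
    hH.continuous.continuousOn
  exact ⟨max B K, le_max_of_le_right K.2, fun p hp => ⟨(hB p hp).trans (le_max_left _ _),
    fun q hq => (hK.norm_sub_le hp hq).trans
      (mul_le_mul_of_nonneg_right (le_max_right _ _) (norm_nonneg _))⟩⟩

theorem rep_pos (hG : ContDiff ℝ ∞ G) (h0 : ∀ y, G (0, y) = 0)
    (h1 : ∀ y, fderiv ℝ G (0, y) (1, 0) = 0) {t : ℝ} (ht : 0 < t) (x : R3) :
    G (t, x) = duh (box G) (t, x) := by
  obtain ⟨C, hC, hb⟩ := bd (hG.prodMk ((sm hG (1, 0)).prodMk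
    (contDiff_pi.2 fun i => sm hG (ei i)))) (t, x) t
  obtain ⟨B, hB, hb'⟩ := bd (sm_box hG) (t, x) t
  have e1 : ∀ z : R3, ‖cp t x z - (t, x)‖ = ‖z‖ := fun z => by simp [cp, Prod.norm_def]
  have m1 : ∀ {z : R3}, ‖z‖ ≤ t → cp t x z ∈ closedBall (t, x) t := fun hz =>
    mem_closedBall_iff_norm.2 ((e1 _).trans_le hz)
  have n1 : ∀ (z : R3) i, ‖nz z i‖ ≤ 1 := fun z i => (PiLp.norm_apply_le _ i).trans (norm_nz_le z)
  have b1 : ∀ {z : R3}, ‖z‖ ≤ t → ‖G (cp t x z)‖ ≤ C * (t - ‖z‖) ∧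
      ‖D (1, 0) G (cp t x z)‖ ≤ C * (t - ‖z‖) ∧ ∀ i, ‖D (ei i) G (cp t x z)‖ ≤ C * (t - ‖z‖) := by
    intro z hz
    have h := (hb _ (m1 hz)).2 (0, x - z) (mem_closedBall_iff_norm.2 (by
      simp [Prod.norm_def, abs_of_pos ht, hz]))
    have h2 : ∀ i, D (ei i) G (0, x - z) = 0 := fun i =>
      (CalcB_sliceX (hG.differentiable (by simp)) (0, x - z) _).symm.trans (by simp [h0])
    have h3 : ‖cp t x z - (0, x - z)‖ = t - ‖z‖ := by simp [cp, Prod.norm_def, hz]
    simp only [h0, h2, h3, show D (1, 0) G (0, x - z) = 0 from h1 _, Prod.mk_sub_mk,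
      sub_zero, norm_prod_le_iff] at h
    exact ⟨h.1, h.2.1, fun i => by simpa using (norm_le_pi_norm _ i).trans h.2.2⟩
  have b2 : ∀ {z : R3} i, ‖z‖ ≤ t →
      ‖D (ei i) G (cp t x z) - nz z i • D (1, 0) G (cp t x z)‖ ≤ 2 * C * (t - ‖z‖) := by
    intro z i hz
    refine (norm_sub_le _ _).trans ?_
    rw [norm_smul]
    linarith [(b1 hz).2.2 i, (b1 hz).2.1,
      mul_le_of_le_one_left (norm_nonneg (D (1, 0) G (cp t x z))) (n1 z i)]
  have hd := (div_ball ht (Xi G t x) (fun i z hz => (Xi_sm hG t x i hz).of_le (by simp))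
    (-G (t, x)) ((2 / t * (2 * C) + 2 / t * (2 / t) * C) + (6 * C * t + C) + B * t)
    (fun i z h2 hz => ?_) (fun z h2 hz => ?_) fun z h2 hz => ?_).2
  · rw [(duh_eq (sm_box hG).continuous ht.le x).2, integral_congr_ae (g := fun z =>
      (4 * Real.pi)⁻¹ • ∑ i, fderiv ℝ (Xi G t x i) z (EuclideanSpace.single i 1))
      (ae_restrict_of_ae ((Measure.ae_ne volume 0).mono fun z hz => by
        simp only [Xi_div hG t x hz, smul_smul, mul_inv])), integral_smul, hd, smul_neg,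
      inv_smul_smul₀ (by positivity), neg_neg]
  · have h3 : ‖z‖⁻¹ ≤ 2 / t := by
      rw [← inv_div]; exact inv_anti₀ (by positivity) h2
    refine (norm_sub_le _ _).trans (le_trans ?_ (mul_le_mul_of_nonneg_right
      ((le_add_of_nonneg_right (by positivity)).trans (le_add_of_nonneg_right (by positivity)))
      (sub_nonneg.2 hz)))
    rw [norm_smul, norm_smul, norm_mul, norm_mul, norm_inv, norm_norm, add_mul, mul_assoc (2 / t),
      mul_assoc (2 / t * (2 / t))]
    exact add_le_add (mul_le_mul h3 (b2 i hz) (norm_nonneg _) (by positivity))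
      (mul_le_mul ((mul_le_of_le_one_right (by positivity) (n1 z i)).trans
        (mul_le_mul h3 h3 (by positivity) (by positivity))) (b1 hz).1 (norm_nonneg _)
        (by positivity))
  · have h3 := norm_ne_zero_iff.2 h2
    have e : ‖z‖ ^ 2 • (∑ i, nz z i • Xi G t x i z) - -G (t, x) =
        ‖z‖ • (∑ i, nz z i • (D (ei i) G (cp t x z) - nz z i • D (1, 0) G (cp t x z))) -
          (G (cp t x z) - G (t, x)) := by
      have h4 := nz_sq h2
      simp only [Xi, Fin.sum_univ_three]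
      match_scalars <;> field_simp
      linarith
    have h5 : ‖∑ i, nz z i • (D (ei i) G (cp t x z) - nz z i • D (1, 0) G (cp t x z))‖ ≤
        6 * C * t := by
      refine (norm_sum_le_of_le (n := fun _ => 2 * C * t) _ fun i _ => ?_).trans_eq
        (by simp; ring)
      rw [norm_smul]
      exact (mul_le_of_le_one_left (norm_nonneg _) (n1 z i)).trans ((b2 i hz).trans
        (mul_le_mul_of_nonneg_left (sub_le_self _ (norm_nonneg _)) (by positivity)))
    have h6 := (norm_fst_le _).trans ((hb _ (m1 hz)).2 _ (mem_closedBall_self ht.le))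
    rw [e1] at h6
    rw [e]
    refine (norm_sub_le _ _).trans (le_trans ?_ (mul_le_mul_of_nonneg_right
      ((le_add_of_nonneg_left (by positivity)).trans (le_add_of_nonneg_right (by positivity)))
      (norm_nonneg _)))
    rw [norm_smul, norm_norm, add_mul, mul_comm]
    exact add_le_add (mul_le_mul_of_nonneg_right h5 (norm_nonneg _)) h6
  · have h3 := norm_pos_iff.2 h2
    rw [Xi_div hG t x h2, norm_smul, norm_inv, norm_norm, le_div_iff₀ (by positivity),
      show ∀ a : ℝ, ‖z‖⁻¹ * a * ‖z‖ ^ 2 = a * ‖z‖ from fun a => by field_simp]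
    exact (mul_le_mul (hb' _ (m1 hz)).1 hz h3.le hB).trans (le_add_of_nonneg_left (by positivity))

theorem D_refl (hG : ContDiff ℝ ∞ G) (v : ST) :
    D v (fun q => G (-q.1, q.2)) = fun q => D (-v.1, v.2) G (-q.1, q.2) := funext fun q =>
  have h : HasFDerivAt (fun q : ST => ((-q.1, q.2) : ST))
      ((-ContinuousLinearMap.fst ℝ ℝ R3).prod (ContinuousLinearMap.snd ℝ ℝ R3)) q :=
    hasFDerivAt_fst.neg.prodMk hasFDerivAt_snd
  DFunLike.congr_fun ((hG.differentiable (by simp) _).hasFDerivAt.comp q h).fderiv v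

theorem D_neg (G : ST → F) (v : ST) : D (-v) G = -D v G := funext fun _ => map_neg _ _

theorem box_refl (hG : ContDiff ℝ ∞ G) :
    box (fun q => G (-q.1, q.2)) = fun q => box G (-q.1, q.2) := by
  have e : ∀ q, D (-1, 0) (D (-1, 0) G) q = D (1, 0) (D (1, 0) G) q := fun q => by
    rw [show ((-1, 0) : ST) = -(1, 0) by simp, D_neg, D_neg, Pi.neg_apply, D, fderiv_neg]
    exact neg_neg _
  simp only [box_eq, D_refl hG, D_refl (sm hG _), neg_zero, e]

theorem D_tensor {a a' : ℝ → ℝ} {g : R3 → F} (ha : ∀ s, HasDerivAt a (a' s) s)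
    (hg : ContDiff ℝ ∞ g) :
    (D (1, 0) fun q => a q.1 • g q.2) = (fun q => a' q.1 • g q.2) ∧
      ∀ w, (D (0, w) fun q => a q.1 • g q.2) = fun q => a q.1 • fderiv ℝ g q.2 w := by
  have h := fun q : ST => (((ha q.1).hasFDerivAt.comp q hasFDerivAt_fst).smul
    ((hg.differentiable (by simp) q.2).hasFDerivAt.comp q hasFDerivAt_snd)).fderiv
  exact ⟨funext fun q => (DFunLike.congr_fun (h q) _).trans (by simp),
    fun w => funext fun q => (DFunLike.congr_fun (h q) _).trans (by simp)⟩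

theorem box_tensor {a a' a'' : ℝ → ℝ} {g : R3 → F} (ha : ∀ s, HasDerivAt a (a' s) s)
    (ha' : ∀ s, HasDerivAt a' (a'' s) s) (hg : ContDiff ℝ ∞ g) :
    ∃ k : R3 → F, ∀ p, box (fun q => a q.1 • g q.2) p = a'' p.1 • g p.2 - a p.1 • k p.2 := by
  refine ⟨fun y => ∑ i, fderiv ℝ (fun y => fderiv ℝ g y (EuclideanSpace.single i 1)) y
    (EuclideanSpace.single i 1), fun p => ?_⟩
  simp only [box_eq, D_tensor ha hg, D_tensor ha' hg, Finset.smul_sum, fun w => D_tensor ha
    (g := fun y => fderiv ℝ g y w) ((hg.fderiv_right (m := ∞) (by simp)).clm_apply contDiff_const)]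

end WaveB

open WaveB

/-- representation formula for functions with vanishing Cauchy data -/
theorem rep_sharp {G : ST → F} (hG : ContDiff ℝ ∞ G) (h0 : ∀ y, G (0, y) = 0)
    (h1 : ∀ y, fderiv ℝ G (0, y) (1, 0) = 0) (p : ST) : G p = duh (box G) p := by
  obtain ⟨t, x⟩ := p
  rcases lt_trichotomy t 0 with ht | rfl | ht
  · have h := rep_pos (G := fun q => G (-q.1, q.2)) (hG.comp (by fun_prop)) (by simpa using h0)
      (fun y => (congrFun (D_refl hG (1, 0)) (0, y)).trans (by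
        rw [show ((-(1, 0).1, (1, 0).2) : ST) = -(1, 0) by simp, D_neg]
        simpa [D] using h1 y)) (neg_pos.2 ht) x
    simpa only [box_refl hG, duh_refl, neg_neg] using h
  · rw [h0, duh_zero]
  · exact rep_pos hG h0 h1 ht x

theorem WaveB.box_duh0 {G : ST → F} (hG : ContDiff ℝ ∞ G) (h0 : ∀ y, G (0, y) = 0)
    (h1 : ∀ y, fderiv ℝ G (0, y) (1, 0) = 0) (p : ST) : box (duh G) p = G p := by
  have e1 : ∀ {H : ST → F}, ContDiff ℝ ∞ H → (∀ y, H (0, y) = 0) →
      D (1, 0) (duh H) = duh (D (1, 0) H) := fun h h' => funext (fderiv_duh_time h h')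
  have e2 : ∀ {H : ST → F}, ContDiff ℝ ∞ H → ∀ i, D (ei i) (duh H) = duh (D (ei i) H) :=
    fun h i => funext (fderiv_duh_space h _)
  rw [rep_sharp hG h0 h1 p, duh_box hG]
  simp only [box_eq, e1 hG h0, e1 (sm hG _) h1, e2 hG, e2 (sm hG _)]

theorem box_duh {G : ST → F} (hG : ContDiff ℝ ∞ G) (p : ST) : box (duh G) p = G p := by
  have s0 : ContDiff ℝ ∞ fun y : R3 => G (0, y) := hG.comp (by fun_prop)
  have s1 : ContDiff ℝ ∞ fun y : R3 => D (1, 0) G (0, y) := (sm hG _).comp (by fun_prop)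
  have d1 : ∀ s : ℝ, HasDerivAt (fun s : ℝ => s ^ 2 / 2) s s := fun s =>
    ((hasDerivAt_pow 2 s).div_const 2).congr_deriv (by simp)
  have d2 : ∀ s : ℝ, HasDerivAt (fun s : ℝ => s ^ 3 / 6) (s ^ 2 / 2) s := fun s =>
    ((hasDerivAt_pow 3 s).div_const 6).congr_deriv (by simp; ring)
  obtain ⟨k0, hk0⟩ := box_tensor d1 hasDerivAt_id' s0
  obtain ⟨k1, hk1⟩ := box_tensor d2 d1 s1
  have t0 : ContDiff ℝ ∞ fun q : ST => (q.1 ^ 2 / 2) • G (0, q.2) := by fun_prop
  have t1 : ContDiff ℝ ∞ fun q : ST => (q.1 ^ 3 / 6) • D (1, 0) G (0, q.2) :=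
    ContDiff.smul (by fun_prop) (s1.comp contDiff_snd)
  obtain ⟨V, hV⟩ : ∃ V : ST → F,
    V = fun q => (q.1 ^ 2 / 2) • G (0, q.2) + (q.1 ^ 3 / 6) • D (1, 0) G (0, q.2) := ⟨_, rfl⟩
  have sV : ContDiff ℝ ∞ V := hV ▸ t0.add t1
  have hb : ∀ q, box V q = (1 : ℝ) • G (0, q.2) - (q.1 ^ 2 / 2) • k0 q.2 +
      (q.1 • D (1, 0) G (0, q.2) - (q.1 ^ 3 / 6) • k1 q.2) := fun q => by
    rw [hV, box_add t0 t1, hk0, hk1]
  have hr : duh (box V) = V := funext fun q => (rep_sharp sV (by simp [hV]) (fun y => D_time sV (by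
    simpa [hV] using ((d1 0).smul_const (G (0, y))).fun_add
      ((d2 0).smul_const (D (1, 0) G (0, y))))) q).symm
  have sF := hG.sub (sm_box sV)
  have e : duh G = fun q => duh (fun q => G q - box V q) q + V q := funext fun q => by
    rw [← congrFun hr q, ← duh_add sF.continuous (sm_box sV).continuous]
    simp only [sub_add_cancel]
  rw [e, box_add (contDiff_duh sF) sV, box_duh0 sF (by simp [hb]) fun y => ?_, sub_add_cancel]
  rw [fderiv_fun_sub (hG.differentiable (by simp) _) ((sm_box sV).differentiable (by simp) _),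
    sub_apply, D_time (sm_box sV) (v := D (1, 0) G (0, y)), sub_eq_zero, D]
  simpa [hb] using (((d1 0).smul_const (k0 y)).const_sub (G (0, y))).fun_add
    (((hasDerivAt_id' 0).smul_const (D (1, 0) G (0, y))).fun_sub ((d2 0).smul_const (k1 y)))

theorem wave_exists {u₀ u₁ : R3 → F} {G : ST → F} (h₀ : ContDiff ℝ ∞ u₀) (h₁ : ContDiff ℝ ∞ u₁)
    (hG : ContDiff ℝ ∞ G) : ∃ u : ST → F, ContDiff ℝ ∞ u ∧ (∀ x, u (0, x) = u₀ x) ∧
      (∀ x, fderiv ℝ u (0, x) (1, 0) = u₁ x) ∧ ∀ p, box u p = G p := by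
  have sV : ContDiff ℝ ∞ fun q : ST => u₀ q.2 + q.1 • u₁ q.2 := by fun_prop
  have sF := hG.sub (sm_box sV)
  refine ⟨_, sV.add (contDiff_duh sF), fun x => by simp [duh_zero], fun x => ?_, fun p => by
    rw [box_add sV (contDiff_duh sF), box_duh sF, add_sub_cancel]⟩
  refine (congrFun (D_add sV (contDiff_duh sF) (1, 0)) (0, x)).trans ?_
  rw [D, D, fderiv_duh_zero sF, add_zero]
  exact D_time sV (by simpa using ((hasDerivAt_id' (0 : ℝ)).smul_const (u₁ x)).const_add (u₀ x))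

theorem wave_unique {u : ST → F} (hu : ContDiff ℝ ∞ u) (h0 : ∀ y, u (0, y) = 0)
    (h1 : ∀ y, fderiv ℝ u (0, y) (1, 0) = 0) (hb : ∀ p, box u p = 0) (p : ST) : u p = 0 := by
  rw [rep_sharp hu h0 h1 p]
  simp [duh, hb]

end

end Crest.Agent.R106
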