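import Crest.Agent.R106.GSC
import Crest.Agent.R106.WaveB
import Crest.Agent.R106.BoxF

/-!
# Row 106: the Glassey–Strauss representation
-/

set_option autoImplicit false
set_option linter.unusedVariables false
set_option linter.unusedSectionVars false

open MeasureTheory Metric Set Filter Topology
open scoped ContDiff ENNReal RealInnerProductSpace
open Crest.AnalysisR.VecCalc3 Crest.AnalysisR.PDE.RVM

noncomputable section

namespace Crest.Agent.R106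

open WaveB GSC

theorem GS_int {t : ℝ} (ht : 0 ≤ t) (M : ℝ) :
    IntegrableOn (fun z : R3 => M / ‖z‖ ^ 2) (ball 0 t) ∧
      ∫ z in ball (0 : R3) t, M / ‖z‖ ^ 2 = 4 * Real.pi * (t * M) := by
  have h := integral_ball_retarded (m := fun _ => M) continuous_const ht
  simpa using h

theorem GS_ae (t : ℝ) : ∀ᵐ z ∂(volume.restrict (ball (0 : R3) t)), z ≠ 0 ∧ ‖z‖ < t := by
  filter_upwards [ae_restrict_of_ae (Measure.ae_ne volume (0 : R3)),
    ae_restrict_mem measurableSet_ball] with z hz hz'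
  exact ⟨hz, mem_ball_zero_iff.1 hz'⟩

theorem GS_ball {f : R3 → R3} {t M : ℝ} (ht : 0 ≤ t)
    (h : ∀ z, z ≠ 0 → ‖z‖ < t → ‖f z‖ ≤ M / ‖z‖ ^ 2) :
    ‖∫ z in ball (0 : R3) t, f z‖ ≤ 4 * Real.pi * (t * M) := by
  rw [← (GS_int ht M).2]
  refine norm_integral_le_of_norm_le (GS_int ht M).1 ?_
  filter_upwards [GS_ae t] with z hz using h z hz.1 hz.2

theorem GS_prod {f : R3 × R3 → R3} {t R M : ℝ} (ht : 0 ≤ t)
    (h1 : ∀ z v : R3, z ≠ 0 → ‖z‖ ≤ t → ‖v‖ ≤ R → ‖f (z, v)‖ ≤ M / ‖z‖ ^ 2)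
    (h2 : ∀ z v : R3, R < ‖v‖ → f (z, v) = 0) :
    ‖∫ q, f q ∂((volume.restrict (ball (0 : R3) t)).prod volume)‖ ≤
      4 * Real.pi * (t * M) * volume.real (closedBall (0 : R3) R) := by
  have i2 : Integrable ((closedBall (0 : R3) R).indicator fun _ => (1 : ℝ)) :=
    (integrable_indicator_iff measurableSet_closedBall).2
      (integrableOn_const measure_closedBall_lt_top.ne)
  have e := integral_prod_mul (μ := volume.restrict (ball (0 : R3) t)) (ν := volume)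
    (fun z : R3 => M / ‖z‖ ^ 2) ((closedBall (0 : R3) R).indicator fun _ => (1 : ℝ))
  rw [(GS_int ht M).2, integral_indicator measurableSet_closedBall, setIntegral_const, smul_eq_mul,
    mul_one] at e
  rw [← e]
  refine norm_integral_le_of_norm_le ((GS_int ht M).1.mul_prod i2) ?_
  filter_upwards [Measure.quasiMeasurePreserving_fst.ae (GS_ae t)] with q hq
  by_cases hv : ‖q.2‖ ≤ R
  · rw [indicator_of_mem (mem_closedBall_zero_iff.2 hv), mul_one]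
    exact h1 _ _ hq.1 hq.2.le hv
  · rw [indicator_of_notMem (by simpa using hv), mul_zero]
    exact (norm_eq_zero.2 (h2 _ _ (not_le.1 hv))).le

theorem GS_box {a a' a'' : ℝ → ℝ} {u : ST → R3} (ha : ∀ s, HasDerivAt a (a' s) s)
    (ha' : ∀ s, HasDerivAt a' (a'' s) s) (hu : ContDiff ℝ ∞ u) {A : ℝ} (hA : Bx 2 u 0 A) :
    ∃ k : R3 → R3, (∀ y, ‖k y‖ ≤ 3 * A) ∧
      ∀ p, box (fun q => a q.1 • u (0, q.2)) p = a'' p.1 • u (0, p.2) - a p.1 • k p.2 := by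
  have hg := CalcC_cd hu 0
  refine ⟨fun y => ∑ i, fderiv ℝ (fun y => fderiv ℝ (fun y => u (0, y)) y
    (EuclideanSpace.single i 1)) y (EuclideanSpace.single i 1), fun y => ?_, fun p => ?_⟩
  · refine (norm_sum_le_of_le _ (n := fun _ => A) fun i _ => ?_).trans (by simp)
    have he : ‖(EuclideanSpace.single i 1 : R3)‖ = 1 := by simp
    have h1 := bx_one (sm hu _) (hA.dir hu he.le) y (EuclideanSpace.single i 1)
    rw [he, mul_one] at h1
    rw [← CalcC_slice hu]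
    exact ((congrFun (CalcC_slice (sm hu (0, EuclideanSpace.single i 1)) 0
      (EuclideanSpace.single i 1)) y) ▸ h1 :)
  · simp only [box_eq, D_tensor ha hg, D_tensor ha' hg, Finset.smul_sum, fun w => D_tensor ha
      (g := fun y => fderiv ℝ (fun y => u (0, y)) y w)
      ((hg.fderiv_right (m := ∞) (by simp)).clm_apply contDiff_const)]

/-- the representation formula with the contribution of the data estimated -/
theorem GS_wave {G m : ST → R3} (hG : ContDiff ℝ ∞ G) (hm : Continuous m) {A A' t : ℝ}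
    (ht : 0 ≤ t) (a0 : Bx 0 G 0 A) (a2 : Bx 2 G 0 A) (b0 : Bx 0 (D (1, 0) G) 0 A)
    (b2 : Bx 2 (D (1, 0) G) 0 A) (hA' : 0 ≤ A')
    (hb : ∀ p : ST, p.1 ∈ Ioo 0 t → ‖box G p - m p‖ ≤ A') (x : R3) :
    ‖(4 * Real.pi) • G (t, x) - ∫ z in ball (0 : R3) t, ‖z‖⁻¹ • m (cp t x z)‖ ≤
      4 * Real.pi * (A + t * A + t * (t * (A' + 3 * A + t * (3 * A)))) := by
  have hA := a0.nonneg
  rw [bx_zero] at a0 b0
  have hD := sm hG (1, 0)
  have d1 : ∀ s : ℝ, HasDerivAt (fun _ : ℝ => (-1 : ℝ)) ((fun _ => 0) s) s :=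
    fun s => hasDerivAt_const _ _
  have d2 : ∀ s : ℝ, HasDerivAt (fun _ : ℝ => (0 : ℝ)) ((fun _ => 0) s) s :=
    fun s => hasDerivAt_const _ _
  have d3 : ∀ s : ℝ, HasDerivAt (fun s : ℝ => -s) ((fun _ => -1) s) s := fun s => hasDerivAt_neg s
  obtain ⟨k₀, hk₀, e₀⟩ := GS_box d1 d2 hG a2
  obtain ⟨k₁, hk₁, e₁⟩ := GS_box d3 d1 hD b2
  have c₀ : ContDiff ℝ ∞ fun q : ST => (-1 : ℝ) • G (0, q.2) :=
    ((CalcC_cd hG 0).comp contDiff_snd).const_smul (-1 : ℝ)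
  have c₁ : ContDiff ℝ ∞ fun q : ST => -q.1 • D (1, 0) G (0, q.2) :=
    contDiff_fst.neg.smul ((CalcC_cd hD 0).comp contDiff_snd)
  have c := hG.add (c₀.add c₁)
  have h := rep_sharp c (fun y => by simp) (fun y => by
    have := congrFun (D_add hG (c₀.add c₁) (1, 0)) (0, y)
    rw [D_add c₀ c₁, (D_tensor d1 (CalcC_cd hG 0)).1, (D_tensor d3 (CalcC_cd hD 0)).1] at this
    refine this.trans ?_
    simp) (t, x)
  obtain ⟨i1, e1⟩ := duh_eq (sm_box c).continuous ht x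
  obtain ⟨i2, -⟩ := duh_eq hm ht x
  have hπ : 0 < 4 * Real.pi := by positivity
  have e2 : ∀ (z w : R3), (4 * Real.pi) • (4 * Real.pi * ‖z‖)⁻¹ • w = ‖z‖⁻¹ • w := fun z w => by
    rw [smul_smul, mul_inv, ← mul_assoc, mul_inv_cancel₀ hπ.ne', one_mul]
  have j1 := i1.smul (4 * Real.pi)
  have j2 := i2.smul (4 * Real.pi)
  simp only [Pi.smul_def, e2] at j1 j2
  rw [e1] at h
  have e3 := congrArg ((4 * Real.pi) • ·) h
  simp only [← integral_smul, e2] at e3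
  have e4 : (4 * Real.pi) • G (t, x) - ∫ z in ball (0 : R3) t, ‖z‖⁻¹ • m (cp t x z) =
      (4 * Real.pi) • (G (0, x) + t • D (1, 0) G (0, x)) +
      ∫ z in ball (0 : R3) t, (‖z‖⁻¹ • box (fun q => G q + ((-1 : ℝ) • G (0, q.2) +
        -q.1 • D (1, 0) G (0, q.2))) (cp t x z) - ‖z‖⁻¹ • m (cp t x z)) := by
    rw [integral_sub j1 j2, ← e3]
    module
  rw [e4]
  have n1 : ‖(4 * Real.pi) • (G (0, x) + t • D (1, 0) G (0, x))‖ ≤ 4 * Real.pi * (A + t * A) :=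
    GSA_smul (abs_of_pos hπ).le (norm_add_le_of_le (a0 x) (GSA_smul (abs_of_nonneg ht).le (b0 x)))
  refine (norm_add_le_of_le n1 (GS_ball (M := t * (A' + 3 * A + t * (3 * A))) ht
    fun z hz hzt => ?_)).trans_eq (by ring)
  have hz' := norm_pos_iff.2 hz
  rw [← smul_sub, box_add hG (c₀.add c₁), box_add c₀ c₁, e₀, e₁]
  have e5 : box G (cp t x z) + ((0 : ℝ) • G (0, (cp t x z).2) - (-1 : ℝ) • k₀ (cp t x z).2 +
      ((0 : ℝ) • D (1, 0) G (0, (cp t x z).2) - -(cp t x z).1 • k₁ (cp t x z).2)) - m (cp t x z) =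
      box G (cp t x z) - m (cp t x z) + k₀ (cp t x z).2 + (t - ‖z‖) • k₁ (cp t x z).2 := by
    simp only [cp]
    module
  rw [e5]
  refine (GSA_smul ((abs_of_nonneg (inv_nonneg.2 hz'.le)).trans_le (inv_le_div_sq hz hzt.le))
    (norm_add_le_of_le (norm_add_le_of_le (hb _ ⟨sub_pos.2 hzt, sub_lt_self _ hz'⟩) (hk₀ _))
      (GSA_smul (a := t) (abs_le.2 ⟨by linarith, by linarith⟩) (hk₁ _)))).trans_eq (by ring)

theorem GS_add {k : ℕ} {u u' : ST → R3} (hu : ContDiff ℝ ∞ u) (hu' : ContDiff ℝ ∞ u')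
    {s C C' : ℝ} (h : Bx k u s C) (h' : Bx k u' s C') :
    Bx k (fun p => u p + u' p) s (C + C') := by
  intro y
  have h1 := iteratedFDeriv_add_apply (i := k) (x := y)
    ((CalcC_cd hu s).of_le (by exact_mod_cast le_top)).contDiffAt
    ((CalcC_cd hu' s).of_le (by exact_mod_cast le_top)).contDiffAt
  exact (congrArg norm h1).trans_le ((norm_add_le _ _).trans (add_le_add (h y) (h' y)))

theorem GS_cd {u : ST → R3} (hu : ContDiff ℝ ∞ u) (W : R3) :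
    ContDiff ℝ ∞ fun p => cross3 W (u p) := by
  obtain ⟨L, hL⟩ := exists_crossL
  simp only [← hL]
  exact (L W).contDiff.comp hu

theorem GS_cross {k : ℕ} {u : ST → R3} (hu : ContDiff ℝ ∞ u) {W : R3} (hW : ‖W‖ ≤ 1) {s C : ℝ}
    (h : Bx k u s C) : Bx k (fun p => cross3 W (u p)) s C := by
  obtain ⟨L, hL⟩ := exists_crossL
  intro y
  have h1 : ‖L W‖ ≤ 1 := (L W).opNorm_le_bound zero_le_one fun b => by
    rw [hL]
    exact (norm_cross3_le _ _).trans (mul_le_mul_of_nonneg_right hW (norm_nonneg _))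
  have h2 := (L W).norm_iteratedFDeriv_comp_left (n := k) (x := y) (CalcC_cd hu s).contDiffAt
    (by exact_mod_cast le_top)
  simp only [← hL]
  exact h2.trans ((mul_le_of_le_one_left (norm_nonneg _) h1).trans (h y))

theorem GS_curl {u : ST → R3} (hu : ContDiff ℝ ∞ u) : ∃ c : ST → R3, ContDiff ℝ ∞ c ∧
    (∀ p : ST, curl3 (fun y => u (p.1, y)) p.2 = c p) ∧
    ∀ (k : ℕ) (s C : ℝ), Bx (k + 1) u s C → Bx k c s (3 * C) := by
  have h := fun i : Fin 3 => GS_cd (sm hu (ei i)) (EuclideanSpace.single i 1)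
  refine ⟨_, ((h 0).add (h 1)).add (h 2), fun p => ?_, fun k s C hC => ?_⟩
  · have e : ∀ i j : Fin 3, pderiv (fun y => u (p.1, y) j) i p.2 = D (ei i) u p j := fun i j => by
      have h1 := ((EuclideanSpace.proj j : R3 →L[ℝ] ℝ).hasFDerivAt.comp p.2
        ((CalcC_cd hu p.1).differentiable (by simp) p.2).hasFDerivAt).fderiv
      refine (congrArg (fun L : R3 →L[ℝ] ℝ => L (EuclideanSpace.single i 1)) h1).trans ?_
      simp [D, CalcB_sliceX (hu.differentiable (by simp))]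
    simp only [curl3, e]
    ext j
    fin_cases j <;> simp [cross3] <;> ring
  · have he : ∀ i : Fin 3, ‖(EuclideanSpace.single i 1 : R3)‖ ≤ 1 := fun i => by simp
    have b := fun i : Fin 3 => GS_cross (sm hu (ei i)) (he i) (hC.dir hu (he i))
    exact (GS_add ((h 0).add (h 1)) (h 2) (GS_add (h 0) (h 1) (b 0) (b 1)) (b 2)).mono
      (le_of_eq (by ring))

/-- the Cauchy data of `E + W × B` -/
theorem GS_data (R₀ : ℝ) : ∃ C : ℝ, 0 ≤ C ∧ ∀ (T : ℝ) (h : PS → ℝ) (H : PS → R3)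
    (E B : ST → R3), 0 ≤ T → Lin T h H E B → VS h 0 R₀ → ∀ D₀ : ℝ, DBd 3 h E B 0 D₀ →
    ∀ W : R3, ‖W‖ ≤ 1 → ∀ k ≤ 2, Bx k (fun q => E q + cross3 W (B q)) 0 (C * D₀) ∧
      Bx k (D (1, 0) fun q => E q + cross3 W (B q)) 0 (C * D₀) := by
  obtain ⟨C, hC0, hC⟩ := CalcC_unif (P := fun k C => ∀ (h : PS → ℝ), ContDiff ℝ ∞ h → VSupp h →
      ∀ a : ℝ, VS h 0 R₀ → Bx k h 0 a → Bx k (cur h) 0 (C * a))
    (fun k => (bx_cur k R₀).imp fun C hC => ⟨hC.1, fun h h1 h2 a h3 h4 =>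
      (hC.2 h h1 h2 0 a h3 h4).2⟩)
    (fun k C C' h1 h2 h h3 h4 a h5 h6 => (h2 h h3 h4 a h5 h6).mono
      (mul_le_mul_of_nonneg_right h1 h6.nonneg)) 2
  refine ⟨C + 6, by positivity, fun T h H E B hT hL hR D₀ hD W hW k hk => ?_⟩
  have hD0 := (hD 0 (by norm_num)).1.nonneg
  refine ⟨(GS_add hL.sE (GS_cd hL.sB W) (hD k (by omega)).2.1
    (GS_cross hL.sB hW (hD k (by omega)).2.2)).mono (by nlinarith), ?_⟩
  obtain ⟨cE, s1, e1, b1⟩ := GS_curl hL.sE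
  obtain ⟨cB, s2, e2, b2⟩ := GS_curl hL.sB
  have s3 := contDiff_cur hL.sh hL.vh
  have b := ((b2 k 0 D₀ (hD (k + 1) (by omega)).2.2).sub s2 s3
    (hC k hk h hL.sh hL.vh D₀ hR (hD k (by omega)).1)).sub (s2.sub s3) (GS_cd s1 W)
    (GS_cross s1 hW (b1 k 0 D₀ (hD (k + 1) (by omega)).2.1))
  have e : (fun y => D (1, 0) (fun q => E q + cross3 W (B q)) (0, y)) =
      fun y => (cB - cur h - fun p => cross3 W (cE p)) (0, y) := by
    funext y
    obtain ⟨L, hL'⟩ := exists_crossL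
    have m := hL.mx (0, y) ⟨le_rfl, hT⟩
    have h1 := ((hL.sE.differentiable (by simp) (0, y)).hasFDerivAt.add
      ((L W).hasFDerivAt.comp (0, y) (hL.sB.differentiable (by simp) (0, y)).hasFDerivAt)).fderiv
    simp only [← hL']
    refine (congrArg (fun M : ST →L[ℝ] R3 => M (1, 0)) h1).trans ?_
    rw [_root_.add_apply, ContinuousLinearMap.comp_apply, m.amp, m.far, e1, e2]
    simp only [Pi.sub_apply, map_neg]
    abel
  intro y
  rw [e]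
  exact (b y).trans (le_of_eq (by ring))

theorem GS_A0_cd {h : PS → ℝ} (hh : ContDiff ℝ ∞ h) (W : R3) :
    ContDiff ℝ ∞ fun p : PS => A0 (fderiv ℝ h p) W p.2.2 := by
  have h1 : ∀ w, ContDiff ℝ ∞ fun p : PS => fderiv ℝ h p w := fun w =>
    (hh.fderiv_right (m := ∞) (by simp)).clm_apply contDiff_const
  have h2 : ContDiff ℝ ∞ fun p : PS => relVel p.2.2 := contDiff_relVel.comp (by fun_prop)
  exact ((contDiff_const.sub (h2.inner ℝ contDiff_const)).neg.smul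
    (contDiff_euclidean.2 fun i => h1 _)).sub ((h1 _).smul h2)

theorem GS_A0_zero (W v : R3) : A0 0 W v = 0 := by
  ext i
  simp [A0]

theorem GS_A0_sub (D₁ D₂ : PS →L[ℝ] ℝ) (W v : R3) : A0 (D₁ - D₂) W v = A0 D₁ W v - A0 D₂ W v := by
  ext i
  simp [A0]
  ring

theorem GS_A0_vs {h : PS → ℝ} (vh : VSupp h) (W : R3) :
    VSupp fun p : PS => A0 (fderiv ℝ h p) W p.2.2 := by
  intro T₁
  obtain ⟨R, hR⟩ := vh (T₁ + 1)
  refine ⟨R, fun s y v hs hv => ?_⟩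
  have : h =ᶠ[𝓝 (s, y, v)] fun _ => 0 := by
    have o : IsOpen {p : PS | |p.1| < T₁ + 1 ∧ R < ‖p.2.2‖} :=
      (isOpen_lt (f := fun p : PS => |p.1|) (by fun_prop) continuous_const).inter
        (isOpen_lt (g := fun p : PS => ‖p.2.2‖) continuous_const (by fun_prop))
    filter_upwards [o.mem_nhds ⟨by simpa using hs.trans_lt (lt_add_one _), hv⟩] with p hp
      using hR _ _ _ hp.1.le hp.2
  simp only [this.fderiv_eq, fderiv_fun_const, Pi.zero_apply, GS_A0_zero]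

/-- the frozen density -/
theorem GS_frozen {h : PS → ℝ} (hh : ContDiff ℝ ∞ h) {R₀ D₀ : ℝ} (hR : VS h 0 R₀)
    (h0 : Bx 0 h 0 D₀) (h1 : Bx 1 h 0 D₀) : ∃ h₀ : PS → ℝ, ContDiff ℝ ∞ h₀ ∧
      (∀ y, h₀ (0, y) = h (0, y)) ∧ (∀ p, ‖h₀ p‖ ≤ D₀) ∧ (∀ p, ‖fderiv ℝ h₀ p‖ ≤ D₀) ∧
      (∀ p : PS, R₀ < ‖p.2.2‖ → h₀ p = 0) ∧ ∀ p : PS, R₀ < ‖p.2.2‖ → fderiv ℝ h₀ p = 0 := by
  have hs := CalcC_cd hh 0
  refine ⟨fun p => h (0, p.2), hs.comp contDiff_snd, fun _ => rfl, fun p => bx_zero.1 h0 _,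
    fun p => ?_, fun p hp => hR _ _ hp, fun p hp => ?_⟩
  · refine ContinuousLinearMap.opNorm_le_bound _ h0.nonneg fun w => ?_
    have h2 := ((hs.differentiable (by simp) p.2).hasFDerivAt.comp p hasFDerivAt_snd).fderiv
    refine (congrArg (fun M : PS →L[ℝ] ℝ => ‖M w‖) h2).trans_le ?_
    have h3 := bx_one hh h1 p.2 w.2
    rw [congrFun (CalcC_slice hh 0 w.2) p.2] at h3
    exact h3.trans (mul_le_mul_of_nonneg_left (norm_snd_le w) h0.nonneg)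
  · have : (fun p : PS => h (0, p.2)) =ᶠ[𝓝 p] fun _ => 0 := by
      filter_upwards [(isOpen_lt (g := fun p : PS => ‖p.2.2‖) continuous_const
        (by fun_prop)).mem_nhds hp] with q hq using hR _ _ hq
    simp only [this.fderiv_eq, fderiv_fun_const, Pi.zero_apply]

theorem GS_vsub {h h₀ : PS → ℝ} (vh : VSupp h) (v₀ : VSupp h₀) : VSupp fun p => h p - h₀ p := by
  intro T₁
  obtain ⟨R, h1⟩ := vh T₁
  obtain ⟨R', h2⟩ := v₀ T₁
  exact ⟨max R R', fun s y v hs hv => by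
    simp only [h1 s y v hs ((le_max_left _ _).trans_lt hv),
      h2 s y v hs ((le_max_right _ _).trans_lt hv), sub_zero]⟩

theorem GS_mom {h h₀ : PS → ℝ} (hh : ContDiff ℝ ∞ h) (s₀ : ContDiff ℝ ∞ h₀) (vh : VSupp h)
    (v₀ : VSupp h₀) {R₀ D₀ : ℝ} (n₀ : ∀ p, ‖fderiv ℝ h₀ p‖ ≤ D₀)
    (z₀ : ∀ p : PS, R₀ < ‖p.2.2‖ → fderiv ℝ h₀ p = 0) {W : R3} (hW : ‖W‖ ≤ 1) (p : ST) :
    ‖(∫ v, A0 (fderiv ℝ h (p.1, p.2, v)) W v) -
      ∫ v, A0 (fderiv ℝ (fun p => h p - h₀ p) (p.1, p.2, v)) W v‖ ≤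
      7 * D₀ * volume.real (closedBall (0 : R3) R₀) := by
  have i1 : Integrable fun v => A0 (fderiv ℝ h (p.1, p.2, v)) W v :=
    integrable_slice (GS_A0_cd hh W).continuous (GS_A0_vs vh W) p
  have i2 : Integrable fun v => A0 (fderiv ℝ h₀ (p.1, p.2, v)) W v :=
    integrable_slice (GS_A0_cd s₀ W).continuous (GS_A0_vs v₀ W) p
  have f₁ : ∀ p, fderiv ℝ (fun p => h p - h₀ p) p = fderiv ℝ h p - fderiv ℝ h₀ p := fun p =>
    fderiv_fun_sub (hh.differentiable (by simp) p) (s₀.differentiable (by simp) p)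
  simp only [f₁, GS_A0_sub]
  rw [integral_sub i1 i2, sub_sub_cancel,
    ← setIntegral_eq_integral_of_forall_compl_eq_zero (s := closedBall (0 : R3) R₀) fun v hv => by
      rw [z₀ (p.1, p.2, v) (not_le.1 fun h1 => hv (mem_closedBall_zero_iff.2 h1)), GS_A0_zero]]
  exact norm_setIntegral_le_of_norm_le_const measure_closedBall_lt_top fun v _ =>
    (A0_le hW v).trans (mul_le_mul_of_nonneg_left (n₀ _) (by norm_num))

theorem GS_rem (R₀ : ℝ) : ∃ C₂ C₃ : ℝ, 0 ≤ C₂ ∧ 0 ≤ C₃ ∧ ∀ (h h₀ : PS → ℝ) (H : PS → R3),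
    ContDiff ℝ ∞ h → ContDiff ℝ ∞ h₀ → ContDiff ℝ ∞ H → VSupp h → VSupp H → ∀ D₀ t : ℝ, 0 < t →
    (∀ y, h₀ (0, y) = h (0, y)) → (∀ p, ‖h₀ p‖ ≤ D₀) → (∀ p, ‖fderiv ℝ h₀ p‖ ≤ D₀) →
    (∀ p : PS, R₀ < ‖p.2.2‖ → h₀ p = 0) → (∀ p : PS, R₀ < ‖p.2.2‖ → fderiv ℝ h₀ p = 0) →
    (∀ p : PS, p.1 ∈ Icc 0 t → fderiv ℝ h p (1, relVel p.2.2, 0) = - divV H p) →
    ∀ W x : R3, ‖W‖ ≤ 1 →
    ‖(∫ z in ball (0 : R3) t, ‖z‖⁻¹ • ∫ v, A0 (fderiv ℝ (fun p => h p - h₀ p) (cq t x (z, v))) W v) -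
      ∫ q in ball (0 : R3) t ×ˢ univ, gsK W h H t x q‖ ≤
      4 * Real.pi * (t * (D₀ * (C₃ * t + C₂))) * volume.real (closedBall (0 : R3) R₀) := by
  obtain ⟨C₂, c₂, hC₂⟩ := kT_le R₀
  obtain ⟨C₃, c₃, hC₃⟩ := phi_le R₀
  refine ⟨C₂, C₃, c₂, c₃, fun h h₀ H sh s₀ sH vh vH D₀ t ht e₀ b₀ n₀ y₀ z₀ tr W x hW => ?_⟩
  have iK := integrableOn_gsK sh.continuous sH.continuous vh vH hW t x
  have v₀ : VSupp h₀ := fun _ => ⟨R₀, fun s y v _ hv => y₀ _ hv⟩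
  obtain ⟨g, hg⟩ : ∃ g : PS → ℝ, g = fun p : PS => -fderiv ℝ h₀ p (1, relVel p.2.2, 0) := ⟨_, rfl⟩
  have sg : ContDiff ℝ ∞ g := by
    rw [hg]
    exact ((s₀.fderiv_right (m := ∞) (by simp)).clm_apply (contDiff_const.prodMk
      ((contDiff_relVel.comp (by fun_prop)).prodMk contDiff_const))).neg
  have zg : ∀ p : PS, R₀ < ‖p.2.2‖ → g p = 0 := fun p hp => by simp [hg, z₀ p hp]
  have ng : ∀ p, |g p| ≤ D₀ := fun p => by
    rw [hg, abs_neg]
    refine ((fderiv ℝ h₀ p).le_of_opNorm_le (n₀ p) _).trans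
      (mul_le_of_le_one_right ((norm_nonneg _).trans (n₀ p)) ?_)
    simpa using (norm_relVel_lt_one _).le
  have k := gs_core (sh.sub s₀) sH sg (GS_vsub vh v₀) vH
    (fun _ => ⟨R₀, fun s y v _ hv => zg _ hv⟩) ht (fun y => by rw [e₀, sub_self])
    (fun p hp => by
      rw [fderiv_fun_sub (sh.differentiable (by simp) p) (s₀.differentiable (by simp) p),
        _root_.sub_apply, tr p hp, hg, sub_eq_add_neg]) hW x
  have e2 : ∀ q : R3 × R3, gsK W (fun p => h p - h₀ p) H t x q +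
      (g (cq t x q) * (‖q.1‖ * pp q.1 q.2)⁻¹) •
        (ang (relVel q.2) W • nz q.1 - qq W q.1 • relVel q.2) = gsK W h H t x q +
      (g (cq t x q) • Phi W q.1 q.2 - h₀ (cq t x q) • kT 1 W q.1 q.2) := by
    intro q
    rw [Phi, smul_smul, qq, ang, ang, real_inner_comm (nz q.1) W, gsK, gsK]
    module
  have hr0 : ∀ z v : R3, R₀ < ‖v‖ →
      g (cq t x (z, v)) • Phi W z v - h₀ (cq t x (z, v)) • kT 1 W z v = 0 := fun z v hv => by
    rw [zg (cq t x (z, v)) hv, y₀ (cq t x (z, v)) hv, zero_smul, zero_smul, sub_zero]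
  have hr1 : ∀ z v : R3, z ≠ 0 → ‖z‖ ≤ t → ‖v‖ ≤ R₀ →
      ‖g (cq t x (z, v)) • Phi W z v - h₀ (cq t x (z, v)) • kT 1 W z v‖ ≤
        (D₀ * (C₃ * t + C₂)) / ‖z‖ ^ 2 := fun z v hz hzt hv =>
    (norm_sub_le_of_le (GSA_smul (ng _) ((hC₃ W z v hW hv).trans
      (mul_le_mul_of_nonneg_left (inv_le_div_sq hz hzt) c₃)))
      (GSA_smul (b₀ _) (hC₂ W z v hW hv))).trans_eq (by ring)
  have ir := integrable_prod (f := fun q : R3 × R3 =>
      g (cq t x q) • Phi W q.1 q.2 - h₀ (cq t x q) • kT 1 W q.1 q.2)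
    (((sg.continuous.comp (continuous_cq t x)).measurable.smul (meas_phi W)).sub
      ((s₀.continuous.comp (continuous_cq t x)).measurable.smul (meas_kT W))) hr1
    fun z v _ hv => hr0 z v hv
  have nr := GS_prod (f := fun q : R3 × R3 =>
      g (cq t x q) • Phi W q.1 q.2 - h₀ (cq t x q) • kT 1 W q.1 q.2) ht.le hr1 hr0
  rw [Measure.restrict_prod_eq_prod_univ, ← Measure.volume_eq_prod] at ir nr
  simp only [e2] at k
  rw [integral_add iK ir] at k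
  simp only [A0]
  rw [k, add_sub_cancel_left]
  exact nr

theorem gs_sharp (T R₀ : ℝ) : ∃ C : ℝ, 0 ≤ C ∧ ∀ T' ≤ T, ∀ (h : PS → ℝ) (H : PS → R3)
    (E B : ST → R3), Lin T' h H E B → VS h 0 R₀ → ∀ D : ℝ, DBd 3 h E B 0 D →
    GSRem T' (C * D) h H E B := by
  obtain ⟨C₁, c₁, hC₁⟩ := GS_data R₀
  obtain ⟨C₂, C₃, c₂, c₃, hC₂⟩ := GS_rem R₀
  obtain ⟨V, hV⟩ : ∃ V, volume.real (closedBall (0 : R3) R₀) = V := ⟨_, rfl⟩
  have V0 : 0 ≤ V := measureReal_nonneg.trans_eq hV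
  refine ⟨4 * Real.pi * (C₁ + |T| * C₁ + |T| * (|T| * (7 * V + 3 * C₁ + |T| * (3 * C₁)))) +
    4 * Real.pi * (|T| * (C₃ * |T| + C₂)) * V, by positivity,
    fun T' hT' h H E B hL hR D₀ hD t ht x W hW =>
      ⟨integrableOn_gsK hL.sh.continuous hL.sH.continuous hL.vh hL.vH hW t x, ?_⟩⟩
  have hD0 := (hD 0 (by norm_num)).1.nonneg
  have htT : t ≤ |T| := (ht.2.trans hT').trans (le_abs_self T)
  have hd := hC₁ T' h H E B (ht.1.trans ht.2) hL hR D₀ hD W hW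
  obtain ⟨h₀, s₀, e₀, b₀, n₀, y₀, z₀⟩ :=
    GS_frozen hL.sh hR (hD 0 (by norm_num)).1 (hD 1 (by norm_num)).1
  have v₀ : VSupp h₀ := fun _ => ⟨R₀, fun s y v _ hv => y₀ _ hv⟩
  have w := GS_wave (m := fun p : ST => ∫ v, A0 (fderiv ℝ (fun p => h p - h₀ p) (p.1, p.2, v)) W v)
    (hL.sE.add (GS_cd hL.sB W))
    (contDiff_moment (GS_A0_cd (hL.sh.sub s₀) W) (GS_A0_vs (GS_vsub hL.vh v₀) W)).continuous ht.1
    (hd 0 (by norm_num)).1 (hd 2 le_rfl).1 (hd 0 (by norm_num)).2 (hd 2 le_rfl).2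
    (A' := 7 * D₀ * V) (by positivity) (fun p hp => by
      rw [hL.box_force W p ⟨hp.1, hp.2.trans_le ht.2⟩, ← hV]
      exact GS_mom hL.sh s₀ hL.vh v₀ n₀ z₀ hW p) x
  have w1 : 4 * Real.pi * (C₁ * D₀ + t * (C₁ * D₀) +
      t * (t * (7 * D₀ * V + 3 * (C₁ * D₀) + t * (3 * (C₁ * D₀))))) ≤
      4 * Real.pi * (C₁ + |T| * C₁ + |T| * (|T| * (7 * V + 3 * C₁ + |T| * (3 * C₁)))) * D₀ := by
    have := ht.1
    calc _ ≤ 4 * Real.pi * (C₁ * D₀ + |T| * (C₁ * D₀) +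
          |T| * (|T| * (7 * D₀ * V + 3 * (C₁ * D₀) + |T| * (3 * (C₁ * D₀))))) := by gcongr
      _ = _ := by ring
  rcases ht.1.eq_or_lt with rfl | ht0
  · rw [ball_zero, Measure.restrict_empty, integral_zero_measure] at w
    rw [ball_zero, empty_prod, Measure.restrict_empty, integral_zero_measure, add_mul]
    exact (w.trans w1).trans (le_add_of_nonneg_right (by positivity))
  have k := hC₂ h h₀ H hL.sh s₀ hL.sH hL.vh hL.vH D₀ t ht0 e₀ b₀ n₀ y₀ z₀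
    (fun p hp => hL.tr p ⟨hp.1, hp.2.trans ht.2⟩) W x hW
  have w2 : 4 * Real.pi * (t * (D₀ * (C₃ * t + C₂))) * V ≤
      4 * Real.pi * (|T| * (C₃ * |T| + C₂)) * V * D₀ := by
    calc _ ≤ 4 * Real.pi * (|T| * (D₀ * (C₃ * |T| + C₂))) * V := by gcongr
      _ = _ := by ring
  rw [hV] at k
  rw [add_mul]
  exact (norm_sub_le_norm_sub_add_norm_sub _ _ _).trans (add_le_add (w.trans w1) (k.trans w2))

end Crest.Agent.R106
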