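import Crest.Agent.R106.Div
import Crest.Agent.R106.CalcC

/-!
# Row 106: crude bounds for the Glassey–Strauss kernels
-/

set_option autoImplicit false
set_option linter.unusedVariables false
set_option linter.unusedSectionVars false

open MeasureTheory Metric Set Filter Topology
open scoped ContDiff ENNReal RealInnerProductSpace
open Crest.AnalysisR.VecCalc3 Crest.AnalysisR.PDE.RVM

noncomputable section

namespace Crest.Agent.R106

theorem GSA_smul {c a b : ℝ} {u : R3} (hc : |c| ≤ a) (hu : ‖u‖ ≤ b) : ‖c • u‖ ≤ a * b := by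
  rw [norm_smul]
  exact mul_le_mul hc hu (norm_nonneg _) ((abs_nonneg c).trans hc)

theorem GSA_inner {a b : ℝ} {u w : R3} (hu : ‖u‖ ≤ a) (hw : ‖w‖ ≤ b) : |⟪u, w⟫| ≤ a * b :=
  (abs_real_inner_le_norm u w).trans (mul_le_mul hu hw (norm_nonneg _) ((norm_nonneg u).trans hu))

theorem GSA_ang {u w : R3} (hu : ‖u‖ ≤ 1) (hw : ‖w‖ ≤ 1) : |1 - ⟪u, w⟫| ≤ 2 :=
  abs_le.2 ⟨le_trans (by norm_num) (ang_nonneg hu hw), ang_le_two hu hw⟩

theorem GSA_pp {R : ℝ} (z : R3) {v : R3} (hv : ‖v‖ ≤ R) :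
    |(pp z v ^ 2)⁻¹| ≤ (2 * (1 + R) ^ 2) ^ 2 := by
  have h0 := en_pos v
  have h1 := pp_pos z v
  rw [abs_of_nonneg (by positivity), ← inv_pow]
  refine pow_le_pow_left₀ (by positivity) ((inv_le_of_inv_le₀ (by positivity)
    (inv_en_sq_le_ang v _ (norm_nz_le z))).trans ?_) 2
  have := pow_le_pow_left₀ h0.le ((en_le v).trans (add_le_add le_rfl hv)) 2
  linarith

/-- crude bounds for the kernels on a bounded momentum set -/
theorem kT_le (R : ℝ) : ∃ C : ℝ, 0 ≤ C ∧ ∀ W z v : R3, ‖W‖ ≤ 1 → ‖v‖ ≤ R →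
    ‖kT 1 W z v‖ ≤ C / ‖z‖ ^ 2 := by
  refine ⟨(2 * (1 + R) ^ 2) ^ 2 * 4, by positivity, fun W z v hW hv => ?_⟩
  have hr := (norm_relVel_lt_one v).le
  have h1 : |(en v ^ 2 * ‖z‖ ^ 2 * pp z v ^ 2)⁻¹| ≤ 1 * (‖z‖ ^ 2)⁻¹ * (2 * (1 + R) ^ 2) ^ 2 := by
    rw [mul_inv, mul_inv, abs_mul]
    refine mul_le_mul ?_ (GSA_pp z hv) (abs_nonneg _) (by positivity)
    rw [abs_of_nonneg (by positivity)]
    exact mul_le_mul_of_nonneg_right (inv_le_one_of_one_le₀ (one_le_pow₀ (one_le_en v)))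
      (by positivity)
  refine (GSA_smul h1 (norm_sub_le_of_le (GSA_smul (GSA_ang hr hW) (norm_nz_le z))
    (GSA_smul (GSA_ang (norm_nz_le z) hW) hr))).trans_eq ?_
  ring

theorem kS_le (R : ℝ) : ∃ C : ℝ, 0 ≤ C ∧ ∀ W z v K : R3, ‖W‖ ≤ 1 → ‖v‖ ≤ R →
    ‖kS 1 W z v K‖ ≤ C * ‖K‖ / ‖z‖ := by
  refine ⟨(2 * (1 + R) ^ 2) ^ 2 * 24, by positivity, fun W z v K hW hv => ?_⟩
  have hr := (norm_relVel_lt_one v).le
  have hn := norm_nz_le z
  have h1 : ‖accK v K‖ ≤ _ := GSA_smul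
    ((abs_of_pos (inv_pos.2 (en_pos v))).trans_le (inv_le_one_of_one_le₀ (one_le_en v)))
    (norm_sub_le_of_le le_rfl (GSA_smul (GSA_inner hr le_rfl) hr))
  have h2 : ‖radK z v K‖ ≤ _ := GSA_smul (GSA_pp z hv) (norm_sub_le_of_le
    (GSA_smul (GSA_inner hn h1) (norm_sub_le_of_le hn hr)) (GSA_smul (GSA_ang hr hn) h1))
  refine (GSA_smul (abs_of_nonneg (inv_nonneg.2 (norm_nonneg z))).le (norm_add_le_of_le
    (GSA_smul (GSA_ang hn hW) h2) (GSA_smul (GSA_inner hW h2) hn))).trans_eq ?_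
  ring

theorem integrableOn_gsK {h : PS → ℝ} {H : PS → R3} (hh : Continuous h) (hH : Continuous H)
    (vh : VSupp h) (vH : VSupp H) {W : R3} (hW : ‖W‖ ≤ 1) (t : ℝ) (x : R3) :
    IntegrableOn (gsK W h H t x) (ball (0 : R3) t ×ˢ univ) := by
  rcases le_total t 0 with ht | ht
  · rw [ball_eq_empty.2 ht, empty_prod]
    exact integrableOn_empty
  obtain ⟨R₁, h₁⟩ := vh t
  obtain ⟨R₂, h₂⟩ := vH t
  set R := max R₁ R₂
  obtain ⟨C₁, c₁, hT⟩ := kT_le R
  obtain ⟨C₂, c₂, hS⟩ := kS_le R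
  have hK : IsCompact (closedBall (0 : R3) t ×ˢ closedBall (0 : R3) R) :=
    (isCompact_closedBall _ _).prod (isCompact_closedBall _ _)
  have hc : Continuous (cq t x) := by unfold cq; fun_prop
  obtain ⟨M₁, m₁⟩ := hK.exists_bound_of_continuousOn (hh.comp hc).continuousOn
  obtain ⟨M₂, m₂⟩ := hK.exists_bound_of_continuousOn (hH.comp hc).continuousOn
  have hm : Measurable (gsK W h H t x) := by
    have := measurable_nz
    have := contDiff_relVel.continuous.measurable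
    have := contDiff_en.continuous.measurable
    have := (hh.comp hc).measurable
    have := (hH.comp hc).measurable
    have := hh.measurable
    have := hH.measurable
    have := hc.measurable
    unfold gsK kT kS radK accK pp ang
    fun_prop
  have hi : IntegrableOn (fun q : R3 × R3 => (M₁ * C₁ + C₂ * M₂ * t) / ‖q.1‖ ^ 2 * 1)
      (ball (0 : R3) t ×ˢ closedBall (0 : R3) R) := by
    rw [IntegrableOn, Measure.volume_eq_prod, ← Measure.prod_restrict]
    exact Integrable.mul_prod (integral_ball_retarded continuous_const ht).1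
      (continuous_const.continuousOn.integrableOn_compact (isCompact_closedBall _ _))
  have ms : MeasurableSet (ball (0 : R3) t ×ˢ closedBall (0 : R3) R) :=
    measurableSet_ball.prod measurableSet_closedBall
  refine IntegrableOn.of_forall_sdiff_eq_zero (hi.mono' hm.aestronglyMeasurable
    (ae_restrict_of_forall_mem ms fun q hq => ?_)) (measurableSet_ball.prod MeasurableSet.univ)
    fun q hq => ?_
  · have hv := mem_closedBall_zero_iff.1 hq.2
    have hz := (mem_ball_zero_iff.1 hq.1).le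
    have hq' := mk_mem_prod (ball_subset_closedBall hq.1) hq.2
    refine (norm_add_le_of_le (GSA_smul (m₁ q hq') (hT W q.1 q.2 hW hv))
      (hS W q.1 q.2 _ hW hv)).trans ?_
    rw [mul_one, add_div, mul_div_assoc']
    refine add_le_add le_rfl ?_
    rcases (norm_nonneg q.1).eq_or_lt with h0 | h0
    · simp [← h0]
    · rw [← mul_div_mul_right _ _ h0.ne', ← sq]
      exact div_le_div_of_nonneg_right (mul_le_mul (mul_le_mul_of_nonneg_left (m₂ q hq') c₂) hz h0.le
        (mul_nonneg c₂ ((norm_nonneg _).trans (m₂ q hq')))) (sq_nonneg _)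
  · have hz := (mem_ball_zero_iff.1 hq.1.1).le
    have hv : R < ‖q.2‖ := not_le.1 fun h => hq.2 ⟨hq.1.1, mem_closedBall_zero_iff.2 h⟩
    have hs : |t - ‖q.1‖| ≤ t := abs_le.2 ⟨by linarith, by linarith [norm_nonneg q.1]⟩
    rw [gsK, cq, h₁ _ _ _ hs ((le_max_left _ _).trans_lt hv),
      h₂ _ _ _ hs ((le_max_right _ _).trans_lt hv), ← zero_smul ℝ (0 : R3), kS_smul]
    simp

end Crest.Agent.R106
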