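import Crest.Agent.R106.GS
import Crest.Agent.R106.CalcD

/-!
# Row 106: no loss of derivatives for the fields
-/

set_option autoImplicit false
set_option linter.unusedVariables false
set_option linter.unusedSectionVars false

open MeasureTheory Metric Set Filter Topology
open scoped ContDiff ENNReal RealInnerProductSpace
open Crest.AnalysisR.VecCalc3 Crest.AnalysisR.PDE.RVM

noncomputable section

namespace Crest.Agent.R106

theorem GSB_vs {F : Type*} [NormedAddCommGroup F] [NormedSpace ℝ F] {h : PS → F}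
    (hs : ContDiff ℝ ∞ h) {s R : ℝ} (hR : VS h s R) (w : R3) :
    VS (fun p => fderiv ℝ h p (0, w, 0)) s R := by
  intro y v hv
  have hd := hs.differentiable (by simp)
  have h1 : HasFDerivAt (fun y : R3 => ((s, y, v) : PS))
      ((0 : R3 →L[ℝ] ℝ).prod ((ContinuousLinearMap.id ℝ R3).prod (0 : R3 →L[ℝ] R3))) y :=
    (hasFDerivAt_const _ _).prodMk ((hasFDerivAt_id y).prodMk (hasFDerivAt_const _ _))
  have h2 := ((hd (s, y, v)).hasFDerivAt.comp y h1).fderiv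
  rw [show (h ∘ fun y : R3 => ((s, y, v) : PS)) = fun _ => 0 from funext fun y => hR y v hv,
    fderiv_fun_const] at h2
  simpa using (congrArg (fun L : R3 →L[ℝ] F => L w) h2).symm

theorem GSB_int (T R : ℝ) : ∃ C : ℝ, 0 ≤ C ∧ ∀ (h : PS → ℝ) (H : PS → R3) (t : ℝ), 0 ≤ t → t ≤ T →
    (∀ s ∈ Icc 0 t, VS h s R ∧ VS H s R) → ∀ m : ℝ → ℝ, Continuous m →
    (∀ s ∈ Icc 0 t, Bx 0 h s (m s) ∧ Bx 0 H s (m s)) → ∀ x W : R3, ‖W‖ ≤ 1 →
    ‖∫ q in ball (0 : R3) t ×ˢ univ, gsK W h H t x q‖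
      ≤ 4 * Real.pi * (C * ∫ s in (0 : ℝ)..t, m s) := by
  obtain ⟨C₁, c₁, hT⟩ := kT_le R
  obtain ⟨C₂, c₂, hS⟩ := kS_le R
  refine ⟨(C₁ + C₂ * |T|) * volume.real (closedBall (0 : R3) R), by positivity,
    fun h H t ht htT hv m hm hb x W hW => ?_⟩
  have ms : MeasurableSet (ball (0 : R3) t ×ˢ closedBall (0 : R3) R) :=
    measurableSet_ball.prod measurableSet_closedBall
  have hmem : ∀ z ∈ ball (0 : R3) t, t - ‖z‖ ∈ Icc 0 t := fun z hz =>
    ⟨by linarith [mem_ball_zero_iff.1 hz], by linarith [norm_nonneg z]⟩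
  rw [setIntegral_eq_of_subset_of_forall_sdiff_eq_zero (measurableSet_ball.prod MeasurableSet.univ)
    (t := ball (0 : R3) t ×ˢ univ) (s := ball (0 : R3) t ×ˢ closedBall (0 : R3) R)
    (prod_mono_right (subset_univ _)) (fun q hq => by
      have hv' : R < ‖q.2‖ := not_le.1 fun h => hq.2 ⟨hq.1.1, mem_closedBall_zero_iff.2 h⟩
      rw [gsK, cq, (hv _ (hmem _ hq.1.1)).1 _ _ hv', (hv _ (hmem _ hq.1.1)).2 _ _ hv',
        ← zero_smul ℝ (0 : R3), kS_smul]
      simp)]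
  obtain ⟨i1, e1⟩ := integral_ball_retarded hm ht
  have hi : IntegrableOn (fun q : R3 × R3 => m (t - ‖q.1‖) / ‖q.1‖ ^ 2 * (C₁ + C₂ * |T|))
      (ball (0 : R3) t ×ˢ closedBall (0 : R3) R) := by
    rw [IntegrableOn, Measure.volume_eq_prod, ← Measure.prod_restrict]
    exact Integrable.mul_prod i1
      (continuous_const.continuousOn.integrableOn_compact (isCompact_closedBall _ _))
  refine (norm_integral_le_of_norm_le hi (ae_restrict_of_forall_mem ms fun q hq => ?_)).trans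
    (le_of_eq ?_)
  · have hv := mem_closedBall_zero_iff.1 hq.2
    have hz : ‖q.1‖ ≤ |T| := ((mem_ball_zero_iff.1 hq.1).le.trans htT).trans (le_abs_self T)
    have b1 : ‖h (cq t x q)‖ ≤ m (t - ‖q.1‖) := bx_zero.1 (hb _ (hmem _ hq.1)).1 _
    have b2 : ‖H (cq t x q)‖ ≤ m (t - ‖q.1‖) := bx_zero.1 (hb _ (hmem _ hq.1)).2 _
    have m0 : 0 ≤ m (t - ‖q.1‖) := (norm_nonneg _).trans b1
    refine (norm_add_le_of_le (GSA_smul b1 (hT W q.1 q.2 hW hv))
      (hS W q.1 q.2 _ hW hv)).trans ?_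
    rw [mul_add]
    refine add_le_add (le_of_eq (by ring)) ?_
    rcases (norm_nonneg q.1).eq_or_lt with h0 | h0
    · simp [← h0]
    · rw [← mul_div_mul_right _ _ h0.ne', ← sq, div_mul_eq_mul_div]
      refine div_le_div_of_nonneg_right ?_ (sq_nonneg _)
      calc C₂ * ‖H (cq t x q)‖ * ‖q.1‖ ≤ C₂ * m (t - ‖q.1‖) * |T| :=
            mul_le_mul (mul_le_mul_of_nonneg_left b2 c₂) hz h0.le (mul_nonneg c₂ m0)
        _ = _ := by ring
  · rw [Measure.volume_eq_prod, setIntegral_prod_mul (fun z : R3 => m (t - ‖z‖) / ‖z‖ ^ 2)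
      (fun _ : R3 => C₁ + C₂ * |T|), e1, setIntegral_const, smul_eq_mul]
    ring

theorem GSB_B (B : R3) : ‖B‖ ≤ ‖cross3 (EuclideanSpace.single 0 1) B‖ +
    ‖cross3 (EuclideanSpace.single 1 1) B‖ := by
  have h0 := CalcA_norm_sq3 B
  have h1 := CalcA_norm_sq3 (cross3 (EuclideanSpace.single 0 1) B)
  have h2 := CalcA_norm_sq3 (cross3 (EuclideanSpace.single 1 1) B)
  simp [cross3] at h1 h2
  simp only [cross3]
  simp
  refine abs_le_of_sq_le_sq' ?_ (by positivity) |>.2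
  rw [add_sq, h0, h1, h2]
  have := mul_nonneg (norm_nonneg (WithLp.toLp 2 ![0, -B 2, B 1] : R3))
    (norm_nonneg (WithLp.toLp 2 ![B 2, 0, -B 0] : R3))
  nlinarith [sq_nonneg (B 2)]

/-- no loss of derivatives for the fields -/
theorem gs_bound (T R₀ R : ℝ) (k : ℕ) : ∃ C : ℝ, 0 ≤ C ∧ ∀ T' ≤ T, ∀ (h : PS → ℝ) (H : PS → R3)
    (E B : ST → R3), Lin T' h H E B → VS h 0 R₀ → (∀ s ∈ Icc 0 T', VS h s R ∧ VS H s R) →
    ∀ D : ℝ, DBd (k + 3) h E B 0 D → ∀ m : ℝ → ℝ, Continuous m →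
    (∀ s ∈ Icc 0 T', Bx k h s (m s) ∧ Bx k H s (m s)) →
    ∀ t ∈ Icc 0 T', Bx k E t (C * (D + ∫ s in (0 : ℝ)..t, m s)) ∧
      Bx k B t (C * (D + ∫ s in (0 : ℝ)..t, m s)) := by
  obtain ⟨C₀, c₀, hG⟩ := gs_sharp T R₀
  obtain ⟨C₁, c₁, hI⟩ := GSB_int T R
  refine ⟨4 * (C₀ + C₁), by positivity, fun T' hT => ?_⟩
  induction k with
  | zero =>
    intro h H E B hL h0 hv D hD m hm hb t ht
    have D0 : 0 ≤ D := (hD 0 (by omega)).1.nonneg
    have I0 : 0 ≤ ∫ s in (0 : ℝ)..t, m s :=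
      intervalIntegral.integral_nonneg ht.1 fun s hs => (hb s ⟨hs.1, hs.2.trans ht.2⟩).1.nonneg
    set I := ∫ s in (0 : ℝ)..t, m s with hIdef
    have key : ∀ x W : R3, ‖W‖ ≤ 1 →
        ‖E (t, x) + cross3 W (B (t, x))‖ ≤ (C₀ + C₁) * (D + I) := by
      intro x W hW
      have h1 := (hG T' hT h H E B hL h0 D hD t ht x W hW).2
      have h2 := hI h H t ht.1 (ht.2.trans hT) (fun s hs => hv s ⟨hs.1, hs.2.trans ht.2⟩) m hm
        (fun s hs => hb s ⟨hs.1, hs.2.trans ht.2⟩) x W hW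
      have h3 := (norm_le_norm_sub_add _ _).trans (add_le_add h1 h2)
      have hπ := Real.pi_gt_three
      rw [norm_smul, Real.norm_of_nonneg (by positivity)] at h3
      refine le_of_mul_le_mul_left (h3.trans ?_) (by positivity : 0 < 4 * Real.pi)
      have e1 := mul_nonneg c₀ D0
      have e2 := mul_nonneg c₀ I0
      have e3 := mul_nonneg c₁ D0
      rw [← hIdef]
      nlinarith
    have p0 : 0 ≤ (C₀ + C₁) * (D + I) := by positivity
    have hE : ∀ x, ‖E (t, x)‖ ≤ (C₀ + C₁) * (D + I) := fun x => by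
      have := key x 0 (by simp)
      have e : cross3 0 (B (t, x)) = 0 :=
        norm_le_zero_iff.1 ((norm_cross3_le _ _).trans (by simp))
      rwa [e, add_zero] at this
    have hc : ∀ x W : R3, ‖W‖ ≤ 1 → ‖cross3 W (B (t, x))‖ ≤ 2 * ((C₀ + C₁) * (D + I)) := by
      intro x W hW
      have h1 := norm_sub_le (E (t, x) + cross3 W (B (t, x))) (E (t, x))
      rw [add_sub_cancel_left] at h1
      linarith [key x W hW, hE x]
    refine ⟨bx_zero.2 fun x => by linarith [hE x], bx_zero.2 fun x => ?_⟩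
    have h1 := hc x (EuclideanSpace.single 0 1) (by simp)
    have h2 := hc x (EuclideanSpace.single 1 1) (by simp)
    linarith [GSB_B (B (t, x))]
  | succ k ih =>
    intro h H E B hL h0 hv D hD m hm hb t ht
    have D0 : 0 ≤ D := (hD 0 (by omega)).1.nonneg
    have I0 : 0 ≤ ∫ s in (0 : ℝ)..t, m s :=
      intervalIntegral.integral_nonneg ht.1 fun s hs => (hb s ⟨hs.1, hs.2.trans ht.2⟩).1.nonneg
    have key := fun (w : R3) (hw : ‖w‖ ≤ 1) => ih _ _ _ _ (hL.dir w) (GSB_vs hL.sh h0 w)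
      (fun s hs => ⟨GSB_vs hL.sh (hv s hs).1 w, GSB_vs hL.sH (hv s hs).2 w⟩) D
      (fun j hj => ⟨(hD (j + 1) (by omega)).1.dir hL.sh (w := (w, 0)) (by simpa using hw),
        (hD (j + 1) (by omega)).2.1.dir hL.sE hw, (hD (j + 1) (by omega)).2.2.dir hL.sB hw⟩) m hm
      (fun s hs => ⟨(hb s hs).1.dir hL.sh (w := (w, 0)) (by simpa using hw),
        (hb s hs).2.dir hL.sH (w := (w, 0)) (by simpa using hw)⟩) t ht
    exact ⟨Bx.succ_of_dir hL.sE (by positivity) fun w hw => (key w hw).1,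
      Bx.succ_of_dir hL.sB (by positivity) fun w hw => (key w hw).2⟩

end Crest.Agent.R106
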