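import Crest.Agent.R106.GSCAux

/-!
# Row 106: the Glassey–Strauss decomposition for densities vanishing at time zero
-/

set_option autoImplicit false
set_option linter.unusedVariables false
set_option linter.unusedSectionVars false

open MeasureTheory Metric Set Filter Topology
open scoped ContDiff ENNReal RealInnerProductSpace
open Crest.AnalysisR.VecCalc3 Crest.AnalysisR.PDE.RVM

noncomputable section

namespace Crest.Agent.R106

/-- the decomposition: `h` vanishes at time `0` and `(∂ₛ + v̂·∇) h = - div_v H + g` on `[0,t]` -/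
theorem gs_core {h g : PS → ℝ} {H : PS → R3} (hh : ContDiff ℝ ∞ h) (hH : ContDiff ℝ ∞ H)
    (hg : ContDiff ℝ ∞ g) (vh : VSupp h) (vH : VSupp H) (vg : VSupp g) {t : ℝ} (ht : 0 < t)
    (h0 : ∀ y, h (0, y) = 0)
    (htr : ∀ p : PS, p.1 ∈ Icc 0 t → fderiv ℝ h p (1, relVel p.2.2, 0) = - divV H p + g p)
    {W : R3} (hW : ‖W‖ ≤ 1) (x : R3) :
    ∫ z in ball (0 : R3) t, ‖z‖⁻¹ • ∫ v, (-(ang (relVel v) W) • (WithLp.toLp 2 fun i =>
          fderiv ℝ h (cq t x (z, v)) (0, EuclideanSpace.single i 1, 0) : R3)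
        - fderiv ℝ h (cq t x (z, v)) (1, W, 0) • relVel v) =
      ∫ q in ball (0 : R3) t ×ˢ univ, (gsK W h H t x q +
        (g (cq t x q) * (‖q.1‖ * pp q.1 q.2)⁻¹) •
          (ang (relVel q.2) W • nz q.1 - qq W q.1 • relVel q.2)) := by
  have iK : Integrable (gsK W h H t x) ((volume.restrict (ball (0 : R3) t)).prod volume) := by
    rw [Measure.restrict_prod_eq_prod_univ]
    exact integrableOn_gsK hh.continuous hH.continuous vh vH hW t x
  have iR : Integrable (fun q : R3 × R3 => gsK W h H t x q + g (cq t x q) • GSC.Phi W q.1 q.2)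
      ((volume.restrict (ball (0 : R3) t)).prod volume) :=
    iK.add (GSC.integrable_g hg.continuous vg t x hW)
  have iP := GSC.integrable_PP hh vh t x hW
  have iS : Integrable (fun q : R3 × R3 => gsK W h H t x q + g (cq t x q) • GSC.Phi W q.1 q.2 +
      GSC.PP h t x W q) ((volume.restrict (ball (0 : R3) t)).prod volume) := iR.add iP
  have e1 : ∫ q, GSC.PP h t x W q ∂((volume.restrict (ball (0 : R3) t)).prod volume) = 0 := by
    rw [integral_prod_symm _ iP]
    simp only [GSC.int_PP hh h0 ht x hW, integral_zero]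
  have e2 : ∀ q : R3 × R3, (g (cq t x q) * (‖q.1‖ * pp q.1 q.2)⁻¹) •
      (ang (relVel q.2) W • nz q.1 - qq W q.1 • relVel q.2) = g (cq t x q) • GSC.Phi W q.1 q.2 := by
    intro q
    rw [GSC.Phi, smul_smul, qq, ang, ang, real_inner_comm (nz q.1) W]
  have e3 := integral_add iR iP
  rw [e1, add_zero, integral_prod _ iS] at e3
  simp only [e2]
  rw [Measure.volume_eq_prod, ← Measure.restrict_prod_eq_prod_univ, ← e3]
  refine integral_congr_ae ?_
  filter_upwards [ae_restrict_of_ae (Measure.ae_ne volume (0 : R3)),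
    ae_restrict_mem measurableSet_ball, iS.prod_right_ae] with z hz hzt hi
  obtain ⟨i1, i2⟩ := GSC.int_div_uu hH vH t x W hz
  have hs : t - ‖z‖ ∈ Icc 0 t :=
    ⟨sub_nonneg.2 (mem_ball_zero_iff.1 hzt).le, sub_le_self _ (norm_nonneg _)⟩
  have e4 := integral_sub hi i1
  rw [i2, sub_zero] at e4
  rw [← integral_smul, ← e4]
  refine integral_congr_ae (Eventually.of_forall fun v => ?_)
  have h1 : fderiv ℝ h (cq t x (z, v)) (1, relVel v, 0) = _ := htr (cq t x (z, v)) hs
  simp only [GSC.PP, GSC.A0, gsK, h1]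
  module

end Crest.Agent.R106
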