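import Crest.Agent.R106.GSA

/-!
# Row 106: pointwise identities for the Glassey–Strauss decomposition
-/

set_option autoImplicit false

open MeasureTheory Metric Set Filter Topology
open scoped ContDiff ENNReal RealInnerProductSpace
open Crest.AnalysisR.VecCalc3 Crest.AnalysisR.PDE.RVM

noncomputable section

namespace Crest.Agent.R106
namespace GSC

/-- the potential of the `S`-kernel -/
def Phi (W z v : R3) : R3 :=
  (‖z‖ * pp z v)⁻¹ • ((1 - ⟪relVel v, W⟫) • nz z - (1 - ⟪nz z, W⟫) • relVel v)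

/-- the integrand of the left-hand side -/
def A0 (D : PS →L[ℝ] ℝ) (W v : R3) : R3 :=
  -(ang (relVel v) W) • (WithLp.toLp 2 fun i => D (0, EuclideanSpace.single i 1, 0) : R3) -
    D (1, W, 0) • relVel v

/-- the divergence in `z` -/
def PP (h : PS → ℝ) (t : ℝ) (x W : R3) (q : R3 × R3) : R3 :=
  ‖q.1‖⁻¹ • A0 (fderiv ℝ h (cq t x q)) W q.2 -
    fderiv ℝ h (cq t x q) (1, relVel q.2, 0) • Phi W q.1 q.2 - h (cq t x q) • kT 1 W q.1 q.2

/-- the kernel field -/
def kk (W v : R3) (i : Fin 3) (z : R3) : R3 :=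
  relVel v i • Phi W z v + ‖z‖⁻¹ • (ang (relVel v) W • EuclideanSpace.single i 1 + W i • relVel v)

/-- the vector field in `z` -/
def Xi (h : PS → ℝ) (t : ℝ) (x W v : R3) (i : Fin 3) (z : R3) : R3 :=
  h (cq t x (z, v)) • kk W v i z

theorem sum_single (a : R3) : ∑ i, a i • (EuclideanSpace.single i 1 : R3) = a := by
  ext j
  simp [Fin.sum_univ_three]
  fin_cases j <;> simp

theorem sum_e {E : Type*} [NormedAddCommGroup E] [NormedSpace ℝ E] (L : R3 →L[ℝ] E) (a : R3) :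
    L a = ∑ i, a i • L (EuclideanSpace.single i 1) := by
  conv_lhs => rw [← sum_single a]
  simp only [map_sum, map_smul]

theorem inner_single (a : R3) (i : Fin 3) : ⟪a, (EuclideanSpace.single i 1 : R3)⟫ = a i := by
  simp [EuclideanSpace.inner_single_right]

theorem cd_norm {z : R3} (hz : z ≠ 0) : ContDiffAt ℝ ∞ (fun z : R3 => ‖z‖) z :=
  contDiffAt_norm ℝ hz

theorem cd_phi (W v : R3) {z : R3} (hz : z ≠ 0) : ContDiffAt ℝ ∞ (fun z => Phi W z v) z := by
  have h1 := cd_norm hz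
  have h2 := contDiffAt_nz hz
  refine ((h1.mul (contDiffAt_const.sub (contDiffAt_const.inner ℝ h2))).inv
    (mul_ne_zero (norm_ne_zero_iff.2 hz) (pp_pos z v).ne')).smul ?_
  exact (h2.const_smul _).sub ((contDiffAt_const.sub (h2.inner ℝ contDiffAt_const)).smul
    contDiffAt_const)

theorem fderiv_phi (W v : R3) {z : R3} (hz : z ≠ 0) :
    fderiv ℝ (fun z => Phi W z v) z (relVel v) = -kT 1 W z v +
      (‖z‖ ^ 2)⁻¹ • ((1 - ⟪relVel v, W⟫) • nz z + ⟪nz z, W⟫ • relVel v) := by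
  have h1 := ((cd_norm hz).differentiableAt (by simp)).hasFDerivAt
  have h2 := ((contDiffAt_nz hz).differentiableAt (by simp)).hasFDerivAt
  have hr : ‖z‖ ≠ 0 := norm_ne_zero_iff.2 hz
  have hp : pp z v ≠ 0 := (pp_pos z v).ne'
  have h3 := ((hasFDerivAt_const (relVel v) z).inner ℝ h2).const_sub 1
  have h4 := (hasDerivAt_inv (mul_ne_zero hr hp)).comp_hasFDerivAt z (h1.mul h3)
  have h5 := h4.smul ((h2.const_smul (1 - ⟪relVel v, W⟫)).sub
    (((h2.inner ℝ (hasFDerivAt_const W z)).const_sub 1).smul_const (relVel v)))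
  have h6 : fderiv ℝ (fun z => Phi W z v) z = _ := h5.fderiv
  rw [h6]
  have e1 : ⟪relVel v, relVel v⟫ = 1 - (en v ^ 2)⁻¹ := by
    rw [real_inner_self_eq_norm_sq, norm_relVel_sq]
  have e2 : ⟪relVel v, nz z⟫ = 1 - pp z v := by simp [pp, ang]
  have e3 : ⟪nz z, relVel v⟫ = 1 - pp z v := by rw [real_inner_comm, e2]
  have he : en v ≠ 0 := (en_pos v).ne'
  simp only [add_apply, smul_apply,
    sub_apply, ContinuousLinearMap.smulRight_apply,
    neg_apply, ContinuousLinearMap.comp_apply, ContinuousLinearMap.prod_apply,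
    fderivInnerCLM_apply, zero_apply, inner_zero_left, inner_zero_right,
    fderiv_norm' hz, fderiv_nz hz, Function.comp_apply, Pi.mul_apply, Pi.sub_apply, Pi.smul_apply,
    inner_smul_left, inner_smul_right, inner_sub_left, inner_sub_right, e1, e2, e3, smul_eq_mul,
    kT, conj_trivial, sub_sub_cancel]
  match_scalars <;> field_simp <;> ring

theorem cd_cq (t : ℝ) (x v : R3) {z : R3} (hz : z ≠ 0) :
    ContDiffAt ℝ ∞ (fun z => cq t x (z, v)) z :=
  (contDiffAt_const.sub (cd_norm hz)).prodMk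
    ((contDiffAt_const.sub contDiffAt_id).prodMk contDiffAt_const)

theorem fderiv_F {h : PS → ℝ} (hh : ContDiff ℝ ∞ h) (t : ℝ) (x v : R3) {z : R3} (hz : z ≠ 0)
    (u : R3) : fderiv ℝ (fun z => h (cq t x (z, v))) z u =
      -⟪nz z, u⟫ * fderiv ℝ h (cq t x (z, v)) (1, 0, 0) - fderiv ℝ h (cq t x (z, v)) (0, u, 0) := by
  have h1 := ((cd_norm hz).differentiableAt (by simp)).hasFDerivAt
  have h2 : HasFDerivAt (fun z => cq t x (z, v)) _ z :=
    (h1.const_sub t).prodMk (((hasFDerivAt_id z).const_sub x).prodMk (hasFDerivAt_const v z))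
  have h3 := ((hh.differentiable (by simp) (cq t x (z, v))).hasFDerivAt).comp z h2
  have h4 : fderiv ℝ (fun z => h (cq t x (z, v))) z = _ := h3.fderiv
  rw [h4, ← smul_eq_mul, ← map_smul, ← map_sub]
  simp only [ContinuousLinearMap.comp_apply, ContinuousLinearMap.prod_apply,
    neg_apply, fderiv_norm' hz]
  congr 1
  simp

theorem cd_kk (W v : R3) (i : Fin 3) {z : R3} (hz : z ≠ 0) : ContDiffAt ℝ ∞ (kk W v i) z :=
  ((cd_phi W v hz).const_smul _).add
    (((cd_norm hz).inv (norm_ne_zero_iff.2 hz)).smul contDiffAt_const)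

theorem cd_Xi {h : PS → ℝ} (hh : ContDiff ℝ ∞ h) (t : ℝ) (x W v : R3) (i : Fin 3) {z : R3}
    (hz : z ≠ 0) : ContDiffAt ℝ 1 (Xi h t x W v i) z :=
  ((hh.contDiffAt.comp z (cd_cq t x v hz)).smul (cd_kk W v i hz)).of_le (by simp)

theorem div_Xi {h : PS → ℝ} (hh : ContDiff ℝ ∞ h) (t : ℝ) (x W v : R3) {z : R3} (hz : z ≠ 0) :
    ∑ i, fderiv ℝ (Xi h t x W v i) z (EuclideanSpace.single i 1) = PP h t x W (z, v) := by
  have hr : ‖z‖ ≠ 0 := norm_ne_zero_iff.2 hz
  have hp : pp z v ≠ 0 := (pp_pos z v).ne'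
  have h1 := ((cd_norm hz).differentiableAt (by simp)).hasFDerivAt
  have h2 := ((cd_phi W v hz).differentiableAt (by simp)).hasFDerivAt
  have h3 : HasFDerivAt (fun z => h (cq t x (z, v))) _ z :=
    ((hh.contDiffAt.comp z (cd_cq t x v hz)).differentiableAt (by simp)).hasFDerivAt
  have h4 := (hasDerivAt_inv hr).comp_hasFDerivAt z h1
  set D := fderiv ℝ h (cq t x (z, v)) with hD
  have e : ∀ i, fderiv ℝ (Xi h t x W v i) z (EuclideanSpace.single i 1) =
      h (cq t x (z, v)) • (relVel v i • fderiv ℝ (fun z => Phi W z v) z (EuclideanSpace.single i 1) +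
        (-(‖z‖ ^ 2)⁻¹ * nz z i) • (ang (relVel v) W • EuclideanSpace.single i 1 + W i • relVel v)) +
      (-nz z i * D (1, 0, 0) - D (0, EuclideanSpace.single i 1, 0)) • kk W v i z := by
    intro i
    have h5 := h3.smul ((h2.const_smul (relVel v i)).add (h4.smul_const
      (ang (relVel v) W • (EuclideanSpace.single i 1 : R3) + W i • relVel v)))
    have h6 : fderiv ℝ (Xi h t x W v i) z = _ := h5.fderiv
    rw [h6, ← inner_single (nz z) i, ← fderiv_F hh t x v hz, ← fderiv_norm' hz]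
    rfl
  have eP := fderiv_phi W v hz
  rw [sum_e] at eP
  have eW : D (1, W, 0) = D (1, 0, 0) + ∑ i, W i * D (0, EuclideanSpace.single i 1, 0) := by
    have := sum_e (D.comp ((ContinuousLinearMap.inr ℝ ℝ (R3 × R3)).comp
      (ContinuousLinearMap.inl ℝ R3 R3))) W
    simp only [ContinuousLinearMap.comp_apply, ContinuousLinearMap.inr_apply,
      ContinuousLinearMap.inl_apply, smul_eq_mul] at this
    rw [← this, ← map_add]; simp
  have ea : D (1, relVel v, 0) =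
      D (1, 0, 0) + ∑ i, relVel v i * D (0, EuclideanSpace.single i 1, 0) := by
    have := sum_e (D.comp ((ContinuousLinearMap.inr ℝ ℝ (R3 × R3)).comp
      (ContinuousLinearMap.inl ℝ R3 R3))) (relVel v)
    simp only [ContinuousLinearMap.comp_apply, ContinuousLinearMap.inr_apply,
      ContinuousLinearMap.inl_apply, smul_eq_mul] at this
    rw [← this, ← map_add]; simp
  have en1 : ⟪nz z, W⟫ = ∑ i, nz z i * W i := by
    simp [PiLp.inner_apply, mul_comm]
  have en2 : pp z v = 1 - ∑ i, nz z i * relVel v i := by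
    simp [pp, ang, PiLp.inner_apply]
  have eG := sum_single (WithLp.toLp 2 fun i => D (0, EuclideanSpace.single i 1, 0) : R3)
  have eN := sum_single (nz z)
  have ePhi : pp z v • Phi W z v =
      ‖z‖⁻¹ • ((1 - ⟪relVel v, W⟫) • nz z - (1 - ⟪nz z, W⟫) • relVel v) := by
    rw [Phi, smul_smul]; congr 1; field_simp
  simp only [e, PP, A0, kk, ← hD, eW, ea, ang]
  rw [en2] at ePhi
  simp only [en1, Fin.sum_univ_three] at eP eG eN ePhi ⊢
  linear_combination (norm := module) h (cq t x (z, v)) • eP + D (1, 0, 0) • ePhi -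
    (‖z‖⁻¹ * (1 - ⟪relVel v, W⟫)) • eG -
    ((1 - ⟪relVel v, W⟫) * (h (cq t x (z, v)) * (‖z‖ ^ 2)⁻¹ + ‖z‖⁻¹ * D (1, 0, 0))) • eN

/-- the vector field in `v` -/
def uu (H : PS → R3) (t : ℝ) (x W z : R3) (i : Fin 3) (v : R3) : R3 :=
  H (cq t x (z, v)) i • Phi W z v

theorem cd_phi_v (W : R3) {z : R3} (hz : z ≠ 0) : ContDiff ℝ ∞ (Phi W z) := by
  have h1 := contDiff_relVel
  refine ((contDiff_const.mul (contDiff_const.sub (h1.inner ℝ contDiff_const))).inv fun v =>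
    (mul_ne_zero (norm_ne_zero_iff.2 hz) (pp_pos z v).ne')).smul ?_
  exact ((contDiff_const.sub (h1.inner ℝ contDiff_const)).smul contDiff_const).sub
    (h1.const_smul _)

theorem cd_Hi {H : PS → R3} (hH : ContDiff ℝ ∞ H) (t : ℝ) (x z : R3) (i : Fin 3) :
    ContDiff ℝ ∞ fun v => H (cq t x (z, v)) i := by
  have h1 : ContDiff ℝ ∞ fun v : R3 => ((t - ‖z‖, x - z, v) : PS) :=
    contDiff_const.prodMk (contDiff_const.prodMk contDiff_id)
  exact (EuclideanSpace.proj i : R3 →L[ℝ] ℝ).contDiff.comp (hH.comp h1)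

theorem cd_uu {H : PS → R3} (hH : ContDiff ℝ ∞ H) (t : ℝ) (x W : R3) {z : R3} (hz : z ≠ 0)
    (i : Fin 3) : ContDiff ℝ 1 (uu H t x W z i) :=
  ((cd_Hi hH t x z i).smul (cd_phi_v W hz)).of_le (by simp)

theorem cs_uu {H : PS → R3} (vH : VSupp H) (t : ℝ) (x W z : R3) (i : Fin 3) :
    HasCompactSupport (uu H t x W z i) := by
  obtain ⟨R, hR⟩ := vH |t - ‖z‖|
  refine HasCompactSupport.intro (isCompact_closedBall 0 R) fun v hv => ?_
  have : H (cq t x (z, v)) = 0 := hR _ _ _ le_rfl (by simpa using hv)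
  simp [uu, this]

theorem div_uu {H : PS → R3} (hH : ContDiff ℝ ∞ H) (t : ℝ) (x W v : R3) {z : R3} (hz : z ≠ 0) :
    ∑ i, fderiv ℝ (uu H t x W z i) v (EuclideanSpace.single i 1) =
      divV H (cq t x (z, v)) • Phi W z v + kS 1 W z v (H (cq t x (z, v))) := by
  have h2 := ((cd_phi_v W hz).differentiable (by simp) v).hasFDerivAt
  have e : ∀ i, fderiv ℝ (uu H t x W z i) v (EuclideanSpace.single i 1) =
      H (cq t x (z, v)) i • fderiv ℝ (Phi W z) v (EuclideanSpace.single i 1) +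
      fderiv ℝ (fun v => H (cq t x (z, v)) i) v (EuclideanSpace.single i 1) • Phi W z v := by
    intro i
    have h3 := ((cd_Hi hH t x z i).differentiable (by simp) v).hasFDerivAt
    have h6 : fderiv ℝ (uu H t x W z i) v = _ := (h3.smul h2).fderiv
    rw [h6]
    rfl
  simp only [e]
  rw [Finset.sum_add_distrib, ← sum_e, ← Finset.sum_smul, add_comm, ← fderiv_kS 1 W z v _ hz]
  rfl

theorem int_div_uu {H : PS → R3} (hH : ContDiff ℝ ∞ H) (vH : VSupp H) (t : ℝ) (x W : R3) {z : R3}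
    (hz : z ≠ 0) :
    Integrable (fun v => divV H (cq t x (z, v)) • Phi W z v + kS 1 W z v (H (cq t x (z, v)))) ∧
      ∫ v, (divV H (cq t x (z, v)) • Phi W z v + kS 1 W z v (H (cq t x (z, v)))) = 0 := by
  have hi : ∀ i, Integrable fun v => fderiv ℝ (uu H t x W z i) v (EuclideanSpace.single i 1) :=
    fun i => (((cd_uu hH t x W hz i).continuous_fderiv (by simp)).clm_apply
      continuous_const).integrable_of_hasCompactSupport ((cs_uu vH t x W z i).fderiv_apply ℝ _)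
  simp only [← div_uu hH t x W _ hz]
  refine ⟨integrable_finsetSum _ fun i _ => hi i, ?_⟩
  rw [integral_finsetSum _ fun i _ => hi i]
  exact Finset.sum_eq_zero fun i _ =>
    integral_fderiv_eq_zero' volume (cd_uu hH t x W hz i) (cs_uu vH t x W z i) _

/-! ### bounds -/

theorem exists_bd {E : Type*} [NormedAddCommGroup E] {u : PS → E} (hu : Continuous u) (t R : ℝ)
    (x : R3) : ∃ M, 0 ≤ M ∧ ∀ s ∈ Icc 0 t, ∀ z v : R3, ‖z‖ ≤ t → ‖v‖ ≤ R → ‖u (s, x - z, v)‖ ≤ M := by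
  obtain ⟨M, hM⟩ := (isCompact_Icc.prod ((isCompact_closedBall x t).prod
    (isCompact_closedBall (0 : R3) R))).exists_bound_of_continuousOn
    (hu.continuousOn (s := Icc 0 t ×ˢ (closedBall x t ×ˢ closedBall 0 R)))
  refine ⟨max M 0, le_max_right _ _, fun s hs z v hz hv =>
    (hM _ ⟨hs, ?_, ?_⟩).trans (le_max_left _ _)⟩
  · simpa [dist_eq_norm] using hz
  · simpa using hv

theorem exists_bd' {E : Type*} [NormedAddCommGroup E] {u : PS → E} (hu : Continuous u) (t R : ℝ)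
    (x : R3) : ∃ M, 0 ≤ M ∧ ∀ z v : R3, ‖z‖ ≤ t → ‖v‖ ≤ R → ‖u (cq t x (z, v))‖ ≤ M := by
  obtain ⟨M, h0, hM⟩ := exists_bd hu t R x
  exact ⟨M, h0, fun z v hz hv =>
    hM _ ⟨sub_nonneg.2 hz, sub_le_self _ (norm_nonneg _)⟩ z v hz hv⟩

theorem abs_one_sub_inner {a b : R3} (ha : ‖a‖ ≤ 1) (hb : ‖b‖ ≤ 1) : ‖1 - ⟪a, b⟫‖ ≤ 2 := by
  exact (Real.norm_of_nonneg (ang_nonneg ha hb)).le.trans (ang_le_two ha hb)

theorem phi_le (R : ℝ) : ∃ C : ℝ, 0 ≤ C ∧ ∀ W z v : R3, ‖W‖ ≤ 1 → ‖v‖ ≤ R →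
    ‖Phi W z v‖ ≤ C * ‖z‖⁻¹ := by
  refine ⟨8 * (1 + R) ^ 2, by positivity, fun W z v hW hv => ?_⟩
  have ha := (norm_relVel_lt_one v).le
  have hn := norm_nz_le z
  have h1 : ‖(1 - ⟪relVel v, W⟫) • nz z - (1 - ⟪nz z, W⟫) • relVel v‖ ≤ 4 := by
    refine (norm_sub_le _ _).trans ?_
    rw [norm_smul, norm_smul]
    have := mul_le_mul (abs_one_sub_inner ha hW) hn (norm_nonneg _) zero_le_two
    have := mul_le_mul (abs_one_sub_inner hn hW) ha (norm_nonneg _) zero_le_two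
    linarith
  have hp := pp_pos z v
  have he := en_pos v
  have h2 : (pp z v)⁻¹ ≤ 2 * (1 + R) ^ 2 := by
    have h3 : (pp z v)⁻¹ ≤ 2 * en v ^ 2 := inv_le_of_inv_le₀ (by positivity) (inv_en_sq_le_ang v _ hn)
    have h4 : en v ^ 2 ≤ (1 + R) ^ 2 := pow_le_pow_left₀ he.le (by linarith [en_le v]) 2
    linarith
  rw [Phi, norm_smul, Real.norm_of_nonneg (by positivity), mul_inv]
  calc _ ≤ ‖z‖⁻¹ * (2 * (1 + R) ^ 2) * 4 := by gcongr
    _ = _ := by ring

theorem A0_le {D : PS →L[ℝ] ℝ} {W : R3} (hW : ‖W‖ ≤ 1) (v : R3) : ‖A0 D W v‖ ≤ 7 * ‖D‖ := by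
  have ha := (norm_relVel_lt_one v).le
  have h1 : ‖(WithLp.toLp 2 fun i => D (0, EuclideanSpace.single i 1, 0) : R3)‖ ≤ 3 * ‖D‖ := by
    rw [← sum_single (WithLp.toLp 2 _)]
    refine (norm_sum_le _ _).trans ((Finset.sum_le_card_nsmul _ _ ‖D‖ fun i _ => ?_).trans (by simp))
    rw [norm_smul]
    simpa using D.le_opNorm (0, EuclideanSpace.single i 1, 0)
  have h2 : ‖D (1, W, 0)‖ ≤ ‖D‖ :=
    (D.le_opNorm _).trans (mul_le_of_le_one_right (norm_nonneg _) (by simp [hW]))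
  refine (norm_sub_le _ _).trans ?_
  rw [norm_smul, norm_smul, norm_neg]
  have := mul_le_mul (abs_one_sub_inner ha hW) h1 (norm_nonneg _) zero_le_two
  have := mul_le_mul h2 ha (norm_nonneg _) (norm_nonneg _)
  unfold ang
  linarith

theorem inv_le_div_sq {z : R3} {t : ℝ} (hz : z ≠ 0) (h : ‖z‖ ≤ t) : ‖z‖⁻¹ ≤ t / ‖z‖ ^ 2 := by
  have : 0 < ‖z‖ := norm_pos_iff.2 hz
  rw [le_div_iff₀ (by positivity)]
  field_simp
  exact h

theorem PP_le {h : PS → ℝ} (hh : ContDiff ℝ ∞ h) (t R : ℝ) (x : R3) {W : R3} (hW : ‖W‖ ≤ 1) :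
    ∃ C, ∀ z v : R3, z ≠ 0 → ‖z‖ ≤ t → ‖v‖ ≤ R → ‖PP h t x W (z, v)‖ ≤ C / ‖z‖ ^ 2 := by
  obtain ⟨M0, h0, hM0⟩ := exists_bd' hh.continuous t R x
  obtain ⟨M1, h1, hM1⟩ := exists_bd' (hh.continuous_fderiv (by simp)) t R x
  obtain ⟨C1, hC1, hP⟩ := phi_le R
  obtain ⟨C2, hC2, hT⟩ := kT_le R
  refine ⟨t * (7 * M1) + M1 * (C1 * t) + M0 * C2, fun z v hz hzt hv => ?_⟩
  have h2 := inv_le_div_sq hz hzt
  have h3 : ‖fderiv ℝ h (cq t x (z, v)) (1, relVel v, 0)‖ ≤ M1 :=
    (ContinuousLinearMap.le_opNorm _ _).trans ((mul_le_of_le_one_right (norm_nonneg _)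
      (by simp [(norm_relVel_lt_one v).le])).trans (hM1 z v hzt hv))
  have ht : 0 ≤ t := (norm_nonneg _).trans hzt
  refine (norm_sub_le _ _).trans ((add_le_add_left (norm_sub_le _ _) _).trans ?_)
  rw [norm_smul, norm_smul, norm_smul, norm_inv, norm_norm]
  calc _ ≤ t / ‖z‖ ^ 2 * (7 * M1) + M1 * (C1 * (t / ‖z‖ ^ 2)) + M0 * (C2 / ‖z‖ ^ 2) := by
        gcongr
        · exact (A0_le hW v).trans (by linarith [hM1 z v hzt hv])
        · exact (hP W z v hW hv).trans (by gcongr)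
        · exact hM0 z v hzt hv
        · exact hT W z v hW hv
    _ = _ := by ring

theorem kk_le {W : R3} (hW : ‖W‖ ≤ 1) (v : R3) : ∃ C, 0 ≤ C ∧ ∀ i z, ‖kk W v i z‖ ≤ C * ‖z‖⁻¹ := by
  obtain ⟨C1, hC1, hP⟩ := phi_le ‖v‖
  refine ⟨C1 + 3, by positivity, fun i z => ?_⟩
  have ha := (norm_relVel_lt_one v).le
  have h1 : ‖relVel v i‖ ≤ 1 := (PiLp.norm_apply_le _ i).trans ha
  have h2 : ‖W i‖ ≤ 1 := (PiLp.norm_apply_le _ i).trans hW
  have h3 : ‖ang (relVel v) W • (EuclideanSpace.single i 1 : R3) + W i • relVel v‖ ≤ 3 := by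
    refine (norm_add_le _ _).trans ?_
    rw [norm_smul, norm_smul, PiLp.norm_single, norm_one, mul_one]
    have := mul_le_mul h2 ha (norm_nonneg _) zero_le_one
    have := abs_one_sub_inner ha hW
    unfold ang
    linarith
  refine (norm_add_le _ _).trans ?_
  rw [norm_smul, norm_smul, norm_inv, norm_norm]
  calc _ ≤ 1 * (C1 * ‖z‖⁻¹) + ‖z‖⁻¹ * 3 := by
        gcongr
        exact hP W z v hW le_rfl
    _ = _ := by ring

theorem F_le {h : PS → ℝ} (hh : ContDiff ℝ ∞ h) (h0 : ∀ y, h (0, y) = 0) (t : ℝ) (x v : R3) :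
    ∃ M, 0 ≤ M ∧ ∀ z : R3, ‖z‖ ≤ t → ‖h (cq t x (z, v))‖ ≤ M * (t - ‖z‖) := by
  obtain ⟨M, hM0, hM⟩ := exists_bd (hh.continuous_fderiv (by simp)) t ‖v‖ x
  refine ⟨M, hM0, fun z hz => ?_⟩
  have hd : ∀ s : ℝ, HasDerivAt (fun s => h (s, x - z, v)) (fderiv ℝ h (s, x - z, v) (1, 0)) s :=
    fun s => (hh.differentiable (by simp) _).hasFDerivAt.comp_hasDerivAt s
      ((hasDerivAt_id s).prodMk (hasDerivAt_const s (x - z, v)))
  have h1 := norm_image_sub_le_of_norm_deriv_le_segment' (a := 0) (b := t - ‖z‖) (C := M)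
    (fun s _ => (hd s).hasDerivWithinAt) (fun s hs =>
      (ContinuousLinearMap.le_opNorm _ _).trans ((mul_le_of_le_one_right (norm_nonneg _)
        (by simp)).trans (hM s ⟨hs.1, hs.2.le.trans (sub_le_self _ (norm_nonneg _))⟩ z v hz le_rfl)))
    (t - ‖z‖) ⟨sub_nonneg.2 hz, le_rfl⟩
  rw [h0, sub_zero, sub_zero] at h1
  exact h1

theorem int_PP {h : PS → ℝ} (hh : ContDiff ℝ ∞ h) (h0 : ∀ y, h (0, y) = 0) {t : ℝ} (ht : 0 < t)
    (x : R3) {W : R3} (hW : ‖W‖ ≤ 1) (v : R3) :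
    ∫ z in ball (0 : R3) t, PP h t x W (z, v) = 0 := by
  obtain ⟨M, hM0, hM⟩ := F_le hh h0 t x v
  obtain ⟨C1, hC1, hk⟩ := kk_le hW v
  obtain ⟨C2, hP⟩ := PP_le hh t ‖v‖ x hW
  have hX : ∀ i z, ‖z‖ ≤ t → ‖Xi h t x W v i z‖ ≤ M * (t - ‖z‖) * (C1 * ‖z‖⁻¹) := fun i z hz => by
    rw [Xi, norm_smul]
    exact mul_le_mul (hM z hz) (hk i z) (norm_nonneg _) (mul_nonneg hM0 (sub_nonneg.2 hz))
  refine Eq.trans ?_ ((div_ball ht (Xi h t x W v) (fun i z hz => cd_Xi hh t x W v i hz) 0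
    (max (max (M * C1 * (t / 2)⁻¹) (3 * M * t * C1)) C2) ?_ ?_ ?_).2.trans (by simp))
  · refine integral_congr_ae (ae_restrict_of_ae ?_)
    filter_upwards [Measure.ae_ne volume (0 : R3)] with z hz
    exact (div_Xi hh t x W v hz).symm
  · intro i z h1 h2
    have h3 := sub_nonneg.2 h2
    refine (hX i z h2).trans (le_trans ?_ (mul_le_mul_of_nonneg_right
      ((le_max_left _ _).trans (le_max_left _ _)) h3))
    calc _ ≤ M * (t - ‖z‖) * (C1 * (t / 2)⁻¹) := by gcongr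
      _ = _ := by ring
  · intro z hz h2
    have hr : 0 < ‖z‖ := norm_pos_iff.2 hz
    refine le_trans ?_ (mul_le_mul_of_nonneg_right
      ((le_max_right _ _).trans (le_max_left _ _)) hr.le)
    have h3 : ‖∑ i, nz z i • Xi h t x W v i z‖ ≤ 3 * (M * t * (C1 * ‖z‖⁻¹)) := by
      refine (norm_sum_le _ _).trans ((Finset.sum_le_card_nsmul _ _ (M * t * (C1 * ‖z‖⁻¹))
        fun i _ => ?_).trans (by simp))
      rw [norm_smul]
      refine (mul_le_of_le_one_left (norm_nonneg _)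
        ((PiLp.norm_apply_le _ i).trans (norm_nz_le z))).trans ((hX i z h2).trans ?_)
      gcongr
      linarith
    rw [sub_zero, norm_smul, norm_pow, norm_norm]
    refine (mul_le_mul_of_nonneg_left h3 (by positivity)).trans (le_of_eq ?_)
    field_simp
  · intro z hz h2
    rw [div_Xi hh t x W v hz]
    exact (hP z v hz h2 le_rfl).trans (div_le_div_of_nonneg_right (le_max_right _ _) (by positivity))

/-! ### integrability -/

theorem integrable_prod {f : R3 × R3 → R3} (hf : Measurable f) {t R C : ℝ}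
    (h1 : ∀ z v : R3, z ≠ 0 → ‖z‖ ≤ t → ‖v‖ ≤ R → ‖f (z, v)‖ ≤ C / ‖z‖ ^ 2)
    (h2 : ∀ z v : R3, ‖z‖ ≤ t → R < ‖v‖ → f (z, v) = 0) :
    Integrable f ((volume.restrict (ball (0 : R3) t)).prod volume) := by
  have i1 : IntegrableOn (fun z : R3 => C / ‖z‖ ^ 2) (ball 0 t) := by
    refine integrableOn_ball_of_norm_le_rpow (C := |C|) (α := 2) (by simp) (by norm_num)
      (Eventually.of_forall fun z => le_of_eq ?_) (Measurable.aestronglyMeasurable (by fun_prop))
    rw [norm_div, norm_pow, norm_norm, Real.rpow_neg (norm_nonneg _), Real.rpow_two,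
      Real.norm_eq_abs, div_eq_mul_inv]
  have i2 : Integrable ((closedBall (0 : R3) R).indicator fun _ => (1 : ℝ)) :=
    (integrable_indicator_iff measurableSet_closedBall).2
      (integrableOn_const measure_closedBall_lt_top.ne)
  refine (i1.mul_prod i2).mono' hf.aestronglyMeasurable ?_
  have h3 : ∀ᵐ z ∂(volume.restrict (ball (0 : R3) t)), z ≠ 0 ∧ ‖z‖ ≤ t := by
    filter_upwards [ae_restrict_of_ae (Measure.ae_ne volume (0 : R3)),
      ae_restrict_mem measurableSet_ball] with z hz hz'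
    exact ⟨hz, (mem_ball_zero_iff.1 hz').le⟩
  filter_upwards [Measure.quasiMeasurePreserving_fst.ae h3] with q hq
  by_cases hv : ‖q.2‖ ≤ R
  · rw [indicator_of_mem (mem_closedBall_zero_iff.2 hv), mul_one]
    exact h1 _ _ hq.1 hq.2 hv
  · rw [indicator_of_notMem (by simpa using hv), mul_zero]
    exact (norm_eq_zero.2 (h2 _ _ hq.2 (not_le.1 hv))).le

theorem continuous_cq (t : ℝ) (x : R3) : Continuous (cq t x) := by
  unfold cq
  fun_prop

theorem meas_phi (W : R3) : Measurable fun q : R3 × R3 => Phi W q.1 q.2 := by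
  have h1 := measurable_nz
  have h2 := contDiff_relVel.continuous.measurable
  unfold Phi pp ang
  fun_prop

theorem meas_kT (W : R3) : Measurable fun q : R3 × R3 => kT 1 W q.1 q.2 := by
  have h1 := measurable_nz
  have h2 := contDiff_relVel.continuous.measurable
  have h3 := contDiff_en.continuous.measurable
  unfold kT pp ang
  fun_prop

theorem meas_PP {h : PS → ℝ} (hh : ContDiff ℝ ∞ h) (t : ℝ) (x W : R3) :
    Measurable (PP h t x W) := by
  have h1 : Continuous fun q => fderiv ℝ h (cq t x q) :=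
    (hh.continuous_fderiv (by simp)).comp (continuous_cq t x)
  have h2 := contDiff_relVel.continuous
  have h3 : Continuous fun q : R3 × R3 => A0 (fderiv ℝ h (cq t x q)) W q.2 := by
    unfold A0 ang
    fun_prop
  have h4 : Continuous fun q : R3 × R3 => fderiv ℝ h (cq t x q) (1, relVel q.2, 0) := by fun_prop
  exact ((measurable_fst.norm.inv.smul h3.measurable).sub (h4.measurable.smul (meas_phi W))).sub
    ((hh.continuous.comp (continuous_cq t x)).measurable.smul (meas_kT W))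

theorem vs_cq {E : Type*} [Zero E] {u : PS → E} (hu : VSupp u) (t : ℝ) (x : R3) :
    ∃ R, ∀ z v : R3, ‖z‖ ≤ t → R < ‖v‖ → u (cq t x (z, v)) = 0 := by
  obtain ⟨R, hR⟩ := hu t
  refine ⟨R, fun z v hz hv => hR _ _ _ ?_ hv⟩
  rw [abs_of_nonneg (sub_nonneg.2 hz)]
  exact sub_le_self _ (norm_nonneg _)

theorem integrable_PP {h : PS → ℝ} (hh : ContDiff ℝ ∞ h) (vh : VSupp h) (t : ℝ) (x : R3) {W : R3}
    (hW : ‖W‖ ≤ 1) : Integrable (PP h t x W) ((volume.restrict (ball (0 : R3) t)).prod volume) := by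
  obtain ⟨R, hR⟩ := vh (t + 1)
  obtain ⟨C, hC⟩ := PP_le hh t R x hW
  refine integrable_prod (meas_PP hh t x W) hC fun z v hz hv => ?_
  have hs : |t - ‖z‖| < t + 1 := by
    rw [abs_of_nonneg (sub_nonneg.2 hz)]
    linarith [norm_nonneg z]
  have e : h =ᶠ[𝓝 (cq t x (z, v))] fun _ => 0 := by
    have ho1 : IsOpen {p : PS | |p.1| < t + 1} := isOpen_lt (by fun_prop) continuous_const
    have ho2 : IsOpen {p : PS | R < ‖p.2.2‖} := isOpen_lt continuous_const (by fun_prop)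
    have ho := ho1.inter ho2
    filter_upwards [ho.mem_nhds (x := cq t x (z, v)) ⟨hs, hv⟩] with p hp
    exact hR _ _ _ hp.1.le hp.2
  have e0 : (WithLp.toLp 2 fun _ => 0 : R3) = 0 := rfl
  simp [PP, A0, e.fderiv_eq, e.eq_of_nhds, e0]

theorem integrable_g {g : PS → ℝ} (hg : Continuous g) (vg : VSupp g) (t : ℝ) (x : R3) {W : R3}
    (hW : ‖W‖ ≤ 1) : Integrable (fun q : R3 × R3 => g (cq t x q) • Phi W q.1 q.2)
      ((volume.restrict (ball (0 : R3) t)).prod volume) := by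
  obtain ⟨R, hR⟩ := vs_cq vg t x
  obtain ⟨M, hM0, hM⟩ := exists_bd' hg t R x
  obtain ⟨C, hC0, hC⟩ := phi_le R
  have hm : Measurable fun q : R3 × R3 => g (cq t x q) • Phi W q.1 q.2 :=
    (hg.comp (continuous_cq t x)).measurable.smul (meas_phi W)
  refine integrable_prod (C := M * (C * t)) (R := R) hm (fun z v hz hzt hv => ?_)
    fun z v hz hv => by simp [hR z v hz hv]
  have h2 := inv_le_div_sq hz hzt
  rw [norm_smul]
  calc _ ≤ M * (C * (t / ‖z‖ ^ 2)) := by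
        gcongr
        · exact hM z v hzt hv
        · exact (hC W z v hW hv).trans (by gcongr)
    _ = _ := by ring

end GSC
end Crest.Agent.R106
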