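import Crest.Agent.R106.IterB

/-!
# Row 106: contraction and higher bounds for the iterates
-/

set_option autoImplicit false
set_option linter.unusedVariables false
set_option linter.unusedSectionVars false

open MeasureTheory Metric Set Filter Topology
open scoped ContDiff ENNReal RealInnerProductSpace
open Crest.AnalysisR.VecCalc3 Crest.AnalysisR.PDE.RVM

noncomputable section

namespace Crest.Agent.R106

theorem IterC_lor (E B E' B' v : R3) {d : ℝ} (hE : ‖E' - E‖ ≤ d) (hB : ‖B' - B‖ ≤ d) :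
    ‖lor E' B' v - lor E B v‖ ≤ 2 * d := by
  obtain ⟨L, hL⟩ := exists_crossL
  have e : lor E' B' v - lor E B v = lor (E' - E) (B' - B) v := by
    simp only [lor, ← hL, map_sub]
    abel
  rw [e]
  linarith [norm_lor_le (E' - E) (B' - B) v]

theorem IterC_bx0 {X F : Type*} [NormedAddCommGroup X] [NormedSpace ℝ X] [NormedAddCommGroup F]
    [NormedSpace ℝ F] {u : ℝ × X → F} {s : ℝ} (h : ∀ y, u (s, y) = 0) (k : ℕ) : Bx k u s 0 := by
  intro y
  rw [show (fun y => u (s, y)) = fun _ => 0 from funext h]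
  simp

theorem IterC_congr {X F : Type*} [NormedAddCommGroup X] [NormedSpace ℝ X] [NormedAddCommGroup F]
    [NormedSpace ℝ F] {u u' : ℝ × X → F} {s C : ℝ} {k : ℕ} (h : ∀ y, u' (s, y) = u (s, y))
    (hu : Bx k u s C) : Bx k u' s C := by
  intro y
  rw [show (fun y => u' (s, y)) = fun y => u (s, y) from funext h]
  exact hu y

/-- the difference of two consecutive densities -/
theorem IterC_f {f : ℕ → PS → ℝ} {E B : ℕ → ST → R3} (h : Chain f E B) {T₀ a d : ℝ} (n : ℕ)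
    (hT : T₀ ≤ 1) (ha : 0 ≤ a) (hd : 0 ≤ d) (hf : ∀ s ∈ Icc 0 T₀, Bx 1 (f n) s a)
    (hEB : ∀ s ∈ Icc 0 T₀, (∀ x, ‖E (n + 1) (s, x) - E n (s, x)‖ ≤ d) ∧
      ∀ x, ‖B (n + 1) (s, x) - B n (s, x)‖ ≤ d) :
    ∀ s ∈ Icc 0 T₀, ∀ y, |f (n + 1) (s, y) - f n (s, y)| ≤ 2 * a * d := by
  intro s hs y
  have h1 := h.st (n + 1)
  have h0 := h.st n
  have key := Step.gronwall (T := T₀) (h1.mono (subset_univ _)) (u := fun p => f (n + 1) p - f n p)
    ((h1.sf.sub h0.sf).of_le (by simp)) (L := fun _ => 0) (m := fun _ => 2 * a * d)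
    continuous_const continuous_const (fun _ _ => le_rfl) (fun _ _ => by positivity)
    (fun p hp => ?_) (D := 0) (fun y => by
      rw [sub_eq_zero.2 (((h.ini (n + 1)).1 y).trans ((h.ini n).1 y).symm), norm_zero])
    (s, y) hs
  · simp only [intervalIntegral.integral_const, smul_eq_mul, mul_zero, Real.exp_zero, one_mul,
      zero_add, sub_zero, Real.norm_eq_abs] at key
    exact key.trans (mul_le_of_le_one_left (by positivity) (hs.2.trans hT))
  · have e1 := h1.vl p (mem_univ _)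
    have e0 := h0.vl p (mem_univ _)
    unfold VlAt at e1 e0
    rw [fderiv_fun_sub (h1.sf.differentiable (by simp) p) (h0.sf.differentiable (by simp) p),
      sub_apply, e1, zero_mul, zero_add, ← e0, ← map_sub, ← norm_neg, ← map_neg, neg_sub]
    have h2 := bx_one h0.sf (hf p.1 hp) p.2 (0, lor (E (n + 1) (p.1, p.2.1)) (B (n + 1) (p.1, p.2.1))
      p.2.2 - lor (E n (p.1, p.2.1)) (B n (p.1, p.2.1)) p.2.2)
    have h3 := IterC_lor _ _ _ _ p.2.2 ((hEB p.1 hp).1 p.2.1) ((hEB p.1 hp).2 p.2.1)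
    simp only [Prod.mk_sub_mk, sub_self]
    refine h2.trans ?_
    rw [Prod.norm_mk, norm_zero, max_eq_right (norm_nonneg _)]
    nlinarith

theorem chain_contr (R A : ℝ) : ∃ T₁ A' : ℝ, 0 < T₁ ∧ ∀ T₀ ≤ T₁,
    ∀ (f : ℕ → PS → ℝ) (E B : ℕ → ST → R3), Chain f E B →
    (∀ n, ∀ s ∈ Icc 0 T₀,
      VS (f n) s R ∧ ∀ j ≤ 1, Bx j (f n) s A ∧ Bx j (E n) s A ∧ Bx j (B n) s A) →
    ∀ n, ∀ s ∈ Icc 0 T₀, (∀ y, |f (n + 1) (s, y) - f n (s, y)| ≤ A' * (1 / 2) ^ n) ∧
      (∀ x, ‖E (n + 1) (s, x) - E n (s, x)‖ ≤ A' * (1 / 2) ^ n) ∧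
      ∀ x, ‖B (n + 1) (s, x) - B n (s, x)‖ ≤ A' * (1 / 2) ^ n := by
  obtain ⟨C, hC, hgs⟩ := gs_bound 1 R R 0
  obtain ⟨a, ha, hAa⟩ : ∃ a : ℝ, 0 ≤ a ∧ A ≤ a := ⟨max A 0, le_max_right _ _, le_max_left _ _⟩
  have hM : 0 ≤ C * (4 * a ^ 2 + 2 * a) := by positivity
  refine ⟨1 / (2 * (C * (4 * a ^ 2 + 2 * a)) + 1), 4 * a ^ 2 + 2 * a, by positivity,
    fun T₀ hT f E B h hl => ?_⟩
  have hT1 : T₀ ≤ 1 := hT.trans (div_le_one_of_le₀ (by linarith) (by positivity))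
  have hf1 : ∀ n, ∀ s ∈ Icc 0 T₀, Bx 1 (f n) s a := fun n s hs =>
    ((hl n s hs).2 1 le_rfl).1.mono hAa
  have hb : ∀ n, ∀ s ∈ Icc 0 T₀, (∀ y, |f n (s, y)| ≤ a) ∧ (∀ x, ‖E n (s, x)‖ ≤ a) ∧
      ∀ x, ‖B n (s, x)‖ ≤ a := fun n s hs =>
    have h0 := (hl n s hs).2 0 zero_le_one
    ⟨bx_zero.1 (h0.1.mono hAa), bx_zero.1 (h0.2.1.mono hAa), bx_zero.1 (h0.2.2.mono hAa)⟩
  have key : ∀ n, ∀ s ∈ Icc 0 T₀, (∀ x, ‖E (n + 1) (s, x) - E n (s, x)‖ ≤ 2 * a * (1 / 2) ^ n) ∧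
      ∀ x, ‖B (n + 1) (s, x) - B n (s, x)‖ ≤ 2 * a * (1 / 2) ^ n := by
    intro n
    induction n with
    | zero =>
      intro s hs
      refine ⟨fun x => (norm_sub_le _ _).trans ?_, fun x => (norm_sub_le _ _).trans ?_⟩
      · linarith [(hb (0 + 1) s hs).2.1 x, (hb 0 s hs).2.1 x]
      · linarith [(hb (0 + 1) s hs).2.2 x, (hb 0 s hs).2.2 x]
    | succ n ih =>
      intro t ht
      have hd : 0 ≤ 2 * a * (1 / 2) ^ n := by positivity
      rw [show 2 * a * (1 / 2 : ℝ) ^ (n + 1) = 2 * a * (1 / 2) ^ n / 2 by ring]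
      generalize 2 * a * (1 / 2 : ℝ) ^ n = d at ih hd ⊢
      have hf := IterC_f h n hT1 ha hd (hf1 n) ih
      have hL := (Step.lin (T := T₀) ((h.st (n + 1)).mono (subset_univ _))).sub
        (Step.lin (T := T₀) ((h.st n).mono (subset_univ _)))
      have hv : ∀ s ∈ Icc 0 T₀, VS (f (n + 1) - f n) s R ∧
          VS (frc (E (n + 1)) (B (n + 1)) (f (n + 1)) - frc (E n) (B n) (f n)) s R :=
        fun s hs => ⟨fun y v hv => by
          simp only [Pi.sub_apply, (hl _ s hs).1 y v hv, sub_self], fun y v hv => by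
          simp only [Pi.sub_apply, frc, (hl _ s hs).1 y v hv, zero_smul, sub_self]⟩
      have z1 : ∀ y, (f (n + 1) - f n) (0, y) = 0 := fun y =>
        sub_eq_zero.2 (((h.ini (n + 1)).1 y).trans ((h.ini n).1 y).symm)
      have z2 : ∀ y, (E (n + 1 + 1) - E (n + 1)) (0, y) = 0 := fun y =>
        sub_eq_zero.2 (((h.ini (n + 1)).2.1 y).trans ((h.ini n).2.1 y).symm)
      have z3 : ∀ y, (B (n + 1 + 1) - B (n + 1)) (0, y) = 0 := fun y =>
        sub_eq_zero.2 (((h.ini (n + 1)).2.2 y).trans ((h.ini n).2.2 y).symm)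
      have h2 := hgs T₀ hT1 _ _ _ _ hL (hv 0 ⟨le_rfl, ht.1.trans ht.2⟩).1 hv 0
        (fun k _ => ⟨IterC_bx0 z1 k, IterC_bx0 z2 k, IterC_bx0 z3 k⟩)
        (fun _ => (4 * a ^ 2 + 2 * a) * d) continuous_const (fun s hs => ⟨bx_zero.2 fun y =>
          (hf s hs y).trans (by nlinarith [mul_nonneg (sq_nonneg a) hd]), bx_zero.2 fun y => ?_⟩)
        t ht
      · have h3 : C * (0 + ∫ _ in (0 : ℝ)..t, (4 * a ^ 2 + 2 * a) * d) ≤ d / 2 := by
          simp only [intervalIntegral.integral_const, smul_eq_mul, zero_add, sub_zero]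
          have h4 := (le_div_iff₀ (by positivity)).1 (ht.2.trans hT)
          nlinarith [mul_le_mul_of_nonneg_right h4 hd, mul_nonneg ht.1 hd]
        exact ⟨bx_zero.1 (h2.1.mono h3), bx_zero.1 (h2.2.mono h3)⟩
      · have h3 := IterC_lor _ _ _ _ y.2 ((ih s hs).1 y.1) ((ih s hs).2 y.1)
        have h4 := norm_lor_le (E (n + 1) (s, y.1)) (B (n + 1) (s, y.1)) y.2
        have h5 := hb (n + 1) s hs
        simp only [Pi.sub_apply, frc]
        generalize lor (E (n + 1) (s, y.1)) (B (n + 1) (s, y.1)) y.2 = K' at h3 h4 ⊢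
        generalize lor (E n (s, y.1)) (B n (s, y.1)) y.2 = K at h3 ⊢
        rw [show f (n + 1) (s, y) • K' - f n (s, y) • K =
          (f (n + 1) (s, y) - f n (s, y)) • K' + f n (s, y) • (K' - K) by module]
        refine (norm_add_le _ _).trans ?_
        rw [norm_smul, norm_smul, Real.norm_eq_abs, Real.norm_eq_abs]
        have h6 : |f (n + 1) (s, y) - f n (s, y)| * ‖K'‖ ≤ 2 * a * d * (2 * a) :=
          mul_le_mul (hf s hs y) (by linarith [h5.2.1 y.1, h5.2.2 y.1]) (norm_nonneg _)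
            (by positivity)
        have h7 : |f n (s, y)| * ‖K' - K‖ ≤ a * (2 * d) :=
          mul_le_mul ((hb n s hs).1 y) h3 (norm_nonneg _) ha
        linarith
  intro n s hs
  have hp : (0 : ℝ) ≤ (1 / 2) ^ n := by positivity
  have h1 : 2 * a * (1 / 2) ^ n ≤ (4 * a ^ 2 + 2 * a) * (1 / 2) ^ n := by
    nlinarith [mul_nonneg (sq_nonneg a) hp]
  refine ⟨fun y => (IterC_f h n hT1 ha (by positivity) (hf1 n) (key n) s hs y).trans ?_,
    fun x => ((key n s hs).1 x).trans h1, fun x => ((key n s hs).2 x).trans h1⟩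
  nlinarith [mul_nonneg ha hp]

theorem chain_high {f : ℕ → PS → ℝ} {E B : ℕ → ST → R3} (h : Chain f E B) {T₀ R A : ℝ}
    (hD : ∀ m, ∃ D, DBd m (f 0) (E 1) (B 1) 0 D)
    (hl : ∀ n, ∀ s ∈ Icc 0 T₀,
      VS (f n) s R ∧ ∀ j ≤ 1, Bx j (f n) s A ∧ Bx j (E n) s A ∧ Bx j (B n) s A) (k : ℕ) :
    ∃ C, ∀ n, ∀ s ∈ Icc 0 T₀, Bx k (f n) s C ∧ Bx k (E n) s C ∧ Bx k (B n) s C := by
  suffices H : ∀ m : ℕ, ∃ C, ∀ n, ∀ s ∈ Icc 0 T₀, ∀ j < m + 2,
      Bx j (f n) s C ∧ Bx j (E n) s C ∧ Bx j (B n) s C from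
    (H k).imp fun C hC n s hs => hC n s hs k (by omega)
  intro m
  induction m with
  | zero => exact ⟨A, fun n s hs j hj => (hl n s hs).2 j (by omega)⟩
  | succ m ih =>
    obtain ⟨A', hA'⟩ := ih
    obtain ⟨D, hD⟩ := hD (m + 2 + 3)
    obtain ⟨C, μ, hC, hμ, hst⟩ := higher_step (m + 2) (by omega) T₀ R A' D
    have step := fun n => hst T₀ le_rfl _ _ _ _ _ ((h.st n).mono (subset_univ _))
      (fun s hs => ⟨(hl n s hs).1, fun j hj =>
        ⟨(hA' n s hs j hj).2.1, (hA' n s hs j hj).2.2, (hA' n s hs j hj).1⟩⟩)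
      (fun j hj => ⟨IterC_congr (h.ini n).1 (hD j hj).1, IterC_congr (h.ini n).2.1 (hD j hj).2.1,
        IterC_congr (h.ini n).2.2 (hD j hj).2.2⟩) (2 * C) (by positivity)
    have key : ∀ n, ∀ s ∈ Icc 0 T₀, Bx (m + 2) (E n) s (2 * C * Real.exp (μ * s)) ∧
        Bx (m + 2) (B n) s (2 * C * Real.exp (μ * s)) := by
      intro n
      induction n with
      | zero =>
        intro s hs
        exact ⟨(IterC_bx0 (fun y => by rw [h.E0]; rfl) _).mono (by positivity),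
          (IterC_bx0 (fun y => by rw [h.B0]; rfl) _).mono (by positivity)⟩
      | succ n ih =>
        intro s hs
        have := (step n ih s hs).2
        rwa [show C + 2 * C / 2 = 2 * C by ring] at this
    refine ⟨max A' (3 * C * Real.exp (μ * T₀)), fun n s hs j hj => ?_⟩
    rcases Nat.lt_succ_iff_lt_or_eq.1 hj with hj | rfl
    · obtain ⟨h1, h2, h3⟩ := hA' n s hs j hj
      exact ⟨h1.mono (le_max_left _ _), h2.mono (le_max_left _ _), h3.mono (le_max_left _ _)⟩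
    · have he : Real.exp (μ * s) ≤ Real.exp (μ * T₀) :=
        Real.exp_le_exp.2 (mul_le_mul_of_nonneg_left hs.2 hμ.le)
      have h0 := Real.exp_pos (μ * s)
      have h1 : (C + 2 * C) * Real.exp (μ * s) ≤ max A' (3 * C * Real.exp (μ * T₀)) :=
        le_max_of_le_right (by nlinarith)
      have h2 : 2 * C * Real.exp (μ * s) ≤ max A' (3 * C * Real.exp (μ * T₀)) :=
        le_trans (by nlinarith) h1
      exact ⟨(step n (key n) s hs).1.mono h1, (key n s hs).1.mono h2, (key n s hs).2.mono h2⟩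

end Crest.Agent.R106
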