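import Crest.Agent.R106.Defs

/-!
# Row 106: limits of smooth functions
-/

set_option autoImplicit false
set_option linter.unusedVariables false
set_option linter.unusedSectionVars false

open MeasureTheory Metric Set Filter Topology
open scoped ContDiff ENNReal RealInnerProductSpace
open Crest.AnalysisR.VecCalc3 Crest.AnalysisR.PDE.RVM

noncomputable section

namespace Crest.Agent.R106

theorem Limit_interp {X F : Type} [NormedAddCommGroup X] [NormedSpace ℝ X]
    [NormedAddCommGroup F] [NormedSpace ℝ F] {v : X → F} (hv : ContDiff ℝ ∞ v) (m : ℕ) {y : X}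
    {t η C : ℝ} (ht : 0 < t) (h0 : ∀ z ∈ closedBall y t, ‖iteratedFDeriv ℝ m v z‖ ≤ η)
    (h2 : ∀ z ∈ closedBall y t, ‖iteratedFDeriv ℝ (m + 2) v z‖ ≤ C) :
    ‖iteratedFDeriv ℝ (m + 1) v y‖ ≤ 2 * η / t + C * t := by
  have hd : ∀ k : ℕ, Differentiable ℝ (iteratedFDeriv ℝ k v) := fun k =>
    hv.differentiable_iteratedFDeriv (by exact_mod_cast ENat.natCast_lt_top k)
  have hy : y ∈ closedBall y t := mem_closedBall_self ht.le
  have hη := (norm_nonneg _).trans (h0 y hy)
  have hC := (norm_nonneg _).trans (h2 y hy)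
  have h1 : ∀ z ∈ closedBall y t,
      ‖fderiv ℝ (iteratedFDeriv ℝ m v) z - fderiv ℝ (iteratedFDeriv ℝ m v) y‖ ≤ C * t := by
    intro z hz
    let e := continuousMultilinearCurryLeftEquiv ℝ (fun _ : Fin (m + 1) => X) F
    rw [fderiv_iteratedFDeriv]
    refine ((congrArg norm (e.map_sub _ _).symm).trans (e.norm_map _)).trans_le ?_
    refine ((convex_closedBall y t).norm_image_sub_le_of_norm_fderiv_le (fun w _ => hd _ w)
      (fun w hw => ?_) hy hz).trans (mul_le_mul_of_nonneg_left (mem_closedBall_iff_norm.1 hz) hC)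
    rw [norm_fderiv_iteratedFDeriv]
    exact h2 w hw
  rw [← norm_fderiv_iteratedFDeriv]
  refine ContinuousLinearMap.opNorm_le_of_unit_norm (by positivity) fun e he => ?_
  have hn : ‖t • e‖ = t := by rw [norm_smul, he, mul_one, Real.norm_of_nonneg ht.le]
  have hz : y + t • e ∈ closedBall y t := by
    rw [mem_closedBall_iff_norm, add_sub_cancel_left, hn]
  have h3 := (convex_closedBall y t).norm_image_sub_le_of_norm_fderiv_le' (fun w _ => hd m w) h1
    hy hz
  rw [add_sub_cancel_left, hn, norm_sub_rev] at h3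
  have h4 := (norm_sub_norm_le _ _).trans h3
  have h5 := norm_sub_le (iteratedFDeriv ℝ m v (y + t • e)) (iteratedFDeriv ℝ m v y)
  rw [map_smul, norm_smul, Real.norm_of_nonneg ht.le] at h4
  rw [div_add' _ _ _ ht.ne', le_div_iff₀ ht]
  linarith [h0 _ hz, h0 _ hy]

theorem Limit_cauchy {X F : Type} [NormedAddCommGroup X] [NormedSpace ℝ X]
    [NormedAddCommGroup F] [NormedSpace ℝ F] [CompleteSpace F] {U : Set X} (hU : IsOpen U)
    (u : ℕ → X → F) (hu : ∀ n, ContDiff ℝ ∞ (u n))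
    (hb : ∀ k, ∃ C, ∀ n, ∀ x ∈ U, ‖iteratedFDeriv ℝ k (u n) x‖ ≤ C) {A : ℝ}
    (hc : ∀ n, ∀ x ∈ U, ‖u (n + 1) x - u n x‖ ≤ A * (1 / 2) ^ n) (m : ℕ) :
    ∀ x ∈ U, ∃ r, 0 < r ∧ ball x r ⊆ U ∧
      UniformCauchySeqOn (fun n => iteratedFDeriv ℝ m (u n)) atTop (ball x r) := by
  have hs : ∀ (k n n' : ℕ) (y : X), iteratedFDeriv ℝ k (u n - u n') y =
      iteratedFDeriv ℝ k (u n) y - iteratedFDeriv ℝ k (u n') y := fun k n n' y =>
    iteratedFDeriv_sub_apply ((hu n).contDiffAt.of_le (by exact_mod_cast le_top))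
      ((hu n').contDiffAt.of_le (by exact_mod_cast le_top))
  induction m with
  | zero =>
    intro x hx
    obtain ⟨r, hr, h⟩ := Metric.isOpen_iff.1 hU x hx
    refine ⟨r, hr, h, ?_⟩
    have h1 := (tendstoUniformlyOn_tsum_nat (f := fun n x => u (n + 1) x - u n x)
      (summable_geometric_two.mul_left A) hc).uniformCauchySeqOn
    rw [Metric.uniformCauchySeqOn_iff] at h1 ⊢
    intro ε hε
    obtain ⟨N, hN⟩ := h1 ε hε
    refine ⟨N, fun n hn n' hn' y hy => ?_⟩
    have := hN n hn n' hn' y (h hy)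
    rw [Finset.sum_range_sub fun n => u n y, Finset.sum_range_sub fun n => u n y,
      dist_sub_right, dist_eq_norm] at this
    rwa [dist_eq_norm, ← hs, norm_iteratedFDeriv_zero]
  | succ m ih =>
    intro x hx
    obtain ⟨r, hr, h, h1⟩ := ih x hx
    obtain ⟨C, hC⟩ := hb (m + 2)
    have hC0 := (norm_nonneg _).trans (hC 0 x hx)
    refine ⟨r / 2, by positivity, (ball_subset_ball (by linarith)).trans h, ?_⟩
    rw [Metric.uniformCauchySeqOn_iff] at h1 ⊢
    intro ε hε
    obtain ⟨t, ht, t1, t2⟩ : ∃ t, 0 < t ∧ t ≤ r / 2 ∧ (C + C + 1) * t ≤ ε / 2 :=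
      ⟨min (r / 2) (ε / 2 / (C + C + 1)), by positivity, min_le_left _ _,
        (le_div_iff₀' (by positivity)).1 (min_le_right _ _)⟩
    obtain ⟨N, hN⟩ := h1 (ε * t / 4) (by positivity)
    refine ⟨N, fun n hn n' hn' y hy => ?_⟩
    have hsub : closedBall y t ⊆ ball x r := closedBall_subset_ball' (by
      have := mem_ball.1 hy
      linarith)
    rw [dist_eq_norm, ← hs]
    refine (Limit_interp ((hu n).sub (hu n')) m ht (η := ε * t / 4) (C := C + C)
      (fun z hz => ?_) fun z hz => ?_).trans_lt ?_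
    · have := hN n hn n' hn' z (hsub hz)
      rw [dist_eq_norm, ← hs] at this
      exact this.le
    · exact ((congrArg _ (hs _ n n' z)).trans_le (norm_sub_le _ _)).trans
        (add_le_add (hC n z (h (hsub hz))) (hC n' z (h (hsub hz))))
    · have : 2 * (ε * t / 4) / t = ε / 2 := by
        field_simp
        ring
      linarith

/-- a uniformly convergent sequence of smooth functions with uniformly bounded derivatives -/
theorem smooth_limit {X F : Type} [NormedAddCommGroup X] [NormedSpace ℝ X] [FiniteDimensional ℝ X]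
    [NormedAddCommGroup F] [NormedSpace ℝ F] [CompleteSpace F] {U : Set X} (hU : IsOpen U)
    (u : ℕ → X → F) (hu : ∀ n, ContDiff ℝ ∞ (u n))
    (hb : ∀ k, ∃ C, ∀ n, ∀ x ∈ U, ‖iteratedFDeriv ℝ k (u n) x‖ ≤ C) {A : ℝ}
    (hc : ∀ n, ∀ x ∈ U, ‖u (n + 1) x - u n x‖ ≤ A * (1 / 2) ^ n) :
    ∃ w : X → F, ContDiffOn ℝ ∞ w U ∧
      (∀ x ∈ U, Tendsto (fun n => u n x) atTop (𝓝 (w x))) ∧
      (∀ x ∈ U, Tendsto (fun n => fderiv ℝ (u n) x) atTop (𝓝 (fderiv ℝ w x))) ∧
      ∀ k, ∃ C, ∀ x ∈ U, ‖iteratedFDeriv ℝ k w x‖ ≤ C := by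
  have key := Limit_cauchy hU u hu hb hc
  obtain ⟨D, hD⟩ : ∃ D : ∀ m : ℕ, X → X [×m]→L[ℝ] F, ∀ m, ∀ x ∈ U,
      Tendsto (fun n => iteratedFDeriv ℝ m (u n) x) atTop (𝓝 (D m x)) :=
    ⟨fun m x => limUnder atTop fun n => iteratedFDeriv ℝ m (u n) x, fun m x hx => by
      obtain ⟨r, hr, -, h⟩ := key m x hx
      exact (h.cauchySeq (mem_ball_self hr)).tendsto_limUnder⟩
  have hder : ∀ m : ℕ, ∀ x ∈ U, HasFDerivAt (D m) (D (m + 1) x).curryLeft x := fun m x hx => by
    obtain ⟨r, hr, h1, h⟩ := key (m + 1) x hx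
    let e := continuousMultilinearCurryLeftEquiv ℝ (fun _ : Fin (m + 1) => X) F
    refine hasFDerivAt_of_tendstoUniformlyOn (l := atTop)
      (f := fun n => iteratedFDeriv ℝ m (u n))
      (f' := fun n => e ∘ iteratedFDeriv ℝ (m + 1) (u n)) (g' := e ∘ D (m + 1)) isOpen_ball
      (e.isometry.uniformContinuous.comp_tendstoUniformlyOn
        (h.tendstoUniformlyOn_of_tendsto fun y hy => hD _ y (h1 hy))) (fun n y hy => ?_)
      (fun y hy => hD m y (h1 hy)) (mem_ball_self hr)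
    rw [← fderiv_iteratedFDeriv]
    exact ((hu n).differentiable_iteratedFDeriv
      (by exact_mod_cast ENat.natCast_lt_top m) y).hasFDerivAt
  have hT : HasFTaylorSeriesUpToOn (∞ : ℕ∞ω) (fun x => (D 0 x).curry0) (fun x m => D m x) U :=
    ⟨fun x hx => rfl, fun m _ x hx => (hder m x hx).hasFDerivWithinAt,
      fun m _ x hx => (hder m x hx).continuousAt.continuousWithinAt⟩
  have hlim : ∀ m, ∀ x ∈ U, Tendsto (fun n => iteratedFDeriv ℝ m (u n) x) atTop
      (𝓝 (iteratedFDeriv ℝ m (fun x => (D 0 x).curry0) x)) := fun m x hx => by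
    rw [← iteratedFDerivWithin_of_isOpen m hU hx,
      ← hT.eq_iteratedFDerivWithin_of_uniqueDiffOn (by exact_mod_cast le_top) hU.uniqueDiffOn hx]
    exact hD m x hx
  have e1 : ∀ (f : X → F) (x : X),
      fderiv ℝ f x = continuousMultilinearCurryFin1 ℝ X F (iteratedFDeriv ℝ 1 f x) := fun f x => by
    ext v
    simp
  refine ⟨_, hT.contDiffOn, fun x hx => ?_, fun x hx => ?_, fun k => ?_⟩
  · exact ((continuousMultilinearCurryFin0 ℝ X F).continuous.tendsto _).comp (hD 0 x hx)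
  · simp only [e1]
    exact ((continuousMultilinearCurryFin1 ℝ X F).continuous.tendsto _).comp (hlim 1 x hx)
  · obtain ⟨C, hC⟩ := hb k
    exact ⟨C, fun x hx => le_of_tendsto' (hlim k x hx).norm fun n => hC n x hx⟩

end Crest.Agent.R106
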