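import Crest.Agent.R106.TimeDer
import Crest.Agent.R106.IterC
import Crest.Agent.R106.Limit
import Crest.Agent.R106.Bridge

/-!
# Row 106: local existence
-/

set_option autoImplicit false
set_option linter.unusedVariables false
set_option linter.unusedSectionVars false

open MeasureTheory Metric Set Filter Topology
open scoped ContDiff ENNReal RealInnerProductSpace
open Crest.AnalysisR.VecCalc3 Crest.AnalysisR.PDE.RVM

noncomputable section

namespace Crest.Agent.R106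

namespace LocalEx

/-- reflection of the momentum -/
def negL : (R3 × R3) ≃ₗᵢ[ℝ] (R3 × R3) :=
  { (LinearEquiv.refl ℝ R3).prodCongr (LinearEquiv.neg ℝ) with
    norm_map' := fun y => by simp [Prod.norm_def] }

theorem bx_reflF {k : ℕ} {f : PS → ℝ} {s C : ℝ} : Bx k (reflF f) s C ↔ Bx k f (-s) C := by
  have e : ∀ y, ‖iteratedFDeriv ℝ k (fun y => reflF f (s, y)) y‖ =
      ‖iteratedFDeriv ℝ k (fun y => f (-s, y)) (negL y)‖ := fun y =>
    negL.norm_iteratedFDeriv_comp_right (fun y => f (-s, y)) y k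
  constructor
  · intro h y
    obtain ⟨y, rfl⟩ := negL.surjective y
    exact (e y).symm.le.trans (h y)
  · intro h y
    exact (e y).le.trans (h _)

theorem bx_reflB {k : ℕ} {B : ST → R3} {s C : ℝ} : Bx k (reflB B) s C ↔ Bx k B (-s) C := by
  refine forall_congr' fun y => ?_
  have e : iteratedFDeriv ℝ k (fun y => reflB B (s, y)) y =
      -iteratedFDeriv ℝ k (fun y => B (-s, y)) y := iteratedFDeriv_neg_apply
  rw [e, norm_neg]

theorem vs_reflF {f : PS → ℝ} {s R : ℝ} : VS (reflF f) s R ↔ VS f (-s) R :=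
  ⟨fun h y v hv => by simpa [reflF] using h y (-v) (by simpa using hv),
    fun h y v hv => h y (-v) (by simpa using hv)⟩

theorem dbd_refl {m : ℕ} {f : PS → ℝ} {E B : ST → R3} {D : ℝ} (h : DBd m f E B 0 D) :
    DBd m (reflF f) (reflE E) (reflB B) 0 D := fun k hk =>
  ⟨bx_reflF.2 (by rw [neg_zero]; exact (h k hk).1),
    show Bx k E (-0) D by rw [neg_zero]; exact (h k hk).2.1,
    bx_reflB.2 (by rw [neg_zero]; exact (h k hk).2.2)⟩

section Cut
variable {X F : Type*} [NormedAddCommGroup X] [NormedSpace ℝ X] [NormedAddCommGroup F]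
  [NormedSpace ℝ F]

theorem exists_cut {T : ℝ} (hT : 0 < T) {w : ℝ × X → F}
    (hw : ContDiffOn ℝ ∞ w {p | |p.1| < T}) : ∃ u : ℝ × X → F, ContDiff ℝ ∞ u ∧
      (∀ p : ℝ × X, p.1 ∈ Icc 0 (T / 2) → u =ᶠ[𝓝 p] w) ∧
      ∀ p : ℝ × X, (|p.1| < T → w p = 0) → u p = 0 := by
  let ϑ : ContDiffBump (0 : ℝ) := ⟨3 * T / 4, 7 * T / 8, by linarith, by linarith⟩
  have h0 : ∀ s : ℝ, 7 * T / 8 < |s| → ϑ s = 0 := fun s hs =>
    ϑ.zero_of_le_dist (by simpa [Real.dist_eq] using hs.le)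
  refine ⟨fun p => ϑ p.1 • w p, contDiff_iff_contDiffAt.2 fun p => ?_, fun p hp => ?_,
    fun p hp => ?_⟩
  · by_cases hp : |p.1| < T
    · exact (ϑ.contDiff.comp contDiff_fst).contDiffAt.smul
        (hw.contDiffAt ((isOpen_lt (by fun_prop) continuous_const).mem_nhds hp))
    · refine (contDiffAt_const (c := (0 : F))).congr_of_eventuallyEq ?_
      have ho : IsOpen {p : ℝ × X | 7 * T / 8 < |p.1|} := isOpen_lt continuous_const (by fun_prop)
      filter_upwards [ho.mem_nhds (x := p) (show 7 * T / 8 < |p.1| by linarith [not_lt.1 hp])]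
        with q hq
      rw [h0 _ hq, zero_smul]
  · have ho : IsOpen {p : ℝ × X | |p.1| < 3 * T / 4} := isOpen_lt (by fun_prop) continuous_const
    filter_upwards [ho.mem_nhds (x := p)
      (show |p.1| < 3 * T / 4 by rw [abs_of_nonneg hp.1]; linarith [hp.2])] with q hq
    rw [ϑ.one_of_mem_closedBall (by simpa [Real.dist_eq] using le_of_lt hq), one_smul]
  · by_cases h : |p.1| < T
    · simp only [hp h, smul_zero]
    · simp only [h0 _ (show 7 * T / 8 < |p.1| by linarith [not_lt.1 h]), zero_smul]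

theorem bx_of_full {u : ℝ × X → F} (hu : ContDiff ℝ ∞ u) {k : ℕ} {s C : ℝ}
    (h : ∀ y, ‖iteratedFDeriv ℝ k u (s, y)‖ ≤ C) : Bx k u s C := by
  intro y
  have e : (fun y => u (s, y)) =
      (fun q => u ((s, 0) + q)) ∘ (ContinuousLinearMap.inr ℝ ℝ X) := by
    funext y; simp
  have hu' : ContDiff ℝ ∞ fun q => u ((s, 0) + q) := hu.comp (contDiff_const.add contDiff_id)
  rw [e, (ContinuousLinearMap.inr ℝ ℝ X).iteratedFDeriv_comp_right hu' y (by exact_mod_cast le_top),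
    iteratedFDeriv_comp_add_left]
  refine (ContinuousMultilinearMap.norm_compContinuousLinearMap_le _ _).trans ?_
  refine (mul_le_of_le_one_right (norm_nonneg _) (Finset.prod_le_one (fun _ _ => norm_nonneg _)
    fun _ _ => ContinuousLinearMap.norm_inr_le_one ..)).trans ?_
  simpa using h y

/-- limit of a sequence, cut off in time -/
theorem lim_cut {X F : Type} [NormedAddCommGroup X] [NormedSpace ℝ X] [FiniteDimensional ℝ X]
    [NormedAddCommGroup F] [NormedSpace ℝ F] [CompleteSpace F] {T : ℝ} (hT : 0 < T)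
    (u : ℕ → ℝ × X → F) (hu : ∀ n, ContDiff ℝ ∞ (u n))
    (hb : ∀ k, ∃ C, ∀ n, ∀ p : ℝ × X, |p.1| < T → ‖iteratedFDeriv ℝ k (u n) p‖ ≤ C) {A : ℝ}
    (hc : ∀ n, ∀ p : ℝ × X, |p.1| < T → ‖u (n + 1) p - u n p‖ ≤ A * (1 / 2) ^ n) :
    ∃ w : ℝ × X → F, ContDiff ℝ ∞ w ∧
      (∀ p : ℝ × X, p.1 ∈ Icc 0 (T / 2) → Tendsto (fun n => u n p) atTop (𝓝 (w p))) ∧
      (∀ p : ℝ × X, p.1 ∈ Icc 0 (T / 2) →
        Tendsto (fun n => fderiv ℝ (u n) p) atTop (𝓝 (fderiv ℝ w p))) ∧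
      (∀ k, ∃ C, ∀ s ∈ Icc 0 (T / 2), Bx k w s C) ∧
      ∀ p : ℝ × X, (|p.1| < T → ∀ n, u n p = 0) → w p = 0 := by
  obtain ⟨w, h1, h2, h3, h4⟩ := smooth_limit (U := {p : ℝ × X | |p.1| < T})
    (isOpen_lt (by fun_prop) continuous_const) u hu hb hc
  obtain ⟨w', g1, g2, g3⟩ := exists_cut hT h1
  have hU : ∀ p : ℝ × X, p.1 ∈ Icc 0 (T / 2) → |p.1| < T := fun p hp => by
    rw [abs_of_nonneg hp.1]; linarith [hp.2]
  refine ⟨w', g1, fun p hp => ?_, fun p hp => ?_, fun k => ?_, fun p hp => g3 p fun h => ?_⟩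
  · rw [(g2 p hp).eq_of_nhds]; exact h2 p (hU p hp)
  · rw [(g2 p hp).fderiv_eq]; exact h3 p (hU p hp)
  · obtain ⟨C, hC⟩ := h4 k
    refine ⟨C, fun s hs => bx_of_full g1 fun y => ?_⟩
    rw [((g2 (s, y) hs).iteratedFDeriv ℝ k).eq_of_nhds]
    exact hC _ (hU (s, y) hs)
  · have := h2 p h
    simp only [hp h] at this
    exact tendsto_nhds_unique this tendsto_const_nhds

end Cut

theorem pderiv_slice {E : ST → R3} (hE : ContDiff ℝ ∞ E) (p : ST) (j i : Fin 3) :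
    pderiv (fun y => E (p.1, y) j) i p.2 = fderiv ℝ E p (0, EuclideanSpace.single i 1) j := by
  have h1 := (hE.differentiable (by simp) p).hasFDerivAt.comp p.2
    (hasFDerivAt_prodMk_right (𝕜 := ℝ) p.1 p.2)
  have h2 := (EuclideanSpace.proj j : R3 →L[ℝ] ℝ).hasFDerivAt.comp p.2 h1
  have h3 : fderiv ℝ (fun y => E (p.1, y) j) p.2 = _ := h2.fderiv
  rw [pderiv, h3]
  rfl

/-- the curl as a function of the space-time derivative -/
def curlL (D : ST →L[ℝ] R3) : R3 :=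
  WithLp.toLp 2 ![D (0, EuclideanSpace.single 1 1) 2 - D (0, EuclideanSpace.single 2 1) 1,
    D (0, EuclideanSpace.single 2 1) 0 - D (0, EuclideanSpace.single 0 1) 2,
    D (0, EuclideanSpace.single 0 1) 1 - D (0, EuclideanSpace.single 1 1) 0]

/-- the divergence as a function of the space-time derivative -/
def divL (D : ST →L[ℝ] R3) : ℝ := ∑ i, D (0, EuclideanSpace.single i 1) i

theorem continuous_curlL : Continuous curlL := by
  unfold curlL
  fun_prop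

theorem continuous_divL : Continuous divL := by
  unfold divL
  fun_prop

theorem curl_eq {E : ST → R3} (hE : ContDiff ℝ ∞ E) (p : ST) :
    curl3 (fun y => E (p.1, y)) p.2 = curlL (fderiv ℝ E p) := by
  simp only [curl3, curlL, pderiv_slice hE]

theorem div_eq {E : ST → R3} (hE : ContDiff ℝ ∞ E) (p : ST) :
    div3 (fun y => E (p.1, y)) p.2 = divL (fderiv ℝ E p) := by
  simp only [div3, divL, pderiv_slice hE]

theorem lim_max {E B : ℕ → ST → R3} {ρ : ℕ → ST → ℝ} {j : ℕ → ST → R3} {E' B' : ST → R3}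
    {ρ' : ST → ℝ} {j' : ST → R3} {p : ST} (hE : ∀ n, ContDiff ℝ ∞ (E n))
    (hB : ∀ n, ContDiff ℝ ∞ (B n)) (hE' : ContDiff ℝ ∞ E') (hB' : ContDiff ℝ ∞ B')
    (tE : Tendsto (fun n => fderiv ℝ (E n) p) atTop (𝓝 (fderiv ℝ E' p)))
    (tB : Tendsto (fun n => fderiv ℝ (B n) p) atTop (𝓝 (fderiv ℝ B' p)))
    (tρ : Tendsto (fun n => ρ n p) atTop (𝓝 (ρ' p))) (tj : Tendsto (fun n => j n p) atTop (𝓝 (j' p)))
    (h : ∀ n, MaxAt (E n) (B n) (ρ n) (j n) p) : MaxAt E' B' ρ' j' p := by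
  have c1 : Continuous fun D : ST →L[ℝ] R3 => D (1, 0) := by fun_prop
  refine ⟨?_, ?_, ?_, ?_⟩
  · rw [curl_eq hB']
    refine tendsto_nhds_unique ((c1.tendsto _).comp tE)
      ((((continuous_curlL.tendsto _).comp tB).sub tj).congr fun n => ?_)
    rw [Function.comp_apply, Function.comp_apply, (h n).amp, curl_eq (hB n)]
  · rw [curl_eq hE']
    refine tendsto_nhds_unique ((c1.tendsto _).comp tB)
      ((((continuous_curlL.tendsto _).comp tE).neg).congr fun n => ?_)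
    rw [Function.comp_apply, Function.comp_apply, (h n).far, curl_eq (hE n)]
  · rw [div_eq hE']
    refine tendsto_nhds_unique ((continuous_divL.tendsto _).comp tE) (tρ.congr fun n => ?_)
    rw [Function.comp_apply, ← (h n).gE, div_eq (hE n)]
  · rw [div_eq hB']
    refine tendsto_nhds_unique ((continuous_divL.tendsto _).comp tB)
      (tendsto_const_nhds.congr fun n => ?_)
    rw [Function.comp_apply, ← (h n).gB, div_eq (hB n)]

theorem lim_int {F : Type*} [NormedAddCommGroup F] [NormedSpace ℝ F] {g : ℕ → R3 → F} {g' : R3 → F}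
    (hg : ∀ n, Continuous (g n)) {R C : ℝ} (h1 : ∀ n v, ‖g n v‖ ≤ C)
    (h2 : ∀ n v, R < ‖v‖ → g n v = 0) (h3 : ∀ v, Tendsto (fun n => g n v) atTop (𝓝 (g' v))) :
    Tendsto (fun n => ∫ v, g n v) atTop (𝓝 (∫ v, g' v)) := by
  refine tendsto_integral_of_dominated_convergence ((closedBall (0 : R3) R).indicator fun _ => C)
    (fun n => (hg n).aestronglyMeasurable) ((integrable_indicator_iff measurableSet_closedBall).2
      (integrableOn_const measure_closedBall_lt_top.ne))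
    (fun n => Eventually.of_forall fun v => ?_) (Eventually.of_forall h3)
  by_cases hv : ‖v‖ ≤ R
  · rw [indicator_of_mem (mem_closedBall_zero_iff.2 hv)]; exact h1 n v
  · rw [indicator_of_notMem (by simpa using hv), h2 n v (not_le.1 hv), norm_zero]

theorem half (R₀ D : ℝ) : ∃ T A : ℝ, 0 < T ∧ ∀ (f : ℕ → PS → ℝ) (E B : ℕ → ST → R3), Chain f E B →
    VS (f 0) 0 R₀ → DBd 4 (f 0) (E 1) (B 1) 0 D → (∀ m, ∃ D, DBd m (f 0) (E 1) (B 1) 0 D) →
    (∀ n, ∀ s ∈ Icc 0 T, VS (f n) s (R₀ + 1)) ∧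
    (∀ k, ∃ C, ∀ n, ∀ s ∈ Icc 0 T, Bx k (f n) s C ∧ Bx k (E n) s C ∧ Bx k (B n) s C) ∧
    ∀ n, ∀ s ∈ Icc 0 T, (∀ y, |f (n + 1) (s, y) - f n (s, y)| ≤ A * (1 / 2) ^ n) ∧
      (∀ x, ‖E (n + 1) (s, x) - E n (s, x)‖ ≤ A * (1 / 2) ^ n) ∧
      ∀ x, ‖B (n + 1) (s, x) - B n (s, x)‖ ≤ A * (1 / 2) ^ n := by
  obtain ⟨T₀, A, hT₀, -, h0⟩ := chain_low R₀ D
  obtain ⟨T₁, A', hT₁, h1⟩ := chain_contr (R₀ + 1) A
  refine ⟨min T₀ T₁, A', lt_min hT₀ hT₁, fun f E B h hv hD hD' => ?_⟩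
  have hl := fun n s (hs : s ∈ Icc 0 (min T₀ T₁)) =>
    h0 f E B h hv hD n s ⟨hs.1, hs.2.trans (min_le_left _ _)⟩
  exact ⟨fun n s hs => (hl n s hs).1, chain_high h hD' hl, h1 _ (min_le_right _ _) f E B h hl⟩

theorem both (R₀ D : ℝ) : ∃ T A : ℝ, 0 < T ∧ ∀ (f : ℕ → PS → ℝ) (E B : ℕ → ST → R3), Chain f E B →
    VS (f 0) 0 R₀ → DBd 4 (f 0) (E 1) (B 1) 0 D → (∀ m, ∃ D, DBd m (f 0) (E 1) (B 1) 0 D) →
    (∀ n s, |s| < T → VS (f n) s (R₀ + 1)) ∧
    (∀ k, ∃ C, ∀ n s, |s| < T → Bx k (f n) s C ∧ Bx k (E n) s C ∧ Bx k (B n) s C) ∧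
    ∀ n s, |s| < T → (∀ y, |f (n + 1) (s, y) - f n (s, y)| ≤ A * (1 / 2) ^ n) ∧
      (∀ x, ‖E (n + 1) (s, x) - E n (s, x)‖ ≤ A * (1 / 2) ^ n) ∧
      ∀ x, ‖B (n + 1) (s, x) - B n (s, x)‖ ≤ A * (1 / 2) ^ n := by
  obtain ⟨T, A, hT, H⟩ := half R₀ D
  refine ⟨T, A, hT, fun f E B h hv hD hD' => ?_⟩
  obtain ⟨a1, a2, a3⟩ := H f E B h hv hD hD'
  obtain ⟨b1, b2, b3⟩ := H _ _ _ h.refl (vs_reflF.2 (by rwa [neg_zero])) (dbd_refl hD)
    fun m => (hD' m).imp fun _ => dbd_refl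
  have hs : ∀ s : ℝ, |s| < T → s ∈ Icc 0 T ∨ ∃ r ∈ Icc 0 T, s = -r := fun s hs => by
    rcases le_total 0 s with h | h
    · exact Or.inl ⟨h, (le_abs_self s).trans hs.le⟩
    · exact Or.inr ⟨-s, ⟨neg_nonneg.2 h, (neg_le_abs s).trans hs.le⟩, (neg_neg s).symm⟩
  refine ⟨fun n s h => ?_, fun k => ?_, fun n s h => ?_⟩
  · rcases hs s h with h | ⟨r, hr, rfl⟩
    · exact a1 n s h
    · exact vs_reflF.1 (b1 n r hr)
  · obtain ⟨C, hC⟩ := a2 k
    obtain ⟨C', hC'⟩ := b2 k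
    refine ⟨max C C', fun n s h => ?_⟩
    rcases hs s h with h | ⟨r, hr, rfl⟩
    · exact ⟨(hC n s h).1.mono (le_max_left _ _), (hC n s h).2.1.mono (le_max_left _ _),
        (hC n s h).2.2.mono (le_max_left _ _)⟩
    · exact ⟨(bx_reflF.1 (hC' n r hr).1).mono (le_max_right _ _),
        Bx.mono (hC' n r hr).2.1 (le_max_right _ _),
        (bx_reflB.1 (hC' n r hr).2.2).mono (le_max_right _ _)⟩
  · rcases hs s h with h | ⟨r, hr, rfl⟩
    · exact a3 n s h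
    · refine ⟨fun y => ?_, (b3 n r hr).2.1, fun x => ?_⟩
      · simpa [reflF] using (b3 n r hr).1 (y.1, -y.2)
      · have := (b3 n r hr).2.2 x
        simp only [reflB] at this
        rwa [neg_sub_neg, norm_sub_rev] at this

end LocalEx

open LocalEx in
theorem local_exists (R₀ D : ℝ) : ∃ T₀ : ℝ, 0 < T₀ ∧
    ∀ (f₀ : R3 × R3 → ℝ) (E₀ B₀ : R3 → R3), Dat f₀ E₀ B₀ →
    (∀ y v : R3, R₀ < ‖v‖ → f₀ (y, v) = 0) →
    (∀ k ≤ 4, (∀ y, ‖iteratedFDeriv ℝ k f₀ y‖ ≤ D) ∧ (∀ x, ‖iteratedFDeriv ℝ k E₀ x‖ ≤ D) ∧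
      ∀ x, ‖iteratedFDeriv ℝ k B₀ x‖ ≤ D) →
    ∃ (f : PS → ℝ) (E B : ST → R3), Sol T₀ f E B ∧ Init f E B f₀ E₀ B₀ := by
  obtain ⟨T, A, hT, H⟩ := both R₀ D
  refine ⟨T / 2, half_pos hT, fun f₀ E₀ B₀ hd hv hD => ?_⟩
  obtain ⟨f, E, B, hE0, hB0, hs⟩ := iter_exists hd
  have e1 : (fun y => f 0 (0, y)) = f₀ := funext (hs 0).2.1
  have e2 : (fun x => E 1 (0, x)) = E₀ := funext (hs 0).2.2.1
  have e3 : (fun x => B 1 (0, x)) = B₀ := funext (hs 0).2.2.2
  have hch : Chain f E B := ⟨hE0, hB0, fun n => (hs n).1, fun n => by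
    rw [e1, e2, e3]; exact (hs n).2⟩
  have hdb : ∀ m D, (∀ k ≤ m, (∀ y, ‖iteratedFDeriv ℝ k f₀ y‖ ≤ D) ∧
      (∀ x, ‖iteratedFDeriv ℝ k E₀ x‖ ≤ D) ∧ ∀ x, ‖iteratedFDeriv ℝ k B₀ x‖ ≤ D) →
      DBd m (f 0) (E 1) (B 1) 0 D := by
    intro m D h k hk
    unfold Bx
    rw [e1, e2, e3]
    exact h k hk
  obtain ⟨a1, a2, a3⟩ := H f E B hch (fun y v h => ((hs 0).2.1 _).trans (hv y v h)) (hdb 4 D hD)
    fun m => by
      obtain ⟨_, D, -, h⟩ := hd.exists_bounds m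
      exact ⟨D, hdb m D h⟩
  have hf := chain_full hch a1 a2
  obtain ⟨f', sf, tf, df, -, zf⟩ := lim_cut hT f (fun n => (hs n).1.sf)
    (fun k => (hf k).imp fun C h n => (h n).1) fun n p hp => (a3 n p.1 hp).1 p.2
  obtain ⟨E', sE, tE, dE, bE, -⟩ := lim_cut hT E (fun n => (hs n).1.sE')
    (fun k => (hf k).imp fun C h n => (h n).2.1) fun n p hp => (a3 n p.1 hp).2.1 p.2
  obtain ⟨B', sB, tB, dB, bB, -⟩ := lim_cut hT B (fun n => (hs n).1.sB')
    (fun k => (hf k).imp fun C h n => (h n).2.2) fun n p hp => (a3 n p.1 hp).2.2 p.2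
  have hU : ∀ s ∈ Icc 0 (T / 2), |s| < T := fun s hs => by
    rw [abs_of_nonneg hs.1]; linarith [hs.2]
  have h0 : (0 : ℝ) ∈ Icc 0 (T / 2) := ⟨le_rfl, (half_pos hT).le⟩
  refine ⟨f', E', B', ⟨⟨sE, sB, sf, sE, sB, fun _ => ⟨R₀ + 1, fun s y v _ h =>
    zf _ fun h' n => a1 n s h' y v h⟩, fun p hp => ?_, fun p hp => ?_, fun _ k => ?_⟩, ?_⟩,
    fun y => ?_, fun x => ?_, fun x => ?_⟩
  · have c1 : Continuous fun q : (PS →L[ℝ] ℝ) × R3 × R3 =>
        q.1 (1, relVel p.2.2, lor q.2.1 q.2.2 p.2.2) :=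
      continuous_fst.clm_apply (continuous_const.prodMk (continuous_const.prodMk
        (contDiff_lor.continuous.comp (continuous_snd.fst.prodMk
          (continuous_snd.snd.prodMk continuous_const)))))
    exact tendsto_nhds_unique ((c1.tendsto _).comp ((df p hp).prodMk_nhds
      ((tE (p.1, p.2.1) hp).prodMk_nhds (tB (p.1, p.2.1) hp))))
      (tendsto_const_nhds.congr fun n => ((hs n).1.vl p trivial).symm)
  · obtain ⟨C, hC⟩ := a2 0
    have hb : ∀ n v, ‖f n (p.1, p.2, v)‖ ≤ C := fun n v => bx_zero.1 (hC n p.1 (hU _ hp)).1 (p.2, v)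
    have hc : ∀ n, Continuous fun v => f n (p.1, p.2, v) := fun n =>
      (hs n).1.sf.continuous.comp (by fun_prop)
    refine lim_max (E := fun n => E (n + 1)) (B := fun n => B (n + 1)) (ρ := fun n => rho (f n))
      (j := fun n => cur (f n)) (fun n => (hs n).1.sE) (fun n => (hs n).1.sB) sE sB
      ((tendsto_add_atTop_iff_nat 1).2 (dE p hp)) ((tendsto_add_atTop_iff_nat 1).2 (dB p hp))
      (lim_int hc hb (fun n => a1 n p.1 (hU _ hp) p.2) fun v => tf (p.1, p.2, v) hp)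
      (lim_int (R := R₀ + 1) (C := C) (fun n => (hc n).smul contDiff_relVel.continuous)
        (fun n v => ?_) (fun n v h => ?_) fun v => (tf (p.1, p.2, v) hp).smul_const _)
      fun n => (hs n).1.mx p trivial
    · rw [norm_smul]
      exact (mul_le_of_le_one_right (norm_nonneg _) (norm_relVel_lt_one v).le).trans (hb n v)
    · rw [a1 n p.1 (hU _ hp) p.2 v h, zero_smul]
  · obtain ⟨C, hC⟩ := bE k
    obtain ⟨C', hC'⟩ := bB k
    exact ⟨max C C', fun s h _ =>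
      ⟨(hC s h).mono (le_max_left _ _), (hC' s h).mono (le_max_right _ _)⟩⟩
  · obtain ⟨R, hR⟩ := hd.cs.isCompact.isBounded.exists_norm_le
    refine ⟨R + T / 2, fun s h y v hy => zf _ fun _ n => Step.xs (T := T / 2) (R := R)
      ((hs n).1.mono (subset_univ _)) (fun y v hy => ?_) h y v (by linarith [h.2])⟩
    rw [(hs n).2.1]
    exact image_eq_zero_of_notMem_tsupport fun h =>
      absurd ((norm_fst_le (y, v)).trans (hR _ h)) (not_le.2 hy)
  · exact tendsto_nhds_unique (tf (0, y) h0)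
      (tendsto_const_nhds.congr fun n => ((hs n).2.1 y).symm)
  · exact tendsto_nhds_unique ((tendsto_add_atTop_iff_nat 1).2 (tE (0, x) h0))
      (tendsto_const_nhds.congr fun n => ((hs n).2.2.1 x).symm)
  · exact tendsto_nhds_unique ((tendsto_add_atTop_iff_nat 1).2 (tB (0, x) h0))
      (tendsto_const_nhds.congr fun n => ((hs n).2.2.2 x).symm)

end Crest.Agent.R106
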