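import Crest.Agent.R106.PBound
import Crest.Agent.R106.Apri
import Crest.Agent.R106.LocalEx
import Crest.Agent.R106.Bridge
import Crest.Agent.R106.ConeEn

/-!
# Row 106: global existence
-/

set_option autoImplicit false
set_option linter.unusedVariables false
set_option linter.unusedSectionVars false

open MeasureTheory Metric Set Filter Topology
open scoped ContDiff ENNReal RealInnerProductSpace
open Crest.AnalysisR.VecCalc3 Crest.AnalysisR.PDE.RVM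

noncomputable section

namespace Crest.Agent.R106

theorem Global_dbd {f₀ : R3 × R3 → ℝ} {E₀ B₀ : R3 → R3} {f : PS → ℝ} {E B : ST → R3}
    (hi : Init f E B f₀ E₀ B₀) {m m' : ℕ} (hm : m' ≤ m) {D : ℝ}
    (h : ∀ k ≤ m, (∀ y, ‖iteratedFDeriv ℝ k f₀ y‖ ≤ D) ∧ (∀ x, ‖iteratedFDeriv ℝ k E₀ x‖ ≤ D) ∧
      ∀ x, ‖iteratedFDeriv ℝ k B₀ x‖ ≤ D) : DBd m' f E B 0 D := by
  obtain rfl : (fun y => f (0, y)) = f₀ := funext hi.1
  obtain rfl : (fun x => E (0, x)) = E₀ := funext hi.2.1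
  obtain rfl : (fun x => B (0, x)) = B₀ := funext hi.2.2
  exact fun k hk => h k (hk.trans hm)

/-- the a-priori bounds for all solutions with the given data, and a first solution -/
theorem Global_apri {f₀ : R3 × R3 → ℝ} {E₀ B₀ : R3 → R3} (hd : Dat f₀ E₀ B₀)
    (h0 : ∀ y, 0 ≤ f₀ y) (hE : MemLp E₀ 2) (hB : MemLp B₀ 2) {T : ℝ} (hT : 0 ≤ T) :
    ∃ T₀ R A : ℝ, 0 < T₀ ∧
      (∃ (f : PS → ℝ) (E B : ST → R3), Sol T₀ f E B ∧ Init f E B f₀ E₀ B₀) ∧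
      ∀ T' ≤ T, ∀ (f : PS → ℝ) (E B : ST → R3), Sol T' f E B → Init f E B f₀ E₀ B₀ →
        ∀ s ∈ Icc 0 T', VS f s R ∧ DBd 4 f E B s A := by
  obtain ⟨R₀, D, hR₀, hD⟩ := hd.exists_bounds 7
  obtain ⟨𝓔, h𝓔, hen⟩ := energy_fin hd hE hB
  have hM : ∀ y, f₀ y ≤ D := fun y => by
    have := (hD 0 (by norm_num)).1 y
    rw [norm_iteratedFDeriv_zero] at this
    exact (le_abs_self _).trans this
  have hD0 : 0 ≤ D := (h0 0).trans (hM 0)
  obtain ⟨C, -, hC⟩ := gs_sharp T R₀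
  obtain ⟨T₀, hT₀, hloc⟩ := local_exists R₀ D
  obtain ⟨g, E', B', hg, hgi⟩ := hloc f₀ E₀ B₀ hd hR₀ fun k hk => hD k (by omega)
  obtain ⟨R₁, hR₁⟩ := hg.step.vf T₀
  obtain ⟨R, hR⟩ := vs_bound D 𝓔 T T₀ (C * D) R₁ hD0 h𝓔 hT hT₀
  obtain ⟨A, hA⟩ := apriori_of_vs T R D
  refine ⟨T₀, R, A, hT₀, ⟨g, E', B', hg, hgi⟩, fun T' hT' f E B hs hi => ?_⟩
  have h1 : ∀ s ∈ Icc 0 T', VS f s R := by
    refine hR T' hT' f E B (hs.apri (fun y => ?_) (hen f E B hi))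
      (hC T' hT' _ _ E B hs.step.lin (fun y v hv => ?_) D (Global_dbd hi (by norm_num) hD))
      fun s hs' hs₀ y v hv => ?_
    · rw [hi.1]
      exact ⟨h0 y, hM y⟩
    · exact (hi.1 (y, v)).trans (hR₀ y v hv)
    · have := ((hg.mono hs₀).unique (hs.mono hs'.2) (fun y => (hi.1 y).trans (hgi.1 y).symm)
        (fun x => (hi.2.1 x).trans (hgi.2.1 x).symm) (fun x => (hi.2.2 x).trans (hgi.2.2 x).symm)
        ⟨hs'.1, le_rfl⟩).1 (y, v)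
      exact this.trans (hR₁ s y v (by rwa [abs_of_nonneg hs'.1]) hv)
  exact fun s hs' => ⟨h1 s hs', hA T' hT' f E B hs h1 (Global_dbd hi le_rfl hD) s hs'⟩

theorem global_exists {f₀ : R3 × R3 → ℝ} {E₀ B₀ : R3 → R3} (hd : Dat f₀ E₀ B₀)
    (h0 : ∀ y, 0 ≤ f₀ y) (hE : MemLp E₀ 2) (hB : MemLp B₀ 2) (T : ℝ) :
    ∃ (f : PS → ℝ) (E B : ST → R3), Sol T f E B ∧ Init f E B f₀ E₀ B₀ := by
  obtain ⟨T₀, R, A, hT₀, h1, h2⟩ := Global_apri hd h0 hE hB (show 0 ≤ |T| + 1 by positivity)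
  obtain ⟨T₁, hT₁, hloc⟩ := local_exists R A
  have step : ∀ T', 0 < T' → T' ≤ |T| + 1 →
      (∃ (f : PS → ℝ) (E B : ST → R3), Sol T' f E B ∧ Init f E B f₀ E₀ B₀) →
      ∃ (f : PS → ℝ) (E B : ST → R3), Sol (T' + T₁ / 2) f E B ∧ Init f E B f₀ E₀ B₀ := by
    rintro T' hT' hT'' ⟨f, E, B, hs, hi⟩
    have ht0 : 0 ≤ max 0 (T' - T₁ / 2) := le_max_left _ _
    have ht1 : max 0 (T' - T₁ / 2) < T' := max_lt hT' (by linarith)
    have ht2 : T' + T₁ / 2 ≤ max 0 (T' - T₁ / 2) + T₁ := by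
      linarith [le_max_right 0 (T' - T₁ / 2)]
    generalize max 0 (T' - T₁ / 2) = t₁ at ht0 ht1 ht2
    obtain ⟨h3, h4⟩ := h2 T' hT'' f E B hs hi t₁ ⟨ht0, ht1.le⟩
    obtain ⟨g, E', B', hg, hgi⟩ := hloc _ _ _ (hs.dat ⟨ht0, ht1.le⟩) h3 h4
    obtain ⟨f₂, E₂, B₂, hs₂, hi₂⟩ := hs.glue hg ht0 ht1 hT₁ hgi
    exact ⟨f₂, E₂, B₂, hs₂.mono ht2, fun y => (hi₂.1 y).trans (hi.1 y),
      fun x => (hi₂.2.1 x).trans (hi.2.1 x), fun x => (hi₂.2.2 x).trans (hi.2.2 x)⟩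
  have ind : ∀ k : ℕ, ∃ (f : PS → ℝ) (E B : ST → R3),
      Sol (min (|T| + 1) (T₀ + k * (T₁ / 2))) f E B ∧ Init f E B f₀ E₀ B₀ := by
    intro k
    induction k with
    | zero =>
      obtain ⟨f, E, B, hs, hi⟩ := h1
      exact ⟨f, E, B, hs.mono ((min_le_right _ _).trans (by simp)), hi⟩
    | succ k ih =>
      obtain ⟨f, E, B, hs, hi⟩ := step _ (lt_min (by positivity) (by positivity))
        (min_le_left _ _) ih
      refine ⟨f, E, B, hs.mono ?_, hi⟩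
      rw [← min_add_add_right]
      refine min_le_min (by linarith) (le_of_eq ?_)
      push_cast
      ring
  obtain ⟨k, hk⟩ := exists_nat_ge (T / (T₁ / 2))
  obtain ⟨f, E, B, hs, hi⟩ := ind k
  rw [div_le_iff₀ (by positivity)] at hk
  exact ⟨f, E, B, hs.mono (le_min (by linarith [le_abs_self T]) (by linarith)), hi⟩

end Crest.Agent.R106
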