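import Crest.Agent.R106.GSCAux

/-!
# Row 106: the second Glassey–Strauss decomposition
-/

set_option autoImplicit false
set_option linter.unusedVariables false
set_option linter.unusedSectionVars false

open MeasureTheory Metric Set Filter Topology
open scoped ContDiff ENNReal RealInnerProductSpace
open Crest.AnalysisR.VecCalc3 Crest.AnalysisR.PDE.RVM

noncomputable section

namespace Crest.Agent.R106

/-- the modified kernel `(n·w/p) a` -/
def GradA_at (a : R3 × R3 → R3) (w : R3) : R3 × R3 → R3 :=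
  fun q => (⟪nz q.1, w⟫ / pp q.1 q.2) • a q

theorem GradA_cd_at {a : R3 × R3 → R3} (ha : ContDiff ℝ 1 a) {σ : ℝ} (hσ : 0 < σ)
    (haσ : ∀ z v, ‖z‖ ≤ σ → a (z, v) = 0) (w : R3) : ContDiff ℝ 1 (GradA_at a w) := by
  rw [contDiff_iff_contDiffAt]
  intro q
  by_cases hz : q.1 = 0
  · have ho : IsOpen {q : R3 × R3 | ‖q.1‖ < σ} := isOpen_lt (by fun_prop) continuous_const
    have e : GradA_at a w =ᶠ[𝓝 q] fun _ => 0 := by
      filter_upwards [ho.mem_nhds (x := q) (by simp [hz, hσ])] with p hp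
      have : a p = 0 := haσ p.1 p.2 (le_of_lt hp)
      simp [GradA_at, this]
    exact contDiffAt_const.congr_of_eventuallyEq e
  · have h1 : ContDiffAt ℝ 1 (fun q : R3 × R3 => nz q.1) q :=
      ((contDiffAt_nz hz).of_le (by simp)).comp q contDiffAt_fst
    have h2 : ContDiffAt ℝ 1 (fun q : R3 × R3 => relVel q.2) q :=
      (contDiff_relVel.contDiffAt.of_le (by simp)).comp q contDiffAt_snd
    have h3 : ContDiffAt ℝ 1 (fun q : R3 × R3 => pp q.1 q.2) q :=
      contDiffAt_const.sub (h2.inner ℝ h1)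
    exact ((h1.inner ℝ contDiffAt_const).div h3 (pp_pos _ _).ne').smul ha.contDiffAt

theorem GradA_pp_smul (a : R3 × R3 → R3) (w : R3) (q : R3 × R3) :
    pp q.1 q.2 • GradA_at a w q = ⟪nz q.1, w⟫ • a q := by
  rw [GradA_at, smul_smul]
  congr 1
  have := (pp_pos q.1 q.2).ne'
  field_simp

/-- continuous functions vanishing for large momenta are integrable on the cone -/
theorem GradA_integrable {f : R3 × R3 → R3} (hf : Continuous f) {t R : ℝ}
    (h2 : ∀ z v : R3, ‖z‖ ≤ t → R < ‖v‖ → f (z, v) = 0) :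
    Integrable f ((volume.restrict (ball (0 : R3) t)).prod volume) := by
  obtain ⟨M, hM⟩ := ((isCompact_closedBall (0 : R3) t).prod
    (isCompact_closedBall (0 : R3) R)).exists_bound_of_continuousOn hf.continuousOn
  refine GSC.integrable_prod (C := max M 0 * t ^ 2) (R := R) hf.measurable
    (fun z v hz hzt hv => ?_) h2
  have hr : 0 < ‖z‖ := norm_pos_iff.2 hz
  have h1 : ‖f (z, v)‖ ≤ max M 0 :=
    (hM (z, v) ⟨mem_closedBall_zero_iff.2 hzt, mem_closedBall_zero_iff.2 hv⟩).trans
      (le_max_left _ _)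
  rw [le_div_iff₀ (by positivity)]
  gcongr

/-- the divergence in `z` -/
def GradA_P (h : PS → ℝ) (a b : R3 × R3 → R3) (t : ℝ) (x w : R3) (q : R3 × R3) : R3 :=
  h (cq t x q) • (fderiv ℝ a q (w, 0) + fderiv ℝ b q (relVel q.2, 0)) -
    fderiv ℝ h (cq t x q) (0, w, 0) • a q - fderiv ℝ h (cq t x q) (1, relVel q.2, 0) • b q

/-- the vector field in `z` -/
def GradA_Xi (h : PS → ℝ) (a b : R3 × R3 → R3) (t : ℝ) (x w v : R3) (i : Fin 3) (z : R3) : R3 :=
  h (cq t x (z, v)) • (w i • a (z, v) + relVel v i • b (z, v))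

theorem GradA_cd_slice {a : R3 × R3 → R3} (ha : ContDiff ℝ 1 a) (v : R3) :
    ContDiff ℝ 1 fun z => a (z, v) :=
  ha.comp (contDiff_id.prodMk contDiff_const)

theorem GradA_fderiv_slice {a : R3 × R3 → R3} (ha : ContDiff ℝ 1 a) (z v u : R3) :
    fderiv ℝ (fun z => a (z, v)) z u = fderiv ℝ a (z, v) (u, 0) := by
  have h0 : HasFDerivAt (fun z : R3 => (z, v)) _ z :=
    (hasFDerivAt_id (𝕜 := ℝ) z).prodMk (hasFDerivAt_const v z)
  have h1 := (ha.differentiable (by simp) (z, v)).hasFDerivAt.comp z h0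
  have h2 : fderiv ℝ (fun z => a (z, v)) z = _ := h1.fderiv
  rw [h2]
  rfl

theorem GradA_fderiv_slice' {a : R3 × R3 → R3} (ha : ContDiff ℝ 1 a) (z v u : R3) :
    fderiv ℝ (fun v => a (z, v)) v u = fderiv ℝ a (z, v) (0, u) := by
  have h0 : HasFDerivAt (fun v : R3 => (z, v)) _ v :=
    (hasFDerivAt_const z v).prodMk (hasFDerivAt_id (𝕜 := ℝ) v)
  have h1 := (ha.differentiable (by simp) (z, v)).hasFDerivAt.comp v h0
  have h2 : fderiv ℝ (fun v => a (z, v)) v = _ := h1.fderiv
  rw [h2]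
  rfl

theorem GradA_cd_Xi {h : PS → ℝ} (hh : ContDiff ℝ ∞ h) {a b : R3 × R3 → R3}
    (ha : ContDiff ℝ 1 a) (hb : ContDiff ℝ 1 b) (t : ℝ) (x w v : R3) (i : Fin 3) {z : R3}
    (hz : z ≠ 0) : ContDiffAt ℝ 1 (GradA_Xi h a b t x w v i) z :=
  ((hh.contDiffAt.comp z (GSC.cd_cq t x v hz)).of_le (by simp)).smul
    (((GradA_cd_slice ha v).contDiffAt.const_smul _).add
      ((GradA_cd_slice hb v).contDiffAt.const_smul _))

theorem GradA_div_Xi {h : PS → ℝ} (hh : ContDiff ℝ ∞ h) {a b : R3 × R3 → R3}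
    (ha : ContDiff ℝ 1 a) (hb : ContDiff ℝ 1 b) (t : ℝ) (x w v : R3) {z : R3} (hz : z ≠ 0)
    (hab : pp z v • b (z, v) = ⟪nz z, w⟫ • a (z, v)) :
    ∑ i, fderiv ℝ (GradA_Xi h a b t x w v i) z (EuclideanSpace.single i 1) =
      GradA_P h a b t x w (z, v) := by
  have h1 := ((GradA_cd_slice ha v).differentiable (by simp) z).hasFDerivAt
  have h2 := ((GradA_cd_slice hb v).differentiable (by simp) z).hasFDerivAt
  have h3 : HasFDerivAt (fun z => h (cq t x (z, v))) _ z :=
    ((hh.contDiffAt.comp z (GSC.cd_cq t x v hz)).differentiableAt (by simp)).hasFDerivAt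
  have e : ∀ i, fderiv ℝ (GradA_Xi h a b t x w v i) z (EuclideanSpace.single i 1) =
      h (cq t x (z, v)) • (w i • fderiv ℝ (fun z => a (z, v)) z (EuclideanSpace.single i 1) +
        relVel v i • fderiv ℝ (fun z => b (z, v)) z (EuclideanSpace.single i 1)) +
      fderiv ℝ (fun z => h (cq t x (z, v))) z (EuclideanSpace.single i 1) •
        (w i • a (z, v) + relVel v i • b (z, v)) := by
    intro i
    have h5 := h3.smul ((h1.const_smul (w i)).add (h2.const_smul (relVel v i)))
    have h6 : fderiv ℝ (GradA_Xi h a b t x w v i) z = _ := h5.fderiv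
    rw [h6]
    rfl
  have e1 := GSC.sum_e (fderiv ℝ (fun z => a (z, v)) z) w
  have e2 := GSC.sum_e (fderiv ℝ (fun z => b (z, v)) z) (relVel v)
  have e3 := GSC.sum_e (fderiv ℝ (fun z => h (cq t x (z, v))) z) w
  have e4 := GSC.sum_e (fderiv ℝ (fun z => h (cq t x (z, v))) z) (relVel v)
  rw [GradA_fderiv_slice ha] at e1
  rw [GradA_fderiv_slice hb] at e2
  rw [GSC.fderiv_F hh t x v hz] at e3 e4
  set D := fderiv ℝ h (cq t x (z, v)) with hD
  have e5 : D (1, relVel v, 0) = D (1, 0, 0) + D (0, relVel v, 0) := by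
    rw [← map_add]; simp
  have e6 : pp z v = 1 - ⟪nz z, relVel v⟫ := by rw [pp, ang, real_inner_comm]
  rw [e6] at hab
  simp only [e, GradA_P, ← hD, e5]
  simp only [Fin.sum_univ_three, smul_eq_mul] at e1 e2 e3 e4 ⊢
  linear_combination (norm := module) (-h (cq t x (z, v))) • e1 - h (cq t x (z, v)) • e2 -
    e3 • a (z, v) - e4 • b (z, v) + D (1, 0, 0) • hab

theorem GradA_cont_P {h : PS → ℝ} (hh : ContDiff ℝ ∞ h) {a b : R3 × R3 → R3}
    (ha : ContDiff ℝ 1 a) (hb : ContDiff ℝ 1 b) (t : ℝ) (x w : R3) :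
    Continuous (GradA_P h a b t x w) := by
  have h1 : Continuous fun q => fderiv ℝ h (cq t x q) :=
    (hh.continuous_fderiv (by simp)).comp (GSC.continuous_cq t x)
  have h2 := contDiff_relVel.continuous
  have h3 : Continuous fun q => h (cq t x q) := hh.continuous.comp (GSC.continuous_cq t x)
  have h4 := ha.continuous_fderiv (by simp)
  have h5 := hb.continuous_fderiv (by simp)
  have h6 := ha.continuous
  have h7 := hb.continuous
  have h8 : Continuous fun q : R3 × R3 => relVel q.2 := h2.comp continuous_snd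
  exact ((h3.smul ((h4.clm_apply continuous_const).add
    (h5.clm_apply (h8.prodMk continuous_const)))).sub
    ((h1.clm_apply continuous_const).smul h6)).sub
    ((h1.clm_apply (continuous_const.prodMk (h8.prodMk continuous_const))).smul h7)

theorem GradA_int_P {h : PS → ℝ} (hh : ContDiff ℝ ∞ h) (h0 : ∀ y, h (0, y) = 0)
    {a b : R3 × R3 → R3} (ha : ContDiff ℝ 1 a) (hb : ContDiff ℝ 1 b) {t : ℝ} (ht : 0 < t)
    (x w v : R3) (hab : ∀ z, pp z v • b (z, v) = ⟪nz z, w⟫ • a (z, v)) :
    ∫ z in ball (0 : R3) t, GradA_P h a b t x w (z, v) = 0 := by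
  obtain ⟨M, hM0, hM⟩ := GSC.F_le hh h0 t x v
  have hk : ∀ i, ∃ K, ∀ z ∈ closedBall (0 : R3) t,
      ‖w i • a (z, v) + relVel v i • b (z, v)‖ ≤ K := fun i =>
    (isCompact_closedBall (0 : R3) t).exists_bound_of_continuousOn
      (f := fun z => w i • a (z, v) + relVel v i • b (z, v))
      (((GradA_cd_slice ha v).continuous.const_smul (w i)).add
        ((GradA_cd_slice hb v).continuous.const_smul (relVel v i))).continuousOn
  choose K hK using hk
  obtain ⟨C1, hC1, hk⟩ : ∃ C1 : ℝ, 0 ≤ C1 ∧ ∀ i z, ‖z‖ ≤ t →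
      ‖w i • a (z, v) + relVel v i • b (z, v)‖ ≤ C1 :=
    ⟨∑ i, |K i|, Finset.sum_nonneg fun i _ => abs_nonneg _, fun i z hz =>
      ((hK i z (mem_closedBall_zero_iff.2 hz)).trans (le_abs_self _)).trans
        (Finset.single_le_sum (f := fun i => |K i|) (fun i _ => abs_nonneg _) (Finset.mem_univ i))⟩
  obtain ⟨C2, hP⟩ := (isCompact_closedBall (0 : R3) t).exists_bound_of_continuousOn
    (((GradA_cont_P hh ha hb t x w).comp (continuous_id.prodMk
      (continuous_const (y := v)))).continuousOn)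
  have hX : ∀ i z, ‖z‖ ≤ t → ‖GradA_Xi h a b t x w v i z‖ ≤ M * (t - ‖z‖) * C1 :=
    fun i z hz => by
      rw [GradA_Xi, norm_smul]
      exact mul_le_mul (hM z hz) (hk i z hz) (norm_nonneg _) (mul_nonneg hM0 (sub_nonneg.2 hz))
  refine Eq.trans ?_ ((div_ball ht (GradA_Xi h a b t x w v)
    (fun i z hz => GradA_cd_Xi hh ha hb t x w v i hz) 0
    (max (max (M * C1) (3 * M * t ^ 2 * C1)) (max C2 0 * t ^ 2)) ?_ ?_ ?_).2.trans (by simp))
  · refine integral_congr_ae (ae_restrict_of_ae ?_)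
    filter_upwards [Measure.ae_ne volume (0 : R3)] with z hz
    exact (GradA_div_Xi hh ha hb t x w v hz (hab z)).symm
  · intro i z h1 h2
    have h3 := sub_nonneg.2 h2
    refine (hX i z h2).trans (le_trans (le_of_eq (by ring)) (mul_le_mul_of_nonneg_right
      ((le_max_left _ _).trans (le_max_left _ _)) h3))
  · intro z hz h2
    have hr : 0 < ‖z‖ := norm_pos_iff.2 hz
    refine le_trans ?_ (mul_le_mul_of_nonneg_right
      ((le_max_right _ _).trans (le_max_left _ _)) hr.le)
    have h3 : ‖∑ i, nz z i • GradA_Xi h a b t x w v i z‖ ≤ 3 * (M * t * C1) := by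
      refine (norm_sum_le _ _).trans ((Finset.sum_le_card_nsmul _ _ (M * t * C1)
        fun i _ => ?_).trans (by simp))
      rw [norm_smul]
      refine (mul_le_of_le_one_left (norm_nonneg _)
        ((PiLp.norm_apply_le _ i).trans (norm_nz_le z))).trans ((hX i z h2).trans ?_)
      gcongr
      linarith
    rw [sub_zero, norm_smul, norm_pow, norm_norm]
    calc _ ≤ (t * ‖z‖) * (3 * (M * t * C1)) := by
          rw [sq]
          gcongr
      _ = _ := by ring
  · intro z hz h2
    have hr : 0 < ‖z‖ := norm_pos_iff.2 hz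
    rw [GradA_div_Xi hh ha hb t x w v hz (hab z)]
    have h1 : ‖GradA_P h a b t x w (z, v)‖ ≤ max C2 0 :=
      (hP z (mem_closedBall_zero_iff.2 h2)).trans (le_max_left _ _)
    refine le_trans ?_ (div_le_div_of_nonneg_right (le_max_right _ _) (by positivity))
    rw [le_div_iff₀ (by positivity)]
    gcongr

/-- integration by parts in the momentum -/
theorem GradA_int_v {H : PS → R3} (hH : ContDiff ℝ ∞ H) (vH : VSupp H) {b : R3 × R3 → R3}
    (hb : ContDiff ℝ 1 b) (t : ℝ) (x z : R3) :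
    ∫ v, (divV H (cq t x (z, v)) • b (z, v) + fderiv ℝ b (z, v) (0, H (cq t x (z, v)))) = 0 := by
  have hb' : ContDiff ℝ 1 fun v => b (z, v) := hb.comp (contDiff_const.prodMk contDiff_id)
  have hc : ∀ i, ContDiff ℝ 1 fun v => H (cq t x (z, v)) i • b (z, v) := fun i =>
    ((GSC.cd_Hi hH t x z i).of_le (by simp)).smul hb'
  have hs : ∀ i, HasCompactSupport fun v => H (cq t x (z, v)) i • b (z, v) := by
    intro i
    obtain ⟨R, hR⟩ := vH |t - ‖z‖|
    refine HasCompactSupport.intro (isCompact_closedBall 0 R) fun v hv => ?_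
    have : H (cq t x (z, v)) = 0 := hR _ _ _ le_rfl (by simpa using hv)
    simp [this]
  have hd : ∀ v, ∑ i, fderiv ℝ (fun v => H (cq t x (z, v)) i • b (z, v)) v
      (EuclideanSpace.single i 1) =
      divV H (cq t x (z, v)) • b (z, v) + fderiv ℝ b (z, v) (0, H (cq t x (z, v))) := by
    intro v
    have h2 := (hb'.differentiable (by simp) v).hasFDerivAt
    have e : ∀ i, fderiv ℝ (fun v => H (cq t x (z, v)) i • b (z, v)) v
        (EuclideanSpace.single i 1) =
        H (cq t x (z, v)) i • fderiv ℝ (fun v => b (z, v)) v (EuclideanSpace.single i 1) +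
        fderiv ℝ (fun v => H (cq t x (z, v)) i) v (EuclideanSpace.single i 1) • b (z, v) := by
      intro i
      have h3 := ((GSC.cd_Hi hH t x z i).differentiable (by simp) v).hasFDerivAt
      have h6 : fderiv ℝ (fun v => H (cq t x (z, v)) i • b (z, v)) v = _ := (h3.smul h2).fderiv
      rw [h6]
      rfl
    simp only [e]
    rw [Finset.sum_add_distrib, ← GSC.sum_e, ← Finset.sum_smul, add_comm,
      GradA_fderiv_slice' hb]
    rfl
  have hi : ∀ i, Integrable fun v => fderiv ℝ (fun v => H (cq t x (z, v)) i • b (z, v)) v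
      (EuclideanSpace.single i 1) :=
    fun i => (((hc i).continuous_fderiv (by simp)).clm_apply
      continuous_const).integrable_of_hasCompactSupport ((hs i).fderiv_apply ℝ _)
  simp only [← hd]
  rw [integral_finsetSum _ fun i _ => hi i]
  exact Finset.sum_eq_zero fun i _ => integral_fderiv_eq_zero' volume (hc i) (hs i) _

/-- Second decomposition on the cone.  `a` is a kernel, smooth off the origin and vanishing near
the origin; `h` vanishes at time `0` and `(∂ₛ + v̂·∇) h = - div_v H + g` on `[0,t]`. -/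
theorem second_dec {h g : PS → ℝ} {H : PS → R3} (hh : ContDiff ℝ ∞ h) (hH : ContDiff ℝ ∞ H)
    (hg : ContDiff ℝ ∞ g) (vh : VSupp h) (vH : VSupp H) (vg : VSupp g) {t : ℝ} (ht : 0 < t)
    (h0 : ∀ y, h (0, y) = 0)
    (htr : ∀ p : PS, p.1 ∈ Icc 0 t → fderiv ℝ h p (1, relVel p.2.2, 0) = - divV H p + g p)
    {a : R3 × R3 → R3} (ha : ContDiff ℝ 1 a) {σ : ℝ} (hσ : 0 < σ)
    (haσ : ∀ z v, ‖z‖ ≤ σ → a (z, v) = 0) (x w : R3) :
    ∫ q in ball (0 : R3) t ×ˢ univ, fderiv ℝ h (cq t x q) (0, w, 0) • a q =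
      ∫ q in ball (0 : R3) t ×ˢ univ,
        (h (cq t x q) • (fderiv ℝ a q (w, 0) +
            fderiv ℝ (fun q : R3 × R3 => (⟪nz q.1, w⟫ / pp q.1 q.2) • a q) q (relVel q.2, 0)) -
          fderiv ℝ (fun q : R3 × R3 => (⟪nz q.1, w⟫ / pp q.1 q.2) • a q) q (0, H (cq t x q)) -
          (g (cq t x q) * (⟪nz q.1, w⟫ / pp q.1 q.2)) • a q) := by
  have hb := GradA_cd_at ha hσ haσ w
  have hab := GradA_pp_smul a w
  have eb : ∀ (c : ℝ) (q : R3 × R3), (c * (⟪nz q.1, w⟫ / pp q.1 q.2)) • a q =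
      c • GradA_at a w q := fun c q => by rw [GradA_at, smul_smul]
  change _ = ∫ q in ball (0 : R3) t ×ˢ univ,
    (h (cq t x q) • (fderiv ℝ a q (w, 0) + fderiv ℝ (GradA_at a w) q (relVel q.2, 0)) -
      fderiv ℝ (GradA_at a w) q (0, H (cq t x q)) -
      (g (cq t x q) * (⟪nz q.1, w⟫ / pp q.1 q.2)) • a q)
  simp only [eb]
  generalize GradA_at a w = b at hb hab
  have c1 : Continuous fun q => fderiv ℝ h (cq t x q) :=
    (hh.continuous_fderiv (by simp)).comp (GSC.continuous_cq t x)
  have c2 : Continuous fun q : R3 × R3 => relVel q.2 :=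
    contDiff_relVel.continuous.comp continuous_snd
  have c3 : Continuous fun q => h (cq t x q) := hh.continuous.comp (GSC.continuous_cq t x)
  have c3' : Continuous fun q => H (cq t x q) := hH.continuous.comp (GSC.continuous_cq t x)
  have c3'' : Continuous fun q => g (cq t x q) := hg.continuous.comp (GSC.continuous_cq t x)
  have c4 := ha.continuous_fderiv (by simp)
  have c5 := hb.continuous_fderiv (by simp)
  have c6 := ha.continuous
  have c7 := hb.continuous
  obtain ⟨R1, hR1⟩ := GSC.vs_cq vh t x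
  obtain ⟨R2, hR2⟩ := GSC.vs_cq vH t x
  obtain ⟨R3', hR3⟩ := GSC.vs_cq vg t x
  obtain ⟨R4, hR4⟩ := GSC.vs_cq (vh.fderiv (0, w, 0)) t x
  obtain ⟨R5, hR5⟩ : ∃ R, ∀ z v : R3, ‖z‖ ≤ t → R < ‖v‖ →
      fderiv ℝ h (cq t x (z, v)) (1, relVel v, 0) = 0 := by
    obtain ⟨R, hR⟩ := vh (t + 1)
    refine ⟨R, fun z v hz hv => ?_⟩
    have hs : |t - ‖z‖| < t + 1 := by
      rw [abs_of_nonneg (sub_nonneg.2 hz)]
      linarith [norm_nonneg z]
    have e : h =ᶠ[𝓝 (cq t x (z, v))] fun _ => 0 := by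
      have ho1 : IsOpen {p : PS | |p.1| < t + 1} := isOpen_lt (by fun_prop) continuous_const
      have ho2 : IsOpen {p : PS | R < ‖p.2.2‖} := isOpen_lt continuous_const (by fun_prop)
      have ho := ho1.inter ho2
      filter_upwards [ho.mem_nhds (x := cq t x (z, v)) ⟨hs, hv⟩] with p hp
      exact hR _ _ _ hp.1.le hp.2
    simp [e.fderiv_eq]
  have i1 : Integrable (fun q : R3 × R3 => fderiv ℝ h (cq t x q) (0, w, 0) • a q)
      ((volume.restrict (ball (0 : R3) t)).prod volume) :=
    GradA_integrable (R := R4) ((c1.clm_apply continuous_const).smul c6) fun z v hz hv => by simp [hR4 z v hz hv]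
  have i2 : Integrable (fun q : R3 × R3 =>
      h (cq t x q) • (fderiv ℝ a q (w, 0) + fderiv ℝ b q (relVel q.2, 0)))
      ((volume.restrict (ball (0 : R3) t)).prod volume) :=
    GradA_integrable (R := R1) (c3.smul ((c4.clm_apply continuous_const).add
      (c5.clm_apply (c2.prodMk continuous_const)))) fun z v hz hv => by simp [hR1 z v hz hv]
  have i3 : Integrable (fun q : R3 × R3 => fderiv ℝ b q (0, H (cq t x q)))
      ((volume.restrict (ball (0 : R3) t)).prod volume) :=
    GradA_integrable (R := R2) (c5.clm_apply (continuous_const.prodMk c3')) fun z v hz hv => by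
      rw [hR2 z v hz hv, Prod.mk_zero_zero, map_zero]
  have i4 : Integrable (fun q : R3 × R3 => g (cq t x q) • b q)
      ((volume.restrict (ball (0 : R3) t)).prod volume) :=
    GradA_integrable (R := R3') (c3''.smul c7) fun z v hz hv => by simp [hR3 z v hz hv]
  have i5 : Integrable (fun q : R3 × R3 => fderiv ℝ h (cq t x q) (1, relVel q.2, 0) • b q)
      ((volume.restrict (ball (0 : R3) t)).prod volume) :=
    GradA_integrable (R := R5) ((c1.clm_apply (continuous_const.prodMk
      (c2.prodMk continuous_const))).smul c7) fun z v hz hv => by simp [hR5 z v hz hv]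
  have iP : Integrable (GradA_P h a b t x w)
      ((volume.restrict (ball (0 : R3) t)).prod volume) := (i2.sub i1).sub i5
  have iS : Integrable (fun q : R3 × R3 => fderiv ℝ b q (0, H (cq t x q)) + g (cq t x q) • b q -
      fderiv ℝ h (cq t x q) (1, relVel q.2, 0) • b q)
      ((volume.restrict (ball (0 : R3) t)).prod volume) := (i3.add i4).sub i5
  have e1 : ∫ q, GradA_P h a b t x w q ∂((volume.restrict (ball (0 : R3) t)).prod volume) = 0 := by
    rw [integral_prod_symm _ iP]
    simp only [fun v => GradA_int_P hh h0 ha hb ht x w v fun z => hab (z, v), integral_zero]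
  have e2 : ∫ q : R3 × R3, (fderiv ℝ b q (0, H (cq t x q)) + g (cq t x q) • b q -
      fderiv ℝ h (cq t x q) (1, relVel q.2, 0) • b q)
      ∂((volume.restrict (ball (0 : R3) t)).prod volume) = 0 := by
    rw [integral_prod _ iS]
    refine integral_eq_zero_of_ae ?_
    filter_upwards [ae_restrict_mem measurableSet_ball] with z hzt
    have hs : t - ‖z‖ ∈ Icc 0 t :=
      ⟨sub_nonneg.2 (mem_ball_zero_iff.1 hzt).le, sub_le_self _ (norm_nonneg _)⟩
    refine Eq.trans ?_ (GradA_int_v hH vH hb t x z)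
    refine integral_congr_ae (Eventually.of_forall fun v => ?_)
    have h1 : fderiv ℝ h (cq t x (z, v)) (1, relVel v, 0) = _ := htr (cq t x (z, v)) hs
    simp only [h1]
    module
  rw [Measure.volume_eq_prod, ← Measure.restrict_prod_eq_prod_univ]
  have e3 := integral_sub iP iS
  rw [e1, e2, sub_zero] at e3
  have iR : Integrable (fun q : R3 × R3 =>
      h (cq t x q) • (fderiv ℝ a q (w, 0) + fderiv ℝ b q (relVel q.2, 0)) -
        fderiv ℝ b q (0, H (cq t x q)) - g (cq t x q) • b q)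
      ((volume.restrict (ball (0 : R3) t)).prod volume) := (i2.sub i3).sub i4
  rw [← sub_eq_zero, ← integral_sub i1 iR, ← neg_eq_zero, ← integral_neg]
  refine Eq.trans ?_ e3
  refine integral_congr_ae (Eventually.of_forall fun q => ?_)
  simp only [GradA_P]
  module

end Crest.Agent.R106
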