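import Crest.Agent.R106.Homog
import Crest.Agent.R106.GSA
import Crest.Agent.R106.BdLem

/-!
# Row 106: auxiliary lemmas for `grad_log` (kernels, cut-off, dominating integral)
-/

set_option autoImplicit false
set_option linter.unusedVariables false
set_option linter.unusedSectionVars false

open MeasureTheory Metric Set Filter Topology
open scoped ContDiff ENNReal RealInnerProductSpace
open Crest.AnalysisR.VecCalc3 Crest.AnalysisR.PDE.RVM

noncomputable section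

namespace Crest.Agent.R106

/-- parameters `(w, W, v, e, b)` -/
abbrev GLY : Type := R3 × R3 × R3 × R3 × R3

/-- the full kernel, made homogeneous of degree `-2` -/
def glK (q : R3 × GLY) : R3 :=
  kT 1 q.2.2.1 q.1 q.2.2.2.1 +
    ‖q.1‖⁻¹ • kS 1 q.2.2.1 q.1 q.2.2.2.1 (lor q.2.2.2.2.1 q.2.2.2.2.2 q.2.2.2.1)

/-- the kernel times `n·w/θ²` -/
def glN (q : R3 × GLY) : R3 := (⟪nz q.1, q.2.1⟫ / pp q.1 q.2.2.2.1) • glK q

theorem GradLog_nz_smul {c : ℝ} (hc : 0 < c) (z : R3) : nz (c • z) = nz z := by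
  unfold nz
  rw [norm_smul, Real.norm_eq_abs, abs_of_pos hc, smul_smul, mul_inv, mul_comm c⁻¹, mul_assoc,
    inv_mul_cancel₀ hc.ne', mul_one]

theorem GradLog_pp_smul {c : ℝ} (hc : 0 < c) (z v : R3) : pp (c • z) v = pp z v := by
  unfold pp; rw [GradLog_nz_smul hc]

theorem GradLog_glK_homog (c : ℝ) (z : R3) (y : GLY) (hc : 0 < c) (hz : z ≠ 0) :
    glK (c • z, y) = (c ^ 2)⁻¹ • glK (z, y) := by
  have hr : ‖z‖ ≠ 0 := norm_ne_zero_iff.mpr hz
  unfold glK kT kS radK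
  simp only [GradLog_nz_smul hc, GradLog_pp_smul hc, norm_smul, Real.norm_eq_abs, abs_of_pos hc,
    smul_add, smul_smul]
  congr 1
  · congr 1
    rw [← mul_inv]; congr 1; ring
  · congr 1 <;> congr 1 <;> field_simp

theorem GradLog_glN_homog (c : ℝ) (z : R3) (y : GLY) (hc : 0 < c) (hz : z ≠ 0) :
    glN (c • z, y) = (c ^ 2)⁻¹ • glN (z, y) := by
  unfold glN
  rw [GradLog_glK_homog c z y hc hz]
  simp only [GradLog_nz_smul hc, GradLog_pp_smul hc]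
  rw [smul_comm]

section smooth
variable {X : Type*} [NormedAddCommGroup X] [NormedSpace ℝ X] {z v K W : X → R3} {p : X}

theorem GradLog_cd_nz (hz : ContDiffAt ℝ 1 z p) (h0 : z p ≠ 0) :
    ContDiffAt ℝ 1 (fun p => nz (z p)) p :=
  ((contDiffAt_nz h0).of_le (by exact_mod_cast le_top)).comp p hz

theorem GradLog_cd_rv (hv : ContDiffAt ℝ 1 v p) : ContDiffAt ℝ 1 (fun p => relVel (v p)) p :=
  (contDiff_relVel.of_le (by exact_mod_cast le_top)).contDiffAt.comp p hv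

theorem GradLog_cd_en (hv : ContDiffAt ℝ 1 v p) : ContDiffAt ℝ 1 (fun p => en (v p)) p :=
  (contDiff_en.of_le (by exact_mod_cast le_top)).contDiffAt.comp p hv

theorem GradLog_cd_pp (hz : ContDiffAt ℝ 1 z p) (h0 : z p ≠ 0) (hv : ContDiffAt ℝ 1 v p) :
    ContDiffAt ℝ 1 (fun p => pp (z p) (v p)) p := by
  unfold pp ang
  exact contDiffAt_const.sub ((GradLog_cd_rv hv).inner ℝ (GradLog_cd_nz hz h0))

theorem GradLog_cd_accK (hv : ContDiffAt ℝ 1 v p) (hK : ContDiffAt ℝ 1 K p) :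
    ContDiffAt ℝ 1 (fun p => accK (v p) (K p)) p := by
  unfold accK
  exact ((GradLog_cd_en hv).inv (en_pos _).ne').smul
    (hK.sub (((GradLog_cd_rv hv).inner ℝ hK).smul (GradLog_cd_rv hv)))

theorem GradLog_cd_radK (hz : ContDiffAt ℝ 1 z p) (h0 : z p ≠ 0) (hv : ContDiffAt ℝ 1 v p)
    (hK : ContDiffAt ℝ 1 K p) : ContDiffAt ℝ 1 (fun p => radK (z p) (v p) (K p)) p := by
  unfold radK
  exact (((GradLog_cd_pp hz h0 hv).pow 2).inv (pow_ne_zero 2 (pp_pos _ _).ne')).smul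
    ((((GradLog_cd_nz hz h0).inner ℝ (GradLog_cd_accK hv hK)).smul
      ((GradLog_cd_nz hz h0).sub (GradLog_cd_rv hv))).sub
      ((GradLog_cd_pp hz h0 hv).smul (GradLog_cd_accK hv hK)))

theorem GradLog_cd_kS (hW : ContDiffAt ℝ 1 W p) (hz : ContDiffAt ℝ 1 z p) (h0 : z p ≠ 0)
    (hv : ContDiffAt ℝ 1 v p) (hK : ContDiffAt ℝ 1 K p) :
    ContDiffAt ℝ 1 (fun p => kS 1 (W p) (z p) (v p) (K p)) p := by
  unfold kS
  exact ((hz.norm ℝ h0).inv (norm_ne_zero_iff.mpr h0)).smul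
    (((contDiffAt_const.sub ((GradLog_cd_nz hz h0).inner ℝ hW)).smul
      (GradLog_cd_radK hz h0 hv hK)).add
      ((hW.inner ℝ (GradLog_cd_radK hz h0 hv hK)).smul (GradLog_cd_nz hz h0)))

theorem GradLog_cd_kT (hW : ContDiffAt ℝ 1 W p) (hz : ContDiffAt ℝ 1 z p) (h0 : z p ≠ 0)
    (hv : ContDiffAt ℝ 1 v p) : ContDiffAt ℝ 1 (fun p => kT 1 (W p) (z p) (v p)) p := by
  unfold kT
  refine (((((GradLog_cd_en hv).pow 2).mul ((hz.norm ℝ h0).pow 2)).mul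
    ((GradLog_cd_pp hz h0 hv).pow 2)).inv ?_).smul
    (((contDiffAt_const.sub ((GradLog_cd_rv hv).inner ℝ hW)).smul (GradLog_cd_nz hz h0)).sub
      ((contDiffAt_const.sub ((GradLog_cd_nz hz h0).inner ℝ hW)).smul (GradLog_cd_rv hv)))
  have h1 := en_pos (v p)
  have h2 := pp_pos (z p) (v p)
  have h3 : 0 < ‖z p‖ := norm_pos_iff.mpr h0
  positivity

end smooth

theorem GradLog_cd_glK (q : R3 × GLY) (hq : q.1 ≠ 0) : ContDiffAt ℝ 1 glK q := by
  have hl : ContDiffAt ℝ 1 (fun q : R3 × GLY => lor q.2.2.2.2.1 q.2.2.2.2.2 q.2.2.2.1) q := by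
    have h1 : ContDiff ℝ 1 (fun q : R3 × GLY => (q.2.2.2.2.1, q.2.2.2.2.2, q.2.2.2.1)) := by
      fun_prop
    exact ((contDiff_lor.of_le (by exact_mod_cast le_top)).comp h1).contDiffAt
  have hz : ContDiffAt ℝ 1 (fun q : R3 × GLY => q.1) q := contDiffAt_fst
  have hW : ContDiffAt ℝ 1 (fun q : R3 × GLY => q.2.2.1) q := by fun_prop
  have hv : ContDiffAt ℝ 1 (fun q : R3 × GLY => q.2.2.2.1) q := by fun_prop
  exact (GradLog_cd_kT hW hz hq hv).add
    (((hz.norm ℝ hq).inv (norm_ne_zero_iff.mpr hq)).smul (GradLog_cd_kS hW hz hq hv hl))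

theorem GradLog_cd_glN (q : R3 × GLY) (hq : q.1 ≠ 0) : ContDiffAt ℝ 1 glN q := by
  have hz : ContDiffAt ℝ 1 (fun q : R3 × GLY => q.1) q := contDiffAt_fst
  have hw : ContDiffAt ℝ 1 (fun q : R3 × GLY => q.2.1) q := by fun_prop
  have hv : ContDiffAt ℝ 1 (fun q : R3 × GLY => q.2.2.2.1) q := by fun_prop
  exact (((GradLog_cd_nz hz hq).inner ℝ hw).div (GradLog_cd_pp hz hq hv) (pp_pos _ _).ne').smul
    (GradLog_cd_glK q hq)

theorem GradLog_lor_smul (c : ℝ) (e b v : R3) : lor (c • e) (c • b) v = c • lor e b v := by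
  obtain ⟨L, hL⟩ := exists_crossL
  unfold lor
  rw [← hL, ← hL, map_smul, smul_add]

theorem GradLog_kS_add (a₀ : ℝ) (a z v K K' : R3) :
    kS a₀ a z v (K + K') = kS a₀ a z v K + kS a₀ a z v K' := by
  have h1 : accK v (K + K') = accK v K + accK v K' := by
    unfold accK; rw [inner_add_right]; module
  have h2 : radK z v (K + K') = radK z v K + radK z v K' := by
    unfold radK; rw [h1, inner_add_right]; module
  unfold kS; rw [h2, inner_add_right]; module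

theorem GradLog_glK_eq (w W v e b : R3) {z : R3} (hz : z ≠ 0) :
    glK (z, w, W, v, ‖z‖ • e, ‖z‖ • b) = kT 1 W z v + kS 1 W z v (lor e b v) := by
  unfold glK
  simp only
  rw [GradLog_lor_smul, kS_smul, smul_smul, inv_mul_cancel₀ (norm_ne_zero_iff.mpr hz), one_smul]

/-- the cut-off -/
def glEta (a : ℝ) (z : R3) : ℝ := Real.smoothTransition (a * ‖z‖ - 1)

theorem GradLog_eta_zero {a : ℝ} (ha : 0 < a) {z : R3} (hz : ‖z‖ ≤ a⁻¹) : glEta a z = 0 := by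
  unfold glEta
  apply Real.smoothTransition.zero_of_nonpos
  have : a * ‖z‖ ≤ a * a⁻¹ := mul_le_mul_of_nonneg_left hz ha.le
  rw [mul_inv_cancel₀ ha.ne'] at this
  linarith

theorem GradLog_eta_nonneg (a : ℝ) (z : R3) : 0 ≤ glEta a z := Real.smoothTransition.nonneg _

theorem GradLog_eta_le_one (a : ℝ) (z : R3) : glEta a z ≤ 1 := Real.smoothTransition.le_one _

theorem GradLog_eta_div {a : ℝ} (ha : 0 < a) (z : R3) :
    glEta a z / ‖z‖ ≤ 2 * (‖z‖ + a⁻¹)⁻¹ := by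
  have hs : 0 < a⁻¹ := inv_pos.mpr ha
  by_cases h : ‖z‖ ≤ a⁻¹
  · rw [GradLog_eta_zero ha h, zero_div]; positivity
  · push Not at h
    have hr : 0 < ‖z‖ := hs.trans h
    rw [div_le_iff₀ hr, mul_assoc, ← div_eq_inv_mul, ← mul_div_assoc, le_div_iff₀ (by positivity)]
    have := GradLog_eta_le_one a z
    nlinarith [GradLog_eta_nonneg a z]

theorem GradLog_eta_compl {a : ℝ} (ha : 0 < a) (z : R3) :
    (1 - glEta a z) * a ≤ 3 * (‖z‖ + a⁻¹)⁻¹ := by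
  have hs : 0 < a⁻¹ := inv_pos.mpr ha
  by_cases h : 2 ≤ a * ‖z‖
  · have : glEta a z = 1 := Real.smoothTransition.one_of_one_le (by linarith)
    rw [this, sub_self, zero_mul]; positivity
  · push Not at h
    rw [← div_eq_mul_inv, le_div_iff₀ (by positivity)]
    have h1 : a * (‖z‖ + a⁻¹) ≤ 3 := by
      rw [mul_add, mul_inv_cancel₀ ha.ne']; linarith
    have h2 : 0 ≤ a * (‖z‖ + a⁻¹) := by positivity
    have := GradLog_eta_nonneg a z
    nlinarith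

theorem GradLog_eta_cd (a : ℝ) {z : R3} (hz : z ≠ 0) : ContDiffAt ℝ 1 (glEta a) z :=
  (Real.smoothTransition.contDiff (n := 1)).contDiffAt.comp z
    ((contDiffAt_const.mul (contDiffAt_id.norm ℝ hz)).sub contDiffAt_const)

theorem GradLog_st_bound : ∃ c : ℝ, 0 ≤ c ∧ ∀ x : ℝ, -1 ≤ x →
    |deriv Real.smoothTransition x| * (x + 2) ≤ c := by
  have hc : Continuous fun x => |deriv Real.smoothTransition x| * (x + 2) :=
    ((Real.smoothTransition.contDiff (n := 1)).continuous_deriv le_rfl).abs.mul (by fun_prop)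
  obtain ⟨c, hc'⟩ := (isCompact_Icc (a := (-1 : ℝ)) (b := 1)).bddAbove_image hc.continuousOn
  refine ⟨max c 0, le_max_right _ _, fun x hx => ?_⟩
  by_cases h : x ≤ 1
  · exact (hc' ⟨x, ⟨hx, h⟩, rfl⟩).trans (le_max_left _ _)
  · push Not at h
    have : deriv Real.smoothTransition x = 0 := by
      have he : Real.smoothTransition =ᶠ[𝓝 x] fun _ => (1 : ℝ) := by
        filter_upwards [Ioi_mem_nhds h] with y hy
        exact Real.smoothTransition.one_of_one_le (le_of_lt hy)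
      rw [he.deriv_eq, deriv_const]
    rw [this, abs_zero, zero_mul]
    exact le_max_right _ _

theorem GradLog_eta_der : ∃ c : ℝ, 0 ≤ c ∧ ∀ a : ℝ, 0 < a → ∀ z u : R3, z ≠ 0 →
    |fderiv ℝ (glEta a) z u| ≤ c * (‖z‖ + a⁻¹)⁻¹ * ‖u‖ := by
  obtain ⟨c, hc0, hc⟩ := GradLog_st_bound
  refine ⟨c, hc0, fun a ha z u hz => ?_⟩
  have hn : HasFDerivAt (fun z : R3 => ‖z‖) (fderiv ℝ (fun z : R3 => ‖z‖) z) z :=
    ((contDiffAt_id.norm ℝ hz : ContDiffAt ℝ 1 (fun z : R3 => ‖z‖) z).differentiableAt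
      one_ne_zero).hasFDerivAt
  have h1 : HasFDerivAt (fun z : R3 => a * ‖z‖ - 1) (a • fderiv ℝ (fun z : R3 => ‖z‖) z) z :=
    (hn.const_mul a).sub_const 1
  have h2 : HasDerivAt Real.smoothTransition (deriv Real.smoothTransition (a * ‖z‖ - 1))
      (a * ‖z‖ - 1) :=
    (((Real.smoothTransition.contDiff (n := 1)).differentiable one_ne_zero) _).hasDerivAt
  have h3 := h2.comp_hasFDerivAt z h1
  have h4 : fderiv ℝ (glEta a) z = _ := h3.fderiv
  rw [h4]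
  simp only [ContinuousLinearMap.smul_apply, smul_eq_mul]
  rw [fderiv_norm' hz, abs_mul, abs_mul, abs_of_pos ha]
  have hi : |⟪nz z, u⟫| ≤ ‖u‖ := by
    calc |⟪nz z, u⟫| ≤ ‖nz z‖ * ‖u‖ := abs_real_inner_le_norm _ _
      _ ≤ 1 * ‖u‖ := by gcongr; exact norm_nz_le z
      _ = ‖u‖ := one_mul _
  have hs : 0 < a⁻¹ := inv_pos.mpr ha
  have hx := hc (a * ‖z‖ - 1) (by have : 0 ≤ a * ‖z‖ := by positivity
                                  linarith)
  have ha' : a = (a * ‖z‖ - 1 + 2) * (‖z‖ + a⁻¹)⁻¹ := by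
    field_simp; ring
  calc |deriv Real.smoothTransition (a * ‖z‖ - 1)| * (a * |⟪nz z, u⟫|)
      ≤ |deriv Real.smoothTransition (a * ‖z‖ - 1)| * (a * ‖u‖) := by gcongr
    _ = (|deriv Real.smoothTransition (a * ‖z‖ - 1)| * (a * ‖z‖ - 1 + 2)) *
          (‖z‖ + a⁻¹)⁻¹ * ‖u‖ := by
        conv_lhs => rw [mul_comm a ‖u‖]
        calc _ = |deriv Real.smoothTransition (a * ‖z‖ - 1)| * ‖u‖ * a := by ring
          _ = |deriv Real.smoothTransition (a * ‖z‖ - 1)| * ‖u‖ *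
              ((a * ‖z‖ - 1 + 2) * (‖z‖ + a⁻¹)⁻¹) := by rw [← ha']
          _ = _ := by ring
    _ ≤ c * (‖z‖ + a⁻¹)⁻¹ * ‖u‖ := by gcongr

/-- the cut-off kernel is `C¹` -/
theorem GradLog_cut_cd {k : R3 × GLY → R3} (hk : ∀ q : R3 × GLY, q.1 ≠ 0 → ContDiffAt ℝ 1 k q)
    {Ψ : R3 × R3 → GLY} (hΨ : ∀ q : R3 × R3, q.1 ≠ 0 → ContDiffAt ℝ 1 Ψ q) {a : ℝ} (ha : 0 < a) :
    ContDiff ℝ 1 fun q : R3 × R3 => glEta a q.1 • k (q.1, Ψ q) := by
  rw [contDiff_iff_contDiffAt]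
  intro q
  by_cases hq : q.1 = 0
  · have he : (fun q : R3 × R3 => glEta a q.1 • k (q.1, Ψ q)) =ᶠ[𝓝 q] fun _ => 0 := by
      have : {p : R3 × R3 | ‖p.1‖ < a⁻¹} ∈ 𝓝 q := by
        apply (isOpen_lt (by fun_prop) continuous_const).mem_nhds
        simp [hq, ha]
      filter_upwards [this] with p hp
      rw [GradLog_eta_zero ha (le_of_lt hp), zero_smul]
    exact contDiffAt_const.congr_of_eventuallyEq he
  · exact ((GradLog_eta_cd a hq).comp q contDiffAt_fst).smul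
      ((hk (q.1, Ψ q) hq).comp q (contDiffAt_fst.prodMk (hΨ q hq)))

/-- derivative bound for the cut-off kernel -/
theorem GradLog_cut_der {k : R3 × GLY → R3} (hk : ∀ q : R3 × GLY, q.1 ≠ 0 → ContDiffAt ℝ 1 k q)
    {Ψ : R3 × R3 → GLY} {a c C M : ℝ} (ha : 0 < a) (hC : 0 ≤ C) (hc0 : 0 ≤ c) (hM : 0 ≤ M)
    {q : R3 × R3} (hq : q.1 ≠ 0) (hΨ : DifferentiableAt ℝ Ψ q)
    (hc : ∀ u : R3, |fderiv ℝ (glEta a) q.1 u| ≤ c * (‖q.1‖ + a⁻¹)⁻¹ * ‖u‖)
    (h0 : ‖k (q.1, Ψ q)‖ ≤ C / ‖q.1‖ ^ 2)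
    (h1 : ∀ u, ‖fderiv ℝ k (q.1, Ψ q) (u, 0)‖ ≤ C * ‖u‖ / ‖q.1‖ ^ (2 + 1))
    (h2 : ∀ u, ‖fderiv ℝ k (q.1, Ψ q) (0, u)‖ ≤ C * ‖u‖ / ‖q.1‖ ^ 2)
    (hd : ∀ u, ‖fderiv ℝ Ψ q u‖ ≤ M * ‖u.1‖ + ‖u.2‖) (u : R3 × R3) :
    ‖fderiv ℝ (fun q : R3 × R3 => glEta a q.1 • k (q.1, Ψ q)) q u‖ ≤
      C / ‖q.1‖ ^ 2 * (((c + 2) * (‖q.1‖ + a⁻¹)⁻¹ + M) * ‖u.1‖ + ‖u.2‖) := by
  have hr : 0 < ‖q.1‖ := norm_pos_iff.mpr hq
  have e1 : HasFDerivAt (fun q : R3 × R3 => glEta a q.1)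
      ((fderiv ℝ (glEta a) q.1).comp (ContinuousLinearMap.fst ℝ R3 R3)) q :=
    ((GradLog_eta_cd a hq).differentiableAt one_ne_zero).hasFDerivAt.comp q hasFDerivAt_fst
  have e2 : HasFDerivAt (fun q : R3 × R3 => k (q.1, Ψ q))
      ((fderiv ℝ k (q.1, Ψ q)).comp ((ContinuousLinearMap.fst ℝ R3 R3).prod (fderiv ℝ Ψ q))) q :=
    ((hk (q.1, Ψ q) hq).differentiableAt one_ne_zero).hasFDerivAt.comp q
      (hasFDerivAt_fst.prodMk hΨ.hasFDerivAt)
  have e3 := (e1.smul e2).fderiv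
  have e4 : fderiv ℝ (fun q : R3 × R3 => glEta a q.1 • k (q.1, Ψ q)) q u =
      glEta a q.1 • (fderiv ℝ k (q.1, Ψ q) (u.1, 0) + fderiv ℝ k (q.1, Ψ q) (0, fderiv ℝ Ψ q u)) +
        fderiv ℝ (glEta a) q.1 u.1 • k (q.1, Ψ q) := by
    have := congrArg (fun L => L u) e3
    simp only [ContinuousLinearMap.add_apply, ContinuousLinearMap.smul_apply,
      ContinuousLinearMap.comp_apply, ContinuousLinearMap.prod_apply,
      ContinuousLinearMap.smulRight_apply, ContinuousLinearMap.coe_fst'] at this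
    refine Eq.trans this ?_
    rw [← map_add]
    simp
  rw [e4]
  set ρ := (‖q.1‖ + a⁻¹)⁻¹ with hρ
  set η := glEta a q.1 with hη
  have hη0 : 0 ≤ η := GradLog_eta_nonneg _ _
  have hη1 : η ≤ 1 := GradLog_eta_le_one _ _
  have hηr : η / ‖q.1‖ ≤ 2 * ρ := GradLog_eta_div ha _
  have hA : 0 ≤ C / ‖q.1‖ ^ 2 := by positivity
  have b1 : ‖η • fderiv ℝ k (q.1, Ψ q) (u.1, 0)‖ ≤ C / ‖q.1‖ ^ 2 * (2 * ρ * ‖u.1‖) := by
    rw [norm_smul, Real.norm_eq_abs, abs_of_nonneg hη0]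
    calc η * ‖fderiv ℝ k (q.1, Ψ q) (u.1, 0)‖ ≤ η * (C * ‖u.1‖ / ‖q.1‖ ^ (2 + 1)) := by
          gcongr; exact h1 _
      _ = C / ‖q.1‖ ^ 2 * (η / ‖q.1‖ * ‖u.1‖) := by field_simp
      _ ≤ _ := by gcongr
  have b2 : ‖η • fderiv ℝ k (q.1, Ψ q) (0, fderiv ℝ Ψ q u)‖ ≤
      C / ‖q.1‖ ^ 2 * (M * ‖u.1‖ + ‖u.2‖) := by
    rw [norm_smul, Real.norm_eq_abs, abs_of_nonneg hη0]
    calc η * ‖fderiv ℝ k (q.1, Ψ q) (0, fderiv ℝ Ψ q u)‖
        ≤ 1 * (C * ‖fderiv ℝ Ψ q u‖ / ‖q.1‖ ^ 2) := by gcongr; exact h2 _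
      _ = C / ‖q.1‖ ^ 2 * ‖fderiv ℝ Ψ q u‖ := by ring
      _ ≤ _ := by gcongr; exact hd u
  have b3 : ‖fderiv ℝ (glEta a) q.1 u.1 • k (q.1, Ψ q)‖ ≤ C / ‖q.1‖ ^ 2 * (c * ρ * ‖u.1‖) := by
    rw [norm_smul, Real.norm_eq_abs, mul_comm]
    exact mul_le_mul h0 (hc _) (abs_nonneg _) hA
  calc _ ≤ ‖η • fderiv ℝ k (q.1, Ψ q) (u.1, 0)‖ +
        ‖η • fderiv ℝ k (q.1, Ψ q) (0, fderiv ℝ Ψ q u)‖ +
        ‖fderiv ℝ (glEta a) q.1 u.1 • k (q.1, Ψ q)‖ := by
        rw [smul_add]; exact norm_add₃_le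
    _ ≤ _ := by nlinarith

/-- the dominating function on the cone -/
theorem GradLog_dom {m : ℝ → ℝ} (hm : Continuous m) {t : ℝ} (ht : 0 ≤ t) (R c : ℝ)
    {F : R3 × R3 → R3}
    (hF0 : ∀ q : R3 × R3, q.1 ≠ 0 → ‖q.1‖ < t → R < ‖q.2‖ → F q = 0)
    (hF1 : ∀ q : R3 × R3, q.1 ≠ 0 → ‖q.1‖ < t → ‖q.2‖ ≤ R →
      ‖F q‖ ≤ c * (m (t - ‖q.1‖) / ‖q.1‖ ^ 2)) :
    ‖∫ q in ball (0 : R3) t ×ˢ univ, F q‖ ≤
        c * (4 * Real.pi * ∫ s in (0 : ℝ)..t, m s) * (volume (closedBall (0 : R3) R)).toReal ∧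
      (AEStronglyMeasurable F (volume.restrict (ball (0 : R3) t ×ˢ univ)) →
        IntegrableOn F (ball (0 : R3) t ×ˢ univ)) := by
  obtain ⟨hi, he⟩ := integral_ball_retarded hm ht
  set φ : R3 → ℝ := fun z => c * (m (t - ‖z‖) / ‖z‖ ^ 2) with hφ
  set ψ : R3 → ℝ := (closedBall (0 : R3) R).indicator fun _ => 1 with hψ
  have hμ : (volume : Measure (R3 × R3)).restrict (ball (0 : R3) t ×ˢ univ) =
      (volume.restrict (ball (0 : R3) t)).prod volume := by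
    rw [Measure.volume_eq_prod, ← Measure.prod_restrict, Measure.restrict_univ]
  have iφ : Integrable φ (volume.restrict (ball (0 : R3) t)) := hi.const_mul c
  have iψ : Integrable ψ volume :=
    (integrable_indicator_iff measurableSet_closedBall).mpr
      (integrableOn_const (measure_closedBall_lt_top).ne)
  have iG : Integrable (fun q : R3 × R3 => φ q.1 * ψ q.2)
      (volume.restrict (ball (0 : R3) t ×ˢ univ)) := by
    rw [hμ]; exact iφ.mul_prod iψ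
  have hb : ∀ᵐ q ∂(volume.restrict (ball (0 : R3) t ×ˢ (univ : Set R3))),
      ‖F q‖ ≤ φ q.1 * ψ q.2 := by
    rw [ae_restrict_iff' (measurableSet_ball.prod MeasurableSet.univ)]
    filter_upwards [ae_fst_ne_zero] with q hq hm'
    have h1 : ‖q.1‖ < t := by simpa using hm'.1
    by_cases h2 : ‖q.2‖ ≤ R
    · have : ψ q.2 = 1 := by
        rw [hψ, indicator_of_mem (by simpa using h2)]
      rw [this, mul_one]
      exact hF1 q hq h1 h2
    · have : ψ q.2 = 0 := by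
        rw [hψ, indicator_of_notMem (by simpa using h2)]
      rw [this, mul_zero, hF0 q hq h1 (not_le.mp h2), norm_zero]
  refine ⟨(norm_integral_le_of_norm_le iG hb).trans (le_of_eq ?_), fun hF => iG.mono' hF hb⟩
  rw [hμ, integral_prod_mul, hφ, integral_const_mul, he, hψ,
    integral_indicator measurableSet_closedBall]
  simp [Measure.real]

/-- the retarded weight and its integral -/
theorem GradLog_int {a t T : ℝ} (ha : 1 ≤ a) (ht : 0 ≤ t) (hT : t ≤ T) :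
    ∫ s in (0 : ℝ)..t, (|t - s| + a⁻¹)⁻¹ ≤ Real.log a + T := by
  have ha0 : 0 < a := by linarith
  have hs : 0 < a⁻¹ := inv_pos.mpr ha0
  have h1 : ∫ s in (0 : ℝ)..t, (|t - s| + a⁻¹)⁻¹ = ∫ s in (0 : ℝ)..t, (fun y => y⁻¹) (t + a⁻¹ - s) := by
    apply intervalIntegral.integral_congr
    intro s hs'
    rw [uIcc_of_le ht] at hs'
    simp only
    rw [abs_of_nonneg (by linarith [hs'.2])]
    congr 1; ring
  rw [h1, intervalIntegral.integral_comp_sub_left (fun y : ℝ => y⁻¹) (t + a⁻¹),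
    integral_inv_of_pos (by linarith) (by linarith)]
  have h2 : (t + a⁻¹ - 0) / (t + a⁻¹ - t) = a * (t + a⁻¹) := by
    field_simp; ring
  rw [h2, Real.log_mul ha0.ne' (by positivity)]
  have h3 : Real.log (t + a⁻¹) ≤ t + a⁻¹ - 1 := Real.log_le_sub_one_of_pos (by positivity)
  have h4 : a⁻¹ ≤ 1 := inv_le_one_of_one_le₀ ha
  linarith

theorem GradLog_curl_le {B : ST → R3} (hB : ContDiff ℝ ∞ B) {s L : ℝ} (h : Bx 1 B s L) (y : R3) :
    ‖curl3 (fun y => B (s, y)) y‖ ≤ 6 * L := by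
  have hd : HasFDerivAt (fun y => B (s, y))
      ((fderiv ℝ B (s, y)).comp (ContinuousLinearMap.inr ℝ ℝ R3)) y :=
    ((hB.differentiable (by simp)) (s, y)).hasFDerivAt.comp y
      ((hasFDerivAt_prodMk_right s y))
  have hp : ∀ i j : Fin 3, |pderiv (fun y => B (s, y) i) j y| ≤ L := by
    intro i j
    have h2 := ((EuclideanSpace.proj i : R3 →L[ℝ] ℝ).hasFDerivAt.comp y hd).fderiv
    unfold pderiv
    have h3 : fderiv ℝ (fun y => B (s, y) i) y (EuclideanSpace.single j 1) =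
        fderiv ℝ B (s, y) (0, EuclideanSpace.single j 1) i := by
      have := congrArg (fun L => L (EuclideanSpace.single j 1)) h2
      simpa [Function.comp_def] using this
    rw [h3]
    have h4 := bx_one hB h y (EuclideanSpace.single j 1)
    rw [EuclideanSpace.norm_single, norm_one, mul_one] at h4
    exact (PiLp.norm_apply_le (fderiv ℝ B (s, y) (0, EuclideanSpace.single j 1)) i).trans h4
  have hL : 0 ≤ L := h.nonneg
  have key : ∀ i j k l : Fin 3, (pderiv (fun y => B (s, y) i) j y -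
      pderiv (fun y => B (s, y) k) l y) ^ 2 ≤ (2 * L) ^ 2 := by
    intro i j k l
    apply sq_le_sq'
    · linarith [(abs_le.mp (hp i j)).1, (abs_le.mp (hp k l)).2]
    · linarith [(abs_le.mp (hp i j)).2, (abs_le.mp (hp k l)).1]
  rw [EuclideanSpace.norm_eq]
  apply Real.sqrt_le_iff.mpr
  refine ⟨by positivity, ?_⟩
  simp only [curl3, Fin.sum_univ_three, Real.norm_eq_abs, sq_abs]
  have k1 := key 2 1 1 2
  have k2 := key 0 2 2 0
  have k3 := key 1 0 0 1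
  simp only [Matrix.cons_val_zero, Matrix.cons_val_one, Matrix.cons_val]
  nlinarith

theorem GradLog_cross_le (b : R3) :
    ‖b‖ ≤ ‖cross3 (EuclideanSpace.single 0 1) b‖ + ‖cross3 (EuclideanSpace.single 1 1) b‖ := by
  have h1 : ‖b‖ ^ 2 ≤ ‖cross3 (EuclideanSpace.single 0 1) b‖ ^ 2 +
      ‖cross3 (EuclideanSpace.single 1 1) b‖ ^ 2 := by
    simp only [EuclideanSpace.norm_sq_eq, cross3, Fin.sum_univ_three, Real.norm_eq_abs, sq_abs]
    simp
    nlinarith [sq_nonneg (b 2)]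
  have h2 := norm_nonneg (cross3 (EuclideanSpace.single 0 1) b)
  have h3 := norm_nonneg (cross3 (EuclideanSpace.single 1 1) b)
  apply le_of_sq_le_sq _ (by positivity) |>.trans le_rfl
  nlinarith

end Crest.Agent.R106
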