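import Crest.Agent.R106.Defs

/-!
# Row 106: soft bounds for homogeneous kernels
-/

set_option autoImplicit false
set_option linter.unusedVariables false
set_option linter.unusedSectionVars false

open MeasureTheory Metric Set Filter Topology
open scoped ContDiff ENNReal RealInnerProductSpace
open Crest.AnalysisR.VecCalc3 Crest.AnalysisR.PDE.RVM

noncomputable section

namespace Crest.Agent.R106

/-- soft bounds for functions homogeneous in `z` -/
theorem homog_bound {F : Type*} [NormedAddCommGroup F] [NormedSpace ℝ F]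
    {Y : Type*} [NormedAddCommGroup Y] [NormedSpace ℝ Y] [FiniteDimensional ℝ Y]
    {a : R3 × Y → F} (ha : ∀ q : R3 × Y, q.1 ≠ 0 → ContDiffAt ℝ 1 a q) (m : ℕ)
    (hh : ∀ (c : ℝ) (z : R3) (y : Y), 0 < c → z ≠ 0 → a (c • z, y) = (c ^ m)⁻¹ • a (z, y))
    (R : ℝ) : ∃ C : ℝ, 0 ≤ C ∧ ∀ (z : R3) (y : Y), z ≠ 0 → ‖y‖ ≤ R →
      ‖a (z, y)‖ ≤ C / ‖z‖ ^ m ∧
      (∀ u, ‖fderiv ℝ a (z, y) (u, 0)‖ ≤ C * ‖u‖ / ‖z‖ ^ (m + 1)) ∧
      ∀ u, ‖fderiv ℝ a (z, y) (0, u)‖ ≤ C * ‖u‖ / ‖z‖ ^ m := by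
  have : ProperSpace Y := FiniteDimensional.proper_real Y
  have hK : IsCompact (sphere (0 : R3) 1 ×ˢ closedBall (0 : Y) R) :=
    (isCompact_sphere _ _).prod (isCompact_closedBall _ _)
  have hne : ∀ q ∈ sphere (0 : R3) 1 ×ˢ closedBall (0 : Y) R, q.1 ≠ 0 := by
    intro q hq h
    have := mem_sphere_zero_iff_norm.1 hq.1
    rw [h, norm_zero] at this
    exact zero_ne_one this
  obtain ⟨C1, hC1⟩ := hK.exists_bound_of_continuousOn (f := a)
    fun q hq => (ha q (hne q hq)).continuousAt.continuousWithinAt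
  obtain ⟨C2, hC2⟩ := hK.exists_bound_of_continuousOn (f := fderiv ℝ a)
    fun q hq => ((ha q (hne q hq)).continuousAt_fderiv (by simp)).continuousWithinAt
  refine ⟨max (max C1 C2) 0, le_max_right _ _, fun z y hz hy => ?_⟩
  set C := max (max C1 C2) 0 with hC
  have h1 : C1 ≤ C := (le_max_left _ _).trans (le_max_left _ _)
  have h2 : C2 ≤ C := (le_max_right _ _).trans (le_max_left _ _)
  have hC0 : 0 ≤ C := le_max_right _ _
  have hr : 0 < ‖z‖ := norm_pos_iff.2 hz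
  set c := ‖z‖ with hc
  have hmem : (c⁻¹ • z, y) ∈ sphere (0 : R3) 1 ×ˢ closedBall (0 : Y) R := by
    refine ⟨mem_sphere_zero_iff_norm.2 ?_, mem_closedBall_zero_iff.2 hy⟩
    rw [norm_smul, norm_inv, Real.norm_of_nonneg hr.le, ← hc, inv_mul_cancel₀ hr.ne']
  have key : ∀ (z' : R3) (y' : Y), z' ≠ 0 → a (z', y') = (c ^ m)⁻¹ • a (c⁻¹ • z', y') := by
    intro z' y' hz'
    rw [← hh c (c⁻¹ • z') y' hr (smul_ne_zero (inv_ne_zero hr.ne') hz'), smul_inv_smul₀ hr.ne']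
  let L : R3 × Y →L[ℝ] R3 × Y :=
    (c⁻¹ • ContinuousLinearMap.fst ℝ R3 Y).prod (ContinuousLinearMap.snd ℝ R3 Y)
  have hL : ∀ q : R3 × Y, L q = (c⁻¹ • q.1, q.2) := fun q => rfl
  have ev : a =ᶠ[𝓝 (z, y)] fun q => (c ^ m)⁻¹ • a (L q) := by
    have ho : IsOpen {q : R3 × Y | q.1 ≠ 0} := isOpen_ne_fun continuous_fst continuous_const
    filter_upwards [ho.mem_nhds (x := (z, y)) hz] with q hq
    exact key q.1 q.2 hq
  have hd : HasFDerivAt a (fderiv ℝ a (c⁻¹ • z, y)) (L (z, y)) :=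
    ((ha _ (hne _ hmem)).differentiableAt (by simp)).hasFDerivAt
  have hd2 := (hd.comp (z, y) L.hasFDerivAt).const_smul (c ^ m)⁻¹
  have hd3 : fderiv ℝ a (z, y) = (c ^ m)⁻¹ • (fderiv ℝ a (c⁻¹ • z, y)).comp L :=
    ev.fderiv_eq.trans hd2.fderiv
  have hb : ∀ p : R3 × Y, ‖fderiv ℝ a (z, y) p‖ ≤ (c ^ m)⁻¹ * (C * ‖L p‖) := by
    intro p
    rw [hd3, smul_apply, ContinuousLinearMap.comp_apply, norm_smul,
      Real.norm_of_nonneg (by positivity)]
    gcongr
    exact (ContinuousLinearMap.le_opNorm _ _).trans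
      (mul_le_mul_of_nonneg_right ((hC2 _ hmem).trans h2) (norm_nonneg _))
  refine ⟨?_, fun u => (hb _).trans (le_of_eq ?_), fun u => (hb _).trans (le_of_eq ?_)⟩
  · rw [key z y hz, norm_smul, Real.norm_of_nonneg (by positivity), div_eq_inv_mul]
    gcongr
    exact (hC1 _ hmem).trans h1
  · rw [hL, Prod.norm_mk, norm_zero, max_eq_left (norm_nonneg _), norm_smul, norm_inv,
      Real.norm_of_nonneg hr.le]
    field_simp
    ring
  · rw [hL, smul_zero, Prod.norm_mk, norm_zero, max_eq_right (norm_nonneg _)]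
    field_simp

end Crest.Agent.R106
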