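import Crest.Agent.R106.GradA
import Crest.Agent.R106.Homog
import Crest.Agent.R106.GS
import Crest.Agent.R106.GradLogAux

/-!
# Row 106: logarithmic bound for the gradient of the fields
-/

set_option autoImplicit false
set_option linter.unusedVariables false
set_option linter.unusedSectionVars false

open MeasureTheory Metric Set Filter Topology
open scoped ContDiff ENNReal RealInnerProductSpace
open Crest.AnalysisR.VecCalc3 Crest.AnalysisR.PDE.RVM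

noncomputable section

namespace Crest.Agent.R106

theorem GradLog_cd_cp (t : ℝ) (x : R3) {z : R3} (hz : z ≠ 0) : ContDiffAt ℝ 1 (cp t x) z :=
  (contDiffAt_const.sub (contDiffAt_id.norm ℝ hz)).prodMk (contDiffAt_const.sub contDiffAt_id)

theorem GradLog_field_cd {U : ST → R3} (hU : ContDiff ℝ ∞ U) (t : ℝ) (x : R3) {z : R3}
    (hz : z ≠ 0) : ContDiffAt ℝ 1 (fun z : R3 => ‖z‖ • U (cp t x z)) z :=
  (contDiffAt_id.norm ℝ hz).smul
    ((hU.of_le (by exact_mod_cast le_top)).contDiffAt.comp z (GradLog_cd_cp t x hz))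

theorem GradLog_field_der {U : ST → R3} (hU : ContDiff ℝ ∞ U) (t : ℝ) (x : R3) {z : R3}
    (hz : z ≠ 0) {B₀ P L T : ℝ} (h0 : ‖U (cp t x z)‖ ≤ B₀)
    (h1 : ‖fderiv ℝ U (cp t x z) (1, 0)‖ ≤ P)
    (h2 : ∀ u, ‖fderiv ℝ U (cp t x z) (0, u)‖ ≤ L * ‖u‖) (hT : ‖z‖ ≤ T) (u : R3) :
    ‖fderiv ℝ (fun z : R3 => ‖z‖ • U (cp t x z)) z u‖ ≤ (B₀ + T * (P + L)) * ‖u‖ := by
  have hn : HasFDerivAt (fun z : R3 => ‖z‖) (fderiv ℝ (fun z : R3 => ‖z‖) z) z :=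
    ((contDiffAt_id.norm ℝ hz : ContDiffAt ℝ 1 (fun z : R3 => ‖z‖) z).differentiableAt
      one_ne_zero).hasFDerivAt
  have hc : HasFDerivAt (cp t x)
      ((-fderiv ℝ (fun z : R3 => ‖z‖) z).prod (-ContinuousLinearMap.id ℝ R3)) z :=
    (hn.const_sub t).prodMk ((hasFDerivAt_id z).const_sub x)
  have hU' := ((hU.differentiable (by simp)) (cp t x z)).hasFDerivAt.comp z hc
  have e := (hn.smul hU').fderiv
  have e2 : fderiv ℝ (fun z : R3 => ‖z‖ • U (cp t x z)) z u =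
      ‖z‖ • (-(⟪nz z, u⟫ • fderiv ℝ U (cp t x z) (1, 0)) - fderiv ℝ U (cp t x z) (0, u)) +
        ⟪nz z, u⟫ • U (cp t x z) := by
    have := congrArg (fun L => L u) e
    simp only [add_apply, smul_apply, ContinuousLinearMap.comp_apply,
      ContinuousLinearMap.prod_apply, ContinuousLinearMap.smulRight_apply, neg_apply,
      ContinuousLinearMap.id_apply, fderiv_norm' hz, Function.comp_apply] at this
    refine Eq.trans this ?_
    congr 2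
    rw [← map_smul, ← map_neg, ← map_sub]
    congr 1
    simp
  rw [e2]
  have hi : |⟪nz z, u⟫| ≤ ‖u‖ := by
    calc |⟪nz z, u⟫| ≤ ‖nz z‖ * ‖u‖ := abs_real_inner_le_norm _ _
      _ ≤ 1 * ‖u‖ := by gcongr; exact norm_nz_le z
      _ = ‖u‖ := one_mul _
  have b1 : ‖-(⟪nz z, u⟫ • fderiv ℝ U (cp t x z) (1, 0)) - fderiv ℝ U (cp t x z) (0, u)‖ ≤
      (P + L) * ‖u‖ := by
    refine (norm_sub_le _ _).trans ?_
    rw [norm_neg, norm_smul, Real.norm_eq_abs, add_mul, mul_comm P]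
    exact add_le_add (mul_le_mul hi h1 (norm_nonneg _) (norm_nonneg _)) (h2 u)
  have b2 : ‖⟪nz z, u⟫ • U (cp t x z)‖ ≤ B₀ * ‖u‖ := by
    rw [norm_smul, Real.norm_eq_abs, mul_comm B₀]
    exact mul_le_mul hi h0 (norm_nonneg _) (norm_nonneg _)
  refine (norm_add_le _ _).trans ?_
  rw [norm_smul, norm_norm]
  have b3 := mul_le_mul hT b1 (norm_nonneg _) ((norm_nonneg _).trans hT)
  nlinarith

/-- the parameters of the kernel along the cone -/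
def glPsi (E B : ST → R3) (t : ℝ) (x w W : R3) (q : R3 × R3) : GLY :=
  (w, W, q.2, ‖q.1‖ • E (cp t x q.1), ‖q.1‖ • B (cp t x q.1))

theorem GradLog_psi_cd {E B : ST → R3} (hE : ContDiff ℝ ∞ E) (hB : ContDiff ℝ ∞ B) (t : ℝ)
    (x w W : R3) (q : R3 × R3) (hq : q.1 ≠ 0) : ContDiffAt ℝ 1 (glPsi E B t x w W) q :=
  contDiffAt_const.prodMk (contDiffAt_const.prodMk (contDiffAt_snd.prodMk
    (((GradLog_field_cd hE t x hq).comp q contDiffAt_fst).prodMk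
      ((GradLog_field_cd hB t x hq).comp q contDiffAt_fst))))

theorem GradLog_psi_der {E B : ST → R3} (hE : ContDiff ℝ ∞ E) (hB : ContDiff ℝ ∞ B) (t : ℝ)
    (x w W : R3) (q : R3 × R3) (hq : q.1 ≠ 0) {M : ℝ} (hM : 0 ≤ M)
    (h1 : ∀ u, ‖fderiv ℝ (fun z : R3 => ‖z‖ • E (cp t x z)) q.1 u‖ ≤ M * ‖u‖)
    (h2 : ∀ u, ‖fderiv ℝ (fun z : R3 => ‖z‖ • B (cp t x z)) q.1 u‖ ≤ M * ‖u‖) (u : R3 × R3) :
    ‖fderiv ℝ (glPsi E B t x w W) q u‖ ≤ M * ‖u.1‖ + ‖u.2‖ := by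
  have e1 := ((GradLog_field_cd hE t x hq).differentiableAt one_ne_zero).hasFDerivAt.comp q
    (hasFDerivAt_fst (𝕜 := ℝ) (p := q))
  have e2 := ((GradLog_field_cd hB t x hq).differentiableAt one_ne_zero).hasFDerivAt.comp q
    (hasFDerivAt_fst (𝕜 := ℝ) (p := q))
  have e3 := ((hasFDerivAt_const (𝕜 := ℝ) w q).prodMk ((hasFDerivAt_const (𝕜 := ℝ) W q).prodMk
    ((hasFDerivAt_snd (𝕜 := ℝ) (p := q)).prodMk (e1.prodMk e2)))).fderiv
  have e4 : fderiv ℝ (glPsi E B t x w W) q u = ((0 : R3), (0 : R3), u.2,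
      fderiv ℝ (fun z : R3 => ‖z‖ • E (cp t x z)) q.1 u.1,
      fderiv ℝ (fun z : R3 => ‖z‖ • B (cp t x z)) q.1 u.1) := by
    have := congrArg (fun L => L u) e3
    exact this
  rw [e4]
  have a1 := h1 u.1
  have a2 := h2 u.1
  have a3 := norm_nonneg u.2
  have a4 : 0 ≤ M * ‖u.1‖ := by positivity
  simp only [Prod.norm_def, norm_zero, max_le_iff]
  refine ⟨by linarith, by linarith, by linarith, by linarith, by linarith⟩

theorem GradLog_frc_der {E B : ST → R3} {f : PS → ℝ} (hE : ContDiff ℝ ∞ E) (hB : ContDiff ℝ ∞ B)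
    (hf : ContDiff ℝ ∞ f) (p : PS) (w : R3) :
    fderiv ℝ (frc E B f) p (0, w, 0) =
      fderiv ℝ f p (0, w, 0) • lor (E (p.1, p.2.1)) (B (p.1, p.2.1)) p.2.2 +
      f p • lor (fderiv ℝ E (p.1, p.2.1) (0, w)) (fderiv ℝ B (p.1, p.2.1) (0, w)) p.2.2 := by
  obtain ⟨L, hL⟩ := exists_crossL
  have hπ : HasFDerivAt (fun p : PS => ((p.1, p.2.1) : ST))
      ((ContinuousLinearMap.fst ℝ ℝ (R3 × R3)).prod
        ((ContinuousLinearMap.fst ℝ R3 R3).comp (ContinuousLinearMap.snd ℝ ℝ (R3 × R3)))) p :=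
    hasFDerivAt_fst.prodMk (hasFDerivAt_snd.fst)
  have hv : HasFDerivAt (fun p : PS => p.2.2)
      ((ContinuousLinearMap.snd ℝ R3 R3).comp (ContinuousLinearMap.snd ℝ ℝ (R3 × R3))) p :=
    hasFDerivAt_snd.snd
  have e1 := ((hE.differentiable (by simp)) (p.1, p.2.1)).hasFDerivAt.comp p hπ
  have e2 := ((hB.differentiable (by simp)) (p.1, p.2.1)).hasFDerivAt.comp p hπ
  have e3 := ((contDiff_relVel.differentiable (by simp)) p.2.2).hasFDerivAt.comp p hv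
  have e4 := (L.hasFDerivAt.comp p e3).clm_apply e2
  have e5 := ((hf.differentiable (by simp)) p).hasFDerivAt.smul (e1.add e4)
  have e6 : frc E B f = f • ((E ∘ fun p : PS => ((p.1, p.2.1) : ST)) + fun y =>
      (L ∘ relVel ∘ fun p : PS => p.2.2) y ((B ∘ fun p : PS => ((p.1, p.2.1) : ST)) y)) := by
    funext y
    simp [frc, lor, hL]
  rw [e6, e5.fderiv]
  simp [lor, hL, add_comm]

theorem GradLog_dx_zero {f : PS → ℝ} (hf : ContDiff ℝ ∞ f) {s : ℝ} {v : R3}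
    (h : ∀ y, f (s, y, v) = 0) (y w : R3) : fderiv ℝ f (s, y, v) (0, w, 0) = 0 := by
  have e1 : HasFDerivAt (fun y : R3 => ((s, y, v) : PS))
      ((0 : R3 →L[ℝ] ℝ).prod ((ContinuousLinearMap.id ℝ R3).prod (0 : R3 →L[ℝ] R3))) y :=
    (hasFDerivAt_const s y).prodMk ((hasFDerivAt_id y).prodMk (hasFDerivAt_const v y))
  have e2 := ((hf.differentiable (by simp)) (s, y, v)).hasFDerivAt.comp y e1
  have e3 : (f ∘ fun y : R3 => ((s, y, v) : PS)) = fun _ => 0 := funext h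
  rw [e3] at e2
  have e4 := e2.unique (hasFDerivAt_const 0 y)
  have := congrArg (fun L => L w) e4
  simpa using this

theorem GradLog_init_der {f : PS → ℝ} (hf : ContDiff ℝ ∞ f) (p u : PS) :
    fderiv ℝ (fun p : PS => f (0, p.2)) p u = fderiv ℝ f (0, p.2) (0, u.2) := by
  have e1 : HasFDerivAt (fun p : PS => ((0, p.2) : PS))
      ((0 : PS →L[ℝ] ℝ).prod (ContinuousLinearMap.snd ℝ ℝ (R3 × R3))) p :=
    (hasFDerivAt_const (0 : ℝ) p).prodMk hasFDerivAt_snd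
  have e2 := (((hf.differentiable (by simp)) (0, p.2)).hasFDerivAt.comp p e1).fderiv
  have := congrArg (fun L => L u) e2
  simpa [Function.comp_def] using this

theorem GradLog_key (T R B₀ D : ℝ) : ∃ C : ℝ, ∀ T' ≤ T, ∀ (f : PS → ℝ) (E B : ST → R3),
    Sol T' f E B → (∀ s ∈ Icc 0 T', VS f s R ∧ DBd 0 f E B s B₀) → DBd 4 f E B 0 D →
    ∀ (L : ℝ → ℝ) (a : ℝ), Continuous L → 1 ≤ a →
    (∀ s ∈ Icc 0 T', Bx 1 E s (L s) ∧ Bx 1 B s (L s) ∧ Bx 1 f s a) →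
    ∀ t ∈ Icc 0 T', 0 < t → ∀ x w W : R3, ‖w‖ ≤ 1 → ‖W‖ ≤ 1 →
      ‖fderiv ℝ E (t, x) (0, w) + cross3 W (fderiv ℝ B (t, x) (0, w))‖ ≤
        C * (1 + Real.log a + ∫ s in (0 : ℝ)..t, L s) := by
  obtain ⟨Cg, hCg0, hCg⟩ := gs_sharp T R
  obtain ⟨C₁, hC₁0, hC₁⟩ := homog_bound GradLog_cd_glK 2 GradLog_glK_homog (1 + |R| + T * B₀)
  obtain ⟨C₂, hC₂0, hC₂⟩ := homog_bound GradLog_cd_glN 2 GradLog_glN_homog (1 + |R| + T * B₀)
  obtain ⟨Cs, hCs0, hCs⟩ := kS_le R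
  obtain ⟨c, hc0, hc⟩ := GradLog_eta_der
  obtain ⟨Cj, hCj0, hCj⟩ := bx_cur 0 R
  obtain ⟨M₀, hM₀⟩ : ∃ M₀ : ℝ, M₀ = B₀ + T * (7 + Cj * B₀) := ⟨_, rfl⟩
  obtain ⟨c₁, hc₁⟩ : ∃ c₁ : ℝ, c₁ = 3 * C₁ + D * C₁ + 2 * B₀ * Cs * T := ⟨_, rfl⟩
  obtain ⟨c₂, hc₂⟩ : ∃ c₂ : ℝ,
    c₂ = 2 * B₀ * (C₁ + C₂) * (c + 2 + M₀) + 2 * C₂ * B₀ ^ 2 + D * C₂ := ⟨_, rfl⟩
  obtain ⟨V, hV⟩ : ∃ V : ℝ, V = (volume (closedBall (0 : R3) R)).toReal := ⟨_, rfl⟩
  refine ⟨Cg * D + (c₁ + c₂) * V * (1 + 2 * T), ?_⟩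
  intro T' hT' f E B hS hb hD L a hL ha hg t ht ht0 x w W hw hW
  have hf := hS.step.sf
  have hE := hS.step.sE
  have hB := hS.step.sB
  have hlin := hS.step.lin
  have h0T : (0 : ℝ) ∈ Icc 0 T' := ⟨le_rfl, ht.1.trans ht.2⟩
  have htT : t ≤ T := ht.2.trans hT'
  have hT0 : 0 ≤ T := ht.1.trans htT
  have hB₀ : 0 ≤ B₀ := ((hb 0 h0T).2 0 le_rfl).1.nonneg
  have hD0 : 0 ≤ D := (hD 0 (by norm_num)).1.nonneg
  have ha0 : 0 < a := by linarith
  have hσ : 0 < a⁻¹ := inv_pos.mpr ha0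
  have hV0 : 0 ≤ V := by rw [hV]; exact ENNReal.toReal_nonneg
  have hM₀0 : 0 ≤ M₀ := by rw [hM₀]; positivity
  have hc₁0 : 0 ≤ c₁ := by rw [hc₁]; positivity
  have hc₂0 : 0 ≤ c₂ := by rw [hc₂]; positivity
  have hw' : ‖((w, 0) : R3 × R3)‖ ≤ 1 := by simpa [Prod.norm_def] using hw
  -- the representation formula for the differentiated system
  have hrem := hCg T' hT' _ _ _ _ (hlin.dir w)
    (fun y v hv => GradLog_dx_zero hf (fun y => (hb 0 h0T).1 y v hv) y w) D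
    (fun k hk => ⟨Bx.dir hf (hD (k + 1) (by omega)).1 hw', Bx.dir hE (hD (k + 1) (by omega)).2.1 hw,
      Bx.dir hB (hD (k + 1) (by omega)).2.2 hw⟩) t ht x W hW
  obtain ⟨hI, hrem⟩ := hrem
  -- the weight
  set m : ℝ → ℝ := fun s => (|t - s| + a⁻¹)⁻¹ + 1 + L s with hm
  have hmc0 : Continuous fun s : ℝ => (|t - s| + a⁻¹)⁻¹ :=
    Continuous.inv₀ (by fun_prop) fun s => by positivity
  have hmc : Continuous m := (hmc0.add continuous_const).add hL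
  have hmz : ∀ z : R3, m (t - ‖z‖) = (‖z‖ + a⁻¹)⁻¹ + 1 + L (t - ‖z‖) := by
    intro z; simp [hm]
  have hmem : ∀ z : R3, ‖z‖ < t → t - ‖z‖ ∈ Icc 0 T' := fun z hz =>
    ⟨by linarith, by linarith [norm_nonneg z, ht.2]⟩
  -- the initial density, the kernel
  set f₀ : PS → ℝ := fun p => f (0, p.2) with hf₀
  have hf₀s : ContDiff ℝ ∞ f₀ := hf.comp (contDiff_const.prodMk contDiff_snd)
  set Ψ := glPsi E B t x w W with hΨ
  set A : R3 × R3 → R3 := fun q => glEta a q.1 • glK (q.1, Ψ q) with hA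
  have hAc : ContDiff ℝ 1 A := GradLog_cut_cd GradLog_cd_glK (GradLog_psi_cd hE hB t x w W) ha0
  have hNA : (fun q : R3 × R3 => (⟪nz q.1, w⟫ / pp q.1 q.2) • A q) =
      fun q => glEta a q.1 • glN (q.1, Ψ q) := by
    funext q
    simp only [hA, glN, hΨ, glPsi]
    rw [smul_comm]
  set g : PS → ℝ := fun p => -fderiv ℝ f₀ p (1, relVel p.2.2, 0) with hgdef
  have hgs : ContDiff ℝ ∞ g := by
    refine ContDiff.neg (ContDiff.clm_apply (hf₀s.fderiv_right (by simp)) ?_)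
    exact contDiff_const.prodMk ((contDiff_relVel.comp (contDiff_snd.comp contDiff_snd)).prodMk
      contDiff_const)
  have hgv : ∀ p : PS, g p = -fderiv ℝ f (0, p.2.1, p.2.2) (0, relVel p.2.2, 0) := by
    intro p; simp only [hgdef, hf₀]; rw [GradLog_init_der hf]
  have hg0 : ∀ p : PS, R < ‖p.2.2‖ → g p = 0 := by
    intro p hp
    rw [hgv, GradLog_dx_zero hf (fun y => (hb 0 h0T).1 y _ hp), neg_zero]
  have hdiff : ∀ p u : PS, fderiv ℝ (f - f₀) p u = fderiv ℝ f p u - fderiv ℝ f₀ p u := by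
    intro p u
    rw [fderiv_sub (hf.differentiable (by simp) p) (hf₀s.differentiable (by simp) p)]
    rfl
  have hsec := second_dec (h := f - f₀) (g := g) (H := frc E B f) (hf.sub hf₀s) hlin.sH hgs
    (fun T₁ => by
      obtain ⟨R₁, hR₁⟩ := hlin.vh T₁
      refine ⟨max R₁ R, fun s y v hs hv => ?_⟩
      have h1 := hR₁ s y v hs ((le_max_left _ _).trans_lt hv)
      have h2 := (hb 0 h0T).1 y v ((le_max_right _ _).trans_lt hv)
      simp only [Pi.sub_apply, hf₀, h1, h2, sub_zero])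
    hlin.vH (fun T₁ => ⟨R, fun s y v _ hv => hg0 (s, y, v) hv⟩) ht0
    (fun y => by simp [hf₀])
    (fun p hp => by
      rw [hdiff, hlin.tr p ⟨hp.1, hp.2.trans ht.2⟩, hgdef]; ring)
    hAc hσ (fun z v hz => by simp only [hA]; rw [GradLog_eta_zero ha0 hz, zero_smul]) x w
  rw [hNA] at hsec
  -- pointwise information on the cone
  have hpsi : ∀ q : R3 × R3, ‖q.1‖ < t → ‖q.2‖ ≤ R → ‖Ψ q‖ ≤ 1 + |R| + T * B₀ := by
    intro q h1 h2
    have b := (hb _ (hmem q.1 h1)).2 0 le_rfl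
    have b1 : ‖E (cp t x q.1)‖ ≤ B₀ := bx_zero.mp b.2.1 _
    have b2 : ‖B (cp t x q.1)‖ ≤ B₀ := bx_zero.mp b.2.2 _
    have hr : ‖q.1‖ ≤ T := h1.le.trans htT
    have b3 := mul_le_mul hr b1 (norm_nonneg _) hT0
    have b4 := mul_le_mul hr b2 (norm_nonneg _) hT0
    have b5 := le_abs_self R
    have b6 := abs_nonneg R
    have b7 : 0 ≤ T * B₀ := by positivity
    simp only [hΨ, glPsi, Prod.norm_def, max_le_iff, norm_smul, norm_norm]
    refine ⟨by linarith, by linarith, by linarith, by linarith, by linarith⟩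
  have hL0 : ∀ s ∈ Icc 0 T', 0 ≤ L s := fun s hs => (hg s hs).1.nonneg
  have hpsid : ∀ q : R3 × R3, q.1 ≠ 0 → ‖q.1‖ < t → ∀ u : R3 × R3,
      ‖fderiv ℝ Ψ q u‖ ≤ M₀ * m (t - ‖q.1‖) * ‖u.1‖ + ‖u.2‖ := by
    intro q h0 h1
    have hs := hmem q.1 h1
    have b := (hb _ hs).2 0 le_rfl
    have b1 : ‖E (cp t x q.1)‖ ≤ B₀ := bx_zero.mp b.2.1 _
    have b2 : ‖B (cp t x q.1)‖ ≤ B₀ := bx_zero.mp b.2.2 _
    have hr : ‖q.1‖ ≤ T := h1.le.trans htT
    have hℓ := hL0 _ hs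
    have hmx := hlin.mx (cp t x q.1) hs
    have hj : ‖cur f (cp t x q.1)‖ ≤ Cj * B₀ :=
      bx_zero.mp (hCj f hf hlin.vh _ B₀ (hb _ hs).1 b.1).2 _
    have t1 : ‖fderiv ℝ E (cp t x q.1) (1, 0)‖ ≤ 6 * L (t - ‖q.1‖) + Cj * B₀ := by
      rw [hmx.amp]
      exact (norm_sub_le _ _).trans (add_le_add (GradLog_curl_le hB (hg _ hs).2.1 _) hj)
    have t2 : ‖fderiv ℝ B (cp t x q.1) (1, 0)‖ ≤ 6 * L (t - ‖q.1‖) + Cj * B₀ := by
      rw [hmx.far, norm_neg]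
      have : 0 ≤ Cj * B₀ := by positivity
      exact (GradLog_curl_le hE (hg _ hs).1 _).trans (by linarith)
    have hρ : 0 ≤ (‖q.1‖ + a⁻¹)⁻¹ := by positivity
    have hM : B₀ + T * (6 * L (t - ‖q.1‖) + Cj * B₀ + L (t - ‖q.1‖)) ≤ M₀ * m (t - ‖q.1‖) := by
      rw [hmz, hM₀]
      have k1 : 0 ≤ T * (Cj * B₀) := by positivity
      have k2 : 0 ≤ T * (‖q.1‖ + a⁻¹)⁻¹ := by positivity
      nlinarith [mul_nonneg hB₀ hρ, mul_nonneg hB₀ hℓ, mul_nonneg k1 hρ, mul_nonneg k1 hℓ]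
    have hm0 : 0 ≤ M₀ * m (t - ‖q.1‖) := by rw [hmz]; positivity
    refine GradLog_psi_der hE hB t x w W q h0 hm0 (fun u => ?_) (fun u => ?_)
    · exact (GradLog_field_der hE t x h0 b1 t1 (fun u => bx_one hE (hg _ hs).1 _ u) hr u).trans
        (mul_le_mul_of_nonneg_right hM (norm_nonneg _))
    · exact (GradLog_field_der hB t x h0 b2 t2 (fun u => bx_one hB (hg _ hs).2.1 _ u) hr u).trans
        (mul_le_mul_of_nonneg_right hM (norm_nonneg _))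
  have hdf : ∀ q : R3 × R3, ‖q.1‖ < t → |fderiv ℝ f (cq t x q) (0, w, 0)| ≤ a := by
    intro q h1
    have := bx_one hf (hg _ (hmem q.1 h1)).2.2 (x - q.1, q.2) (w, 0)
    exact this.trans (by nlinarith)
  have hdf₀ : ∀ p : PS, ∀ u : R3, ‖u‖ ≤ 1 → |fderiv ℝ f (0, p.2) (0, u, 0)| ≤ D := by
    intro p u hu
    have := bx_one hf (hD 1 (by norm_num)).1 p.2 (u, 0)
    have hu' : ‖((u, 0) : R3 × R3)‖ ≤ 1 := by simpa [Prod.norm_def] using hu
    exact this.trans (by nlinarith)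
  -- the part treated by the second decomposition
  set F₁ : R3 × R3 → R3 := fun q => fderiv ℝ (f - f₀) (cq t x q) (0, w, 0) • A q with hF₁
  have hF₁v : ∀ q, F₁ q = (fderiv ℝ f (cq t x q) (0, w, 0) -
      fderiv ℝ f (0, (cq t x q).2) (0, w, 0)) • glEta a q.1 • glK (q.1, Ψ q) := by
    intro q
    simp only [hF₁, hA]
    rw [hdiff, hf₀, GradLog_init_der hf]
  have hz1 : ∀ q : R3 × R3, ‖q.1‖ < t → R < ‖q.2‖ → fderiv ℝ f (cq t x q) (0, w, 0) = 0 :=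
    fun q h1 h2 => GradLog_dx_zero hf (fun y => (hb _ (hmem q.1 h1)).1 y _ h2) _ w
  have hz2 : ∀ q : R3 × R3, R < ‖q.2‖ → fderiv ℝ f (0, (cq t x q).2) (0, w, 0) = 0 :=
    fun q h2 => GradLog_dx_zero hf (fun y => (hb 0 h0T).1 y _ h2) _ w
  have hz3 : ∀ q : R3 × R3, ‖q.1‖ < t → R < ‖q.2‖ → f (cq t x q) = 0 :=
    fun q h1 h2 => (hb _ (hmem q.1 h1)).1 _ _ h2
  have hF₁i : IntegrableOn F₁ (ball (0 : R3) t ×ˢ univ) := by
    refine (GradLog_dom hmc ht.1 R ((a + D) * C₁) (F := F₁) ?_ ?_).2 ?_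
    · intro q h0 h1 h2
      rw [hF₁v, hz1 q h1 h2, hz2 q h2, sub_zero, zero_smul]
    · intro q h0 h1 h2
      rw [hF₁v, norm_smul, norm_smul, Real.norm_eq_abs, Real.norm_eq_abs,
        abs_of_nonneg (GradLog_eta_nonneg _ _)]
      have k1 := (hC₁ q.1 (Ψ q) h0 (hpsi q h1 h2)).1
      have k2 : |fderiv ℝ f (cq t x q) (0, w, 0) - fderiv ℝ f (0, (cq t x q).2) (0, w, 0)| ≤
          a + D := (abs_sub _ _).trans (add_le_add (hdf q h1) (hdf₀ _ w hw))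
      have k3 : 1 ≤ m (t - ‖q.1‖) := by
        rw [hmz]
        have := hL0 _ (hmem q.1 h1)
        have : 0 ≤ (‖q.1‖ + a⁻¹)⁻¹ := by positivity
        linarith
      calc _ ≤ (a + D) * (1 * (C₁ / ‖q.1‖ ^ 2)) := by
            gcongr
            · exact mul_nonneg (GradLog_eta_nonneg _ _) (norm_nonneg _)
            · exact GradLog_eta_le_one _ _
        _ = (a + D) * C₁ * (1 / ‖q.1‖ ^ 2) := by ring
        _ ≤ _ := by gcongr
    · have h1 : Continuous (cq t x) := by unfold cq; fun_prop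
      have h2 : Continuous fun q : R3 × R3 => fderiv ℝ (f - f₀) (cq t x q) (0, w, 0) :=
        (((hf.sub hf₀s).continuous_fderiv (by simp)).comp h1).clm_apply continuous_const
      exact (h2.smul hAc.continuous).aestronglyMeasurable
  -- the remaining part
  have hG₁ := (GradLog_dom hmc ht.1 R c₁
    (F := fun q => gsK W (fun p => fderiv ℝ f p (0, w, 0))
      (fun p => fderiv ℝ (frc E B f) p (0, w, 0)) t x q - F₁ q) ?_ ?_).1
  rotate_left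
  · intro q h0 h1 h2
    simp only [gsK]
    rw [hF₁v, GradLog_frc_der hE hB hf, hz1 q h1 h2, hz2 q h2, hz3 q h1 h2, GradLog_kS_add,
      kS_smul, kS_smul]
    simp
  · intro q h0 h1 h2
    have hs := hmem q.1 h1
    have e : gsK W (fun p => fderiv ℝ f p (0, w, 0))
        (fun p => fderiv ℝ (frc E B f) p (0, w, 0)) t x q - F₁ q =
        (fderiv ℝ f (cq t x q) (0, w, 0) * (1 - glEta a q.1)) • glK (q.1, Ψ q) +
        (fderiv ℝ f (0, (cq t x q).2) (0, w, 0) * glEta a q.1) • glK (q.1, Ψ q) +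
        f (cq t x q) • kS 1 W q.1 q.2 (lor (fderiv ℝ E (cp t x q.1) (0, w))
          (fderiv ℝ B (cp t x q.1) (0, w)) q.2) := by
      simp only [gsK]
      rw [hF₁v, GradLog_frc_der hE hB hf, GradLog_kS_add, kS_smul, kS_smul]
      have e1 : glK (q.1, Ψ q) = kT 1 W q.1 q.2 +
          kS 1 W q.1 q.2 (lor (E (cp t x q.1)) (B (cp t x q.1)) q.2) :=
        GradLog_glK_eq w W q.2 _ _ h0
      rw [e1]
      simp only [cq, cp]
      module
    rw [e]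
    have k1 := (hC₁ q.1 (Ψ q) h0 (hpsi q h1 h2)).1
    have hr : 0 < ‖q.1‖ := norm_pos_iff.mpr h0
    have hη0 := GradLog_eta_nonneg a q.1
    have hη1 := GradLog_eta_le_one a q.1
    have hℓ := hL0 _ hs
    have hρ : 0 ≤ (‖q.1‖ + a⁻¹)⁻¹ := by positivity
    have b1 : ‖(fderiv ℝ f (cq t x q) (0, w, 0) * (1 - glEta a q.1)) • glK (q.1, Ψ q)‖ ≤
        3 * C₁ * (m (t - ‖q.1‖) / ‖q.1‖ ^ 2) := by
      rw [norm_smul, Real.norm_eq_abs, abs_mul, abs_of_nonneg (by linarith : 0 ≤ 1 - glEta a q.1)]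
      have k2 : |fderiv ℝ f (cq t x q) (0, w, 0)| * (1 - glEta a q.1) ≤ 3 * m (t - ‖q.1‖) := by
        have k3 := GradLog_eta_compl ha0 q.1
        have k4 := mul_le_mul_of_nonneg_right (hdf q h1) (by linarith : 0 ≤ 1 - glEta a q.1)
        rw [hmz]; nlinarith
      calc _ ≤ 3 * m (t - ‖q.1‖) * (C₁ / ‖q.1‖ ^ 2) :=
            mul_le_mul k2 k1 (norm_nonneg _) (by rw [hmz]; positivity)
        _ = _ := by ring
    have b2 : ‖(fderiv ℝ f (0, (cq t x q).2) (0, w, 0) * glEta a q.1) • glK (q.1, Ψ q)‖ ≤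
        D * C₁ * (m (t - ‖q.1‖) / ‖q.1‖ ^ 2) := by
      rw [norm_smul, Real.norm_eq_abs, abs_mul, abs_of_nonneg hη0]
      have k2 : |fderiv ℝ f (0, (cq t x q).2) (0, w, 0)| * glEta a q.1 ≤ D * m (t - ‖q.1‖) := by
        refine mul_le_mul (hdf₀ _ w hw) ?_ hη0 hD0
        rw [hmz]; linarith
      calc _ ≤ D * m (t - ‖q.1‖) * (C₁ / ‖q.1‖ ^ 2) :=
            mul_le_mul k2 k1 (norm_nonneg _) (by rw [hmz]; positivity)
        _ = _ := by ring
    have b3 : ‖f (cq t x q) • kS 1 W q.1 q.2 (lor (fderiv ℝ E (cp t x q.1) (0, w))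
          (fderiv ℝ B (cp t x q.1) (0, w)) q.2)‖ ≤
        2 * B₀ * Cs * T * (m (t - ‖q.1‖) / ‖q.1‖ ^ 2) := by
      rw [norm_smul]
      have k2 : ‖f (cq t x q)‖ ≤ B₀ := bx_zero.mp ((hb _ hs).2 0 le_rfl).1 _
      have k3 : ‖lor (fderiv ℝ E (cp t x q.1) (0, w)) (fderiv ℝ B (cp t x q.1) (0, w)) q.2‖ ≤
          2 * m (t - ‖q.1‖) := by
        refine (norm_lor_le _ _ _).trans ?_
        have k4 : ‖fderiv ℝ E (cp t x q.1) (0, w)‖ ≤ L (t - ‖q.1‖) * ‖w‖ :=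
          bx_one hE (hg _ hs).1 _ w
        have k5 : ‖fderiv ℝ B (cp t x q.1) (0, w)‖ ≤ L (t - ‖q.1‖) * ‖w‖ :=
          bx_one hB (hg _ hs).2.1 _ w
        have k6 : L (t - ‖q.1‖) * ‖w‖ ≤ L (t - ‖q.1‖) := by nlinarith
        rw [hmz]; linarith
      have k7 := hCs W q.1 q.2 (lor (fderiv ℝ E (cp t x q.1) (0, w))
        (fderiv ℝ B (cp t x q.1) (0, w)) q.2) hW h2
      have hm0 : 0 ≤ m (t - ‖q.1‖) := by rw [hmz]; positivity
      calc _ ≤ B₀ * (Cs * (2 * m (t - ‖q.1‖)) / ‖q.1‖) := by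
            refine mul_le_mul k2 (k7.trans ?_) (norm_nonneg _) hB₀
            gcongr
        _ = 2 * B₀ * Cs * ‖q.1‖ * (m (t - ‖q.1‖) / ‖q.1‖ ^ 2) := by field_simp
        _ ≤ _ := by gcongr; exact h1.le.trans htT
    refine norm_add₃_le.trans ?_
    rw [hc₁]; linarith
  -- the outcome of the second decomposition
  have hG₂ := (GradLog_dom hmc ht.1 R c₂
    (F := fun q => (f - f₀) (cq t x q) • (fderiv ℝ A q (w, 0) +
        fderiv ℝ (fun q : R3 × R3 => glEta a q.1 • glN (q.1, Ψ q)) q (relVel q.2, 0)) -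
      fderiv ℝ (fun q : R3 × R3 => glEta a q.1 • glN (q.1, Ψ q)) q (0, frc E B f (cq t x q)) -
      (g (cq t x q) * (⟪nz q.1, w⟫ / pp q.1 q.2)) • A q) ?_ ?_).1
  rotate_left
  · intro q h0 h1 h2
    have k1 : (f - f₀) (cq t x q) = 0 := by
      have := (hb 0 h0T).1 (x - q.1) q.2 h2
      simp only [Pi.sub_apply, hz3 q h1 h2, hf₀, zero_sub, neg_eq_zero]
      exact this
    have k2 : frc E B f (cq t x q) = 0 := by simp only [frc, hz3 q h1 h2, zero_smul]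
    have k3 : g (cq t x q) = 0 := hg0 (cq t x q) h2
    beta_reduce
    rw [k1, k2, k3]
    simp only [zero_smul, zero_mul, Prod.mk_zero_zero, map_zero, sub_zero]
  · intro q h0 h1 h2
    have hs := hmem q.1 h1
    have k1 := hC₁ q.1 (Ψ q) h0 (hpsi q h1 h2)
    have k2 := hC₂ q.1 (Ψ q) h0 (hpsi q h1 h2)
    have hr : 0 < ‖q.1‖ := norm_pos_iff.mpr h0
    have hℓ := hL0 _ hs
    have hρ : 0 ≤ (‖q.1‖ + a⁻¹)⁻¹ := by positivity
    have hm1 : 1 ≤ m (t - ‖q.1‖) := by rw [hmz]; linarith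
    have hm2 : (‖q.1‖ + a⁻¹)⁻¹ ≤ m (t - ‖q.1‖) := by rw [hmz]; linarith
    have hm0 : 0 ≤ M₀ * m (t - ‖q.1‖) := by positivity
    have hΨd : DifferentiableAt ℝ Ψ q :=
      (GradLog_psi_cd hE hB t x w W q h0).differentiableAt one_ne_zero
    have d1 := GradLog_cut_der GradLog_cd_glK ha0 hC₁0 hc0 hm0 h0 hΨd (fun u => hc a ha0 q.1 u h0)
      k1.1 k1.2.1 k1.2.2 (hpsid q h0 h1)
    have d2 := GradLog_cut_der GradLog_cd_glN ha0 hC₂0 hc0 hm0 h0 hΨd (fun u => hc a ha0 q.1 u h0)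
      k2.1 k2.2.1 k2.2.2 (hpsid q h0 h1)
    have hX : (c + 2) * (‖q.1‖ + a⁻¹)⁻¹ + M₀ * m (t - ‖q.1‖) ≤ (c + 2 + M₀) * m (t - ‖q.1‖) := by
      have := mul_le_mul_of_nonneg_left hm2 (by linarith : 0 ≤ c + 2)
      linarith
    have hX0 : 0 ≤ (c + 2) * (‖q.1‖ + a⁻¹)⁻¹ + M₀ * m (t - ‖q.1‖) := by positivity
    have b1 : ‖fderiv ℝ A q (w, 0)‖ ≤ C₁ * (c + 2 + M₀) * (m (t - ‖q.1‖) / ‖q.1‖ ^ 2) := by
      refine (d1 (w, 0)).trans ?_
      simp only [norm_zero, add_zero]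
      calc _ ≤ C₁ / ‖q.1‖ ^ 2 * ((c + 2 + M₀) * m (t - ‖q.1‖) * 1) := by gcongr
        _ = _ := by ring
    have b2 : ‖fderiv ℝ (fun q : R3 × R3 => glEta a q.1 • glN (q.1, Ψ q)) q (relVel q.2, 0)‖ ≤
        C₂ * (c + 2 + M₀) * (m (t - ‖q.1‖) / ‖q.1‖ ^ 2) := by
      refine (d2 (relVel q.2, 0)).trans ?_
      simp only [norm_zero, add_zero]
      calc _ ≤ C₂ / ‖q.1‖ ^ 2 * ((c + 2 + M₀) * m (t - ‖q.1‖) * 1) := by
            gcongr; exact (norm_relVel_lt_one _).le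
        _ = _ := by ring
    have bb := (hb _ hs).2 0 le_rfl
    have k3 : ‖f (cq t x q)‖ ≤ B₀ := bx_zero.mp bb.1 _
    have b3 : ‖(f - f₀) (cq t x q)‖ ≤ 2 * B₀ := by
      have k4 : ‖f₀ (cq t x q)‖ ≤ B₀ := bx_zero.mp ((hb 0 h0T).2 0 le_rfl).1 _
      rw [Pi.sub_apply]
      exact (norm_sub_le _ _).trans (by linarith)
    have b4 : ‖frc E B f (cq t x q)‖ ≤ 2 * B₀ ^ 2 := by
      simp only [frc]
      rw [norm_smul]
      have k5 := norm_lor_le (E ((cq t x q).1, (cq t x q).2.1)) (B ((cq t x q).1, (cq t x q).2.1))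
        (cq t x q).2.2
      have k6 : ‖E ((cq t x q).1, (cq t x q).2.1)‖ ≤ B₀ := bx_zero.mp bb.2.1 _
      have k7 : ‖B ((cq t x q).1, (cq t x q).2.1)‖ ≤ B₀ := bx_zero.mp bb.2.2 _
      calc _ ≤ B₀ * (B₀ + B₀) := mul_le_mul k3 (by linarith) (norm_nonneg _) hB₀
        _ = _ := by ring
    have b5 : ‖fderiv ℝ (fun q : R3 × R3 => glEta a q.1 • glN (q.1, Ψ q)) q
        (0, frc E B f (cq t x q))‖ ≤ 2 * C₂ * B₀ ^ 2 * (m (t - ‖q.1‖) / ‖q.1‖ ^ 2) := by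
      refine (d2 (0, frc E B f (cq t x q))).trans ?_
      simp only [norm_zero, mul_zero, zero_add]
      calc _ ≤ C₂ / ‖q.1‖ ^ 2 * (2 * B₀ ^ 2) := by gcongr
        _ = 2 * C₂ * B₀ ^ 2 * (1 / ‖q.1‖ ^ 2) := by ring
        _ ≤ _ := by gcongr
    have b6 : ‖(g (cq t x q) * (⟪nz q.1, w⟫ / pp q.1 q.2)) • A q‖ ≤
        D * C₂ * (m (t - ‖q.1‖) / ‖q.1‖ ^ 2) := by
      have e : (⟪nz q.1, w⟫ / pp q.1 q.2) • A q = glEta a q.1 • glN (q.1, Ψ q) := congrFun hNA q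
      rw [mul_smul, e, norm_smul, norm_smul, hgv, norm_neg, Real.norm_eq_abs, Real.norm_eq_abs,
        abs_of_nonneg (GradLog_eta_nonneg _ _)]
      have k8 := hdf₀ (cq t x q) (relVel (cq t x q).2.2) (norm_relVel_lt_one _).le
      calc _ ≤ D * (1 * (C₂ / ‖q.1‖ ^ 2)) := by
            refine mul_le_mul k8 ?_ (mul_nonneg (GradLog_eta_nonneg _ _) (norm_nonneg _)) hD0
            exact mul_le_mul (GradLog_eta_le_one _ _) k2.1 (norm_nonneg _) zero_le_one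
        _ = D * C₂ * (1 / ‖q.1‖ ^ 2) := by ring
        _ ≤ _ := by gcongr
    have b7 : ‖(f - f₀) (cq t x q) • (fderiv ℝ A q (w, 0) +
        fderiv ℝ (fun q : R3 × R3 => glEta a q.1 • glN (q.1, Ψ q)) q (relVel q.2, 0))‖ ≤
        2 * B₀ * (C₁ + C₂) * (c + 2 + M₀) * (m (t - ‖q.1‖) / ‖q.1‖ ^ 2) := by
      rw [norm_smul]
      calc _ ≤ 2 * B₀ * (C₁ * (c + 2 + M₀) * (m (t - ‖q.1‖) / ‖q.1‖ ^ 2) +
            C₂ * (c + 2 + M₀) * (m (t - ‖q.1‖) / ‖q.1‖ ^ 2)) :=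
            mul_le_mul b3 ((norm_add_le _ _).trans (add_le_add b1 b2)) (norm_nonneg _)
              (by positivity)
        _ = _ := by ring
    refine (norm_sub_le _ _).trans ((add_le_add (norm_sub_le _ _) le_rfl).trans ?_)
    rw [hc₂]; linarith
  rw [← hsec] at hG₂
  rw [integral_sub hI hF₁i] at hG₁
  -- conclusion
  have hLi : 0 ≤ ∫ s in (0 : ℝ)..t, L s :=
    intervalIntegral.integral_nonneg ht.1 fun s hs => hL0 s ⟨hs.1, hs.2.trans ht.2⟩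
  have hla : 0 ≤ Real.log a := Real.log_nonneg ha
  have hmi : ∫ s in (0 : ℝ)..t, m s ≤ (1 + 2 * T) * (1 + Real.log a + ∫ s in (0 : ℝ)..t, L s) := by
    simp only [hm]
    have hmc1 : Continuous fun s : ℝ => (|t - s| + a⁻¹)⁻¹ + 1 := hmc0.add continuous_const
    rw [intervalIntegral.integral_add (hmc1.intervalIntegrable _ _)
      (hL.intervalIntegrable _ _), intervalIntegral.integral_add (hmc0.intervalIntegrable _ _)
      (continuous_const.intervalIntegrable _ _)]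
    have := GradLog_int ha ht.1 htT
    simp only [intervalIntegral.integral_const, sub_zero, smul_eq_mul, mul_one]
    nlinarith [mul_nonneg hT0 hla, mul_nonneg hT0 hLi]
  rw [← hV] at hG₁ hG₂
  set X := fderiv ℝ E (t, x) (0, w) + cross3 W (fderiv ℝ B (t, x) (0, w)) with hX
  set Λ := 1 + Real.log a + ∫ s in (0 : ℝ)..t, L s with hΛ
  have hΛ1 : 1 ≤ Λ := by rw [hΛ]; linarith
  have hπ : 1 ≤ 4 * Real.pi := by linarith [Real.pi_gt_three]
  have h1 : ‖(4 * Real.pi) • X‖ ≤ Cg * D + (c₁ + c₂) * (4 * Real.pi * ∫ s in (0 : ℝ)..t, m s) * V := by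
    have e : ∀ (P I J : R3) (a b c : ℝ), ‖P - I‖ ≤ a → ‖I - J‖ ≤ b → ‖J‖ ≤ c →
        ‖P‖ ≤ a + b + c := fun P I J a b c h1 h2 h3 => by
      have e : P = (P - I) + (I - J) + J := by abel
      rw [e]
      exact norm_add₃_le.trans (add_le_add (add_le_add h1 h2) h3)
    exact (e _ _ _ _ _ _ hrem hG₁ hG₂).trans (le_of_eq (by ring))
  rw [norm_smul, Real.norm_eq_abs, abs_of_nonneg (by linarith)] at h1
  have h2 : (c₁ + c₂) * (4 * Real.pi * ∫ s in (0 : ℝ)..t, m s) * V ≤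
      4 * Real.pi * ((c₁ + c₂) * V * (1 + 2 * T) * Λ) := by
    calc _ ≤ (c₁ + c₂) * (4 * Real.pi * ((1 + 2 * T) * Λ)) * V := by gcongr
      _ = _ := by ring
  have h3 : Cg * D ≤ 4 * Real.pi * (Cg * D * Λ) := by
    have k1 : 0 ≤ Cg * D := by positivity
    have k2 : Cg * D ≤ Cg * D * Λ := by nlinarith
    nlinarith
  have h4 : 4 * Real.pi * ‖X‖ ≤ 4 * Real.pi * ((Cg * D + (c₁ + c₂) * V * (1 + 2 * T)) * Λ) := by
    nlinarith
  exact le_of_mul_le_mul_left h4 (by linarith)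

theorem grad_log (T R B₀ D : ℝ) : ∃ C : ℝ, 0 ≤ C ∧ ∀ T' ≤ T, ∀ (f : PS → ℝ) (E B : ST → R3),
    Sol T' f E B → (∀ s ∈ Icc 0 T', VS f s R ∧ DBd 0 f E B s B₀) → DBd 4 f E B 0 D →
    ∀ (L : ℝ → ℝ) (a : ℝ), Continuous L → 1 ≤ a →
    (∀ s ∈ Icc 0 T', Bx 1 E s (L s) ∧ Bx 1 B s (L s) ∧ Bx 1 f s a) →
    ∀ t ∈ Icc 0 T', Bx 1 E t (C * (1 + Real.log a + ∫ s in (0 : ℝ)..t, L s)) ∧
      Bx 1 B t (C * (1 + Real.log a + ∫ s in (0 : ℝ)..t, L s)) := by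
  obtain ⟨C, hC⟩ := GradLog_key T R B₀ D
  refine ⟨4 * |C| + |D|, by positivity, ?_⟩
  intro T' hT' f E B hS hb hD L a hL ha hg t ht
  have hE := hS.step.sE
  have hB := hS.step.sB
  have hla : 0 ≤ Real.log a := Real.log_nonneg ha
  have hLi : 0 ≤ ∫ s in (0 : ℝ)..t, L s :=
    intervalIntegral.integral_nonneg ht.1 fun s hs => (hg s ⟨hs.1, hs.2.trans ht.2⟩).1.nonneg
  set Λ := 1 + Real.log a + ∫ s in (0 : ℝ)..t, L s with hΛ
  have hΛ1 : 1 ≤ Λ := by rw [hΛ]; linarith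
  have hC0 := abs_nonneg C
  have hD0 := abs_nonneg D
  rcases eq_or_lt_of_le ht.1 with h0 | h0
  · subst h0
    have : D ≤ (4 * |C| + |D|) * Λ := by nlinarith [le_abs_self D]
    exact ⟨(hD 1 (by norm_num)).2.1.mono this, (hD 1 (by norm_num)).2.2.mono this⟩
  · have key : ∀ x w W : R3, ‖w‖ ≤ 1 → ‖W‖ ≤ 1 →
        ‖fderiv ℝ E (t, x) (0, w) + cross3 W (fderiv ℝ B (t, x) (0, w))‖ ≤ |C| * Λ :=
      fun x w W hw hW => (hC T' hT' f E B hS hb hD L a hL ha hg t ht h0 x w W hw hW).trans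
        (mul_le_mul_of_nonneg_right (le_abs_self C) (by linarith))
    have kE : ∀ x w : R3, ‖w‖ ≤ 1 → ‖fderiv ℝ E (t, x) (0, w)‖ ≤ |C| * Λ := by
      intro x w hw
      have h1 := key x w 0 hw (by simp)
      have h2 : cross3 0 (fderiv ℝ B (t, x) (0, w)) = 0 := by
        have := norm_cross3_le 0 (fderiv ℝ B (t, x) (0, w))
        rw [norm_zero, zero_mul] at this
        exact norm_le_zero_iff.mp this
      rwa [h2, add_zero] at h1
    have kW : ∀ x w W : R3, ‖w‖ ≤ 1 → ‖W‖ ≤ 1 →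
        ‖cross3 W (fderiv ℝ B (t, x) (0, w))‖ ≤ 2 * (|C| * Λ) := by
      intro x w W hw hW
      have e : cross3 W (fderiv ℝ B (t, x) (0, w)) =
          (fderiv ℝ E (t, x) (0, w) + cross3 W (fderiv ℝ B (t, x) (0, w))) -
            fderiv ℝ E (t, x) (0, w) := by abel
      rw [e]
      exact (norm_sub_le _ _).trans (by linarith [key x w W hw hW, kE x w hw])
    have hp : 0 ≤ (4 * |C| + |D|) * Λ := by positivity
    have hq : 0 ≤ |C| * Λ := by positivity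
    have hq' : 0 ≤ |D| * Λ := by positivity
    refine ⟨Bx.succ_of_dir hE hp fun w hw => bx_zero.mpr fun x => ?_,
      Bx.succ_of_dir hB hp fun w hw => bx_zero.mpr fun x => ?_⟩
    · exact (kE x w hw).trans (by nlinarith)
    · refine (GradLog_cross_le _).trans ?_
      have h1 := kW x w (EuclideanSpace.single 0 1) hw (by simp)
      have h2 := kW x w (EuclideanSpace.single 1 1) hw (by simp)
      nlinarith

end Crest.Agent.R106
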