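import Crest.Agent.R106.OdeB
import Crest.Agent.R106.Closing

/-!
# Row 106: the real-variable core of the bootstrap step
-/

set_option autoImplicit false
set_option linter.unusedVariables false
set_option linter.unusedSectionVars false

open MeasureTheory Metric Set Filter Topology
open scoped ContDiff ENNReal RealInnerProductSpace
open Crest.AnalysisR.VecCalc3 Crest.AnalysisR.PDE.RVM

noncomputable section

namespace Crest.Agent.R106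

theorem impr_ev (K : ℝ) {ε : ℝ} (hε : 0 < ε) :
    ∀ᶠ P : ℝ in atTop, K * Real.log P ≤ P ^ ε := by
  have h := (isLittleO_log_rpow_atTop hε).bound (c := 1 / (|K| + 1)) (by positivity)
  filter_upwards [h, eventually_ge_atTop (1 : ℝ)] with P hP h1
  have hl : 0 ≤ Real.log P := Real.log_nonneg h1
  have hp : 0 ≤ P ^ ε := by positivity
  rw [Real.norm_of_nonneg hl, Real.norm_of_nonneg hp] at hP
  have h2 : (|K| + 1) * Real.log P ≤ P ^ ε := by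
    have := mul_le_mul_of_nonneg_left hP (show 0 ≤ |K| + 1 by positivity)
    rwa [← mul_assoc, mul_one_div_cancel (by positivity), one_mul] at this
  nlinarith [le_abs_self K]

theorem impr_log : ∀ᶠ P : ℝ in atTop, 1 ≤ Real.log P :=
  Real.tendsto_log_atTop.eventually_ge_atTop 1

theorem impr_sq7 (a₁ a₂ a₃ a₄ a₅ a₆ a₇ : ℝ) :
    (a₁ + a₂ + a₃ + a₄ + a₅ + a₆ + a₇) ^ 2 ≤
      7 * (a₁ ^ 2 + a₂ ^ 2 + a₃ ^ 2 + a₄ ^ 2 + a₅ ^ 2 + a₆ ^ 2 + a₇ ^ 2) := by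
  nlinarith [sq_nonneg (a₁ - a₂), sq_nonneg (a₁ - a₃), sq_nonneg (a₁ - a₄), sq_nonneg (a₁ - a₅),
    sq_nonneg (a₁ - a₆), sq_nonneg (a₁ - a₇), sq_nonneg (a₂ - a₃), sq_nonneg (a₂ - a₄),
    sq_nonneg (a₂ - a₅), sq_nonneg (a₂ - a₆), sq_nonneg (a₂ - a₇), sq_nonneg (a₃ - a₄),
    sq_nonneg (a₃ - a₅), sq_nonneg (a₃ - a₆), sq_nonneg (a₃ - a₇), sq_nonneg (a₄ - a₅),
    sq_nonneg (a₄ - a₆), sq_nonneg (a₄ - a₇), sq_nonneg (a₅ - a₆), sq_nonneg (a₅ - a₇),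
    sq_nonneg (a₆ - a₇)]

theorem impr_rpow_sq {P : ℝ} (hP : 0 < P) (a : ℝ) : (P ^ a) ^ 2 = P ^ (2 * a) := by
  rw [← Real.rpow_natCast, ← Real.rpow_mul hP.le]; congr 1; push_cast; ring

theorem impr_rpow_mul {P : ℝ} (hP : 0 < P) (a b : ℝ) : P ^ a * P ^ b = P ^ (a + b) :=
  (Real.rpow_add hP a b).symm

theorem impr_rpow_two (P : ℝ) : P ^ (2 : ℝ) = P ^ 2 := by
  exact_mod_cast Real.rpow_natCast P 2

/-- the majorant of `fz1²` -/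
def imprPhi (P s y y₂ δ A : ℝ) : ℝ :=
  7 * (P ^ 2 * Real.log P ^ 2 + 3 * P ^ 2 + 4 * (P ^ 2 * Real.log P) * s + 4 * P ^ 2 * y +
    P ^ (328 / 100 : ℝ) * δ ^ 2 + P ^ (156 / 100 : ℝ) * A ^ 2 + P ^ (14 / 10 : ℝ) * y₂)

theorem impr_fz1_sq {P s y y₂ δ A : ℝ} (hP : 1 ≤ P) (hN : 1 ≤ Real.log P) (hs : 0 ≤ s)
    (hy : 0 ≤ y) (hy₂ : 0 ≤ y₂) : fz1 P s y y₂ δ A ^ 2 ≤ imprPhi P s y y₂ δ A := by
  have hP0 : 0 < P := by linarith
  refine (impr_sq7 _ _ _ _ _ _ _).trans ?_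
  unfold imprPhi
  have e2 : (P * √(Real.log P * s)) ^ 2 = P ^ 2 * (Real.log P * s) := by
    rw [mul_pow, Real.sq_sqrt (by positivity)]
  have e3 : (P * √y) ^ 2 = P ^ 2 * y := by rw [mul_pow, Real.sq_sqrt hy]
  have e4 : (P ^ (199 / 200 : ℝ) * (1 + √s + √y)) ^ 2 ≤ P ^ 2 * (3 * (1 + s + y)) := by
    rw [mul_pow, impr_rpow_sq hP0]
    have h1 : P ^ (2 * (199 / 200) : ℝ) ≤ P ^ 2 := by
      rw [← impr_rpow_two]; exact Real.rpow_le_rpow_of_exponent_le hP (by norm_num)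
    have h2 : (1 + √s + √y) ^ 2 ≤ 3 * (1 + s + y) := by
      nlinarith [Real.sq_sqrt hs, Real.sq_sqrt hy, sq_nonneg (1 - √s), sq_nonneg (1 - √y),
        sq_nonneg (√s - √y)]
    exact mul_le_mul h1 h2 (by positivity) (by positivity)
  have e5 : (δ * P ^ (164 / 100 : ℝ)) ^ 2 = P ^ (328 / 100 : ℝ) * δ ^ 2 := by
    rw [mul_pow, impr_rpow_sq hP0, mul_comm]; norm_num
  have e6 : (A * P ^ (78 / 100 : ℝ)) ^ 2 = P ^ (156 / 100 : ℝ) * A ^ 2 := by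
    rw [mul_pow, impr_rpow_sq hP0, mul_comm]; norm_num
  have e7 : (P ^ (7 / 10 : ℝ) * √y₂) ^ 2 = P ^ (14 / 10 : ℝ) * y₂ := by
    rw [mul_pow, impr_rpow_sq hP0, Real.sq_sqrt hy₂]; norm_num
  rw [e2, e3, e5, e6, e7, mul_pow]
  have h3 : P ^ 2 * s ≤ P ^ 2 * Real.log P * s := by
    have : 0 ≤ P ^ 2 * s := by positivity
    nlinarith
  nlinarith

theorem impr_fz1_nonneg {P s y y₂ δ A : ℝ} (hP : 1 ≤ P) (hδ : 0 ≤ δ) (hA : 0 ≤ A) :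
    0 ≤ fz1 P s y y₂ δ A := by
  have := Real.log_nonneg hP
  unfold fz1; positivity

theorem impr_ii_phi {P t₁ t₂ : ℝ} (h12 : t₁ ≤ t₂) {s y y₂ δ A : ℝ → ℝ}
    (is : IntervalIntegrable s volume t₁ t₂) (cy : ContinuousOn y (Icc t₁ t₂))
    (cy₂ : ContinuousOn y₂ (Icc t₁ t₂)) (cδ : ContinuousOn δ (Icc t₁ t₂))
    (cA : ContinuousOn A (Icc t₁ t₂)) :
    IntervalIntegrable (fun t => imprPhi P (s t) (y t) (y₂ t) (δ t) (A t)) volume t₁ t₂ ∧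
    ∫ t in t₁..t₂, imprPhi P (s t) (y t) (y₂ t) (δ t) (A t) =
      7 * ((t₂ - t₁) * (P ^ 2 * Real.log P ^ 2) + (t₂ - t₁) * (3 * P ^ 2) +
        4 * (P ^ 2 * Real.log P) * (∫ t in t₁..t₂, s t) + 4 * P ^ 2 * (∫ t in t₁..t₂, y t) +
        P ^ (328 / 100 : ℝ) * (∫ t in t₁..t₂, δ t ^ 2) +
        P ^ (156 / 100 : ℝ) * (∫ t in t₁..t₂, A t ^ 2) +
        P ^ (14 / 10 : ℝ) * (∫ t in t₁..t₂, y₂ t)) := by
  have iA2 : IntervalIntegrable (fun t => A t ^ 2) volume t₁ t₂ :=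
    (cA.pow 2).intervalIntegrable_of_Icc h12
  have iδ2 : IntervalIntegrable (fun t => δ t ^ 2) volume t₁ t₂ :=
    (cδ.pow 2).intervalIntegrable_of_Icc h12
  have iy : IntervalIntegrable y volume t₁ t₂ := cy.intervalIntegrable_of_Icc h12
  have iy₂ : IntervalIntegrable y₂ volume t₁ t₂ := cy₂.intervalIntegrable_of_Icc h12
  have j1 : IntervalIntegrable (fun _ : ℝ => P ^ 2 * Real.log P ^ 2) volume t₁ t₂ :=
    intervalIntegrable_const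
  have j2 : IntervalIntegrable (fun _ : ℝ => 3 * P ^ 2) volume t₁ t₂ :=
    intervalIntegrable_const
  have j3 := is.const_mul (4 * (P ^ 2 * Real.log P))
  have j4 := iy.const_mul (4 * P ^ 2)
  have j5 := iδ2.const_mul (P ^ (328 / 100 : ℝ))
  have j6 := iA2.const_mul (P ^ (156 / 100 : ℝ))
  have j7 := iy₂.const_mul (P ^ (14 / 10 : ℝ))
  unfold imprPhi
  refine ⟨((((((j1.add j2).add j3).add j4).add j5).add j6).add j7).const_mul _, ?_⟩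
  rw [intervalIntegral.integral_const_mul,
    intervalIntegral.integral_add (((((j1.add j2).add j3).add j4).add j5).add j6) j7,
    intervalIntegral.integral_add ((((j1.add j2).add j3).add j4).add j5) j6,
    intervalIntegral.integral_add (((j1.add j2).add j3).add j4) j5,
    intervalIntegral.integral_add ((j1.add j2).add j3) j4,
    intervalIntegral.integral_add (j1.add j2) j3,
    intervalIntegral.integral_add j1 j2]
  simp only [intervalIntegral.integral_const_mul, intervalIntegral.integral_const, smul_eq_mul]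
  ring

theorem impr_I2 {C P N τ S Y Δ a Y₂ p₁ p₂ p₃ p₄ p₅ : ℝ} (hC : 1 ≤ C) (hN : 1 ≤ N) (hτ0 : 0 ≤ τ)
    (hτ : N * τ ≤ 1) (hS : S ≤ C) (hY : 0 ≤ Y) (hΔ : 0 ≤ Δ) (ha : 0 ≤ a) (h1 : 0 ≤ p₁)
    (h2 : 0 ≤ p₂) (h3 : 0 ≤ p₃) (h23 : p₂ ≤ p₃ * p₄) (h5 : p₅ = p₃ * p₄) (h4 : 0 ≤ p₄)
    (hY₂ : Y₂ ≤ C * (p₄ * (1 + a))) :
    7 * (τ * (P ^ 2 * N ^ 2) + τ * (3 * P ^ 2) + 4 * (P ^ 2 * N) * S + 4 * P ^ 2 * Y + p₁ * Δ +
      p₂ * a + p₃ * Y₂) ≤ 20000 * C ^ 2 * (P ^ 2 * N + P ^ 2 * Y + Δ * p₁ + p₅ * (1 + a)) := by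
  have hC2 : C ≤ C ^ 2 := by nlinarith
  have hC21 : 1 ≤ C ^ 2 := by nlinarith
  have q0 : 0 ≤ P ^ 2 * N := by positivity
  have hτ1 : τ ≤ 1 := by nlinarith
  have b1 : τ * (P ^ 2 * N ^ 2) ≤ P ^ 2 * N := by
    calc τ * (P ^ 2 * N ^ 2) = (N * τ) * (P ^ 2 * N) := by ring
      _ ≤ 1 * (P ^ 2 * N) := by gcongr
      _ = _ := one_mul _
  have b2 : τ * (3 * P ^ 2) ≤ 3 * (P ^ 2 * N) := by
    calc τ * (3 * P ^ 2) ≤ 1 * (3 * P ^ 2) := by gcongr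
      _ ≤ 3 * (P ^ 2 * N) := by nlinarith [sq_nonneg P]
  have b3 : 4 * (P ^ 2 * N) * S ≤ 4 * (C ^ 2 * (P ^ 2 * N)) := by
    calc 4 * (P ^ 2 * N) * S ≤ 4 * (P ^ 2 * N) * C ^ 2 := by gcongr; linarith
      _ = _ := by ring
  have p50 : 0 ≤ p₅ := by rw [h5]; positivity
  have b4 : p₃ * Y₂ ≤ C ^ 2 * (p₅ * (1 + a)) := by
    calc p₃ * Y₂ ≤ p₃ * (C * (p₄ * (1 + a))) := by gcongr
      _ = C * (p₅ * (1 + a)) := by rw [h5]; ring
      _ ≤ _ := by gcongr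
  have b5 : p₂ * a ≤ p₅ * (1 + a) := by
    rw [← h5] at h23
    gcongr; linarith
  have z1 : 0 ≤ P ^ 2 * Y := by positivity
  have z2 : 0 ≤ Δ * p₁ := by positivity
  have z3 : 0 ≤ p₅ * (1 + a) := by positivity
  have m0 := mul_le_mul_of_nonneg_right hC21 q0
  have m1 := mul_le_mul_of_nonneg_right hC21 z1
  have m2 := mul_le_mul_of_nonneg_right hC21 z2
  have m3 := mul_le_mul_of_nonneg_right hC21 z3
  have e : 20000 * C ^ 2 * (P ^ 2 * N + P ^ 2 * Y + Δ * p₁ + p₅ * (1 + a)) =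
      20000 * (C ^ 2 * (P ^ 2 * N)) + 20000 * (C ^ 2 * (P ^ 2 * Y)) + 20000 * (C ^ 2 * (Δ * p₁)) +
        20000 * (C ^ 2 * (p₅ * (1 + a))) := by ring
  have e2 : 4 * P ^ 2 * Y = 4 * (P ^ 2 * Y) := by ring
  have e3 : p₁ * Δ = Δ * p₁ := by ring
  rw [e, e2, e3]
  linarith

theorem impr_damp {t₁ t₂ h : ℝ} (h12 : t₁ ≤ t₂) (hh0 : 0 < h) {u u' g : ℝ → ℝ}
    (cu : ContinuousOn u (Icc t₁ t₂)) (cg : ContinuousOn g (Icc t₁ t₂))
    (u0 : ∀ t ∈ Icc t₁ t₂, 0 ≤ u t)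
    (hd : ∀ t ∈ Ioo t₁ t₂, HasDerivAt u (u' t) t ∧ u' t ≤ 2 * √(u t) * g t - u t / (16 * h)) :
    (∀ t ∈ Icc t₁ t₂, u t ≤ u t₁ + 32 * h * ∫ t in t₁..t₂, g t ^ 2) ∧
      ∫ t in t₁..t₂, u t ≤ 32 * h * (u t₁ + 32 * h * ∫ t in t₁..t₂, g t ^ 2) := by
  obtain ⟨dsup, dint⟩ := damped (u := u) (u' := u') (g := fun t => 32 * h * g t ^ 2)
    (c := 1 / (32 * h)) h12 (by positivity) cu (continuousOn_const.mul (cg.pow 2))
    u0 (fun t ht => by positivity) (fun t ht => (hd t ht).1)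
    (fun t ht => by
      have h1 := (hd t ht).2
      have u0 := u0 t (Ioo_subset_Icc_self ht)
      have h2 : 2 * √(u t) * g t ≤ u t / (32 * h) + 32 * h * g t ^ 2 := by
        have h3 : 0 ≤ (√(u t) - 32 * h * g t) ^ 2 / (32 * h) := by positivity
        have h4 : (√(u t) - 32 * h * g t) ^ 2 / (32 * h) =
            u t / (32 * h) + 32 * h * g t ^ 2 - 2 * √(u t) * g t := by
          rw [sub_sq, Real.sq_sqrt u0]; field_simp; ring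
        linarith
      have h5 : u t / (16 * h) = 2 * (u t / (32 * h)) := by field_simp; ring
      have h6 : 1 / (32 * h) * u t = u t / (32 * h) := by ring
      linarith)
  rw [intervalIntegral.integral_const_mul] at dsup dint
  refine ⟨dsup, ?_⟩
  rw [one_div, inv_mul_le_iff₀ (by positivity)] at dint
  exact dint

theorem impr_I3 {C P h a U u₁ G Φ : ℝ} (hC : 1 ≤ C) (hP : 0 < P) (hh : 0 < h) (hΦ : 0 ≤ Φ)
    (h1 : a ≤ 16 / (h * P) ^ 2 * U) (h2 : U ≤ 32 * h * (u₁ + 32 * h * G))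
    (h3 : u₁ ≤ C * (h * P ^ 2)) (h4 : G ≤ C ^ 2 * Φ) :
    a ≤ 20000 * C ^ 2 * (1 + Φ / P ^ 2) := by
  have hC2 : C ≤ C ^ 2 := by nlinarith
  calc a ≤ 16 / (h * P) ^ 2 * (32 * h * (C * (h * P ^ 2) + 32 * h * (C ^ 2 * Φ))) := by
        refine h1.trans ?_
        gcongr
        refine h2.trans ?_
        gcongr
    _ = 512 * C + 16384 * (C ^ 2 * (Φ / P ^ 2)) := by field_simp; ring
    _ ≤ _ := by
        have : 0 ≤ C ^ 2 * (Φ / P ^ 2) := by positivity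
        have e : 20000 * C ^ 2 * (1 + Φ / P ^ 2) =
          20000 * C ^ 2 + 20000 * (C ^ 2 * (Φ / P ^ 2)) := by ring
        rw [e]
        nlinarith

theorem impr_sq3 (a b c : ℝ) : (a + b + c) ^ 2 ≤ 3 * (a ^ 2 + b ^ 2 + c ^ 2) := by
  nlinarith [sq_nonneg (a - b), sq_nonneg (a - c), sq_nonneg (b - c)]

theorem impr_I4 {C P t₁ t₂ : ℝ} (hC : 1 ≤ C) (hP0 : 0 < P) (h12 : t₁ ≤ t₂) (hτ1 : t₂ - t₁ ≤ 1)
    {A δ y : ℝ → ℝ} (cA : ContinuousOn A (Icc t₁ t₂)) (cδ : ContinuousOn δ (Icc t₁ t₂))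
    (cy : ContinuousOn y (Icc t₁ t₂))
    (hpt : ∀ t ∈ Icc t₁ t₂, 0 ≤ y t ∧ 0 ≤ δ t ∧ δ t ≤ 4 * P ^ (-(29 / 25 : ℝ)) * A t +
        C * (P ^ (-(69 / 100 : ℝ)) * √(y t) + P ^ (-(131 / 200 : ℝ)))) :
    ∫ t in t₁..t₂, δ t ^ 2 ≤ 20000 * C ^ 2 * (P ^ (-(232 / 100 : ℝ)) * (∫ t in t₁..t₂, A t ^ 2) +
      P ^ (-(138 / 100 : ℝ)) * (∫ t in t₁..t₂, y t) + P ^ (-(131 / 100 : ℝ))) := by
  have iA2 : IntervalIntegrable (fun t => A t ^ 2) volume t₁ t₂ :=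
    (cA.pow 2).intervalIntegrable_of_Icc h12
  have iδ2 : IntervalIntegrable (fun t => δ t ^ 2) volume t₁ t₂ :=
    (cδ.pow 2).intervalIntegrable_of_Icc h12
  have iy : IntervalIntegrable y volume t₁ t₂ := cy.intervalIntegrable_of_Icc h12
  have j1 := iA2.const_mul (48 * P ^ (-(232 / 100 : ℝ)))
  have j2 := iy.const_mul (3 * C ^ 2 * P ^ (-(138 / 100 : ℝ)))
  have j3 : IntervalIntegrable (fun _ : ℝ => 3 * C ^ 2 * P ^ (-(131 / 100 : ℝ))) volume t₁ t₂ :=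
    intervalIntegrable_const
  have h1 : ∫ t in t₁..t₂, δ t ^ 2 ≤ ∫ t in t₁..t₂, (48 * P ^ (-(232 / 100 : ℝ)) * A t ^ 2 +
      3 * C ^ 2 * P ^ (-(138 / 100 : ℝ)) * y t + 3 * C ^ 2 * P ^ (-(131 / 100 : ℝ))) := by
    refine intervalIntegral.integral_mono_on h12 iδ2 ((j1.add j2).add j3) fun t ht => ?_
    obtain ⟨y0, δ0, hδ⟩ := hpt t ht
    have f1 : (4 * P ^ (-(29 / 25 : ℝ)) * A t) ^ 2 = 16 * P ^ (-(232 / 100 : ℝ)) * A t ^ 2 := by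
      rw [mul_pow, mul_pow, impr_rpow_sq hP0]; norm_num
    have f2 : (C * (P ^ (-(69 / 100 : ℝ)) * √(y t))) ^ 2 =
        C ^ 2 * P ^ (-(138 / 100 : ℝ)) * y t := by
      rw [mul_pow, mul_pow, impr_rpow_sq hP0, Real.sq_sqrt y0, mul_assoc]; norm_num
    have f3 : (C * P ^ (-(131 / 200 : ℝ))) ^ 2 = C ^ 2 * P ^ (-(131 / 100 : ℝ)) := by
      rw [mul_pow, impr_rpow_sq hP0]; norm_num
    have f4 : δ t ^ 2 ≤ (4 * P ^ (-(29 / 25 : ℝ)) * A t + C * (P ^ (-(69 / 100 : ℝ)) * √(y t)) +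
        C * P ^ (-(131 / 200 : ℝ))) ^ 2 := by
      refine pow_le_pow_left₀ δ0 ?_ 2
      rw [mul_add] at hδ
      linarith
    refine f4.trans ((impr_sq3 _ _ _).trans (le_of_eq ?_))
    rw [f1, f2, f3]; ring
  rw [intervalIntegral.integral_add (j1.add j2) j3, intervalIntegral.integral_add j1 j2] at h1
  simp only [intervalIntegral.integral_const_mul, intervalIntegral.integral_const,
    smul_eq_mul] at h1
  have a0 : 0 ≤ ∫ t in t₁..t₂, A t ^ 2 :=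
    intervalIntegral.integral_nonneg h12 fun t _ => sq_nonneg _
  have Y0 : 0 ≤ ∫ t in t₁..t₂, y t :=
    intervalIntegral.integral_nonneg h12 fun t ht => (hpt t ht).1
  generalize (∫ t in t₁..t₂, A t ^ 2) = a at *
  generalize (∫ t in t₁..t₂, y t) = Y at *
  generalize (∫ t in t₁..t₂, δ t ^ 2) = Δ at *
  have z1 : 0 ≤ P ^ (-(232 / 100 : ℝ)) := by positivity
  have z2 : 0 ≤ P ^ (-(138 / 100 : ℝ)) := by positivity
  have z3 : 0 ≤ P ^ (-(131 / 100 : ℝ)) := by positivity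
  generalize P ^ (-(232 / 100 : ℝ)) = p₁ at *
  generalize P ^ (-(138 / 100 : ℝ)) = p₂ at *
  generalize P ^ (-(131 / 100 : ℝ)) = p₃ at *
  have hC21 : 1 ≤ C ^ 2 := by nlinarith
  have z4 : (t₂ - t₁) * (3 * C ^ 2 * p₃) ≤ 1 * (3 * C ^ 2 * p₃) := by gcongr
  have m1 := mul_le_mul_of_nonneg_right hC21 (mul_nonneg z1 a0)
  have m2 := mul_nonneg (sq_nonneg C) (mul_nonneg z2 Y0)
  have m3 := mul_nonneg (sq_nonneg C) z3
  have m4 := mul_nonneg z1 a0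
  nlinarith

theorem impr_fin1 {C K N p q h P G u u₁ : ℝ} (hC : 1 ≤ C) (hK : 0 ≤ K) (hN : 1 ≤ N) (hq : 0 ≤ q)
    (hh : 0 ≤ h) (hhP : h * P ^ 2 = q) (e1 : (8 * C + 256 * C ^ 2 * K) * N ≤ p)
    (hu : u ≤ u₁ + 32 * h * G) (hu₁ : u₁ ≤ C * q) (hG : G ≤ C ^ 2 * (K * (P ^ 2 * N))) :
    u ≤ p * q / 4 := by
  have h1 : 32 * h * G ≤ 32 * h * (C ^ 2 * (K * (P ^ 2 * N))) := by gcongr
  have h2 : 32 * h * (C ^ 2 * (K * (P ^ 2 * N))) = 32 * (C ^ 2 * K * N) * q := by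
    rw [← hhP]; ring
  have h4 : C + 32 * (C ^ 2 * K * N) ≤ p / 4 := by
    have h5 : C ≤ C * N := by nlinarith
    have h6 : 0 ≤ C ^ 2 * K * N := by positivity
    have e : (8 * C + 256 * C ^ 2 * K) * N = 8 * (C * N) + 256 * (C ^ 2 * K * N) := by ring
    rw [e] at e1
    linarith
  have h7 := mul_le_mul_of_nonneg_right h4 hq
  nlinarith

theorem impr_D_pt {P lm s y y₁ z φ : ℝ} (hP0 : 0 < P) (hlm : 0 < lm) (s0 : 0 ≤ s) (y10 : 0 ≤ y₁)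
    (hz : z ^ 2 ≤ φ) :
    z + fz2 P s y y₁ ≤ (lm / 2 + P ^ (4999 / 5000 : ℝ)) + 1 / (2 * lm) * φ +
      (P ^ (4999 / 5000 : ℝ) + P ^ (197 / 200 : ℝ)) * s + P ^ (4999 / 5000 : ℝ) * y +
      P ^ (3 / 40 : ℝ) * y₁ := by
  have g1 : z ≤ lm / 2 + 1 / (2 * lm) * φ := by
    have h3 : 0 ≤ (z - lm) ^ 2 / (2 * lm) := by positivity
    have h4 : (z - lm) ^ 2 / (2 * lm) = 1 / (2 * lm) * z ^ 2 + lm / 2 - z := by
      field_simp; ring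
    have h5 : 1 / (2 * lm) * z ^ 2 ≤ 1 / (2 * lm) * φ := by gcongr
    linarith
  have g2 : P ^ (53 / 100 : ℝ) * (√s * √y₁) ≤ P ^ (197 / 200 : ℝ) * s + P ^ (3 / 40 : ℝ) * y₁ := by
    have m1 : P ^ (53 / 100 : ℝ) = P ^ (197 / 400 : ℝ) * P ^ (3 / 80 : ℝ) := by
      rw [impr_rpow_mul hP0]; norm_num
    have m2 : P ^ (197 / 200 : ℝ) = (P ^ (197 / 400 : ℝ)) ^ 2 := by
      rw [impr_rpow_sq hP0]; norm_num
    have m3 : P ^ (3 / 40 : ℝ) = (P ^ (3 / 80 : ℝ)) ^ 2 := by rw [impr_rpow_sq hP0]; norm_num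
    rw [m1, m2, m3]
    have n1 : 0 ≤ P ^ (197 / 400 : ℝ) := by positivity
    have n2 : 0 ≤ P ^ (3 / 80 : ℝ) := by positivity
    generalize P ^ (197 / 400 : ℝ) = α at *
    generalize P ^ (3 / 80 : ℝ) = β at *
    have m4 : 0 ≤ α * √s * (β * √y₁) := by positivity
    have m5 : α ^ 2 * s = (α * √s) ^ 2 := by rw [mul_pow, Real.sq_sqrt s0]
    have m6 : β ^ 2 * y₁ = (β * √y₁) ^ 2 := by rw [mul_pow, Real.sq_sqrt y10]
    rw [m5, m6]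
    nlinarith [sq_nonneg (α * √s - β * √y₁)]
  unfold fz2
  linarith

theorem impr_fin2 {C K N P c τ Φ S Y Y₁ a k₁ k₂ k₃ p₁ p₂ p₃ : ℝ} (hC : 1 ≤ C) (hK : 0 ≤ K)
    (hN : 1 ≤ N) (hP : 0 < P) (hτ1 : τ ≤ 1) (hτN : N * τ ≤ c)
    (hc : c ≤ 1 / (128 * C * (128 * C * (K + 1)))) (KΦ : Φ ≤ K * (P ^ 2 * N)) (hS : S ≤ C)
    (KY : Y ≤ K * N) (Ka : a ≤ K * N) (hY₁ : Y₁ ≤ C * (p₃ * (1 + a))) (k10 : 0 ≤ k₁)
    (k20 : 0 ≤ k₂) (k30 : 0 ≤ k₃) (p30 : 0 ≤ p₃) (m1 : P = p₁ * k₁) (m2 : P = p₂ * k₂)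
    (m3 : k₃ * p₃ = k₂) (e2 : 256 * C * (1 + C + K) * N ≤ p₁)
    (e3 : 256 * C ^ 2 * (2 + K) * N ≤ p₂) :
    C * (τ * (P * N * (128 * C * (K + 1)) / 2 + k₁) +
      1 / (2 * (P * N * (128 * C * (K + 1)))) * Φ + (k₁ + k₂) * S + k₁ * Y + k₃ * Y₁) ≤
      P / 32 := by
  have hC0 : 0 < C := by linarith
  have hN0 : 0 < N := by linarith
  obtain ⟨L, hL⟩ : ∃ L, L = 128 * C * (K + 1) := ⟨_, rfl⟩
  have hL0 : 0 < L := by rw [hL]; positivity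
  rw [← hL] at hc ⊢
  have w1 : C * (τ * (P * N * L / 2)) ≤ P / 256 := by
    calc C * (τ * (P * N * L / 2)) = (N * τ) * (C * L * P / 2) := by ring
      _ ≤ 1 / (128 * C * L) * (C * L * P / 2) := by gcongr; exact hτN.trans hc
      _ = P / 256 := by field_simp; ring
  have w2 : C * (1 / (2 * (P * N * L)) * Φ) ≤ P / 256 := by
    calc C * (1 / (2 * (P * N * L)) * Φ) ≤
          C * (1 / (2 * (P * N * L)) * ((K + 1) * (P ^ 2 * N))) := by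
          gcongr
          exact KΦ.trans (by gcongr; linarith)
      _ = P / 256 := by rw [hL]; field_simp; ring
  have w3 : C * (k₁ * (1 + C + K * N)) ≤ P / 256 := by
    have n2 : 256 * C * (1 + C + K * N) ≤ p₁ := by
      refine le_trans ?_ e2
      have h1 : (1 + C) ≤ (1 + C) * N := by nlinarith
      have h2 : 1 + C + K * N ≤ (1 + C + K) * N := by linarith [add_mul (1 + C) K N]
      rw [mul_assoc (256 * C)]
      gcongr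
    calc C * (k₁ * (1 + C + K * N)) = 256 * C * (1 + C + K * N) * k₁ / 256 := by ring
      _ ≤ p₁ * k₁ / 256 := by gcongr
      _ = P / 256 := by rw [← m1]
  have w4 : C * (k₂ * (C * (2 + K * N))) ≤ P / 256 := by
    have n2 : 256 * C ^ 2 * (2 + K * N) ≤ p₂ := by
      refine le_trans ?_ e3
      have h2 : 2 + K * N ≤ (2 + K) * N := by linarith [add_mul 2 K N]
      rw [mul_assoc (256 * C ^ 2)]
      gcongr
    calc C * (k₂ * (C * (2 + K * N))) = 256 * C ^ 2 * (2 + K * N) * k₂ / 256 := by ring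
      _ ≤ p₂ * k₂ / 256 := by gcongr
      _ = P / 256 := by rw [← m2]
  have w5 : k₃ * Y₁ ≤ k₂ * (C * (1 + K * N)) := by
    calc k₃ * Y₁ ≤ k₃ * (C * (p₃ * (1 + K * N))) := by
          gcongr
          exact hY₁.trans (by gcongr)
      _ = k₂ * (C * (1 + K * N)) := by rw [← m3]; ring
  have w6 : τ * k₁ ≤ 1 * k₁ := by gcongr
  have w7 : k₁ * S ≤ k₁ * C := by gcongr
  have w8 : k₂ * S ≤ k₂ * C := by gcongr
  have w9 : k₁ * Y ≤ k₁ * (K * N) := by gcongr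
  have w10 : τ * (P * N * L / 2 + k₁) + 1 / (2 * (P * N * L)) * Φ + (k₁ + k₂) * S + k₁ * Y +
      k₃ * Y₁ ≤ τ * (P * N * L / 2) + 1 / (2 * (P * N * L)) * Φ + k₁ * (1 + C + K * N) +
        k₂ * (C * (2 + K * N)) := by
    generalize 1 / (2 * (P * N * L)) * Φ = x
    generalize P * N * L / 2 = z
    nlinarith
  have w11 := mul_le_mul_of_nonneg_left w10 hC0.le
  refine w11.trans ?_
  rw [mul_add, mul_add, mul_add]
  linarith

theorem impr_core (C : ℝ) (hC : 1 ≤ C) : ∃ c : ℝ, 0 < c ∧ c ≤ 1 ∧ ∀ᶠ P : ℝ in atTop,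
    ∀ (t₁ t₂ : ℝ), t₁ ≤ t₂ → t₂ - t₁ ≤ c / Real.log P →
    ∀ (u u' g D A δ s y y₁ y₂ : ℝ → ℝ), ContinuousOn u (Icc t₁ t₂) → ContinuousOn g (Icc t₁ t₂) →
    ContinuousOn D (Icc t₁ t₂) → ContinuousOn A (Icc t₁ t₂) → ContinuousOn δ (Icc t₁ t₂) →
    IntervalIntegrable s volume t₁ t₂ → ContinuousOn y (Icc t₁ t₂) →
    ContinuousOn y₁ (Icc t₁ t₂) → ContinuousOn y₂ (Icc t₁ t₂) →
    (∫ t in t₁..t₂, s t ≤ C) →
    (∫ t in t₁..t₂, y t ≤ C * (Real.log P * (1 + c / Real.log P * ∫ t in t₁..t₂, A t ^ 2) +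
      P ^ (-(1 / 5 : ℝ)) * ∫ t in t₁..t₂, A t ^ 2)) →
    (∫ t in t₁..t₂, y₁ t ≤ C * (P ^ (91 / 100 : ℝ) * (1 + ∫ t in t₁..t₂, A t ^ 2))) →
    (∫ t in t₁..t₂, y₂ t ≤ C * (P ^ (48 / 100 : ℝ) * (1 + ∫ t in t₁..t₂, A t ^ 2))) →
    (∀ t ∈ Icc t₁ t₂, 0 ≤ s t ∧ 0 ≤ y t ∧ 0 ≤ y₁ t ∧ 0 ≤ y₂ t ∧ 0 ≤ u t ∧ 0 ≤ g t ∧ 0 ≤ A t ∧
      0 ≤ δ t ∧ g t ≤ C * fz1 P (s t) (y t) (y₂ t) (δ t) (A t) ∧
      D t ≤ C * (fz1 P (s t) (y t) (y₂ t) (δ t) (A t) + fz2 P (s t) (y t) (y₁ t)) ∧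
      A t ≤ 4 * √(u t) / (P ^ (-(29 / 25 : ℝ)) * P) ∧
      δ t ≤ 4 * P ^ (-(29 / 25 : ℝ)) * A t +
        C * (P ^ (-(69 / 100 : ℝ)) * √(y t) + P ^ (-(131 / 200 : ℝ)))) →
    (∀ t ∈ Ioo t₁ t₂, HasDerivAt u (u' t) t ∧
      u' t ≤ 2 * √(u t) * g t - u t / (16 * P ^ (-(29 / 25 : ℝ)))) →
    u t₁ ≤ C * P ^ (82 / 100 : ℝ) →
    (∀ t ∈ Icc t₁ t₂, u t ≤ P ^ (17 / 20 : ℝ) / 4) ∧ ∫ t in t₁..t₂, D t ≤ P / 32 := by
  obtain ⟨c₀, K, P₃, hc₀, hc₀1, hK, Hcl⟩ := closing (20000 * C ^ 2) (by positivity)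
  have hC0 : 0 < C := by linarith
  obtain ⟨c, hc0, hcc₀, hcL⟩ : ∃ c : ℝ, 0 < c ∧ c ≤ c₀ ∧
      c ≤ 1 / (128 * C * (128 * C * (K + 1))) :=
    ⟨min c₀ (1 / (128 * C * (128 * C * (K + 1)))), lt_min hc₀ (by positivity), min_le_left _ _,
      min_le_right _ _⟩
  have hc1 : c ≤ 1 := hcc₀.trans hc₀1
  refine ⟨c, hc0, hc1, ?_⟩
  filter_upwards [eventually_ge_atTop (1 : ℝ), eventually_ge_atTop P₃, impr_log,
    impr_ev (8 * C + 256 * C ^ 2 * K) (show (0 : ℝ) < 1 / 100 by norm_num),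
    impr_ev (256 * C * (1 + C + K)) (show (0 : ℝ) < 1 / 5000 by norm_num),
    impr_ev (256 * C ^ 2 * (2 + K)) (show (0 : ℝ) < 3 / 200 by norm_num)]
    with P hP1 hP3 hN e1 e2 e3
  intro t₁ t₂ h12 hτ u u' g D A δ s y y₁ y₂ cu cg cD cA cδ is cy cy₁ cy₂ Is Iy Iy₁ Iy₂ hpt hd hu₁
  have hP0 : 0 < P := by linarith
  have hN0 : 0 < Real.log P := by linarith
  have hh0 : 0 < P ^ (-(29 / 25 : ℝ)) := by positivity
  have hτ1 : t₂ - t₁ ≤ 1 := hτ.trans (by rw [div_le_one hN0]; linarith)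
  have hτN : Real.log P * (t₂ - t₁) ≤ c := by
    rw [le_div_iff₀ hN0] at hτ; linarith
  have ii : ∀ {φ : ℝ → ℝ}, ContinuousOn φ (Icc t₁ t₂) → IntervalIntegrable φ volume t₁ t₂ :=
    fun hφ => hφ.intervalIntegrable_of_Icc h12
  have a0 : 0 ≤ ∫ t in t₁..t₂, A t ^ 2 :=
    intervalIntegral.integral_nonneg h12 fun t _ => sq_nonneg _
  have Δ0 : 0 ≤ ∫ t in t₁..t₂, δ t ^ 2 :=
    intervalIntegral.integral_nonneg h12 fun t _ => sq_nonneg _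
  have Y0 : 0 ≤ ∫ t in t₁..t₂, y t :=
    intervalIntegral.integral_nonneg h12 fun t ht => (hpt t ht).2.1
  have iA2 : IntervalIntegrable (fun t => A t ^ 2) volume t₁ t₂ := ii (cA.pow 2)
  have ig2 : IntervalIntegrable (fun t => g t ^ 2) volume t₁ t₂ := ii (cg.pow 2)
  obtain ⟨iφ, eΦ⟩ := impr_ii_phi (P := P) h12 is cy cy₂ cδ cA
  have hφ1 : ∀ t ∈ Icc t₁ t₂, fz1 P (s t) (y t) (y₂ t) (δ t) (A t) ^ 2 ≤
      imprPhi P (s t) (y t) (y₂ t) (δ t) (A t) := fun t ht =>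
    impr_fz1_sq hP1 hN (hpt t ht).1 (hpt t ht).2.1 (hpt t ht).2.2.2.1
  have Φ0 : 0 ≤ ∫ t in t₁..t₂, imprPhi P (s t) (y t) (y₂ t) (δ t) (A t) :=
    intervalIntegral.integral_nonneg h12 fun t ht => (sq_nonneg _).trans (hφ1 t ht)
  have hGΦ : ∫ t in t₁..t₂, g t ^ 2 ≤
      C ^ 2 * ∫ t in t₁..t₂, imprPhi P (s t) (y t) (y₂ t) (δ t) (A t) := by
    rw [← intervalIntegral.integral_const_mul]
    refine intervalIntegral.integral_mono_on h12 ig2 (iφ.const_mul _) fun t ht => ?_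
    obtain ⟨-, -, -, -, -, g0, -, -, hg, -⟩ := hpt t ht
    calc g t ^ 2 ≤ (C * fz1 P (s t) (y t) (y₂ t) (δ t) (A t)) ^ 2 := pow_le_pow_left₀ g0 hg 2
      _ ≤ _ := by rw [mul_pow]; exact mul_le_mul_of_nonneg_left (hφ1 t ht) (sq_nonneg C)
  have I1 : ∫ t in t₁..t₂, y t ≤ 20000 * C ^ 2 * (Real.log P + c * (∫ t in t₁..t₂, A t ^ 2) +
      P ^ (-(1 / 5 : ℝ)) * ∫ t in t₁..t₂, A t ^ 2) := by
    have : Real.log P * (1 + c / Real.log P * ∫ t in t₁..t₂, A t ^ 2) =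
        Real.log P + c * ∫ t in t₁..t₂, A t ^ 2 := by field_simp
    rw [this] at Iy
    refine Iy.trans (mul_le_mul_of_nonneg_right (by nlinarith) (by positivity))
  have p188 : P ^ (188 / 100 : ℝ) = P ^ (14 / 10 : ℝ) * P ^ (48 / 100 : ℝ) := by
    rw [impr_rpow_mul hP0]; norm_num
  have p156 : P ^ (156 / 100 : ℝ) ≤ P ^ (14 / 10 : ℝ) * P ^ (48 / 100 : ℝ) := by
    rw [← p188]
    exact Real.rpow_le_rpow_of_exponent_le hP1 (by norm_num)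
  have I2 := impr_I2 (P := P) (p₁ := P ^ (328 / 100 : ℝ)) hC hN (sub_nonneg.2 h12)
    (hτN.trans hc1) Is Y0 Δ0 a0 (by positivity) (by positivity) (by positivity) p156 p188
    (by positivity) Iy₂
  rw [← eΦ] at I2
  obtain ⟨dsup, dint⟩ := impr_damp h12 hh0 cu cg (fun t ht => (hpt t ht).2.2.2.2.1) hd
  have hhP : P ^ (-(29 / 25 : ℝ)) * P ^ 2 = P ^ (84 / 100 : ℝ) := by
    rw [← impr_rpow_two, impr_rpow_mul hP0]; norm_num
  have hu84 : u t₁ ≤ C * P ^ (84 / 100 : ℝ) := hu₁.trans (mul_le_mul_of_nonneg_left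
    (Real.rpow_le_rpow_of_exponent_le hP1 (by norm_num)) hC0.le)
  have h1 : ∫ t in t₁..t₂, A t ^ 2 ≤
      16 / (P ^ (-(29 / 25 : ℝ)) * P) ^ 2 * ∫ t in t₁..t₂, u t := by
    rw [← intervalIntegral.integral_const_mul]
    refine intervalIntegral.integral_mono_on h12 iA2 ((ii cu).const_mul _) fun t ht => ?_
    obtain ⟨-, -, -, -, u0, -, A0, -, -, -, hA, -⟩ := hpt t ht
    calc A t ^ 2 ≤ (4 * √(u t) / (P ^ (-(29 / 25 : ℝ)) * P)) ^ 2 := pow_le_pow_left₀ A0 hA 2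
      _ = 16 / (P ^ (-(29 / 25 : ℝ)) * P) ^ 2 * u t := by
        rw [div_pow, mul_pow, Real.sq_sqrt u0]; ring
  have I3 := impr_I3 hC hP0 hh0 Φ0 h1 dint (by rw [hhP]; exact hu84) hGΦ
  have I4 := impr_I4 hC hP0 h12 hτ1 cA cδ cy fun t ht =>
    ⟨(hpt t ht).2.1, (hpt t ht).2.2.2.2.2.2.2.1, (hpt t ht).2.2.2.2.2.2.2.2.2.2.2⟩
  obtain ⟨Ka, KY, KΦ, -⟩ := Hcl c hc0 hcc₀ P hP3 _ _ _ _ a0 Y0 Φ0 Δ0 I1 I2 I3 I4
  refine ⟨fun t ht => ?_, ?_⟩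
  · have h3 : P ^ (17 / 20 : ℝ) = P ^ (1 / 100 : ℝ) * P ^ (84 / 100 : ℝ) := by
      rw [impr_rpow_mul hP0]; norm_num
    rw [h3]
    exact impr_fin1 hC hK hN (by positivity) hh0.le hhP e1 (dsup t ht) hu84
      (hGΦ.trans (mul_le_mul_of_nonneg_left KΦ (sq_nonneg C)))
  · obtain ⟨lm, hlm⟩ : ∃ lm, lm = P * Real.log P * (128 * C * (K + 1)) := ⟨_, rfl⟩
    have hlm0 : 0 < lm := by rw [hlm]; positivity
    have j1 : IntervalIntegrable (fun _ : ℝ => lm / 2 + P ^ (4999 / 5000 : ℝ)) volume t₁ t₂ :=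
      intervalIntegrable_const
    have j2 := iφ.const_mul (1 / (2 * lm))
    have j3 := is.const_mul (P ^ (4999 / 5000 : ℝ) + P ^ (197 / 200 : ℝ))
    have j4 := (ii cy).const_mul (P ^ (4999 / 5000 : ℝ))
    have j5 := (ii cy₁).const_mul (P ^ (3 / 40 : ℝ))
    have h2 : ∫ t in t₁..t₂, D t ≤ ∫ t in t₁..t₂, C * ((lm / 2 + P ^ (4999 / 5000 : ℝ)) +
        1 / (2 * lm) * imprPhi P (s t) (y t) (y₂ t) (δ t) (A t) +
        (P ^ (4999 / 5000 : ℝ) + P ^ (197 / 200 : ℝ)) * s t + P ^ (4999 / 5000 : ℝ) * y t +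
        P ^ (3 / 40 : ℝ) * y₁ t) := by
      refine intervalIntegral.integral_mono_on h12 (ii cD)
        (((((j1.add j2).add j3).add j4).add j5).const_mul _) fun t ht => ?_
      obtain ⟨s0, y0, y10, -, -, -, -, -, -, hD, -⟩ := hpt t ht
      exact hD.trans (mul_le_mul_of_nonneg_left
        (impr_D_pt hP0 hlm0 s0 y10 (hφ1 t ht)) hC0.le)
    rw [intervalIntegral.integral_const_mul,
      intervalIntegral.integral_add (((j1.add j2).add j3).add j4) j5,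
      intervalIntegral.integral_add ((j1.add j2).add j3) j4,
      intervalIntegral.integral_add (j1.add j2) j3,
      intervalIntegral.integral_add j1 j2] at h2
    simp only [intervalIntegral.integral_const_mul, intervalIntegral.integral_const,
      smul_eq_mul] at h2
    refine h2.trans ?_
    rw [hlm]
    refine impr_fin2 (p₁ := P ^ (1 / 5000 : ℝ)) (p₂ := P ^ (3 / 200 : ℝ)) hC hK hN hP0 hτ1 hτN hcL
      KΦ Is KY Ka Iy₁ (by positivity) (by positivity) (by positivity) (by positivity) ?_ ?_ ?_ e2 e3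
    · rw [impr_rpow_mul hP0]; norm_num
    · rw [impr_rpow_mul hP0]; norm_num
    · rw [impr_rpow_mul hP0]; norm_num

end Crest.Agent.R106
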