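import Crest.Agent.R106.CalcA

/-!
# Row 106: the relaxation equation for the reference direction
-/

set_option autoImplicit false
set_option linter.unusedVariables false
set_option linter.unusedSectionVars false

open MeasureTheory Metric Set Filter Topology
open scoped ContDiff ENNReal RealInnerProductSpace
open Crest.AnalysisR.VecCalc3 Crest.AnalysisR.PDE.RVM

noncomputable section

namespace Crest.Agent.R106

theorem exists_retr : ∃ π : R3 → R3, ContDiff ℝ ∞ π ∧ (∀ u, ‖π u‖ ≤ 1) ∧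
    (∀ u, 1 ≤ ‖u‖ → π u = nz u) ∧ ∃ L : NNReal, LipschitzWith L π := by
  have hs : ContDiff ℝ ∞ fun u : R3 => Real.smoothTransition (2 * ‖u‖ ^ 2 - 1) :=
    Real.smoothTransition.contDiff.comp
      ((contDiff_const.mul (contDiff_norm_sq ℝ)).sub contDiff_const)
  have hπ : ContDiff ℝ ∞ fun u : R3 => Real.smoothTransition (2 * ‖u‖ ^ 2 - 1) • nz u := by
    refine contDiff_iff_contDiffAt.2 fun u => ?_
    by_cases hu : u = 0
    · subst hu
      refine (contDiffAt_const (c := (0 : R3))).congr_of_eventuallyEq ?_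
      filter_upwards [ball_mem_nhds (0 : R3) (show (0 : ℝ) < 1 / 2 by norm_num)] with v hv
      rw [mem_ball_zero_iff] at hv
      rw [Real.smoothTransition.zero_of_nonpos (by nlinarith [norm_nonneg v]), zero_smul]
    · exact hs.contDiffAt.smul (contDiffAt_nz hu)
  have h1 : ∀ u : R3, 1 ≤ ‖u‖ → Real.smoothTransition (2 * ‖u‖ ^ 2 - 1) • nz u = nz u := by
    intro u hu
    rw [Real.smoothTransition.one_of_one_le (by nlinarith), one_smul]
  refine ⟨_, hπ, fun u => ?_, h1, ?_⟩
  · rw [norm_smul, Real.norm_of_nonneg (Real.smoothTransition.nonneg _)]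
    exact mul_le_one₀ (Real.smoothTransition.le_one _) (norm_nonneg _) (norm_nz_le u)
  · obtain ⟨C, hC⟩ := (isCompact_closedBall (0 : R3) 1).exists_bound_of_continuousOn
      (hπ.continuous_fderiv (by simp)).continuousOn
    refine ⟨(max C 2).toNNReal, lipschitzWith_of_nnnorm_fderiv_le (hπ.differentiable (by simp))
      fun u => ?_⟩
    rw [← NNReal.coe_le_coe, coe_nnnorm]
    refine le_trans ?_ (Real.le_coe_toNNReal _)
    by_cases hu : ‖u‖ ≤ 1
    · exact (hC u (mem_closedBall_zero_iff.2 hu)).trans (le_max_left _ _)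
    · have hu' : 1 < ‖u‖ := not_le.1 hu
      have e : (fun u : R3 => Real.smoothTransition (2 * ‖u‖ ^ 2 - 1) • nz u) =ᶠ[𝓝 u] nz := by
        filter_upwards [(isOpen_lt continuous_const continuous_norm).mem_nhds hu'] with v hv
        exact h1 v (le_of_lt hv)
      rw [e.fderiv_eq]
      refine le_trans ?_ (le_max_right _ _)
      have hu0 : u ≠ 0 := by
        rintro rfl
        simp at hu
      refine ContinuousLinearMap.opNorm_le_bound _ (by norm_num) fun w => ?_
      rw [fderiv_nz hu0, norm_smul, norm_inv, norm_norm]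
      have a1 : ‖u‖⁻¹ ≤ 1 := inv_le_one_of_one_le₀ hu'.le
      have a2 : ‖w - ⟪nz u, w⟫ • nz u‖ ≤ 2 * ‖w‖ := by
        refine (norm_sub_le _ _).trans ?_
        have := abs_real_inner_le_norm (nz u) w
        rw [norm_smul, norm_nz hu0, Real.norm_eq_abs]
        rw [norm_nz hu0] at this
        linarith
      exact (mul_le_mul a1 a2 (norm_nonneg _) zero_le_one).trans (by rw [one_mul])

theorem ode_exists {Φ : ℝ → R3 → R3} (hc : Continuous fun p : ℝ × R3 => Φ p.1 p.2) {t₁ t₂ : ℝ}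
    (h₁₂ : t₁ ≤ t₂) {K : ℝ} {L : NNReal} (hb : ∀ t ∈ Icc t₁ t₂, ∀ u, ‖Φ t u‖ ≤ K)
    (hl : ∀ t ∈ Icc t₁ t₂, LipschitzWith L (Φ t)) {h : ℝ} (hh : 0 < h) (U₁ : R3) :
    ∃ U : ℝ → R3, Continuous U ∧ U t₁ = U₁ ∧
      ∀ t ∈ Ioo t₁ t₂, HasDerivAt U (h⁻¹ • (Φ t (U t) - U t)) t := by
  have hK : 0 ≤ K := (norm_nonneg _).trans (hb t₁ ⟨le_rfl, h₁₂⟩ 0)
  set e : ℝ → ℝ := fun t => Real.exp ((t - t₁) / h) with he
  have e0 : ∀ t, 0 < e t := fun t => Real.exp_pos _
  have ec : Continuous e := by simp only [he]; fun_prop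
  have ec' : Continuous fun t => (e t)⁻¹ := ec.inv₀ fun t => (e0 t).ne'
  set M : ℝ := h⁻¹ * e t₂ * K with hM
  have hM0 : 0 ≤ M := by have := e0 t₂; positivity
  have hpl : IsPicardLindelof (fun t u => (h⁻¹ * e t) • Φ t ((e t)⁻¹ • u))
      (⟨t₁, le_rfl, h₁₂⟩ : Icc t₁ t₂) U₁ ⟨M * (t₂ - t₁), mul_nonneg hM0 (sub_nonneg.2 h₁₂)⟩ 0
      ⟨M, hM0⟩ ⟨h⁻¹ * L, by positivity⟩ := by
    refine ⟨fun t ht => LipschitzWith.lipschitzOnWith ?_, fun x _ => ?_, fun t ht x _ => ?_, ?_⟩
    · refine LipschitzWith.of_dist_le_mul fun x y => ?_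
      have h1 := (hl t ht).dist_le_mul ((e t)⁻¹ • x) ((e t)⁻¹ • y)
      have := e0 t
      rw [dist_smul₀, Real.norm_of_nonneg (by positivity)] at h1
      rw [dist_smul₀, Real.norm_of_nonneg (by positivity)]
      refine (mul_le_mul_of_nonneg_left h1 (by positivity)).trans (le_of_eq ?_)
      show _ = h⁻¹ * L * dist x y
      field_simp
    · refine Continuous.continuousOn ?_
      exact (continuous_const.mul ec).smul
        (hc.comp (continuous_id.prodMk (ec'.smul continuous_const)))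
    · have := e0 t
      rw [norm_smul, Real.norm_of_nonneg (by positivity)]
      show _ ≤ h⁻¹ * e t₂ * K
      have h1 : e t ≤ e t₂ := Real.exp_le_exp.2 (by gcongr; exact ht.2)
      have := hb t ht ((e t)⁻¹ • x)
      gcongr
    · show M * max (t₂ - t₁) (t₁ - t₁) ≤ M * (t₂ - t₁) - 0
      rw [sub_self, max_eq_left (sub_nonneg.2 h₁₂), sub_zero]
  obtain ⟨α, hα0, hα⟩ := hpl.exists_eq_forall_mem_Icc_hasDerivWithinAt₀
  have hαc : ContinuousOn α (Icc t₁ t₂) := fun t ht => (hα t ht).continuousWithinAt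
  refine ⟨fun t => (e t)⁻¹ • α (projIcc t₁ t₂ h₁₂ t), ec'.smul ?_, ?_, fun t ht => ?_⟩
  · exact hαc.comp_continuous (continuous_subtype_val.comp continuous_projIcc) fun t => Subtype.prop _
  · simp only [projIcc_left, he, sub_self, zero_div, Real.exp_zero, inv_one, one_smul]
    exact hα0
  · have ht' := Ioo_subset_Icc_self ht
    have d1 := (hα t ht').hasDerivAt (Icc_mem_nhds ht.1 ht.2)
    have d2 : HasDerivAt e (e t * (1 / h)) t :=
      (((hasDerivAt_id t).sub_const t₁).div_const h).exp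
    have d3 := (d2.fun_inv (e0 t).ne').fun_smul d1
    have ev : (fun t => (e t)⁻¹ • α (projIcc t₁ t₂ h₁₂ t)) =ᶠ[𝓝 t] fun t => (e t)⁻¹ • α t := by
      filter_upwards [Icc_mem_nhds ht.1 ht.2] with s hs
      rw [projIcc_of_mem _ hs]
    refine (d3.congr_of_eventuallyEq ev).congr_deriv ?_
    have := (e0 t).ne'
    beta_reduce
    rw [projIcc_of_mem _ ht', smul_smul, smul_sub, smul_smul, sub_eq_add_neg, ← neg_smul]
    congr 2 <;> field_simp

/-- the relaxed variable stays in a ball containing the driving term -/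
theorem relax_bound {U W : ℝ → R3} {t₁ t₂ h a : ℝ} (hh : 0 < h) (hU : ContinuousOn U (Icc t₁ t₂))
    (hd : ∀ t ∈ Ioo t₁ t₂, HasDerivAt U (h⁻¹ • (W t - U t)) t)
    (hW : ∀ t ∈ Ioo t₁ t₂, ‖W t - U t₁‖ ≤ a) (ha : 0 ≤ a) :
    ∀ t ∈ Icc t₁ t₂, ‖U t - U t₁‖ ≤ a := by
  intro t ht
  have de : ∀ s, HasDerivAt (fun s => Real.exp (s / h)) (Real.exp (s / h) * (1 / h)) s :=
    fun s => ((hasDerivAt_id s).div_const h).exp
  have dψ : ∀ s ∈ Ioo t₁ t, HasDerivAt (fun s => Real.exp (s / h) • (U s - U t₁))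
      ((Real.exp (s / h) * h⁻¹) • (W s - U t₁)) s := by
    intro s hs
    refine ((de s).fun_smul ((hd s ⟨hs.1, hs.2.trans_le ht.2⟩).sub_const (U t₁))).congr_deriv ?_
    rw [smul_smul, one_div, ← smul_add]
    congr 1
    abel
  have key := norm_sub_le_integral_of_norm_deriv_le_of_le (a := t₁) (b := t)
    (f := fun s => Real.exp (s / h) • (U s - U t₁))
    (B := fun s => a * (Real.exp (s / h) * (1 / h))) ht.1
    ((by fun_prop : ContinuousOn (fun s => Real.exp (s / h)) _).smul
      ((hU.mono (Icc_subset_Icc_right ht.2)).sub continuousOn_const))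
    (fun s hs => (dψ s hs).differentiableAt.differentiableWithinAt)
    (Eventually.of_forall fun s hs => by
      rw [(dψ s hs).deriv, norm_smul, Real.norm_of_nonneg (by positivity), one_div, mul_comm]
      exact mul_le_mul_of_nonneg_right (hW s ⟨hs.1, hs.2.trans_le ht.2⟩) (by positivity))
    (Continuous.intervalIntegrable (by fun_prop) _ _)
  rw [intervalIntegral.integral_const_mul, intervalIntegral.integral_eq_sub_of_hasDerivAt
    (fun s _ => de s) (Continuous.intervalIntegrable (by fun_prop) _ _)] at key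
  simp only [sub_self, smul_zero, sub_zero, norm_smul, Real.norm_of_nonneg (Real.exp_pos _).le]
    at key
  have h1 := Real.exp_pos (t / h)
  have h2 := mul_nonneg ha (Real.exp_pos (t₁ / h)).le
  refine le_of_mul_le_mul_left ?_ h1
  linarith

end Crest.Agent.R106
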