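import Crest.Agent.R106.CalcA

/-!
# Row 106: real-variable lemmas for the bootstrap
-/

set_option autoImplicit false
set_option linter.unusedVariables false
set_option linter.unusedSectionVars false

open MeasureTheory Metric Set Filter Topology
open scoped ContDiff ENNReal RealInnerProductSpace
open Crest.AnalysisR.VecCalc3 Crest.AnalysisR.PDE.RVM

noncomputable section

namespace Crest.Agent.R106

/-- damped energy inequality: `u' ≤ g - c u` -/
theorem damped {u u' g : ℝ → ℝ} {t₁ t₂ c : ℝ} (h₁₂ : t₁ ≤ t₂) (hc : 0 < c)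
    (hu : ContinuousOn u (Icc t₁ t₂)) (hg : ContinuousOn g (Icc t₁ t₂))
    (u0 : ∀ t ∈ Icc t₁ t₂, 0 ≤ u t) (g0 : ∀ t ∈ Icc t₁ t₂, 0 ≤ g t)
    (hd : ∀ t ∈ Ioo t₁ t₂, HasDerivAt u (u' t) t) (hi : ∀ t ∈ Ioo t₁ t₂, u' t ≤ g t - c * u t) :
    (∀ t ∈ Icc t₁ t₂, u t ≤ u t₁ + ∫ t in t₁..t₂, g t) ∧
      c * ∫ t in t₁..t₂, u t ≤ u t₁ + ∫ t in t₁..t₂, g t := by
  have key : ∀ f : ℝ → ℝ, ContinuousOn f (Icc t₁ t₂) →
      ContinuousOn (fun t => ∫ s in t₁..t, f s) (Icc t₁ t₂) ∧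
      ∀ t ∈ Ioo t₁ t₂, HasDerivAt (fun t => ∫ s in t₁..t, f s) (f t) t := by
    intro f hf
    refine ⟨?_, fun t ht => intervalIntegral.integral_hasDerivAt_right
      ((hf.mono (Icc_subset_Icc_right ht.2.le)).intervalIntegrable_of_Icc ht.1.le)
      ((hf.mono Ioo_subset_Icc_self).stronglyMeasurableAtFilter isOpen_Ioo t ht)
      (hf.continuousAt (Icc_mem_nhds ht.1 ht.2))⟩
    have := intervalIntegral.continuousOn_primitive_interval (a := t₁) (b := t₂) (f := f)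
      (μ := volume) (by rw [uIcc_of_le h₁₂]; exact hf.integrableOn_Icc)
    rwa [uIcc_of_le h₁₂] at this
  have hder : ∀ t ∈ Ioo t₁ t₂, HasDerivAt
      (fun t => u t + c * (∫ s in t₁..t, u s) - ∫ s in t₁..t, g s) (u' t + c * u t - g t) t :=
    fun t ht => ((hd t ht).add (((key u hu).2 t ht).const_mul c)).sub ((key g hg).2 t ht)
  have hanti : AntitoneOn (fun t => u t + c * (∫ s in t₁..t, u s) - ∫ s in t₁..t, g s)
      (Icc t₁ t₂) := by
    refine antitoneOn_of_deriv_nonpos (convex_Icc _ _)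
      ((hu.add (continuousOn_const.mul (key u hu).1)).sub (key g hg).1) ?_ ?_
    · rw [interior_Icc]
      exact fun t ht => (hder t ht).differentiableAt.differentiableWithinAt
    · rw [interior_Icc]
      intro t ht
      rw [(hder t ht).deriv]
      linarith [hi t ht]
  have hv : ∀ t ∈ Icc t₁ t₂, u t + c * (∫ s in t₁..t, u s) - ∫ s in t₁..t, g s ≤ u t₁ := by
    intro t ht
    simpa using hanti (left_mem_Icc.2 h₁₂) ht ht.1
  refine ⟨fun t ht => ?_, ?_⟩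
  · have h1 : 0 ≤ ∫ s in t₁..t, u s :=
      intervalIntegral.integral_nonneg ht.1 fun s hs => u0 s ⟨hs.1, hs.2.trans ht.2⟩
    have h2 : 0 ≤ ∫ s in t..t₂, g s :=
      intervalIntegral.integral_nonneg ht.2 fun s hs => g0 s ⟨ht.1.trans hs.1, hs.2⟩
    have h3 := intervalIntegral.integral_add_adjacent_intervals (μ := volume)
      ((hg.mono (Icc_subset_Icc_right ht.2)).intervalIntegrable_of_Icc ht.1)
      ((hg.mono (Icc_subset_Icc_left ht.1)).intervalIntegrable_of_Icc ht.2)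
    linarith [hv t ht, mul_nonneg hc.le h1]
  · linarith [hv t₂ (right_mem_Icc.2 h₁₂), u0 t₂ (right_mem_Icc.2 h₁₂)]

/-- derivative of `|Π W|²` when `e = U/|U|`, `U' = (W - U)/h` -/
theorem hasDerivAt_proj_sq {U W : ℝ → R3} {W' : R3} {t h : ℝ} (hU0 : U t ≠ 0)
    (hU : HasDerivAt U (h⁻¹ • (W t - U t)) t) (hW : HasDerivAt W W' t) :
    HasDerivAt (fun t => nz (U t)) ((h * ‖U t‖)⁻¹ • proj (nz (U t)) (W t)) t ∧
    HasDerivAt (fun t => ‖proj (nz (U t)) (W t)‖ ^ 2)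
      (2 * ⟪proj (nz (U t)) (W t), proj (nz (U t)) W'⟫ -
        2 * (⟪nz (U t), W t⟫ / (h * ‖U t‖)) * ‖proj (nz (U t)) (W t)‖ ^ 2) t := by
  have hn : ‖U t‖ ≠ 0 := norm_ne_zero_iff.2 hU0
  have hee : ⟪nz (U t), nz (U t)⟫ = (1 : ℝ) := by
    rw [real_inner_self_eq_norm_sq, norm_nz hU0, one_pow]
  have hUe : U t = ‖U t‖ • nz (U t) := by rw [nz, smul_smul, mul_inv_cancel₀ hn, one_smul]
  have h1 : HasDerivAt (fun t => nz (U t)) ((h * ‖U t‖)⁻¹ • proj (nz (U t)) (W t)) t := by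
    refine (((contDiffAt_nz hU0).differentiableAt (by simp)).hasFDerivAt.comp_hasDerivAt t
      hU).congr_deriv ?_
    rw [fderiv_nz hU0, proj]
    generalize nz (U t) = e at hee hUe
    generalize ‖U t‖ = r at hUe
    rw [hUe]
    simp only [inner_smul_right, inner_sub_right, hee, mul_inv]
    module
  refine ⟨h1, ((hW.sub ((h1.inner ℝ hW).smul h1)).norm_sq).congr_deriv ?_⟩
  have hy : ⟪proj (nz (U t)) (W t), nz (U t)⟫ = (0 : ℝ) := by
    rw [proj, inner_sub_left, real_inner_smul_left, hee, real_inner_comm, mul_one, sub_self]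
  change 2 * ⟪proj (nz (U t)) (W t), _⟫ = _
  rw [proj.eq_1 (nz (U t)) W']
  simp only [inner_sub_right, inner_add_right, real_inner_smul_right, hy,
    real_inner_self_eq_norm_sq]
  ring

/-- the geometric hypotheses from the transversal momentum -/
theorem geo_of_proj {P : ℝ} {e V : R3} (he : ‖e‖ = 1) (hV : 0 ≤ ⟪e, V⟫)
    (hδ : (2 * ‖proj e V‖ + 2) / en V ≤ P ^ (-(57 / 100 : ℝ))) :
    Geo P ((2 * ‖proj e V‖ + 2) / en V) e (relVel V) := by
  have hE := en_pos V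
  have hee : ⟪e, e⟫ = (1 : ℝ) := by rw [real_inner_self_eq_norm_sq, he, one_pow]
  have ha : ‖proj e V‖ ^ 2 = ‖V‖ ^ 2 - ⟪e, V⟫ ^ 2 := by
    rw [proj, norm_sub_sq_real, real_inner_smul_right, norm_smul, he, Real.norm_eq_abs, mul_one,
      sq_abs, real_inner_comm]
    ring
  have hx : ang e (relVel V) = 1 - ⟪e, V⟫ / en V := by
    rw [ang, relVel_eq, real_inner_smul_right, div_eq_inv_mul]
  have h0 : 0 ≤ ang e (relVel V) := ang_nonneg he.le (norm_relVel_lt_one V).le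
  have h1 : 2 * ang e (relVel V) ≤ ((2 * ‖proj e V‖ + 2) / en V) ^ 2 := by
    have h2 : 0 ≤ ⟪e, V⟫ / en V := by positivity
    have h3 : 1 - (⟪e, V⟫ / en V) ^ 2 = (1 + ‖proj e V‖ ^ 2) / en V ^ 2 := by
      rw [ha, div_pow, one_sub_div (by positivity), en_sq]
      ring
    have h4 : 2 * ((1 + ‖proj e V‖ ^ 2) / en V ^ 2) ≤ ((2 * ‖proj e V‖ + 2) / en V) ^ 2 := by
      rw [div_pow, ← mul_div_assoc]
      gcongr
      nlinarith [norm_nonneg (proj e V)]
    rw [hx] at h0 ⊢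
    nlinarith
  refine ⟨he, norm_relVel_lt_one V, ?_, by linarith, hδ⟩
  refine le_of_sq_le_sq ?_ (by positivity)
  rw [norm_sub_rev]
  exact (norm_sub_sq_le_ang he.le (norm_relVel_lt_one V).le).trans h1

/-- continuity method -/
theorem cont_method {φ : ℝ → ℝ} {t₁ t₂ : ℝ} (hφ : ContinuousOn φ (Icc t₁ t₂)) (h₁ : φ t₁ < 1)
    (hstep : ∀ t ∈ Ioc t₁ t₂, (∀ s ∈ Icc t₁ t, φ s ≤ 1) → φ t < 1) :
    ∀ t ∈ Icc t₁ t₂, φ t < 1 := by
  by_contra hn
  push Not at hn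
  obtain ⟨t, ht, h1⟩ := hn
  have hc : IsCompact (Icc t₁ t₂ ∩ φ ⁻¹' Ici 1) :=
    isCompact_Icc.of_isClosed_subset
      (hφ.preimage_isClosed_of_isClosed isClosed_Icc isClosed_Ici) inter_subset_left
  obtain ⟨t₀, ⟨h2, h3⟩, h4⟩ := hc.exists_isLeast ⟨t, ht, h1⟩
  have h3 : 1 ≤ φ t₀ := h3
  have h5 : t₁ < t₀ := lt_of_le_of_ne h2.1 fun h => by rw [← h] at h3; linarith
  refine absurd (hstep t₀ ⟨h5, h2.2⟩ fun s hs => ?_) (not_lt.2 h3)
  rw [← closure_Ico h5.ne] at hs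
  refine le_on_closure (f := φ) (g := fun _ => 1) (fun s hs => ?_) ?_ continuousOn_const hs
  · by_contra h6
    exact absurd (h4 ⟨⟨hs.1, hs.2.le.trans h2.2⟩, (not_le.1 h6).le⟩) (not_le.2 hs.2)
  · rw [closure_Ico h5.ne]
    exact hφ.mono (Icc_subset_Icc_right h2.2)

end Crest.Agent.R106
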