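import Crest.Agent.R106.TrajEst
import Crest.Agent.R106.Ode
import Crest.Agent.R106.OdeB
import Crest.Agent.R106.Closing
import Crest.Agent.R106.ImproveA

/-!
# Row 106: the bootstrap step
-/

set_option autoImplicit false
set_option linter.unusedVariables false
set_option linter.unusedSectionVars false

open MeasureTheory Metric Set Filter Topology
open scoped ContDiff ENNReal RealInnerProductSpace
open Crest.AnalysisR.VecCalc3 Crest.AnalysisR.PDE.RVM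

noncomputable section

namespace Crest.Agent.R106

/-- `W = V - Ψ/4π` -/
def Wv (P : ℝ) (χ₀ χ₁ : ℝ → ℝ) (f : PS → ℝ) (X V U : ℝ → R3) (t : ℝ) : R3 :=
  V t - (4 * Real.pi)⁻¹ • PsiH P χ₀ χ₁ f (t, X t, nz (U t))

theorem impr_proj_sub (e u w : R3) (c : ℝ) : proj e (u - c • w) = proj e u - c • proj e w := by
  unfold proj
  rw [inner_sub_right, inner_smul_right, sub_smul, smul_sub, smul_smul]
  abel

theorem impr_proj_smul (e u : R3) (c : ℝ) : proj e (c • u) = c • proj e u := by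
  unfold proj
  rw [inner_smul_right, smul_sub, smul_smul]

theorem impr_inner_nz (U : R3) : ⟪nz U, U⟫ = ‖U‖ := by
  unfold nz
  rw [real_inner_smul_left, real_inner_self_eq_norm_sq]
  rcases eq_or_ne ‖U‖ 0 with h | h
  · simp [h]
  · field_simp

theorem impr_proj_self {U : R3} (hU : U ≠ 0) : proj (nz U) U = 0 := by
  unfold proj
  rw [impr_inner_nz]
  unfold nz
  rw [smul_smul, mul_inv_cancel₀ (norm_ne_zero_iff.2 hU), one_smul, sub_self]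

theorem impr_inner_proj {e : R3} (he : ‖e‖ = 1) (u : R3) : ⟪e, proj e u⟫ = 0 := by
  unfold proj
  rw [inner_sub_right, inner_smul_right, real_inner_self_eq_norm_sq, he]
  ring

theorem impr_norm_proj_le {e : R3} (he : ‖e‖ = 1) (u : R3) : ‖proj e u‖ ≤ ‖u‖ := by
  refine le_of_pow_le_pow_left₀ two_ne_zero (norm_nonneg _) ?_
  show ‖u - ⟪e, u⟫ • e‖ ^ 2 ≤ _
  rw [norm_sub_sq_real, inner_smul_right, norm_smul, he, real_inner_comm e u, mul_one,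
    Real.norm_eq_abs, sq_abs]
  nlinarith [sq_nonneg ⟪e, u⟫]

theorem impr_inner_ge {U : R3} (hU : U ≠ 0) (w : R3) : ‖U‖ - ‖w - U‖ ≤ ⟪nz U, w⟫ := by
  have h1 : ⟪nz U, w⟫ = ‖U‖ + ⟪nz U, w - U⟫ := by
    rw [inner_sub_right, impr_inner_nz]; ring
  have h2 := abs_real_inner_le_norm (nz U) (w - U)
  rw [norm_nz hU, one_mul] at h2
  linarith [neg_abs_le ⟪nz U, w - U⟫]

theorem impr_contOn_proj {e u : ℝ → R3} {I : Set ℝ} (he : ContinuousOn e I)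
    (hu : ContinuousOn u I) : ContinuousOn (fun t => proj (e t) (u t)) I := by
  unfold proj
  exact hu.sub ((ContinuousOn.inner (𝕜 := ℝ) he hu).smul he)

theorem impr_cont_lor {a b v : ℝ → R3} (ha : Continuous a) (hb : Continuous b)
    (hv : Continuous v) : Continuous fun t => lor (a t) (b t) (v t) :=
  contDiff_lor.continuous.comp (f := fun t => ((a t, b t, v t) : R3 × R3 × R3))
    (ha.prodMk (hb.prodMk hv))

theorem impr_cont_smul (c : ℝ) {a : ℝ → R3} {I : Set ℝ} (ha : ContinuousOn a I) :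
    ContinuousOn (fun t => c • a t) I := ha.const_smul c

theorem impr_pi_inv : 0 < (4 * Real.pi)⁻¹ ∧ (4 * Real.pi)⁻¹ ≤ 1 / 8 := by
  have := Real.two_le_pi
  refine ⟨by positivity, ?_⟩
  rw [one_div]
  exact inv_anti₀ (by norm_num) (by linarith)

theorem impr_norm_pi (w : R3) : ‖(4 * Real.pi)⁻¹ • w‖ ≤ ‖w‖ / 8 := by
  rw [norm_smul, Real.norm_of_nonneg impr_pi_inv.1.le]
  have := mul_le_mul_of_nonneg_right impr_pi_inv.2 (norm_nonneg w)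
  linarith

theorem impr_delta {P C₁ C h A nU a b E y : ℝ} (hP : 1 ≤ P) (hC₁ : 0 ≤ C₁) (hC : C₁ + 6 ≤ C)
    (hh : 0 < h) (hA : 0 ≤ A) (hE : 3 * P / 8 ≤ E) (hU : nU ≤ 2 * E)
    (ha : a ≤ h * nU * A + b / 8) (hb : b ≤ C₁ * (P ^ (31 / 100 : ℝ) * √y + P ^ (69 / 200 : ℝ))) :
    (2 * a + 2) / E ≤ 4 * h * A + C * (P ^ (-(69 / 100 : ℝ)) * √y + P ^ (-(131 / 200 : ℝ))) := by
  have hP0 : 0 < P := by linarith
  have hE0 : 0 < E := by linarith
  have m1 : P ^ (31 / 100 : ℝ) = P ^ (-(69 / 100 : ℝ)) * P := by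
    rw [← Real.rpow_add_one hP0.ne']; norm_num
  have m2 : P ^ (69 / 200 : ℝ) = P ^ (-(131 / 200 : ℝ)) * P := by
    rw [← Real.rpow_add_one hP0.ne']; norm_num
  have m3 : 1 ≤ P ^ (-(131 / 200 : ℝ)) * P := by
    rw [← m2]; exact Real.one_le_rpow hP (by norm_num)
  rw [m1, m2] at hb
  have n1 : 0 ≤ P ^ (-(69 / 100 : ℝ)) := by positivity
  have n2 : 0 ≤ P ^ (-(131 / 200 : ℝ)) := by positivity
  generalize P ^ (-(69 / 100 : ℝ)) = p₁ at *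
  generalize P ^ (-(131 / 200 : ℝ)) = p₂ at *
  have n3 : 0 ≤ √y := Real.sqrt_nonneg y
  generalize √y = z at *
  rw [div_le_iff₀ hE0]
  obtain ⟨w, hw⟩ : ∃ w, w = p₁ * z + p₂ := ⟨_, rfl⟩
  have w0 : 0 ≤ w := by rw [hw]; positivity
  have w1 : p₂ ≤ w := by rw [hw]; nlinarith [mul_nonneg n1 n3]
  have hb' : b ≤ C₁ * w * P := by rw [hw]; linarith
  rw [← hw]
  have k1 : h * nU * A ≤ h * (2 * E) * A := by gcongr
  have k2 : C₁ * w * P ≤ C₁ * w * (8 * E / 3) := by gcongr; linarith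
  have k3 : 1 ≤ w * (8 * E / 3) := by
    calc (1 : ℝ) ≤ p₂ * P := m3
      _ ≤ w * (8 * E / 3) := by gcongr; linarith
  have k4 : (C₁ + 6) * (w * E) ≤ C * (w * E) := by gcongr
  have k5 : 0 ≤ C₁ * (w * E) := by positivity
  nlinarith

theorem impr_delta' {P C₂ a E : ℝ} (hP : 1 ≤ P) (hC₂ : 0 ≤ C₂) (hE : 3 * P / 8 ≤ E)
    (ha : a ≤ P ^ (17 / 40 : ℝ) + C₂ * P ^ (41 / 100 : ℝ))
    (he : 6 * (2 + C₂) ≤ P ^ (1 / 200 : ℝ)) : (2 * a + 2) / E ≤ P ^ (-(57 / 100 : ℝ)) := by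
  have hP0 : 0 < P := by linarith
  have hE0 : 0 < E := by linarith
  have m1 : P ^ (41 / 100 : ℝ) ≤ P ^ (17 / 40 : ℝ) :=
    Real.rpow_le_rpow_of_exponent_le hP (by norm_num)
  have m2 : 1 ≤ P ^ (17 / 40 : ℝ) := Real.one_le_rpow hP (by norm_num)
  have m3 : P ^ (-(57 / 100 : ℝ)) * P = P ^ (1 / 200 : ℝ) * P ^ (17 / 40 : ℝ) := by
    rw [← Real.rpow_add_one hP0.ne', impr_rpow_mul hP0]; norm_num
  have n1 : 0 ≤ P ^ (-(57 / 100 : ℝ)) := by positivity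
  rw [div_le_iff₀ hE0]
  have k1 : P ^ (-(57 / 100 : ℝ)) * (3 * P / 8) ≤ P ^ (-(57 / 100 : ℝ)) * E := by gcongr
  have k2 : 6 * (2 + C₂) * P ^ (17 / 40 : ℝ) ≤ P ^ (1 / 200 : ℝ) * P ^ (17 / 40 : ℝ) := by gcongr
  have k3 : C₂ * P ^ (41 / 100 : ℝ) ≤ C₂ * P ^ (17 / 40 : ℝ) := by gcongr
  have k4 : 0 ≤ C₂ * P ^ (17 / 40 : ℝ) := by positivity
  generalize P ^ (17 / 40 : ℝ) = q at *
  generalize P ^ (-(57 / 100 : ℝ)) = p at *
  nlinarith

set_option maxHeartbeats 1600000 in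
theorem improve (M 𝓔 T r₂ Cc Cd : ℝ) (hM : 0 ≤ M) (h𝓔 : 0 ≤ 𝓔) (hT : 0 ≤ T) (h₀ : 0 < r₂)
    (h₁ : r₂ ≤ 1 / 4) : ∃ c : ℝ, 0 < c ∧ ∃ P₀ : ℝ, ∀ P, P₀ ≤ P → ∀ T' ≤ T,
    ∀ (f : PS → ℝ) (E B : ST → R3) (χ₀ χ₁ : ℝ → ℝ), Apri T' M 𝓔 f E B →
    GSRem T' Cd f (frc E B f) E B → Cut P r₂ Cc χ₀ χ₁ →
    ∀ (t₁ t₂ : ℝ), 4 * r₂ ≤ t₁ → t₁ ≤ t₂ → t₂ - t₁ ≤ c / Real.log P → t₂ ≤ T' →
    (∀ p : PS, p.1 ∈ Icc 0 t₂ → P < en p.2.2 → f p = 0) →
    ∀ X V U : ℝ → R3, Char E B t₁ t₂ X V → P / 2 ≤ ‖V t₁‖ → Continuous U → U t₁ = V t₁ →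
    (∀ t ∈ Ioo t₁ t₂, HasDerivAt U
      ((P ^ (-(29 / 25 : ℝ)))⁻¹ • (Wv P χ₀ χ₁ f X V U t - U t)) t) →
    (∀ t ∈ Icc t₁ t₂, ‖V t - V t₁‖ ≤ P / 8 ∧ ‖U t - V t₁‖ ≤ P / 4 ∧
      ‖proj (nz (U t)) (Wv P χ₀ χ₁ f X V U t)‖ ≤ P ^ (17 / 40 : ℝ)) →
    ∀ t ∈ Icc t₁ t₂, ‖V t - V t₁‖ ≤ P / 16 ∧ ‖U t - V t₁‖ ≤ P / 7 ∧
      ‖proj (nz (U t)) (Wv P χ₀ χ₁ f X V U t)‖ ≤ P ^ (17 / 40 : ℝ) / 2 := by
  obtain ⟨C₁, P₁, hC₁, H₁⟩ := traj_est M 𝓔 T r₂ Cc Cd hM h𝓔 hT h₀ h₁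
  obtain ⟨C₂, P₂, hC₂, H₂⟩ := psi_sup M 𝓔 Cc h𝓔
  obtain ⟨C, hCa, hCb⟩ : ∃ C : ℝ, C₁ + 6 ≤ C ∧ C₂ ^ 2 ≤ C :=
    ⟨C₁ + 6 + C₂ ^ 2, by nlinarith [sq_nonneg C₂], by linarith⟩
  have hC1 : 1 ≤ C := by linarith
  have hC₁C : C₁ ≤ C := by linarith
  obtain ⟨c, hc0, hc1, Hc⟩ := impr_core C hC1
  refine ⟨c, hc0, eventually_atTop.1 ?_⟩
  filter_upwards [Hc, eventually_ge_atTop (1 : ℝ), eventually_ge_atTop P₁, eventually_ge_atTop P₂,
    impr_log, impr_ev (1 / c) (show (0 : ℝ) < 1 / 100 by norm_num),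
    Real.tendsto_log_atTop.eventually_ge_atTop (1 / r₂),
    (tendsto_rpow_atTop (show (0 : ℝ) < 1 / 200 by norm_num)).eventually_ge_atTop (6 * (2 + C₂)),
    (tendsto_rpow_atTop (show (0 : ℝ) < 59 / 100 by norm_num)).eventually_ge_atTop (16 * C₂)]
    with P Hc hP1 hP₁ hP₂ hN e1 e2 e3 e4
  intro T' hT' f E B χ₀ χ₁ hA hG hcut t₁ t₂ ht₁ h12 hτ ht₂ hsupp X V U hch hV₁ cU hU₁ hU hb
  have hP0 : 0 < P := by linarith
  have hN0 : 0 < Real.log P := by linarith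
  obtain ⟨h, hh⟩ : ∃ h, h = P ^ (-(29 / 25 : ℝ)) := ⟨_, rfl⟩
  have hh0 : 0 < h := by rw [hh]; positivity
  rw [← hh] at hU Hc
  have hΨs : ContDiff ℝ ∞ (PsiH P χ₀ χ₁ f) :=
    contDiff_PsiH hcut hP0 hA.sol.step.sf hA.sol.step.vf
  -- lower bound for `U`
  have hU4 : ∀ t ∈ Icc t₁ t₂, P / 4 ≤ ‖U t‖ := fun t ht => by
    have h1 := (hb t ht).2.1
    have h2 := norm_sub_norm_le (V t₁) (U t)
    rw [norm_sub_rev] at h1
    linarith
  have hU0 : ∀ t ∈ Icc t₁ t₂, U t ≠ 0 := fun t ht => by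
    have := hU4 t ht
    exact norm_pos_iff.1 (by linarith)
  have hV3 : ∀ t ∈ Icc t₁ t₂, 3 * P / 8 ≤ ‖V t‖ := fun t ht => by
    have h1 := (hb t ht).1
    have h2 := norm_sub_norm_le (V t₁) (V t)
    rw [norm_sub_rev] at h1
    linarith
  obtain ⟨e, he⟩ : ∃ e : ℝ → R3, e = fun t => nz (U t) := ⟨_, rfl⟩
  have he' : ∀ t, nz (U t) = e t := fun t => by rw [he]
  have e1' : ∀ t ∈ Icc t₁ t₂, ‖e t‖ = 1 := fun t ht => by rw [← he']; exact norm_nz (hU0 t ht)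
  have ce : ContinuousOn e (Icc t₁ t₂) := fun t ht => by
    rw [he]
    exact ((contDiffAt_nz (hU0 t ht)).continuousAt.comp cU.continuousAt).continuousWithinAt
  obtain ⟨Ψ, hΨ⟩ : ∃ Ψ : ℝ → R3, Ψ = fun t => PsiH P χ₀ χ₁ f (t, X t, e t) := ⟨_, rfl⟩
  have hΨ' : ∀ t, PsiH P χ₀ χ₁ f (t, X t, e t) = Ψ t := fun t => by rw [hΨ]
  obtain ⟨W, hW⟩ : ∃ W : ℝ → R3, W = Wv P χ₀ χ₁ f X V U := ⟨_, rfl⟩
  have hW' : ∀ t, W t = V t - (4 * Real.pi)⁻¹ • Ψ t := fun t => by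
    rw [hW, ← hΨ', ← he']; rfl
  rw [← hW] at hU hb ⊢
  simp only [he'] at hb ⊢
  have cγ : ContinuousOn (fun t => ((t, X t, e t) : ℝ × R3 × R3)) (Icc t₁ t₂) :=
    continuousOn_id.prodMk (hch.cX.continuousOn.prodMk ce)
  have cΨ : ContinuousOn Ψ (Icc t₁ t₂) := by
    rw [hΨ]; exact hΨs.continuous.comp_continuousOn cγ
  have cW : ContinuousOn W (Icc t₁ t₂) := by
    rw [show W = fun t => V t - (4 * Real.pi)⁻¹ • Ψ t from funext hW']
    exact hch.cV.continuousOn.sub (impr_cont_smul _ cΨ)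
  have bΨ : ∀ t ∈ Icc t₁ t₂, ‖Ψ t‖ ≤ C₂ * P ^ (41 / 100 : ℝ) := fun t ht => by
    rw [← hΨ']
    exact H₂ P hP₂ T' r₂ f E B χ₀ χ₁ hA hcut h₀ h₁ t (X t) (e t) (by linarith [ht.1])
      (ht.2.trans ht₂) (e1' t ht) fun p hp => hsupp p ⟨hp.1, hp.2.trans ht.2⟩
  have bΨ' : ∀ t ∈ Icc t₁ t₂, ‖(4 * Real.pi)⁻¹ • Ψ t‖ ≤ P / 128 := fun t ht => by
    have m1 : P = P ^ (59 / 100 : ℝ) * P ^ (41 / 100 : ℝ) := by
      rw [impr_rpow_mul hP0]; norm_num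
    have m2 : 16 * C₂ * P ^ (41 / 100 : ℝ) ≤ P ^ (59 / 100 : ℝ) * P ^ (41 / 100 : ℝ) := by
      gcongr
    rw [← m1] at m2
    have := impr_norm_pi (Ψ t)
    have := bΨ t ht
    linarith
  have bW : ∀ t ∈ Icc t₁ t₂, ‖W t - V t₁‖ ≤ P / 7 := fun t ht => by
    have h1 : W t - V t₁ = (V t - V t₁) - (4 * Real.pi)⁻¹ • Ψ t := by rw [hW']; abel
    rw [h1]
    have := norm_sub_le (V t - V t₁) ((4 * Real.pi)⁻¹ • Ψ t)
    linarith [(hb t ht).1, bΨ' t ht]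
  have bU : ∀ t ∈ Icc t₁ t₂, ‖U t - V t₁‖ ≤ P / 7 := by
    rw [← hU₁]
    refine relax_bound hh0 cU.continuousOn hU (fun t ht => ?_) (by positivity)
    rw [hU₁]; exact bW t (Ioo_subset_Icc_self ht)
  have hU5 : ∀ t ∈ Icc t₁ t₂, 5 * P / 14 ≤ ‖U t‖ := fun t ht => by
    have h1 := bU t ht
    have h2 := norm_sub_norm_le (V t₁) (U t)
    rw [norm_sub_rev] at h1
    linarith
  have bVU : ∀ t ∈ Icc t₁ t₂, ‖V t - U t‖ ≤ 15 * P / 56 := fun t ht => by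
    have h1 : V t - U t = (V t - V t₁) - (U t - V t₁) := by abel
    rw [h1]
    have := norm_sub_le (V t - V t₁) (U t - V t₁)
    linarith [(hb t ht).1, bU t ht]
  have bWU : ∀ t ∈ Icc t₁ t₂, ‖W t - U t‖ ≤ 2 * P / 7 := fun t ht => by
    have h1 : W t - U t = (W t - V t₁) - (U t - V t₁) := by abel
    rw [h1]
    have := norm_sub_le (W t - V t₁) (U t - V t₁)
    linarith [bW t ht, bU t ht]
  have hE3 : ∀ t ∈ Icc t₁ t₂, 3 * P / 8 ≤ en (V t) := fun t ht =>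
    (hV3 t ht).trans (norm_le_en _)
  have hUE : ∀ t ∈ Icc t₁ t₂, ‖U t‖ ≤ 2 * en (V t) := fun t ht => by
    have h1 := norm_sub_norm_le (U t) (V t)
    rw [norm_sub_rev] at h1
    linarith [bVU t ht, hV3 t ht, norm_le_en (V t)]
  -- the derivative of the reference direction
  obtain ⟨ed, hed⟩ : ∃ ed : ℝ → R3, ed = fun t => (h * ‖U t‖)⁻¹ • proj (e t) (W t) := ⟨_, rfl⟩
  have hed' : ∀ t, ed t = (h * ‖U t‖)⁻¹ • proj (e t) (W t) := fun t => by rw [hed]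
  have cPW : ContinuousOn (fun t => proj (e t) (W t)) (Icc t₁ t₂) := impr_contOn_proj ce cW
  have ced : ContinuousOn ed (Icc t₁ t₂) := by
    rw [hed]
    refine ContinuousOn.smul (ContinuousOn.inv₀ (continuousOn_const.mul cU.norm.continuousOn)
      fun t ht => ?_) cPW
    exact mul_ne_zero hh0.ne' (norm_ne_zero_iff.2 (hU0 t ht))
  have ned : ∀ t ∈ Icc t₁ t₂, ‖proj (e t) (W t)‖ = h * ‖U t‖ * ‖ed t‖ := fun t ht => by
    have h1 : 0 < h * ‖U t‖ := mul_pos hh0 (norm_pos_iff.2 (hU0 t ht))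
    rw [hed', norm_smul, Real.norm_of_nonneg (inv_nonneg.2 h1.le), ← mul_assoc,
      mul_inv_cancel₀ h1.ne', one_mul]
  have de : ∀ t ∈ Ioo t₁ t₂, HasDerivAt e (ed t) t := fun t ht => by
    have h1 := (hasDerivAt_proj_sq (W := fun _ => W t) (W' := 0)
      (hU0 t (Ioo_subset_Icc_self ht)) (hU t ht) (hasDerivAt_const t (W t))).1
    rw [← he, he', ← hed'] at h1
    exact h1
  have htraj : Traj E B t₁ t₂ X V e ed := ⟨hch, ce, ced, de, e1', fun t ht => by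
    rw [hed', inner_smul_right, impr_inner_proj (e1' t ht), mul_zero]⟩
  -- the geometric hypotheses
  have hPV : ∀ t, proj (e t) (V t) = proj (e t) (W t) + (4 * Real.pi)⁻¹ • proj (e t) (Ψ t) :=
    fun t => by rw [hW', impr_proj_sub]; abel
  obtain ⟨δ, hδ⟩ : ∃ δ : ℝ → ℝ, δ = fun t => (2 * ‖proj (e t) (V t)‖ + 2) / en (V t) := ⟨_, rfl⟩
  have hδ' : ∀ t, δ t = (2 * ‖proj (e t) (V t)‖ + 2) / en (V t) := fun t => by rw [hδ]
  have cδ : ContinuousOn δ (Icc t₁ t₂) := by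
    rw [hδ]
    exact ((continuousOn_const.mul (impr_contOn_proj ce hch.cV.continuousOn).norm).add
      continuousOn_const).div (contDiff_en.continuous.comp hch.cV).continuousOn
      fun t _ => (en_pos _).ne'
  have hgeo : ∀ t ∈ Icc t₁ t₂, Geo P (δ t) (e t) (relVel (V t)) := fun t ht => by
    rw [hδ']
    refine geo_of_proj (e1' t ht) ?_ (impr_delta' hP1 hC₂ (hE3 t ht) ?_ e3)
    · have := impr_inner_ge (hU0 t ht) (V t)
      rw [he'] at this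
      linarith [bVU t ht, hU5 t ht]
    · rw [hPV]
      refine (norm_add_le _ _).trans (add_le_add (hb t ht).2.2 ?_)
      have h1 := impr_norm_pi (proj (e t) (Ψ t))
      have h2 := impr_norm_proj_le (e1' t ht) (Ψ t)
      have h3 := norm_nonneg (proj (e t) (Ψ t))
      linarith [bΨ t ht]
  have τ0 : P ^ (-(1 / 100 : ℝ)) ≤ c / Real.log P := by
    rw [Real.rpow_neg hP0.le, inv_le_comm₀ (by positivity) (by positivity), inv_div]
    rwa [one_div, mul_comm, ← div_eq_mul_inv] at e1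
  have τ1 : c / Real.log P ≤ r₂ := by
    rw [div_le_iff₀ hN0]
    rw [div_le_iff₀ h₀] at e2
    linarith
  obtain ⟨s, y, y₁, y₂, is, cy, cy₁, cy₂, Is, Iy, Iy₁, Iy₂, hpt⟩ := H₁ P hP₁ T' hT' f E B χ₀ χ₁ hA hG
    hcut (c / Real.log P) t₁ t₂ τ0 τ1 ht₁ h12 hτ ht₂ hsupp X V e ed δ htraj hgeo
  -- the derivative of `W`
  obtain ⟨F, hF⟩ : ∃ F : ℝ → R3, F = fun t => (4 * Real.pi) • lor (E (t, X t)) (B (t, X t)) (V t) -
      fderiv ℝ (PsiH P χ₀ χ₁ f) (t, X t, e t) (1, relVel (V t), ed t) := ⟨_, rfl⟩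
  have hF' : ∀ t, (4 * Real.pi) • lor (E (t, X t)) (B (t, X t)) (V t) -
      fderiv ℝ (PsiH P χ₀ χ₁ f) (t, X t, e t) (1, relVel (V t), ed t) = F t := fun t => by rw [hF]
  simp only [hF', hΨ'] at hpt
  have cF : ContinuousOn F (Icc t₁ t₂) := by
    rw [hF]
    have c1 : Continuous fun t : ℝ => ((t, X t) : ST) := continuous_id.prodMk hch.cX
    have c2 : Continuous fun t => lor (E (t, X t)) (B (t, X t)) (V t) :=
      impr_cont_lor (hA.sol.step.sE.continuous.comp c1) (hA.sol.step.sB.continuous.comp c1) hch.cV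
    refine (impr_cont_smul _ c2.continuousOn).sub ?_
    exact ((hΨs.continuous_fderiv (by simp)).comp_continuousOn cγ).clm_apply
      (continuousOn_const.prodMk
        ((contDiff_relVel.continuous.comp hch.cV).continuousOn.prodMk ced))
  have dW : ∀ t ∈ Ioo t₁ t₂, HasDerivAt W ((4 * Real.pi)⁻¹ • F t) t := fun t ht => by
    have d1 : HasDerivAt (fun t => ((t, X t, e t) : ℝ × R3 × R3)) (1, relVel (V t), ed t) t :=
      (hasDerivAt_id t).prodMk ((hch.dX t ht).prodMk (de t ht))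
    have d2 : HasDerivAt Ψ (fderiv ℝ (PsiH P χ₀ χ₁ f) (t, X t, e t) (1, relVel (V t), ed t)) t := by
      rw [hΨ]
      exact ((hΨs.differentiable (by simp)) _).hasFDerivAt.comp_hasDerivAt t d1
    have d3 := (hch.dV t ht).sub (d2.const_smul (4 * Real.pi)⁻¹)
    rw [show W = fun t => V t - (4 * Real.pi)⁻¹ • Ψ t from funext hW', ← hF', smul_sub, smul_smul,
      inv_mul_cancel₀ (by positivity), one_smul]
    exact d3
  have cW' : ContinuousOn (fun t => (4 * Real.pi)⁻¹ • F t) (Icc t₁ t₂) :=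
    impr_cont_smul _ cF
  have key := Hc t₁ t₂ h12 hτ (fun t => ‖proj (e t) (W t)‖ ^ 2)
    (fun t => 2 * ⟪proj (e t) (W t), proj (e t) ((4 * Real.pi)⁻¹ • F t)⟫ -
      2 * (⟪e t, W t⟫ / (h * ‖U t‖)) * ‖proj (e t) (W t)‖ ^ 2)
    (fun t => ‖proj (e t) ((4 * Real.pi)⁻¹ • F t)‖) (fun t => ‖(4 * Real.pi)⁻¹ • F t‖)
    (fun t => ‖ed t‖) δ s y y₁ y₂ (cPW.norm.pow 2) (impr_contOn_proj ce cW').norm cW'.norm
    ced.norm cδ is cy cy₁ cy₂ (Is.trans hC₁C)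
    (Iy.trans (mul_le_mul_of_nonneg_right hC₁C ?_))
    (Iy₁.trans (mul_le_mul_of_nonneg_right hC₁C ?_))
    (Iy₂.trans (mul_le_mul_of_nonneg_right hC₁C ?_)) ?_ ?_ ?_
  · intro t ht
    refine ⟨?_, bU t ht, ?_⟩
    · have h1 : ∫ r in t₁..t, (4 * Real.pi)⁻¹ • F r = W t - W t₁ :=
        intervalIntegral.integral_eq_sub_of_hasDerivAt_of_le ht.1
          (cW.mono (Icc_subset_Icc_right ht.2))
          (fun r hr => dW r ⟨hr.1, hr.2.trans_le ht.2⟩)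
          ((cW'.mono (Icc_subset_Icc_right ht.2)).intervalIntegrable_of_Icc ht.1)
      have h2 : ‖W t - W t₁‖ ≤ P / 32 := by
        rw [← h1]
        refine (intervalIntegral.norm_integral_le_integral_norm ht.1).trans (le_trans ?_ key.2)
        exact intervalIntegral.integral_mono_interval le_rfl ht.1 ht.2
          (Eventually.of_forall fun r => norm_nonneg _) (cW'.norm.intervalIntegrable_of_Icc h12)
      have h3 : V t - V t₁ = (W t - W t₁) + (4 * Real.pi)⁻¹ • Ψ t - (4 * Real.pi)⁻¹ • Ψ t₁ := by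
        rw [hW', hW']; abel
      rw [h3]
      have h4 := norm_sub_le ((W t - W t₁) + (4 * Real.pi)⁻¹ • Ψ t) ((4 * Real.pi)⁻¹ • Ψ t₁)
      have h5 := norm_add_le (W t - W t₁) ((4 * Real.pi)⁻¹ • Ψ t)
      linarith [bΨ' t ht, bΨ' t₁ ⟨le_rfl, h12⟩]
    · refine le_of_pow_le_pow_left₀ two_ne_zero (by positivity) ?_
      have h1 := key.1 t ht
      rw [div_pow, impr_rpow_sq hP0]
      norm_num at h1 ⊢
      exact h1
  · have : 0 ≤ ∫ t in t₁..t₂, ‖ed t‖ ^ 2 :=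
      intervalIntegral.integral_nonneg h12 fun t _ => sq_nonneg _
    positivity
  · have : 0 ≤ ∫ t in t₁..t₂, ‖ed t‖ ^ 2 :=
      intervalIntegral.integral_nonneg h12 fun t _ => sq_nonneg _
    positivity
  · have : 0 ≤ ∫ t in t₁..t₂, ‖ed t‖ ^ 2 :=
      intervalIntegral.integral_nonneg h12 fun t _ => sq_nonneg _
    positivity
  · intro t ht
    obtain ⟨s0, y0, y10, y20, b1, b2, b3⟩ := hpt t ht
    have δ0 : 0 ≤ δ t := by rw [hδ']; have := en_pos (V t); positivity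
    have z1 := impr_fz1_nonneg (s := s t) (y := y t) (y₂ := y₂ t) hP1 δ0 (norm_nonneg (ed t))
    have z2 : 0 ≤ fz2 P (s t) (y t) (y₁ t) := by unfold fz2; positivity
    refine ⟨s0, y0, y10, y20, sq_nonneg _, norm_nonneg _, norm_nonneg _, δ0, ?_, ?_, ?_, ?_⟩
    · rw [impr_proj_smul]
      have h1 := impr_norm_pi (proj (e t) (F t))
      have h2 := mul_le_mul_of_nonneg_right hC₁C z1
      have h3 := norm_nonneg (proj (e t) (F t))
      linarith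
    · have h1 := impr_norm_pi (F t)
      have h2 := mul_le_mul_of_nonneg_right hC₁C (add_nonneg z1 z2)
      have h3 := norm_nonneg (F t)
      linarith
    · rw [Real.sqrt_sq (norm_nonneg _), ned t ht, le_div_iff₀ (by positivity)]
      have h1 := hU4 t ht
      have h2 : 0 ≤ h * ‖ed t‖ := by positivity
      nlinarith
    · rw [hδ']
      refine impr_delta hP1 hC₁ hCa hh0 (norm_nonneg _) (hE3 t ht) (hUE t ht) ?_ b3
      rw [hPV, ← ned t ht]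
      exact (norm_add_le _ _).trans (add_le_add le_rfl (impr_norm_pi _))
  · intro t ht
    have ht' := Ioo_subset_Icc_self ht
    have h1 := (hasDerivAt_proj_sq (hU0 t ht') (hU t ht) (dW t ht)).2
    simp only [he'] at h1
    refine ⟨h1, ?_⟩
    rw [Real.sqrt_sq (norm_nonneg _)]
    have h2 := real_inner_le_norm (proj (e t) (W t)) (proj (e t) ((4 * Real.pi)⁻¹ • F t))
    have h3 := impr_inner_ge (hU0 t ht') (W t)
    rw [he'] at h3
    have h4 := hU5 t ht'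
    have h5 : 1 / (32 * h) ≤ ⟪e t, W t⟫ / (h * ‖U t‖) := by
      rw [div_le_div_iff₀ (by positivity) (mul_pos hh0 (norm_pos_iff.2 (hU0 t ht')))]
      have h6 : ‖U t‖ ≤ 32 * ⟪e t, W t⟫ := by linarith [bWU t ht']
      nlinarith
    have h7 := mul_le_mul_of_nonneg_right h5 (sq_nonneg ‖proj (e t) (W t)‖)
    have h8 : ‖proj (e t) (W t)‖ ^ 2 / (16 * h) = 2 * (1 / (32 * h) * ‖proj (e t) (W t)‖ ^ 2) := by
      field_simp; ring
    rw [h8]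
    linarith
  · have ht : t₁ ∈ Icc t₁ t₂ := ⟨le_rfl, h12⟩
    have h1 : proj (e t₁) (V t₁) = 0 := by
      rw [← he', ← hU₁]; exact impr_proj_self (hU0 t₁ ht)
    have h2 : ‖proj (e t₁) (W t₁)‖ ≤ C₂ * P ^ (41 / 100 : ℝ) := by
      rw [hW', impr_proj_sub, h1, zero_sub, norm_neg]
      have h3 := impr_norm_pi (proj (e t₁) (Ψ t₁))
      have h4 := impr_norm_proj_le (e1' t₁ ht) (Ψ t₁)
      have h5 := norm_nonneg (proj (e t₁) (Ψ t₁))
      linarith [bΨ t₁ ht]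
    calc ‖proj (e t₁) (W t₁)‖ ^ 2 ≤ (C₂ * P ^ (41 / 100 : ℝ)) ^ 2 :=
          pow_le_pow_left₀ (norm_nonneg _) h2 2
      _ = C₂ ^ 2 * P ^ (82 / 100 : ℝ) := by rw [mul_pow, impr_rpow_sq hP0]; norm_num
      _ ≤ _ := by gcongr

end Crest.Agent.R106
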