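import Crest.Agent.R106.WaveB

/-!
# Row 106: the linear Maxwell system
-/

set_option autoImplicit false
set_option linter.unusedVariables false
set_option linter.unusedSectionVars false

open MeasureTheory Metric Set Filter Topology
open scoped ContDiff ENNReal RealInnerProductSpace
open Crest.AnalysisR.VecCalc3 Crest.AnalysisR.PDE.RVM

noncomputable section

namespace Crest.Agent.R106

namespace Maxwell

section alg

variable {R M : Type} [CommRing R] [AddCommGroup M] [Module R M]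

/-- formal curl -/
def cu (d : Fin 3 → R) (B : Fin 3 → M) : Fin 3 → M :=
  ![d 1 • B 2 - d 2 • B 1, d 2 • B 0 - d 0 • B 2, d 0 • B 1 - d 1 • B 0]

/-- formal divergence -/
def dv (d : Fin 3 → R) (B : Fin 3 → M) : M := d 0 • B 0 + d 1 • B 1 + d 2 • B 2

theorem cu0 (d : Fin 3 → R) (B : Fin 3 → M) : cu d B 0 = d 1 • B 2 - d 2 • B 1 := rfl
theorem cu1 (d : Fin 3 → R) (B : Fin 3 → M) : cu d B 1 = d 2 • B 0 - d 0 • B 2 := rfl
theorem cu2 (d : Fin 3 → R) (B : Fin 3 → M) : cu d B 2 = d 0 • B 1 - d 1 • B 0 := rfl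

theorem all3 {P : Fin 3 → Prop} (h0 : P 0) (h1 : P 1) (h2 : P 2) (i : Fin 3) : P i := by
  fin_cases i
  exacts [h0, h1, h2]

theorem cu_sub (d : Fin 3 → R) (A B : Fin 3 → M) (i : Fin 3) :
    cu d (fun k => A k - B k) i = cu d A i - cu d B i := by
  revert i
  apply all3 <;> simp only [cu0, cu1, cu2] <;> module

theorem alg (t : R) (d : Fin 3 → R) (Z : AddSubgroup M) (hd : ∀ i, ∀ u ∈ Z, d i • u ∈ Z)
    (hu : ∀ u ∈ Z, t • u ∈ Z → (t * t - (d 0 * d 0 + d 1 * d 1 + d 2 * d 2)) • u = 0 → u = 0)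
    (he : ∀ u₀ u₁ G : M, ∃ u, u - u₀ ∈ Z ∧ t • u - u₁ ∈ Z ∧
      (t * t - (d 0 * d 0 + d 1 * d 1 + d 2 * d 2)) • u = G)
    (ρ : M) (j E₀ B₀ : Fin 3 → M) (hc : t • ρ + dv d j = 0) (gE : dv d E₀ - ρ ∈ Z)
    (gB : dv d B₀ ∈ Z) :
    ∃ E B : Fin 3 → M, (∀ i, E i - E₀ i ∈ Z) ∧ (∀ i, B i - B₀ i ∈ Z) ∧
      (∀ i, t • E i = cu d B i - j i) ∧ (∀ i, t • B i = -cu d E i) ∧ dv d E = ρ ∧ dv d B = 0 := by
  choose E hE0 hE1 hE2 using fun i => he (E₀ i) (cu d B₀ i - j i) (-(d i • ρ) - t • j i)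
  choose B hB0 hB1 hB2 using fun i => he (B₀ i) (-cu d E₀ i) (cu d j i)
  have zc : ∀ {A : Fin 3 → M}, (∀ i, A i ∈ Z) → ∀ i, cu d A i ∈ Z := fun h =>
    all3 (Z.sub_mem (hd _ _ (h _)) (hd _ _ (h _))) (Z.sub_mem (hd _ _ (h _)) (hd _ _ (h _)))
      (Z.sub_mem (hd _ _ (h _)) (hd _ _ (h _)))
  have zd : ∀ {A : Fin 3 → M}, (∀ i, A i ∈ Z) → dv d A ∈ Z := fun h =>
    Z.add_mem (Z.add_mem (hd _ _ (h _)) (hd _ _ (h _))) (hd _ _ (h _))
  have z1 : ∀ i, t • E i - cu d B i + j i ∈ Z := fun i => by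
    convert Z.sub_mem (hE1 i) (zc hB0 i) using 1
    rw [cu_sub]
    abel
  have z2 : ∀ i, t • B i + cu d E i ∈ Z := fun i => by
    convert Z.add_mem (hB1 i) (zc hE0 i) using 1
    rw [cu_sub]
    abel
  have z3 : dv d E - ρ ∈ Z := by
    convert Z.add_mem gE (zd hE0) using 1
    simp only [dv]
    module
  have z4 : dv d B ∈ Z := by
    convert Z.add_mem gB (zd hB0) using 1
    simp only [dv]
    module
  have e0 := hE2 0
  have e1 := hE2 1
  have e2 := hE2 2
  have b0 := hB2 0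
  have b1 := hB2 1
  have b2 := hB2 2
  simp only [cu0, cu1, cu2, dv] at b0 b1 b2 hc
  have y1 : ∀ i, t • E i - cu d B i + j i = 0 := fun i => by
    refine hu _ (z1 i) ?_ ?_
    · convert Z.sub_mem (hd i _ z3) (zc z2 i) using 1
      revert i
      apply all3 <;> simp only [cu0, cu1, cu2, dv]
      · linear_combination (norm := module) e0
      · linear_combination (norm := module) e1
      · linear_combination (norm := module) e2
    · revert i
      apply all3 <;> simp only [cu0, cu1, cu2]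
      · linear_combination (norm := module) t • e0 - d 1 • b2 + d 2 • b1 - d 0 • hc
      · linear_combination (norm := module) t • e1 - d 2 • b0 + d 0 • b2 - d 1 • hc
      · linear_combination (norm := module) t • e2 - d 0 • b1 + d 1 • b0 - d 2 • hc
  have y2 : ∀ i, t • B i + cu d E i = 0 := fun i => by
    refine hu _ (z2 i) ?_ ?_
    · convert Z.add_mem (hd i _ z4) (zc z1 i) using 1
      revert i
      apply all3 <;> simp only [cu0, cu1, cu2, dv]
      · linear_combination (norm := module) b0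
      · linear_combination (norm := module) b1
      · linear_combination (norm := module) b2
    · revert i
      apply all3 <;> simp only [cu0, cu1, cu2]
      · linear_combination (norm := module) t • b0 + d 1 • e2 - d 2 • e1
      · linear_combination (norm := module) t • b1 + d 2 • e0 - d 0 • e2
      · linear_combination (norm := module) t • b2 + d 0 • e1 - d 1 • e0
  have y3 : dv d E - ρ = 0 := by
    refine hu _ z3 ?_ ?_
    · convert zd z1 using 1
      simp only [cu0, cu1, cu2, dv]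
      linear_combination (norm := module) -hc
    · simp only [dv]
      linear_combination (norm := module) d 0 • e0 + d 1 • e1 + d 2 • e2 - t • hc
  have y4 : dv d B = 0 := by
    refine hu _ z4 ?_ ?_
    · convert zd z2 using 1
      simp only [cu0, cu1, cu2, dv]
      module
    · simp only [dv]
      linear_combination (norm := module) d 0 • b0 + d 1 • b1 + d 2 • b2
  refine ⟨E, B, hE0, hB0, fun i => ?_, fun i => ?_, sub_eq_zero.1 y3, y4⟩
  · linear_combination (norm := module) y1 i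
  · linear_combination (norm := module) y2 i

open scoped IsMulCommutative in
/-- commuting operators act through a commutative ring -/
theorem exists_ring {ι : Type} (D : ι → AddMonoid.End M) (h : ∀ a b u, D a (D b u) = D b (D a u)) :
    ∃ (R : Type) (_ : CommRing R) (_ : Module R M) (δ : ι → R), ∀ a u, δ a • u = D a u := by
  have : IsMulCommutative (Algebra.adjoin ℤ (Set.range D)) := Algebra.isMulCommutative_adjoin ℤ (by
    rintro _ ⟨v, rfl⟩ _ ⟨w, rfl⟩
    exact AddMonoidHom.ext fun u => h v w u)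
  exact ⟨Algebra.adjoin ℤ (Set.range D), inferInstance, inferInstance,
    fun a => ⟨D a, Algebra.subset_adjoin ⟨a, rfl⟩⟩, fun _ _ => rfl⟩

end alg

/-- smooth scalar functions -/
def Sm : AddSubgroup (ST → ℝ) where
  carrier := {u | ContDiff ℝ ∞ u}
  add_mem' := fun {a b} (ha : ContDiff ℝ ∞ a) (hb : ContDiff ℝ ∞ b) => ha.add hb
  zero_mem' := show ContDiff ℝ ∞ (fun _ : ST => (0 : ℝ)) from contDiff_const
  neg_mem' := fun {a} (ha : ContDiff ℝ ∞ a) => ha.neg

theorem sm (u : Sm) : ContDiff ℝ ∞ u.1 := u.2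

/-- directional derivatives -/
def Dv (v : ST) : AddMonoid.End Sm := AddMonoidHom.mk' (fun u => ⟨WaveB.D v u.1, WaveB.sm (sm u) v⟩)
  fun a b => Subtype.ext (WaveB.D_add (sm a) (sm b) v)

theorem Dv_comm (v w : ST) (u : Sm) : Dv v (Dv w u) = Dv w (Dv v u) :=
  Subtype.ext (funext fun p => WaveB.D_comm (sm u) v w p)

/-- functions vanishing at time zero -/
def Z0 : AddSubgroup Sm where
  carrier := {u | ∀ y, u.1 (0, y) = 0}
  add_mem' := fun {a b} ha hb y => by
    change a.1 (0, y) + b.1 (0, y) = 0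
    rw [ha y, hb y, add_zero]
  zero_mem' := fun _ => rfl
  neg_mem' := fun {a} ha y => by
    change -a.1 (0, y) = 0
    rw [ha y, neg_zero]

variable {R : Type} [CommRing R] [Module R Sm] {δ : ST → R} (hδ : ∀ a u, δ a • u = Dv a u)
include hδ

theorem slice (u : Sm) (s : ℝ) (x : R3) (i : Fin 3) :
    pderiv (fun y => u.1 (s, y)) i x = (δ (WaveB.ei i) • u).1 (s, x) := by
  have h := ((sm u).differentiable (by simp) (s, x)).hasFDerivAt.comp x
    ((hasFDerivAt_const s x).prodMk (hasFDerivAt_id x))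
  rw [hδ]
  exact DFunLike.congr_fun h.fderiv _

theorem box_op (u : Sm) (p : ST) :
    ((δ (1, 0) * δ (1, 0) - (δ (WaveB.ei 0) * δ (WaveB.ei 0) + δ (WaveB.ei 1) * δ (WaveB.ei 1) +
      δ (WaveB.ei 2) * δ (WaveB.ei 2))) • u).1 p = box u.1 p := by
  rw [WaveB.box_eq]
  simp only [Fin.sum_univ_three, sub_smul, add_smul, mul_smul, hδ]
  rfl

theorem div_eq {A : Fin 3 → Sm} {V : ST → R3} (h : ∀ q k, V q k = (A k).1 q) (p : ST) :
    div3 (fun y => V (p.1, y)) p.2 = (dv (fun i => δ (WaveB.ei i)) A).1 p := by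
  simp only [div3, Fin.sum_univ_three, h, slice hδ]
  rfl

theorem curl_eq {A : Fin 3 → Sm} {V : ST → R3} (h : ∀ q k, V q k = (A k).1 q) (p : ST) (i : Fin 3) :
    curl3 (fun y => V (p.1, y)) p.2 i = (cu (fun i => δ (WaveB.ei i)) A i).1 p := by
  simp only [curl3, h, slice hδ]
  revert i
  apply all3 <;> rfl

theorem dt_eq {A : Fin 3 → Sm} {V : ST → R3} (hV : ContDiff ℝ ∞ V) (h : ∀ q k, V q k = (A k).1 q)
    (p : ST) (i : Fin 3) : fderiv ℝ V p (1, 0) i = (δ (1, 0) • A i).1 p := by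
  have h1 := (EuclideanSpace.proj i : R3 →L[ℝ] ℝ).hasFDerivAt.comp p
    (hV.differentiable (by simp) p).hasFDerivAt
  have h2 : (EuclideanSpace.proj i : R3 →L[ℝ] ℝ) ∘ V = (A i).1 := funext fun q => h q i
  rw [h2] at h1
  rw [hδ]
  exact (DFunLike.congr_fun h1.fderiv (1, 0)).symm

end Maxwell

open Maxwell in
theorem maxwell_exists {ρ : ST → ℝ} {j : ST → R3} (hρ : ContDiff ℝ ∞ ρ) (hj : ContDiff ℝ ∞ j)
    (hc : ∀ p : ST, fderiv ℝ ρ p (1, 0) + div3 (fun y => j (p.1, y)) p.2 = 0)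
    {E₀ B₀ : R3 → R3} (hE : ContDiff ℝ ∞ E₀) (hB : ContDiff ℝ ∞ B₀)
    (gE : ∀ x, div3 E₀ x = ρ (0, x)) (gB : ∀ x, div3 B₀ x = 0) :
    ∃ E B : ST → R3, ContDiff ℝ ∞ E ∧ ContDiff ℝ ∞ B ∧ (∀ x, E (0, x) = E₀ x) ∧
      (∀ x, B (0, x) = B₀ x) ∧ ∀ p, MaxAt E B ρ j p := by
  obtain ⟨R, _, _, δ, hδ⟩ := exists_ring Dv Dv_comm
  let j' : Fin 3 → Sm := fun k => ⟨fun q => j q k, contDiff_euclidean.1 hj k⟩
  let E' : Fin 3 → Sm := fun k =>
    ⟨fun q => E₀ q.2 k, (contDiff_euclidean.1 hE k).comp contDiff_snd⟩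
  let B' : Fin 3 → Sm := fun k =>
    ⟨fun q => B₀ q.2 k, (contDiff_euclidean.1 hB k).comp contDiff_snd⟩
  obtain ⟨E, B, e0, b0, e1, b1, e2, b2⟩ := alg (δ (1, 0)) (fun i => δ (WaveB.ei i)) Z0
    (fun i u hu y => by
      rw [← slice hδ, show (fun y => u.1 (0, y)) = fun _ => 0 from funext hu]
      simp [pderiv])
    (fun u h0 h1 hb => Subtype.ext (funext (wave_unique (sm u) h0 (by rwa [hδ] at h1) fun p => by
      rw [← box_op hδ, hb]
      rfl)))
    (fun u₀ u₁ G => by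
      obtain ⟨u, hu, h0, h1, h2⟩ := wave_exists (u₀ := fun x => u₀.1 (0, x))
        (u₁ := fun x => u₁.1 (0, x)) ((sm u₀).comp (contDiff_const.prodMk contDiff_id))
        ((sm u₁).comp (contDiff_const.prodMk contDiff_id)) (sm G)
      refine ⟨⟨u, hu⟩, fun y => sub_eq_zero.2 (h0 y), ?_,
        Subtype.ext (funext fun p => (box_op hδ _ p).trans (h2 p))⟩
      rw [hδ]
      exact fun y => sub_eq_zero.2 (h1 y))
    ⟨ρ, hρ⟩ j' E' B'
    (Subtype.ext (funext fun p => by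
      have h := hc p
      rw [div_eq hδ (A := j') (fun _ _ => rfl)] at h
      rw [hδ]
      exact h))
    (fun y => sub_eq_zero.2
      ((div_eq hδ (A := E') (V := fun q => E₀ q.2) (fun _ _ => rfl) (0, y)).symm.trans (gE y)))
    (fun y => (div_eq hδ (A := B') (V := fun q => B₀ q.2) (fun _ _ => rfl) (0, y)).symm.trans (gB y))
  have mk : ∀ A : Fin 3 → Sm, ∃ V : ST → R3, ContDiff ℝ ∞ V ∧ ∀ q k, V q k = (A k).1 q :=
    fun A => ⟨fun p => WithLp.toLp 2 fun i => (A i).1 p, contDiff_euclidean.2 fun i => sm (A i),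
      fun _ _ => rfl⟩
  obtain ⟨Ev, sE, hEv⟩ := mk E
  obtain ⟨Bv, sB, hBv⟩ := mk B
  refine ⟨Ev, Bv, sE, sB, fun x => ?_, fun x => ?_, fun p => ⟨?_, ?_, ?_, ?_⟩⟩
  · ext i
    exact (hEv _ _).trans (sub_eq_zero.1 (e0 i x))
  · ext i
    exact (hBv _ _).trans (sub_eq_zero.1 (b0 i x))
  · ext i
    rw [dt_eq hδ sE hEv, e1, PiLp.sub_apply, curl_eq hδ hBv]
    rfl
  · ext i
    rw [dt_eq hδ sB hBv, b1, PiLp.neg_apply, curl_eq hδ hEv]
    rfl
  · rw [div_eq hδ hEv, e2]
  · rw [div_eq hδ hBv, b2]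
    rfl

end Crest.Agent.R106
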