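import Crest.Agent.R106.GSB
import Crest.Agent.R106.Flow
import Crest.Agent.R106.Chr
import Crest.Agent.R106.Maxwell

/-!
# Row 106: construction of the iterates
-/

set_option autoImplicit false
set_option linter.unusedVariables false
set_option linter.unusedSectionVars false

open MeasureTheory Metric Set Filter Topology
open scoped ContDiff ENNReal RealInnerProductSpace
open Crest.AnalysisR.VecCalc3 Crest.AnalysisR.PDE.RVM

noncomputable section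

namespace Crest.Agent.R106

/-- compact phase-space support, locally uniformly in time -/
def IterA_CS {F : Type*} [Zero F] (h : PS → F) : Prop :=
  ∀ T₁ : ℝ, ∃ R : ℝ, ∀ (s : ℝ) (y : R3 × R3), |s| ≤ T₁ → R < ‖y‖ → h (s, y) = 0

theorem IterA_CS.vsupp {F : Type*} [Zero F] {h : PS → F} (hc : IterA_CS h) : VSupp h := fun T₁ =>
  (hc T₁).imp fun R hR s y v hs hv => hR s (y, v) hs (hv.trans_le (norm_snd_le (y, v)))

theorem IterA_CS.frc {f : PS → ℝ} (hc : IterA_CS f) (E' B' : ST → R3) :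
    IterA_CS (frc E' B' f) := fun T₁ =>
  (hc T₁).imp fun R hR s y hs hy => by rw [R106.frc, hR s y hs hy, zero_smul]

theorem IterA_CS.refl {f : PS → ℝ} (hc : IterA_CS f) : IterA_CS (reflF f) := fun T₁ =>
  (hc T₁).imp fun R hR s y hs hy => hR (-s) (y.1, -y.2) (by rwa [abs_neg])
    (by rwa [Prod.norm_def, norm_neg])

theorem IterA_CS.bx {F : Type*} [NormedAddCommGroup F] [NormedSpace ℝ F] {h : PS → F}
    (hc : IterA_CS h) (hs : ContDiff ℝ ∞ h) (T₁ : ℝ) (k : ℕ) :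
    ∃ C, 0 ≤ C ∧ ∀ s, |s| ≤ T₁ → Bx k h s C := by
  obtain ⟨R, hR⟩ := hc T₁
  obtain ⟨C, hC⟩ := ((isCompact_Icc (a := -T₁) (b := T₁)).prod
    (isCompact_closedBall (0 : R3 × R3) R)).exists_bound_of_continuousOn
    (hs.continuous_iteratedFDeriv (m := k) (by exact_mod_cast le_top)).continuousOn
  refine ⟨max C 0, le_max_right _ _, fun s hs' y => ?_⟩
  rcases le_or_gt ‖y‖ R with hy | hy
  · have h1 := CalcC_comp (ContinuousLinearMap.inr ℝ ℝ (R3 × R3))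
      (ContinuousLinearMap.norm_inr_le_one ℝ ℝ (R3 × R3)) (g := fun p => h ((s, 0) + p))
      (hs.comp (contDiff_const.add contDiff_id)) k y
    rw [iteratedFDeriv_comp_add_left] at h1
    simp only [ContinuousLinearMap.inr_apply, Prod.mk_add_mk, add_zero, zero_add] at h1
    exact h1.trans ((hC (s, y) ⟨abs_le.1 hs', mem_closedBall_zero_iff.2 hy⟩).trans
      (le_max_left _ _))
  · have h1 : (fun y => h (s, y)) =ᶠ[𝓝 y] fun _ => 0 := by
      filter_upwards [(isOpen_lt continuous_const continuous_norm).mem_nhds hy] with z hz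
      exact hR s z hs' hz
    rw [(h1.iteratedFDeriv ℝ k).eq_of_nhds, iteratedFDeriv_fun_zero, Pi.zero_apply, norm_zero]
    exact le_max_right _ _

theorem IterA_lip {F : Type*} [NormedAddCommGroup F] [NormedSpace ℝ F] {u u' : ℝ → F}
    {T C s : ℝ} (hu : ∀ t ∈ Ioo (-T) T, HasDerivAt u (u' t) t)
    (hC : ∀ t ∈ Ioo (-T) T, ‖u' t‖ ≤ C) (hs : |s| < T) : ‖u s - u 0‖ ≤ C * T := by
  have hT : 0 < T := (abs_nonneg s).trans_lt hs
  have h0 : (0 : ℝ) ∈ Ioo (-T) T := ⟨neg_lt_zero.2 hT, hT⟩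
  have h := (convex_Ioo (-T) T).norm_image_sub_le_of_norm_hasDerivWithin_le
    (fun t ht => (hu t ht).hasDerivWithinAt) hC h0 (abs_lt.1 hs)
  rw [sub_zero, Real.norm_eq_abs] at h
  exact h.trans (mul_le_mul_of_nonneg_left hs.le ((norm_nonneg _).trans (hC 0 h0)))

theorem IterA_cs {f : PS → ℝ} {E' B' : ST → R3} (hE : ContDiff ℝ ∞ E') (hB : ContDiff ℝ ∞ B')
    (hb : ∀ (T₁ : ℝ) (k : ℕ), ∃ C, ∀ s, |s| ≤ T₁ → Bx k E' s C ∧ Bx k B' s C)
    (hf : ContDiff ℝ ∞ f) (hv : ∀ p, VlAt E' B' f p) (h0 : HasCompactSupport fun y => f (0, y)) :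
    IterA_CS f := by
  intro T₁
  obtain ⟨T, hT⟩ : ∃ T, T = T₁ + 1 := ⟨_, rfl⟩
  obtain ⟨C₀, hC₀⟩ := hb T 0
  obtain ⟨C₁, hC₁⟩ := hb T 1
  obtain ⟨R₀, hR₀⟩ := h0.isCompact.isBounded.exists_norm_le
  refine ⟨R₀ + max (1 * T) ((C₀ + C₀) * T), fun s y hs hy => ?_⟩
  have hs' : |s| < T := by linarith
  obtain ⟨X, V, hc, hX, hV⟩ := exists_char hE hB (a := -T) (b := T) (A := max C₀ C₁)
    (fun t ht => ⟨(hC₀ t (abs_le.2 ht)).1.mono (le_max_left _ _),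
      (hC₀ t (abs_le.2 ht)).2.mono (le_max_left _ _),
      (hC₁ t (abs_le.2 ht)).1.mono (le_max_right _ _),
      (hC₁ t (abs_le.2 ht)).2.mono (le_max_right _ _)⟩) (abs_le.1 hs'.le) y.1 y.2
  have h1 := IterA_lip hc.dX (fun t _ => (norm_relVel_lt_one _).le) hs'
  have h2 := IterA_lip hc.dV (fun t ht => (norm_lor_le _ _ _).trans (add_le_add
    (bx_zero.1 (hC₀ t (abs_lt.2 ht).le).1 _) (bx_zero.1 (hC₀ t (abs_lt.2 ht).le).2 _))) hs'
  have h3 := IterA_lip (u := fun t => f (t, X t, V t)) (u' := fun _ => 0) (C := 0)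
    (fun t ht => by
      have := (hf.differentiable (by simp) (t, X t, V t)).hasFDerivAt.comp_hasDerivAt t
        ((hasDerivAt_id t).prodMk ((hc.dX t ht).prodMk (hc.dV t ht)))
      rwa [show fderiv ℝ f (t, X t, V t) _ = 0 from hv (t, X t, V t)] at this)
    (fun _ _ => norm_zero.le) hs'
  rw [zero_mul, norm_le_zero_iff, sub_eq_zero, hX, hV] at h3
  rw [hX] at h1
  rw [hV] at h2
  refine h3.trans (by_contra fun h => ?_)
  have h4 := hR₀ (X 0, V 0) (subset_tsupport _ h)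
  have h5 : ‖y - (X 0, V 0)‖ ≤ max (1 * T) ((C₀ + C₀) * T) := max_le_max h1 h2
  linarith [norm_le_norm_add_norm_sub' y (X 0, V 0)]

theorem IterA_fwd {f : PS → ℝ} {E' B' E B : ST → R3} (h : StepOn univ E' B' f E B)
    (hc : IterA_CS f) (h0 : ∀ k, ∃ D, Bx k E 0 D ∧ Bx k B 0 D) (T₁ : ℝ) (k : ℕ) :
    ∃ C, ∀ s ∈ Icc 0 T₁, Bx k E s C ∧ Bx k B s C := by
  obtain ⟨R, hR⟩ := hc.vsupp |T₁|
  obtain ⟨R', hR'⟩ := (hc.frc E' B').vsupp |T₁|
  obtain ⟨m, hm0, hm⟩ := hc.bx h.sf |T₁| k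
  obtain ⟨m', -, hm'⟩ := (hc.frc E' B').bx (contDiff_frc h.sE' h.sB' h.sf) |T₁| k
  obtain ⟨C, hC0, hC⟩ := gs_bound T₁ R (max R R') k
  obtain ⟨D, -, hD⟩ := CalcC_unif (P := fun j D => Bx j f 0 D ∧ Bx j E 0 D ∧ Bx j B 0 D)
    (fun j => by
      obtain ⟨D, hD0, hD⟩ := hc.bx h.sf 0 j
      obtain ⟨D', hD'⟩ := h0 j
      exact ⟨max D D', le_max_of_le_left hD0, (hD 0 abs_zero.le).mono (le_max_left _ _),
        hD'.1.mono (le_max_right _ _), hD'.2.mono (le_max_right _ _)⟩)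
    (fun j C C' hC h => ⟨h.1.mono hC, h.2.1.mono hC, h.2.2.mono hC⟩) (k + 3)
  have ha : ∀ s ∈ Icc 0 T₁, |s| ≤ |T₁| := fun s hs =>
    (abs_of_nonneg hs.1).trans_le (hs.2.trans (le_abs_self _))
  refine ⟨C * (D + T₁ * max m m'), fun t ht => ?_⟩
  have h1 := hC T₁ le_rfl f _ E B (Step.lin (h.mono (subset_univ _)))
    (fun y v hv => hR 0 y v (abs_zero.trans_le (abs_nonneg _)) hv)
    (fun s hs => ⟨fun y v hv => hR s y v (ha s hs) ((le_max_left _ _).trans_lt hv),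
      fun y v hv => hR' s y v (ha s hs) ((le_max_right _ _).trans_lt hv)⟩) D hD
    (fun _ => max m m') continuous_const
    (fun s hs => ⟨(hm s (ha s hs)).mono (le_max_left _ _),
      (hm' s (ha s hs)).mono (le_max_right _ _)⟩) t ht
  have h2 : C * (D + ∫ _ in (0 : ℝ)..t, max m m') ≤ C * (D + T₁ * max m m') := by
    rw [intervalIntegral.integral_const, sub_zero, smul_eq_mul]
    exact mul_le_mul_of_nonneg_left (add_le_add le_rfl
      (mul_le_mul_of_nonneg_right ht.2 (le_max_of_le_left hm0))) hC0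
  exact ⟨h1.1.mono h2, h1.2.mono h2⟩

theorem IterA_reflB {k : ℕ} {B : ST → R3} {s C : ℝ} : Bx k (reflB B) s C ↔ Bx k B (-s) C :=
  forall_congr' fun y => by
    rw [show (fun y => reflB B (s, y)) = -fun y => B (-s, y) from rfl, iteratedFDeriv_neg_apply,
      norm_neg]

theorem one_step {f₀ : R3 × R3 → ℝ} {E₀ B₀ : R3 → R3} (hd : Dat f₀ E₀ B₀) {E' B' : ST → R3}
    (hE : ContDiff ℝ ∞ E') (hB : ContDiff ℝ ∞ B')
    (hb : ∀ (T₁ : ℝ) (k : ℕ), ∃ C, ∀ s, |s| ≤ T₁ → Bx k E' s C ∧ Bx k B' s C) :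
    ∃ (f : PS → ℝ) (E B : ST → R3), StepOn univ E' B' f E B ∧ Init f E B f₀ E₀ B₀ ∧
      ∀ (T₁ : ℝ) (k : ℕ), ∃ C, ∀ s, |s| ≤ T₁ → Bx k E s C ∧ Bx k B s C := by
  obtain ⟨f, hf, hf0, hv⟩ := exists_transport
    (fun p : PS => (relVel p.2.2, lor (E' (p.1, p.2.1)) (B' (p.1, p.2.1)) p.2.2))
    ((contDiff_relVel.comp (by fun_prop)).prodMk (contDiff_lor.comp (f := fun p : PS =>
      (E' (p.1, p.2.1), B' (p.1, p.2.1), p.2.2)) (by fun_prop)))
    (fun T₁ => by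
      obtain ⟨C₀, hC₀⟩ := hb T₁ 0
      obtain ⟨C₁, hC₁⟩ := hb T₁ 1
      obtain ⟨C₂, hC₂⟩ := relVel_bdd 1
      obtain ⟨C₃, -, hC₃⟩ := bx_lor 1
      refine ⟨max (max 1 (C₀ + C₀)) (max C₂ (C₃ * (C₀ + C₁))), fun s y hs =>
        ⟨le_max_of_le_left (max_le_max (norm_relVel_lt_one _).le ((norm_lor_le _ _ _).trans
          (add_le_add (bx_zero.1 (hC₀ s hs).1 _) (bx_zero.1 (hC₀ s hs).2 _)))),
          le_max_of_le_right ?_⟩⟩
      have h1 := (CalcC_comp (ContinuousLinearMap.snd ℝ R3 R3)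
        (ContinuousLinearMap.norm_snd_le ℝ R3 R3) contDiff_relVel 1 y).trans (hC₂ _)
      have h2 := hC₃ E' B' hE hB s C₀ C₁ (hC₀ s hs).1.nonneg
        (fun j hj => Nat.lt_one_iff.1 hj ▸ (hC₀ s hs).2) (hC₁ s hs).1 (hC₁ s hs).2 y
      rw [norm_iteratedFDeriv_one] at h1 h2
      have d1 : DifferentiableAt ℝ (fun y : R3 × R3 => relVel y.2) y :=
        (contDiff_relVel.comp contDiff_snd).differentiable (by simp) y
      have d2 : DifferentiableAt ℝ (fun y : R3 × R3 => lor (E' (s, y.1)) (B' (s, y.1)) y.2) y :=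
        (contDiff_lor.comp (f := fun y : R3 × R3 => (E' (s, y.1), B' (s, y.1), y.2))
          (by fun_prop)).differentiable (by simp) y
      rw [d1.fderiv_prodMk d2, ContinuousLinearMap.opNorm_prod]
      exact max_le_max h1 h2) f₀ hd.sf
  have hc : IterA_CS f := IterA_cs hE hB hb hf hv (by rw [funext hf0]; exact hd.cs)
  obtain ⟨E, B, sE, sB, hE0, hB0, hm⟩ := maxwell_exists (contDiff_rho hf hc.vsupp)
    (contDiff_cur hf hc.vsupp)
    (fun p => charge_cons hf hc.vsupp (contDiff_frc hE hB hf) (hc.frc E' B').vsupp p fun v => by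
      rw [divV_frc hf, eq_neg_iff_add_eq_zero, ← map_add]
      simpa only [Prod.mk_add_mk, add_zero, zero_add] using hv (p.1, p.2, v))
    hd.sE hd.sB (fun x => by simp only [hd.gE, rho, hf0]) hd.gB
  have hS : StepOn univ E' B' f E B := ⟨hE, hB, hf, sE, sB, hc.vsupp, fun p _ => hv p,
    fun p _ => hm p, fun T₁ k => (hb T₁ k).imp fun C hC s _ hs => hC s hs⟩
  have h0 : ∀ k, ∃ D, Bx k E 0 D ∧ Bx k B 0 D := fun k => (hd.bd k).imp fun D hD =>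
    ⟨fun y => by rw [funext hE0]; exact (hD y).1, fun y => by rw [funext hB0]; exact (hD y).2⟩
  refine ⟨f, E, B, hS, ⟨hf0, hE0, hB0⟩, fun T₁ k => ?_⟩
  obtain ⟨C, hC⟩ := IterA_fwd hS hc h0 T₁ k
  obtain ⟨C', hC'⟩ := IterA_fwd hS.refl hc.refl (fun k => (h0 k).imp fun D hD =>
    ⟨show Bx k E (-0) D by rw [neg_zero]; exact hD.1,
      IterA_reflB.2 (by rw [neg_zero]; exact hD.2)⟩) T₁ k
  refine ⟨max C C', fun s hs => ?_⟩
  rcases le_total 0 s with h | h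
  · have h1 := hC s ⟨h, (le_abs_self s).trans hs⟩
    exact ⟨h1.1.mono (le_max_left _ _), h1.2.mono (le_max_left _ _)⟩
  · have h1 := hC' (-s) ⟨neg_nonneg.2 h, (neg_le_abs s).trans hs⟩
    have h2 : Bx k E (- -s) C' := h1.1
    have h3 := IterA_reflB.1 h1.2
    rw [neg_neg] at h2 h3
    exact ⟨h2.mono (le_max_right _ _), h3.mono (le_max_right _ _)⟩

theorem iter_exists {f₀ : R3 × R3 → ℝ} {E₀ B₀ : R3 → R3} (hd : Dat f₀ E₀ B₀) :
    ∃ (f : ℕ → PS → ℝ) (E B : ℕ → ST → R3), E 0 = 0 ∧ B 0 = 0 ∧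
      ∀ n, StepOn univ (E n) (B n) (f n) (E (n + 1)) (B (n + 1)) ∧
        Init (f n) (E (n + 1)) (B (n + 1)) f₀ E₀ B₀ := by
  have key : ∀ p : {p : (ST → R3) × (ST → R3) // ContDiff ℝ ∞ p.1 ∧ ContDiff ℝ ∞ p.2 ∧
      ∀ (T₁ : ℝ) (k : ℕ), ∃ C, ∀ s, |s| ≤ T₁ → Bx k p.1 s C ∧ Bx k p.2 s C},
      ∃ (f : PS → ℝ) (q : {p : (ST → R3) × (ST → R3) // ContDiff ℝ ∞ p.1 ∧ ContDiff ℝ ∞ p.2 ∧
        ∀ (T₁ : ℝ) (k : ℕ), ∃ C, ∀ s, |s| ≤ T₁ → Bx k p.1 s C ∧ Bx k p.2 s C}),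
        StepOn univ p.1.1 p.1.2 f q.1.1 q.1.2 ∧ Init f q.1.1 q.1.2 f₀ E₀ B₀ := fun p => by
    obtain ⟨f, E, B, h1, h2, h3⟩ := one_step hd p.2.1 p.2.2.1 p.2.2.2
    exact ⟨f, ⟨(E, B), h1.sE, h1.sB, h3⟩, h1, h2⟩
  choose F G hG using key
  have hz : ∀ (k : ℕ) (s : ℝ), Bx k (0 : ST → R3) s 0 := fun k s y => by
    simp only [Pi.zero_apply, iteratedFDeriv_fun_zero, norm_zero, le_refl]
  obtain ⟨p, hp⟩ : ∃ p, p = fun n => G^[n] ⟨(0, 0), contDiff_const, contDiff_const,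
    fun _ k => ⟨0, fun s _ => ⟨hz k s, hz k s⟩⟩⟩ := ⟨_, rfl⟩
  have hs : ∀ n, p (n + 1) = G (p n) := fun n => by
    rw [hp]
    exact Function.iterate_succ_apply' _ _ _
  refine ⟨fun n => F (p n), fun n => (p n).1.1, fun n => (p n).1.2, by rw [hp]; rfl,
    by rw [hp]; rfl, fun n => ?_⟩
  simp only [hs]
  exact hG (p n)

end Crest.Agent.R106
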