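import Crest.Agent.R106.IterA
import Crest.Agent.R106.Higher

/-!
# Row 106: uniform bounds for the iterates
-/

set_option autoImplicit false
set_option linter.unusedVariables false
set_option linter.unusedSectionVars false

open MeasureTheory Metric Set Filter Topology
open scoped ContDiff ENNReal RealInnerProductSpace
open Crest.AnalysisR.VecCalc3 Crest.AnalysisR.PDE.RVM

noncomputable section

namespace Crest.Agent.R106

/-- a chain of iterates with common data -/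
structure Chain (f : ℕ → PS → ℝ) (E B : ℕ → ST → R3) : Prop where
  E0 : E 0 = 0
  B0 : B 0 = 0
  st : ∀ n, StepOn univ (E n) (B n) (f n) (E (n + 1)) (B (n + 1))
  ini : ∀ n, Init (f n) (E (n + 1)) (B (n + 1)) (fun y => f 0 (0, y)) (fun x => E 1 (0, x))
    (fun x => B 1 (0, x))

theorem Chain.refl {f : ℕ → PS → ℝ} {E B : ℕ → ST → R3} (h : Chain f E B) :
    Chain (fun n => reflF (f n)) (fun n => reflE (E n)) (fun n => reflB (B n)) := by
  refine ⟨?_, ?_, fun n => (h.st n).refl, fun n => ⟨fun y => ?_, fun x => ?_, fun x => ?_⟩⟩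
  · funext p; simp [reflE, h.E0]
  · funext p; simp [reflB, h.B0]
  · simp only [reflF, neg_zero]; exact (h.ini n).1 _
  · simp only [reflE, neg_zero]; exact (h.ini n).2.1 _
  · simp only [reflB, neg_zero]; rw [(h.ini n).2.2]

theorem IterB_bx_congr {X F : Type*} [NormedAddCommGroup X] [NormedSpace ℝ X]
    [NormedAddCommGroup F] [NormedSpace ℝ F] {k : ℕ} {u u' : ℝ × X → F} {s C : ℝ}
    (h : Bx k u s C) (e : ∀ y, u' (s, y) = u (s, y)) : Bx k u' s C := by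
  intro y
  rw [funext e]
  exact h y

/-- the data bounds hold along the chain -/
theorem IterB_dbd {f : ℕ → PS → ℝ} {E B : ℕ → ST → R3} (h : Chain f E B) {m : ℕ} {D D' : ℝ}
    (hD : DBd m (f 0) (E 1) (B 1) 0 D) (hD' : D ≤ D') (n : ℕ) :
    DBd m (f n) (E (n + 1)) (B (n + 1)) 0 D' := fun k hk =>
  ⟨IterB_bx_congr ((hD k hk).1.mono hD') (h.ini n).1,
    IterB_bx_congr ((hD k hk).2.1.mono hD') (h.ini n).2.1,
    IterB_bx_congr ((hD k hk).2.2.mono hD') (h.ini n).2.2⟩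

theorem IterB_vs {f : ℕ → PS → ℝ} {E B : ℕ → ST → R3} (h : Chain f E B) {R : ℝ}
    (hR : VS (f 0) 0 R) (n : ℕ) : VS (f n) 0 R := fun y v hv =>
  ((h.ini n).1 (y, v)).trans (hR y v hv)

/-- one step of the iteration preserves the low order bounds on a short time interval -/
theorem IterB_step (R₀ D : ℝ) (hD0 : 0 ≤ D) : ∃ T₀ A : ℝ, 0 < T₀ ∧ 0 ≤ A ∧
    ∀ (E' B' : ST → R3) (f : PS → ℝ) (E B : ST → R3), Step T₀ E' B' f E B → VS f 0 R₀ →
    DBd 4 f E B 0 D → (∀ s ∈ Icc 0 T₀, ∀ j ≤ 1, Bx j E' s A ∧ Bx j B' s A) →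
    ∀ s ∈ Icc 0 T₀, VS f s (R₀ + 1) ∧ ∀ j ≤ 1, Bx j f s A ∧ Bx j E s A ∧ Bx j B s A := by
  obtain ⟨C0, hC0, g0⟩ := gs_bound 1 R₀ (R₀ + 1) 0
  obtain ⟨C1, hC1, g1⟩ := gs_bound 1 R₀ (R₀ + 1) 1
  obtain ⟨Ct, hCt, gt⟩ := tr_one
  obtain ⟨Cf, hCf, gf⟩ := bx_frc 1 le_rfl
  obtain ⟨A, hA0, hA1, hA2, hA3⟩ : ∃ A : ℝ, 0 ≤ A ∧ C0 * (D + 1) ≤ A ∧ C1 * (D + 1) ≤ A ∧
      3 * D ≤ A := by
    have h0 : 0 ≤ C0 * (D + 1) := by positivity
    have h1 : 0 ≤ C1 * (D + 1) := by positivity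
    exact ⟨C0 * (D + 1) + C1 * (D + 1) + 3 * D, by positivity, by linarith, by linarith,
      by linarith⟩
  obtain ⟨m, hm0, hm1, hm2, hm3⟩ : ∃ m : ℝ, 0 ≤ m ∧ A ≤ m ∧ A * (A + A) ≤ m ∧
      Cf * A * (A + A + A) ≤ m := by
    have h0 : 0 ≤ A * (A + A) := by positivity
    have h1 : 0 ≤ Cf * A * (A + A + A) := by positivity
    exact ⟨A + A * (A + A) + Cf * A * (A + A + A), by positivity, by linarith, by linarith,
      by linarith⟩
  obtain ⟨T, hT0, hT1, hT2, hT3, hT4⟩ : ∃ T : ℝ, 0 < T ∧ T ≤ 1 ∧ T * m ≤ 1 ∧ 2 * A * T ≤ 1 ∧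
      Ct * (T * (1 + A + A)) ≤ 1 := by
    have h0 : 0 ≤ Ct * (1 + A + A) := by positivity
    have h1 : 0 < 1 + m + 2 * A + Ct * (1 + A + A) := by positivity
    refine ⟨(1 + m + 2 * A + Ct * (1 + A + A))⁻¹, by positivity, ?_, ?_, ?_, ?_⟩
    · exact inv_le_one_of_one_le₀ (by linarith)
    · rw [inv_mul_le_iff₀ h1]; linarith
    · rw [mul_inv_le_iff₀ h1]; linarith
    · rw [mul_left_comm, inv_mul_le_iff₀ h1]; linarith
  refine ⟨T, A, hT0, hA0, fun E' B' f E B h hR hD hb => ?_⟩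
  have hvs : ∀ s ∈ Icc 0 T, VS f s (R₀ + 1) := by
    intro s hs y v hv
    refine h.vs le_rfl hs.1 hs.2 hR
      (fun t ht => hb t ⟨ht.1, ht.2.trans hs.2⟩ 0 zero_le_one) y v (lt_of_le_of_lt ?_ hv)
    have := mul_le_mul_of_nonneg_left hs.2 (by positivity : 0 ≤ 2 * A)
    linarith
  have hf0 : ∀ s ∈ Icc 0 T, Bx 0 f s A := by
    intro s hs
    refine bx_zero.2 fun y => ?_
    have := h.range (lo := -D) (hi := D)
      (fun y => abs_le.1 (bx_zero.1 (hD 0 (by norm_num)).1 y)) (s, y) hs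
    exact (abs_le.2 this).trans (by linarith)
  have hf1 : ∀ s ∈ Icc 0 T, Bx 1 f s A := by
    intro s hs
    refine (gt T E' B' f E B h A D (fun _ => A) continuous_const (fun t ht =>
      ⟨(hb t ht 0 zero_le_one).2, hb t ht 1 le_rfl⟩) (hD 1 (by norm_num)).1 s hs).mono ?_
    rw [intervalIntegral.integral_const, sub_zero, smul_eq_mul]
    have h1 : Ct * (s * (1 + A + A)) ≤ 1 :=
      (mul_le_mul_of_nonneg_left (mul_le_mul_of_nonneg_right hs.2 (by positivity)) hCt).trans hT4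
    have h2 : Real.exp (Ct * (s * (1 + A + A))) ≤ 3 :=
      (Real.exp_le_exp.2 h1).trans (Real.exp_one_lt_d9.le.trans (by norm_num))
    linarith [mul_le_mul_of_nonneg_left h2 hD0]
  have hH0 : ∀ s ∈ Icc 0 T, Bx 0 (frc E' B' f) s m := by
    intro s hs
    refine bx_zero.2 fun y => le_trans ?_ hm2
    rw [frc, norm_smul]
    exact mul_le_mul (bx_zero.1 (hf0 s hs) y) ((norm_lor_le _ _ _).trans (add_le_add
      (bx_zero.1 (hb s hs 0 zero_le_one).1 _) (bx_zero.1 (hb s hs 0 zero_le_one).2 _)))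
      (norm_nonneg _) hA0
  have hH1 : ∀ s ∈ Icc 0 T, Bx 1 (frc E' B' f) s m := by
    intro s hs
    refine (gf E' B' f h.sE' h.sB' h.sf s A A A (fun j hj => ?_) (hf1 s hs) (hb s hs 1 le_rfl).1
      (hb s hs 1 le_rfl).2).mono hm3
    obtain rfl : j = 0 := by omega
    exact ⟨(hb s hs 0 zero_le_one).1, (hb s hs 0 zero_le_one).2, hf0 s hs⟩
  have hvH : ∀ s ∈ Icc 0 T, VS f s (R₀ + 1) ∧ VS (frc E' B' f) s (R₀ + 1) := fun s hs =>
    ⟨hvs s hs, fun y v hv => by rw [frc, hvs s hs y v hv, zero_smul]⟩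
  have hint : ∀ s ∈ Icc 0 T, D + ∫ _ in (0 : ℝ)..s, m ≤ D + 1 := by
    intro s hs
    rw [intervalIntegral.integral_const, sub_zero, smul_eq_mul]
    linarith [mul_le_mul_of_nonneg_right hs.2 hm0]
  intro s hs
  have e0 := g0 T hT1 f _ E B h.lin hR hvH D (fun k hk => hD k (by omega)) (fun _ => m)
    continuous_const (fun t ht => ⟨(hf0 t ht).mono hm1, hH0 t ht⟩) s hs
  have e1 := g1 T hT1 f _ E B h.lin hR hvH D hD (fun _ => m)
    continuous_const (fun t ht => ⟨(hf1 t ht).mono hm1, hH1 t ht⟩) s hs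
  have l0 := (mul_le_mul_of_nonneg_left (hint s hs) hC0).trans hA1
  have l1 := (mul_le_mul_of_nonneg_left (hint s hs) hC1).trans hA2
  refine ⟨hvs s hs, fun j hj => ?_⟩
  obtain rfl | rfl : j = 0 ∨ j = 1 := by omega
  · exact ⟨hf0 s hs, e0.1.mono l0, e0.2.mono l0⟩
  · exact ⟨hf1 s hs, e1.1.mono l1, e1.2.mono l1⟩

theorem chain_low (R₀ D : ℝ) : ∃ T₀ A : ℝ, 0 < T₀ ∧ 0 ≤ A ∧
    ∀ (f : ℕ → PS → ℝ) (E B : ℕ → ST → R3), Chain f E B → VS (f 0) 0 R₀ →
    DBd 4 (f 0) (E 1) (B 1) 0 D → ∀ n, ∀ s ∈ Icc 0 T₀,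
      VS (f n) s (R₀ + 1) ∧ ∀ j ≤ 1, Bx j (f n) s A ∧ Bx j (E n) s A ∧ Bx j (B n) s A := by
  obtain ⟨T, A, hT, hA, H⟩ := IterB_step R₀ |D| (abs_nonneg D)
  refine ⟨T, A, hT, hA, fun f E B h hR hD => ?_⟩
  have key := fun n => H _ _ _ _ _ ((h.st n).mono (subset_univ _)) (IterB_vs h hR n)
    (IterB_dbd h hD (le_abs_self D) n)
  have hb : ∀ n, ∀ s ∈ Icc 0 T, ∀ j ≤ 1, Bx j (E n) s A ∧ Bx j (B n) s A := by
    intro n
    induction n with
    | zero =>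
      intro s _ j _
      rw [h.E0, h.B0, and_self]
      intro y
      simpa using hA
    | succ n ih => exact fun s hs j hj => ((key n ih s hs).2 j hj).2
  exact fun n s hs => ⟨(key n (hb n) s hs).1, fun j hj =>
    ⟨((key n (hb n) s hs).2 j hj).1, hb n s hs j hj⟩⟩

end Crest.Agent.R106
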