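import Crest.Agent.R106.Stress
import Crest.Agent.R106.Geom

/-!
# Row 106: pointwise bounds for the Glassey–Strauss kernels and the potential
-/

set_option autoImplicit false
set_option linter.unusedVariables false
set_option linter.unusedSectionVars false

open MeasureTheory Metric Set Filter Topology
open scoped ContDiff ENNReal RealInnerProductSpace
open Crest.AnalysisR.VecCalc3 Crest.AnalysisR.PDE.RVM

noncomputable section

namespace Crest.Agent.R106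

theorem KerA_sub {n u : R3} (hn : ‖n‖ = 1) (hu : ‖u‖ ≤ 1) : ‖n - u‖ ≤ 2 * √(ang u n) := by
  have h0 := ang_nonneg hu hn.le
  have h1 := norm_sub_sq_le_ang hu hn.le
  rw [norm_sub_rev]
  refine le_of_pow_le_pow_left₀ two_ne_zero (by positivity) ?_
  rw [mul_pow, Real.sq_sqrt h0]
  linarith

theorem KerA_sqrt {n u : R3} (hn : ‖n‖ = 1) (hu : ‖u‖ ≤ 1) : √(ang u n) ≤ 2 :=
  Real.sqrt_le_iff.2 ⟨by norm_num, by linarith [ang_le_two hu hn.le]⟩

theorem KerA_inner {n : R3} (hn : ‖n‖ = 1) (u W : R3) :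
    ⟪n - u, n - W⟫ = ang u n + ang W n - ang u W := by
  rw [inner_sub_left, inner_sub_right, inner_sub_right, real_inner_self_eq_norm_sq, hn,
    real_inner_comm W n]
  show _ = (1 - ⟪u, n⟫) + (1 - ⟪W, n⟫) - (1 - ⟪u, W⟫)
  ring

theorem KerA_abs {n u W : R3} (hn : ‖n‖ = 1) (hu : ‖u‖ ≤ 1) (hW : ‖W‖ ≤ 1) :
    |⟪n - u, n - W⟫| ≤ 4 * (√(ang u n) * √(ang W n)) :=
  (abs_real_inner_le_norm _ _).trans ((mul_le_mul (KerA_sub hn hu) (KerA_sub hn hW) (norm_nonneg _)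
    (by positivity)).trans_eq (by ring))

theorem norm_proj_le {e : R3} (he : ‖e‖ = 1) (u : R3) : ‖proj e u‖ ≤ ‖u‖ := by
  refine le_of_pow_le_pow_left₀ two_ne_zero (norm_nonneg _) ?_
  show ‖u - ⟪e, u⟫ • e‖ ^ 2 ≤ _
  rw [norm_sub_sq_real, inner_smul_right, norm_smul, he, real_inner_comm e u, mul_one,
    Real.norm_eq_abs, sq_abs]
  nlinarith [sq_nonneg ⟪e, u⟫]

theorem KerA_proj_smul (e u : R3) (c : ℝ) : proj e (c • u) = c • proj e u := by
  show c • u - ⟪e, c • u⟫ • e = c • (u - ⟪e, u⟫ • e)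
  rw [inner_smul_right]
  module

theorem KerA_proj_add (e u v : R3) : proj e (u + v) = proj e u + proj e v := by
  show u + v - ⟪e, u + v⟫ • e = (u - ⟪e, u⟫ • e) + (v - ⟪e, v⟫ • e)
  rw [inner_add_right]
  module

theorem KerA_proj_unit {e n : R3} (he : ‖e‖ = 1) (hn : ‖n‖ = 1) :
    ‖proj e n‖ ≤ 2 * √(ang e n) := by
  refine le_trans (le_of_eq ?_) ((norm_proj_le he (n - e)).trans (KerA_sub hn he.le))
  congr 1
  show n - ⟪e, n⟫ • e = n - e - ⟪e, n - e⟫ • e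
  rw [inner_sub_right, real_inner_self_eq_norm_sq, he]
  module

theorem KerA_two {a b A B X Y : ℝ} {x y : R3} (ha : |a| ≤ A) (hb : |b| ≤ B) (hx : ‖x‖ ≤ X)
    (hy : ‖y‖ ≤ Y) : ‖a • x + b • y‖ ≤ A * X + B * Y := by
  refine (norm_add_le _ _).trans ?_
  rw [norm_smul, norm_smul, Real.norm_eq_abs, Real.norm_eq_abs]
  exact add_le_add (mul_le_mul ha hx (norm_nonneg _) ((abs_nonneg _).trans ha))
    (mul_le_mul hb hy (norm_nonneg _) ((abs_nonneg _).trans hb))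

theorem norm_kT_le : ∃ C : ℝ, 0 ≤ C ∧ ∀ W z v : R3, ‖W‖ ≤ 1 → z ≠ 0 →
    ‖kT 1 W z v‖ ≤ C * gT W z v := by
  refine ⟨8, by norm_num, fun W z v hW hz => ?_⟩
  have hn := norm_nz hz
  have hu := (norm_relVel_lt_one v).le
  have hp := pp_pos z v
  have hr := norm_pos_iff.2 hz
  have hQ := en_pos v
  have hw : 0 ≤ qq W z := ang_nonneg hW hn.le
  have h1 : kT 1 W z v = (en v ^ 2 * ‖z‖ ^ 2 * pp z v ^ 2)⁻¹ •
      ((pp z v - ⟪nz z - relVel v, nz z - W⟫) • nz z + qq W z • (nz z - relVel v)) := by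
    rw [KerA_inner hn]
    show _ • ((1 - ⟪relVel v, W⟫) • nz z - (1 - ⟪nz z, W⟫) • relVel v) = _ •
      ((pp z v - (pp z v + (1 - ⟪W, nz z⟫) - (1 - ⟪relVel v, W⟫))) • nz z +
        (1 - ⟪W, nz z⟫) • (nz z - relVel v))
    rw [real_inner_comm W (nz z)]
    congr 1
    module
  have h2 := KerA_two ((abs_sub _ _).trans (add_le_add (abs_of_pos hp).le (KerA_abs hn hu hW)))
    (abs_of_nonneg hw).le hn.le (KerA_sub hn hu)
  have h3 : √(qq W z) ≤ 2 := KerA_sqrt hn hW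
  rw [h1, norm_smul, Real.norm_of_nonneg (by positivity)]
  refine (mul_le_mul_of_nonneg_left h2 (by positivity)).trans ?_
  show _ * ((pp z v + 4 * (√(pp z v) * √(qq W z))) * 1 + qq W z * (2 * √(pp z v))) ≤
    8 * ((√(pp z v) + √(qq W z)) / (en v ^ 2 * ‖z‖ ^ 2 * pp z v * √(pp z v)))
  obtain ⟨a, ha, e1⟩ : ∃ a, 0 < a ∧ pp z v = a ^ 2 :=
    ⟨_, Real.sqrt_pos.2 hp, (Real.sq_sqrt hp.le).symm⟩
  obtain ⟨b, hb, e2⟩ : ∃ b, 0 ≤ b ∧ qq W z = b ^ 2 :=
    ⟨_, Real.sqrt_nonneg _, (Real.sq_sqrt hw).symm⟩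
  rw [e2, Real.sqrt_sq hb] at h3
  rw [e1, e2, Real.sqrt_sq ha.le, Real.sqrt_sq hb]
  field_simp
  nlinarith [mul_nonneg hb (sub_nonneg.2 h3)]

theorem KerA_orth {z : R3} (hz : z ≠ 0) (v K : R3) : ⟪nz z, radK z v K⟫ = 0 := by
  show ⟪nz z, _ • (_ • (nz z - relVel v) - (1 - ⟪relVel v, nz z⟫) • accK v K)⟫ = 0
  rw [inner_smul_right, inner_sub_right, inner_smul_right, inner_smul_right, inner_sub_right,
    real_inner_self_eq_norm_sq, norm_nz hz, real_inner_comm (nz z) (relVel v)]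
  ring

theorem norm_kS_le : ∃ C : ℝ, 0 ≤ C ∧ ∀ e W z v K : R3, ‖e‖ = 1 → ‖W‖ ≤ 1 → z ≠ 0 →
    ‖kS 1 W z v K‖ ≤ C * (√(qq W z) * ‖radK z v K‖ / ‖z‖) ∧
    ‖proj e (kS 1 W z v K)‖ ≤ C * (√(qq W z) * (√(qq W z) + √(qq e z)) * ‖radK z v K‖ / ‖z‖) := by
  refine ⟨4, by norm_num, fun e W z v K he hW hz => ?_⟩
  have hn := norm_nz hz
  have hr := norm_pos_iff.2 hz
  have hw : 0 ≤ qq W z := ang_nonneg hW hn.le
  have h1 : kS 1 W z v K = ‖z‖⁻¹ • (qq W z • radK z v K + ⟪W, radK z v K⟫ • nz z) := by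
    show _ • ((1 - ⟪nz z, W⟫) • radK z v K + _) = _ • ((1 - ⟪W, nz z⟫) • radK z v K + _)
    rw [real_inner_comm W (nz z)]
  have h2 : |⟪W, radK z v K⟫| ≤ 2 * √(qq W z) * ‖radK z v K‖ := by
    have h3 := abs_real_inner_le_norm (nz z - W) (radK z v K)
    rw [inner_sub_left, KerA_orth hz, zero_sub, abs_neg] at h3
    exact h3.trans (mul_le_mul_of_nonneg_right (KerA_sub hn hW) (norm_nonneg _))
  have h3 : √(qq W z) ≤ 2 := KerA_sqrt hn hW
  have h4 := KerA_two (abs_of_nonneg hw).le h2 (le_refl ‖radK z v K‖) hn.le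
  have h5 := KerA_two (abs_of_nonneg hw).le h2 (norm_proj_le he (radK z v K))
    (show _ ≤ 2 * √(qq e z) from KerA_proj_unit he hn)
  have h6 := Real.mul_self_sqrt hw
  have h7 := Real.sqrt_nonneg (qq W z)
  have h8 := mul_nonneg h7 (norm_nonneg (radK z v K))
  rw [h1, KerA_proj_smul, KerA_proj_add, KerA_proj_smul, KerA_proj_smul, norm_smul, norm_smul,
    Real.norm_of_nonneg (by positivity), ← mul_div_assoc, ← mul_div_assoc, ← div_eq_inv_mul,
    ← div_eq_inv_mul]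
  generalize √(qq W z) = b at *
  rw [← h6] at h4 h5 ⊢
  refine ⟨div_le_div_of_nonneg_right (h4.trans ?_) hr.le,
    div_le_div_of_nonneg_right (h5.trans ?_) hr.le⟩
  · nlinarith [mul_nonneg h8 (sub_nonneg.2 h3)]
  · nlinarith [mul_nonneg h8 h7]

theorem KerA_force {n u E B : R3} {s : ℝ} (hn : ‖n‖ = 1) (hu : ‖u‖ ≤ 1) (hE : |⟪E, n⟫| ≤ s)
    (hB : |⟪B, n⟫| ≤ s) (hg : ‖E - ⟪E, n⟫ • n + cross3 n B‖ ≤ s) :
    |⟪u, E + cross3 u B⟫| ≤ 2 * s + ‖n - u‖ * ‖B‖ ∧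
      ‖E + cross3 u B - ⟪u, E + cross3 u B⟫ • u‖ ≤ 6 * s + 3 * ang u n * ‖B‖ := by
  obtain ⟨L, hL⟩ := exists_crossL
  set g := E - ⟪E, n⟫ • n + cross3 n B with hgd
  set o := cross3 n B with ho
  have hs : 0 ≤ s := (abs_nonneg _).trans hE
  have hp := ang_nonneg hu hn.le
  have hα2 : ‖n - u‖ ≤ 2 := (norm_sub_le _ _).trans (by linarith)
  have hα := norm_sub_sq_le_ang hu hn.le
  rw [norm_sub_rev] at hα
  have hoB : ‖o‖ ≤ ‖B‖ := (norm_cross3_le _ _).trans_eq (by rw [hn, one_mul])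
  have h1 : |⟪u, g⟫ + ⟪E, n⟫ * ⟪u, n⟫| ≤ 2 * s := by
    have a1 := (abs_real_inner_le_norm u g).trans (mul_le_mul hu hg (norm_nonneg _) zero_le_one)
    have a2 := (abs_real_inner_le_norm u n).trans (mul_le_mul hu hn.le (norm_nonneg _) zero_le_one)
    refine (abs_add_le _ _).trans ?_
    rw [abs_mul]
    nlinarith [mul_le_mul hE a2 (abs_nonneg _) hs]
  have h2 : |⟪n - u, o⟫| ≤ ‖n - u‖ * ‖B‖ :=
    (abs_real_inner_le_norm _ _).trans (mul_le_mul_of_nonneg_left hoB (norm_nonneg _))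
  have h3 : ⟪u, E + cross3 u B⟫ = ⟪u, g⟫ + ⟪E, n⟫ * ⟪u, n⟫ + ⟪n - u, o⟫ := by
    rw [inner_add_right, inner_cross3_left, inner_sub_left, ho, inner_cross3_left, hgd,
      inner_add_right, inner_sub_right, inner_smul_right]
    ring
  have h4 : B = ⟪B, n⟫ • n - cross3 n o := by
    rw [ho, cross3_cross3, real_inner_self_eq_norm_sq, hn, real_inner_comm B n]
    module
  have h5 : cross3 (n - u) B = ⟪B, n⟫ • cross3 (n - u) n - (⟪n - u, o⟫ • n - ang u n • o) := by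
    have a1 : ang u n = ⟪n - u, n⟫ := by
      rw [inner_sub_left, real_inner_self_eq_norm_sq, hn, one_pow]
      rfl
    rw [a1, ← cross3_cross3, ← hL, ← hL, ← hL (n - u), ← map_smul, ← map_sub, ← h4]
  have h6 : cross3 u B = o - cross3 (n - u) B := by
    rw [ho, ← hL, ← hL, ← hL, map_sub, sub_apply, sub_sub_cancel]
  refine ⟨h3 ▸ (abs_add_le _ _).trans (add_le_add h1 h2), ?_⟩
  have h7 : E + cross3 u B - ⟪u, E + cross3 u B⟫ • u =
      ((1 : ℝ) • g + ⟪E, n⟫ • n) + ((-⟪B, n⟫) • cross3 (n - u) n + (-ang u n) • o) +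
        (⟪n - u, o⟫ • (n - u) + (-(⟪u, g⟫ + ⟪E, n⟫ * ⟪u, n⟫)) • u) := by
    rw [h3, h6, h5]
    generalize ⟪u, g⟫ = c
    rw [hgd]
    module
  have h8 : ‖cross3 (n - u) n‖ ≤ 2 := (norm_cross3_le _ _).trans (by rw [hn, mul_one]; exact hα2)
  rw [h7]
  refine (norm_add₃_le.trans (add_le_add (add_le_add (KerA_two abs_one.le hE hg hn.le)
    (KerA_two ((abs_neg _).trans_le hB) ((abs_neg _).trans (abs_of_nonneg hp)).le h8 hoB))
    (KerA_two h2 ((abs_neg _).trans_le h1) le_rfl hu))).trans ?_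
  nlinarith [mul_le_mul_of_nonneg_right hα (norm_nonneg B)]

/-- null structure of the radiation term -/
theorem norm_radK_le : ∃ C : ℝ, 0 ≤ C ∧ ∀ E B z v : R3, z ≠ 0 →
    ‖radK z v (lor E B v)‖ ≤ C * ((√(Tf E B 1 0 1 (nz z)) / pp z v + ‖B‖) / en v) := by
  refine ⟨52, by norm_num, fun E B z v hz => ?_⟩
  have hn := norm_nz hz
  have hu := (norm_relVel_lt_one v).le
  have hp := pp_pos z v
  have hQ := en_pos v
  have hc := Tf_cone E B hn
  have hc0 : 0 ≤ Tf E B 1 0 1 (nz z) := by rw [hc]; positivity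
  have key : ∀ x : ℝ, x ^ 2 ≤ 2 * Tf E B 1 0 1 (nz z) → |x| ≤ 2 * √(Tf E B 1 0 1 (nz z)) :=
    fun x hx => abs_le_of_sq_le_sq' (by rw [mul_pow, Real.sq_sqrt hc0]; linarith) (by positivity)
      |> abs_le.2
  have a1 := sq_nonneg ⟪E, nz z⟫
  have a2 := sq_nonneg ⟪B, nz z⟫
  have a3 := sq_nonneg ‖E - ⟪E, nz z⟫ • nz z + cross3 (nz z) B‖
  obtain ⟨h1, h2⟩ := KerA_force (E := E) (B := B) hn hu (key _ (by linarith)) (key _ (by linarith))
    ((le_abs_self _).trans (key _ (by linarith)))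
  have hs := Real.sqrt_nonneg (Tf E B 1 0 1 (nz z))
  generalize √(Tf E B 1 0 1 (nz z)) = s at h1 h2 hs ⊢
  change |⟪relVel v, lor E B v⟫| ≤ _ at h1
  change ‖lor E B v - ⟪relVel v, lor E B v⟫ • relVel v‖ ≤ _ + 3 * pp z v * _ at h2
  generalize lor E B v = K at h1 h2 ⊢
  have hα2 : ‖nz z - relVel v‖ ≤ 2 := (norm_sub_le _ _).trans (by linarith)
  have hα : ‖relVel v - nz z‖ ^ 2 ≤ 2 * pp z v := norm_sub_sq_le_ang hu hn.le
  rw [norm_sub_rev] at hα
  have hQp : (en v ^ 2)⁻¹ ≤ 2 * pp z v := by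
    have : (2 * en v ^ 2)⁻¹ ≤ pp z v := inv_en_sq_le_ang v _ hn.le
    rw [mul_inv] at this
    linarith
  have h3 : ‖accK v K‖ ≤ (en v)⁻¹ * (12 * s + 3 * pp z v * ‖B‖) := by
    refine (norm_smul _ _).trans_le ?_
    rw [Real.norm_of_nonneg (by positivity)]
    exact mul_le_mul_of_nonneg_left (by linarith) (by positivity)
  have h4 : ⟪nz z, accK v K⟫ =
      ⟪nz z - relVel v, accK v K⟫ + (en v)⁻¹ * ((en v ^ 2)⁻¹ * ⟪relVel v, K⟫) := by
    have : ⟪relVel v, accK v K⟫ = (en v)⁻¹ * ((en v ^ 2)⁻¹ * ⟪relVel v, K⟫) := by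
      refine (inner_smul_right _ _ _).trans ?_
      rw [inner_sub_right, inner_smul_right, real_inner_self_eq_norm_sq, norm_relVel_sq]
      ring
    rw [inner_sub_left, this, sub_add_cancel]
  have h5 : |⟪nz z, accK v K⟫| ≤ ‖nz z - relVel v‖ * ‖accK v K‖ +
      (en v)⁻¹ * (2 * pp z v * (4 * s + ‖nz z - relVel v‖ * ‖B‖)) := by
    rw [h4]
    refine (abs_add_le _ _).trans (add_le_add (abs_real_inner_le_norm _ _) ?_)
    rw [abs_mul, abs_mul, abs_of_nonneg (by positivity), abs_of_nonneg (by positivity)]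
    exact mul_le_mul_of_nonneg_left (mul_le_mul hQp (by linarith) (abs_nonneg _) (by positivity))
      (by positivity)
  have h6 := KerA_two h5 ((abs_neg _).trans (abs_of_pos hp)).le (le_refl ‖nz z - relVel v‖)
    (le_refl ‖accK v K‖)
  rw [neg_smul, ← sub_eq_add_neg] at h6
  refine (norm_smul _ _).trans_le ?_
  rw [Real.norm_of_nonneg (by positivity), inv_mul_le_iff₀ (by positivity)]
  refine h6.trans ?_
  have h7 : pp z v ^ 2 * (52 * ((s / pp z v + ‖B‖) / en v)) =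
      (en v)⁻¹ * pp z v * (52 * s + 52 * pp z v * ‖B‖) := by field_simp
  rw [h7]
  have h8 := mul_pos (inv_pos.2 hQ) hp
  have hA := norm_nonneg (nz z - relVel v)
  have hb := norm_nonneg B
  generalize ‖nz z - relVel v‖ = A at *
  nlinarith [mul_le_mul_of_nonneg_right hα (norm_nonneg (accK v K)),
    mul_le_mul_of_nonneg_left h3 hp.le, mul_le_mul_of_nonneg_left hα (mul_nonneg h8.le hb),
    mul_le_mul_of_nonneg_left hα2 (mul_nonneg h8.le hs), mul_nonneg (mul_nonneg h8.le hp.le) hb]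

theorem norm_psi_le : ∃ C : ℝ, 0 ≤ C ∧ ∀ e z v : R3, ‖e‖ = 1 → z ≠ 0 → 0 < qq e z →
    ‖pp z v • psi e z v‖ ≤ C * kP e z v ∧ ‖proj e (pp z v • psi e z v)‖ ≤ C * kPp e z v := by
  refine ⟨12, by norm_num, fun e z v he hz hq => ?_⟩
  have hn := norm_nz hz
  have hu := (norm_relVel_lt_one v).le
  have hp := pp_pos z v
  have hr := norm_pos_iff.2 hz
  have h1 : pp z v • psi e z v = (‖z‖ * qq e z)⁻¹ • ((-⟪nz z - relVel v, nz z - e⟫) • nz z +
      (qq e z • (nz z - relVel v) + pp z v • (nz z - e))) := by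
    rw [KerA_inner hn]
    refine (smul_smul _ _ _).trans ?_
    congr 1
    · field_simp
    · show gg e v • nz z - qq e z • relVel v - pp z v • e =
        (-(pp z v + qq e z - gg e v)) • nz z + _
      module
  have h2 : |-⟪nz z - relVel v, nz z - e⟫| ≤ 4 * (√(pp z v) * √(qq e z)) :=
    (abs_neg _).trans_le (KerA_abs hn hu he.le)
  have h3 : ‖qq e z • (nz z - relVel v) + pp z v • (nz z - e)‖ ≤
      qq e z * (2 * √(pp z v)) + pp z v * (2 * √(qq e z)) :=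
    KerA_two (abs_of_pos hq).le (abs_of_pos hp).le (KerA_sub hn hu) (KerA_sub hn he.le)
  have h4 := KerA_two h2 abs_one.le hn.le h3
  have h5 := KerA_two h2 abs_one.le (show _ ≤ 2 * √(qq e z) from KerA_proj_unit he hn)
    ((norm_proj_le he _).trans h3)
  have h6 : √(pp z v) ≤ 2 := KerA_sqrt hn hu
  have h7 : √(qq e z) ≤ 2 := KerA_sqrt hn he.le
  rw [one_smul] at h4 h5
  rw [h1, KerA_proj_smul, KerA_proj_add, KerA_proj_smul, norm_smul, norm_smul,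
    Real.norm_of_nonneg (by positivity)]
  refine ⟨(mul_le_mul_of_nonneg_left h4 (by positivity)).trans ?_,
    (mul_le_mul_of_nonneg_left h5 (by positivity)).trans ?_⟩
  all_goals
    first
      | show _ ≤ 12 * (√(pp z v) / (‖z‖ * √(qq e z)))
      | show _ ≤ 12 * (√(pp z v) * (√(pp z v) + √(qq e z)) / (‖z‖ * √(qq e z)))
    obtain ⟨a, ha, e1⟩ : ∃ a, 0 < a ∧ pp z v = a ^ 2 :=
      ⟨_, Real.sqrt_pos.2 hp, (Real.sq_sqrt hp.le).symm⟩
    obtain ⟨b, hb, e2⟩ : ∃ b, 0 < b ∧ qq e z = b ^ 2 :=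
      ⟨_, Real.sqrt_pos.2 hq, (Real.sq_sqrt hq.le).symm⟩
    rw [e1, Real.sqrt_sq ha.le] at h6
    rw [e2, Real.sqrt_sq hb.le] at h7
    rw [e1, e2, Real.sqrt_sq ha.le, Real.sqrt_sq hb.le]
    field_simp
    nlinarith

end Crest.Agent.R106
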