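import Crest.Agent.R106.KerA

/-!
# Row 106: derivative of the potential
-/

set_option autoImplicit false
set_option linter.unusedVariables false
set_option linter.unusedSectionVars false

open MeasureTheory Metric Set Filter Topology
open scoped ContDiff ENNReal RealInnerProductSpace
open Crest.AnalysisR.VecCalc3 Crest.AnalysisR.PDE.RVM

noncomputable section

namespace Crest.Agent.R106

/-- `Ψ̃` as a function of `(e,z,v)` -/
def psiU (a : R3 × R3 × R3) : R3 := psi a.1 a.2.1 a.2.2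

theorem contDiffAt_psiU {e z v : R3} (hz : z ≠ 0) (hq : qq e z ≠ 0) :
    ContDiffAt ℝ ∞ psiU (e, z, v) := by
  have h1 : ContDiffAt ℝ ∞ (fun a : R3 × R3 × R3 => ‖a.2.1‖) (e, z, v) :=
    contDiffAt_snd.fst.norm ℝ hz
  have h2 : ContDiffAt ℝ ∞ (fun a : R3 × R3 × R3 => nz a.2.1) (e, z, v) :=
    (contDiffAt_nz hz).comp (f := fun a : R3 × R3 × R3 => a.2.1) (e, z, v) contDiffAt_snd.fst
  have h3 : ContDiffAt ℝ ∞ (fun a : R3 × R3 × R3 => relVel a.2.2) (e, z, v) :=
    (contDiff_relVel.comp contDiff_snd.snd).contDiffAt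
  have hp : ContDiffAt ℝ ∞ (fun a : R3 × R3 × R3 => pp a.2.1 a.2.2) (e, z, v) :=
    contDiffAt_const.sub (h3.inner ℝ h2)
  have hq' : ContDiffAt ℝ ∞ (fun a : R3 × R3 × R3 => qq a.1 a.2.1) (e, z, v) :=
    contDiffAt_const.sub (contDiffAt_fst.inner ℝ h2)
  have hg : ContDiffAt ℝ ∞ (fun a : R3 × R3 × R3 => gg a.1 a.2.2) (e, z, v) :=
    contDiffAt_const.sub (h3.inner ℝ contDiffAt_fst)
  exact (((h1.mul hp).mul hq').inv (mul_ne_zero (mul_ne_zero (norm_ne_zero_iff.2 hz)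
    (pp_pos z v).ne') hq)).smul (((hg.smul h2).sub (hq'.smul h3)).sub (hp.smul contDiffAt_fst))

theorem KerB0_line {X F : Type*} [NormedAddCommGroup X] [NormedSpace ℝ X] [NormedAddCommGroup F]
    [NormedSpace ℝ F] {f : X → F} {x : X} (d : X) (h : DifferentiableAt ℝ f x) :
    HasDerivAt (fun t : ℝ => f (x + t • d)) (fderiv ℝ f x d) 0 :=
  h.hasFDerivAt.hasLineDerivAt d

theorem KerB0_smul {z : R3} (hz : z ≠ 0) (c : ℝ) : c • z = (c * ‖z‖) • nz z := by
  rw [nz, smul_smul, mul_inv_cancel_right₀ (norm_ne_zero_iff.2 hz)]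

theorem KerB0_inner {z : R3} (hz : z ≠ 0) (a : R3) : ⟪a, z⟫ = ‖z‖ * ⟪a, nz z⟫ := by
  rw [nz, real_inner_smul_right, mul_inv_cancel_left₀ (norm_ne_zero_iff.2 hz)]

theorem KerB0_p (z v : R3) : ⟪relVel v, nz z⟫ = 1 - pp z v := by simp [pp, ang]

theorem KerB0_q (e z : R3) : ⟪e, nz z⟫ = 1 - qq e z := by simp [qq, ang]

theorem KerB0_g (e v : R3) : ⟪relVel v, e⟫ = 1 - gg e v := by simp [gg, ang]

/-- the derivative of `Ψ̃ = γ z/(λ̄ ρ̂) - v̂/ρ̂ - e/λ̄`, `ρ̂ = r p`, `λ̄ = r q` -/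
theorem fderiv_psiU {e z : R3} (hz : z ≠ 0) (hq : qq e z ≠ 0) (v ed u K : R3) :
    fderiv ℝ psiU (e, z, v) (ed, u, K) =
      ((-⟪accK v K, e⟫ - ⟪relVel v, ed⟫) / (lam e z * (‖z‖ * pp z v)) -
          gg e v * ((⟪u, nz z - e⟫ - ⟪ed, z⟫) / lam e z +
            (⟪u, nz z - relVel v⟫ - ⟪accK v K, z⟫) / (‖z‖ * pp z v)) /
            (lam e z * (‖z‖ * pp z v))) • z +
        (gg e v / (lam e z * (‖z‖ * pp z v))) • u - (‖z‖ * pp z v)⁻¹ • accK v K +
        ((⟪u, nz z - relVel v⟫ - ⟪accK v K, z⟫) / (‖z‖ * pp z v) ^ 2) • relVel v -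
        (lam e z)⁻¹ • ed + ((⟪u, nz z - e⟫ - ⟪ed, z⟫) / lam e z ^ 2) • e := by
  have hr := norm_ne_zero_iff.2 hz
  have hp := (pp_pos z v).ne'
  have h0 := KerB0_line (ed, u, K) ((contDiffAt_psiU hz hq (v := v)).differentiableAt (by simp))
  have h1 := KerB0_line u ((contDiffAt_norm ℝ hz (n := 1)).differentiableAt (by simp))
  have h2 := KerB0_line u ((contDiffAt_nz hz).differentiableAt (by simp))
  have h3 := KerB0_line K (contDiff_relVel.differentiable (by simp) v)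
  have h4 := KerB0_line (x := e) ed differentiableAt_id
  rw [fderiv_norm' hz] at h1
  rw [fderiv_nz hz] at h2
  rw [fderiv_relVel] at h3
  have dp : HasDerivAt (fun t : ℝ => pp (z + t • u) (v + t • K)) _ 0 := (h3.inner ℝ h2).const_sub 1
  have dq : HasDerivAt (fun t : ℝ => qq (e + t • ed) (z + t • u)) _ 0 := (h4.inner ℝ h2).const_sub 1
  have dg : HasDerivAt (fun t : ℝ => gg (e + t • ed) (v + t • K)) _ 0 := (h3.inner ℝ h4).const_sub 1
  rw [h0.unique ((((h1.fun_mul dp).fun_mul dq).fun_inv (by simpa using ⟨⟨hz, hp⟩, hq⟩)).fun_smul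
    (((dg.fun_smul h2).fun_sub (dq.fun_smul h3)).fun_sub (dp.fun_smul h4)))]
  simp only [zero_smul, add_zero, fderiv_id, ContinuousLinearMap.id_apply, id, inner_sub_right,
    real_inner_smul_right, lam_eq e hz, KerB0_inner hz ed, KerB0_inner hz (accK v K),
    KerB0_smul hz, KerB0_p z v, KerB0_q e z, real_inner_comm u]
  match_scalars <;> field_simp <;> ring

/-- for a null test direction the force is an exact derivative -/
theorem psi_null {e z : R3} (he : ‖e‖ = 1) (hz : z ≠ 0) (hq : 0 < qq e z) (v K : R3) :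
    fderiv ℝ psiU (e, z, v) (0, pp z v • e - qq e z • relVel v, qq e z • K) =
      kT 1 e z v + kS 1 e z v K := by
  have hr := norm_ne_zero_iff.2 hz
  have hp := (pp_pos z v).ne'
  have hE := (en_pos v).ne'
  have h1 : accK v (qq e z • K) = qq e z • accK v K := by
    simp only [accK, real_inner_smul_right]
    module
  rw [fderiv_psiU hz hq.ne', h1, KerB0_smul hz]
  simp only [kT, kS, radK, inner_sub_right, inner_sub_left, real_inner_smul_right,
    real_inner_smul_left, lam_eq e hz, KerB0_inner hz (accK v K), inner_zero_left,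
    inner_zero_right, real_inner_self_eq_norm_sq, he, norm_relVel_sq, real_inner_comm e (nz z),
    real_inner_comm (relVel v), real_inner_comm (accK v K), KerB0_p z v, KerB0_q e z, KerB0_g e v]
  match_scalars <;> field_simp <;> ring

theorem psi_dir : ∃ C : ℝ, 0 ≤ C ∧ ∀ e ed z v : R3, ‖e‖ = 1 → ⟪e, ed⟫ = 0 → z ≠ 0 →
    0 < qq e z → ‖fderiv ℝ psiU (e, z, v) (pp z v • ed, 0, 0)‖ ≤ C * (‖ed‖ * kA e z v) := by
  refine ⟨12, by norm_num, fun e ed z v he hed hz hq => ?_⟩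
  have hr := norm_pos_iff.2 hz
  have hp := pp_pos z v
  have h1 : fderiv ℝ psiU (e, z, v) (pp z v • ed, 0, 0) = (‖z‖ * qq e z)⁻¹ •
      (⟪nz z - relVel v, ed⟫ • nz z -
        (⟪nz z - e, ed⟫ * ⟪nz z - relVel v, nz z - e⟫ / qq e z) • nz z +
        (pp z v * ⟪nz z - e, ed⟫ / qq e z) • (nz z - e) - pp z v • ed) := by
    rw [fderiv_psiU hz hq.ne', KerB0_smul hz]
    simp only [accK, inner_sub_right, inner_sub_left, real_inner_smul_right, smul_zero, zero_smul,
      real_inner_smul_left, lam_eq e hz, KerB0_inner hz ed, inner_zero_left, sub_zero, hed,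
      inner_zero_right, real_inner_self_eq_norm_sq, norm_nz hz, real_inner_comm e (nz z),
      real_inner_comm ed (nz z), KerB0_p z v, KerB0_q e z, KerB0_g e v]
    match_scalars <;> field_simp <;> ring
  have hn := norm_nz hz
  have hw := (norm_relVel_lt_one v).le
  have s1 := Real.sq_sqrt hp.le
  have s0 := Real.sqrt_nonneg (pp z v)
  have p2 : pp z v ≤ 2 * √(pp z v) := by nlinarith [show pp z v ≤ 2 from ang_le_two hw hn.le]
  have a1 : ‖nz z - relVel v‖ ≤ 2 * √(pp z v) := by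
    refine (abs_le_of_sq_le_sq' ?_ (by positivity)).2
    rw [norm_sub_rev]
    linarith [show _ ≤ 2 * pp z v from norm_sub_sq_le_ang hw hn.le]
  have b1 : ‖nz z - e‖ * ‖nz z - e‖ / qq e z ≤ 2 := by
    rw [div_le_iff₀ hq, norm_sub_rev, ← sq]
    exact norm_sub_sq_le_ang he.le hn.le
  have c1 := abs_real_inner_le_norm (nz z - relVel v) ed
  have c2 := abs_real_inner_le_norm (nz z - e) ed
  have c3 := abs_real_inner_le_norm (nz z - relVel v) (nz z - e)
  have d0 := norm_nonneg ed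
  rw [h1, norm_smul, Real.norm_of_nonneg (by positivity), kA, div_eq_mul_inv (√_), ← mul_assoc,
    ← mul_assoc, mul_comm]
  refine mul_le_mul_of_nonneg_right (((norm_sub_le _ _).trans (add_le_add_left
    ((norm_add_le _ _).trans (add_le_add_left (norm_sub_le _ _) _)) _)).trans ?_) (by positivity)
  simp only [norm_smul, hn, mul_one, Real.norm_eq_abs, abs_div, abs_mul, abs_of_pos hq,
    abs_of_pos hp]
  have e1 : |⟪nz z - relVel v, ed⟫| ≤ 2 * √(pp z v) * ‖ed‖ := c1.trans (by gcongr)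
  have e2 : |⟪nz z - e, ed⟫| * |⟪nz z - relVel v, nz z - e⟫| / qq e z ≤
      2 * √(pp z v) * ‖ed‖ * 2 :=
    calc _ ≤ ‖nz z - e‖ * ‖ed‖ * (‖nz z - relVel v‖ * ‖nz z - e‖) / qq e z := by gcongr
      _ = ‖nz z - relVel v‖ * ‖ed‖ * (‖nz z - e‖ * ‖nz z - e‖ / qq e z) := by ring
      _ ≤ _ := by gcongr
  have e3 : pp z v * |⟪nz z - e, ed⟫| / qq e z * ‖nz z - e‖ ≤ 2 * √(pp z v) * ‖ed‖ * 2 :=
    calc _ ≤ pp z v * (‖nz z - e‖ * ‖ed‖) / qq e z * ‖nz z - e‖ := by gcongr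
      _ = pp z v * ‖ed‖ * (‖nz z - e‖ * ‖nz z - e‖ / qq e z) := by ring
      _ ≤ _ := by gcongr
  have e4 := mul_le_mul_of_nonneg_right p2 d0
  linarith

end Crest.Agent.R106
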