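import Crest.Agent.R106.KerB0

/-!
# Row 106: the cut-offs
-/

set_option autoImplicit false
set_option linter.unusedVariables false
set_option linter.unusedSectionVars false

open MeasureTheory Metric Set Filter Topology
open scoped ContDiff ENNReal RealInnerProductSpace
open Crest.AnalysisR.VecCalc3 Crest.AnalysisR.PDE.RVM

noncomputable section

namespace Crest.Agent.R106

theorem KerC0_deriv_const {g : ℝ → ℝ} {x c : ℝ} (h : ∀ᶠ y in 𝓝 x, g y = c) : deriv g x = 0 := by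
  have h' : g =ᶠ[𝓝 x] fun _ => c := h
  rw [h'.deriv_eq, deriv_const]

theorem KerC0_sT : ∃ c : ℝ, 0 ≤ c ∧ ∀ y, |deriv Real.smoothTransition y| ≤ c ∧
    |(2 - y) * deriv Real.smoothTransition y| ≤ c := by
  have hc : Continuous (deriv Real.smoothTransition) :=
    (Real.smoothTransition.contDiff (n := 1)).continuous_deriv le_rfl
  have hs : HasCompactSupport (deriv Real.smoothTransition) := by
    refine HasCompactSupport.intro (isCompact_Icc (a := (0 : ℝ)) (b := 1)) fun y hy => ?_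
    rcases not_and_or.1 hy with h | h
    · exact KerC0_deriv_const ((eventually_lt_nhds (not_le.1 h)).mono fun x hx =>
        Real.smoothTransition.zero_of_nonpos hx.le)
    · exact KerC0_deriv_const ((eventually_gt_nhds (not_le.1 h)).mono fun x hx =>
        Real.smoothTransition.one_of_one_le hx.le)
  obtain ⟨c₁, h₁⟩ := hc.bounded_above_of_compact_support hs
  obtain ⟨c₂, h₂⟩ := ((continuous_const.sub continuous_id).mul hc).bounded_above_of_compact_support
    (hs.mul_left (f := fun y : ℝ => 2 - y))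
  exact ⟨max c₁ c₂, (norm_nonneg _).trans ((h₁ 0).trans (le_max_left _ _)), fun y =>
    ⟨(h₁ y).trans (le_max_left _ _), (h₂ y).trans (le_max_right _ _)⟩⟩

theorem exists_cut : ∃ Cc : ℝ, 0 ≤ Cc ∧ ∀ P r₂ : ℝ, 1 < P → 0 < r₂ →
    ∃ χ₀ χ₁ : ℝ → ℝ, Cut P r₂ Cc χ₀ χ₁ := by
  obtain ⟨c, hc0, hc⟩ := KerC0_sT
  refine ⟨100 * c, by positivity, fun P r₂ hP hr => ?_⟩
  have hP0 : 0 < P := by linarith
  have hN : 0 < Real.log P := Real.log_pos hP
  have hsT : ∀ y, HasDerivAt Real.smoothTransition (deriv Real.smoothTransition y) y := fun y =>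
    (((Real.smoothTransition.contDiff (n := 1)).differentiable (by simp)) y).hasDerivAt
  set χ₀ : ℝ → ℝ := fun x =>
    if x ≤ 0 then 0 else Real.smoothTransition (100 * Real.log x / Real.log P + 2) with hχ₀
  have hz : ∀ x, x ≤ P ^ (-(1 / 50 : ℝ)) → χ₀ x = 0 := fun x hx => by
    simp only [hχ₀]
    split_ifs with h0
    · rfl
    · refine Real.smoothTransition.zero_of_nonpos ?_
      have h1 := Real.log_le_log (not_le.1 h0) hx
      rw [Real.log_rpow hP0] at h1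
      have h2 : 100 * Real.log x / Real.log P ≤ -2 := by
        rw [div_le_iff₀ hN]; linarith
      linarith
  have hloc0 : ∀ x, x ≤ 0 → ∀ᶠ y in 𝓝 x, χ₀ y = 0 := fun x hx =>
    (eventually_lt_nhds (hx.trans_lt (Real.rpow_pos_of_pos hP0 _))).mono fun y hy => hz y hy.le
  have hloc1 : ∀ x, 0 < x → χ₀ =ᶠ[𝓝 x] fun x =>
      Real.smoothTransition (100 * Real.log x / Real.log P + 2) := fun x hx =>
    (eventually_gt_nhds hx).mono fun y hy => if_neg (not_le.2 hy)
  refine ⟨χ₀, fun r => Real.smoothTransition (2 - r / r₂), ?_, ?_, fun x => ?_, fun x => ?_, hz,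
    fun x hx => ?_, fun x => ?_, fun r h => ?_, fun r h => ?_, fun r => ?_⟩
  · refine contDiff_iff_contDiffAt.2 fun x => ?_
    rcases le_or_gt x 0 with h | h
    · exact contDiffAt_const.congr_of_eventuallyEq (hloc0 x h)
    · refine ContDiffAt.congr_of_eventuallyEq ?_ (hloc1 x h)
      exact Real.smoothTransition.contDiffAt.comp x
        (((contDiffAt_const.mul (Real.contDiffAt_log.2 h.ne')).div_const _).add contDiffAt_const)
  · exact Real.smoothTransition.contDiff.comp (contDiff_const.sub (contDiff_id.div_const _))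
  · simp only [hχ₀]
    split_ifs
    · exact ⟨le_rfl, zero_le_one⟩
    · exact ⟨Real.smoothTransition.nonneg _, Real.smoothTransition.le_one _⟩
  · exact ⟨Real.smoothTransition.nonneg _, Real.smoothTransition.le_one _⟩
  · have h0 : 0 < x := (Real.rpow_pos_of_pos hP0 _).trans_le hx
    simp only [hχ₀]
    rw [if_neg (not_le.2 h0)]
    refine Real.smoothTransition.one_of_one_le ?_
    have h1 := Real.log_le_log (Real.rpow_pos_of_pos hP0 _) hx
    rw [Real.log_rpow hP0] at h1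
    have h2 : -1 ≤ 100 * Real.log x / Real.log P := by
      rw [le_div_iff₀ hN]; linarith
    linarith
  · rcases le_or_gt x 0 with h | h
    · rw [KerC0_deriv_const (hloc0 x h), mul_zero, abs_zero]
      positivity
    · have h1 := (hsT _).comp x
        ((((Real.hasDerivAt_log h.ne').const_mul 100).div_const (Real.log P)).add_const 2)
      have h2 : deriv χ₀ x = _ := (hloc1 x h).deriv_eq.trans h1.deriv
      have h3 : x * deriv χ₀ x = 100 * deriv Real.smoothTransition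
          (100 * Real.log x / Real.log P + 2) / Real.log P := by
        rw [h2]; field_simp
      rw [h3, abs_div, abs_mul, abs_of_pos hN, abs_of_pos (by norm_num : (0 : ℝ) < 100)]
      gcongr
      exact (hc _).1
  · refine Real.smoothTransition.one_of_one_le ?_
    have := (div_le_one hr).2 h
    linarith
  · refine Real.smoothTransition.zero_of_nonpos ?_
    have := (le_div_iff₀ hr).2 h
    linarith
  · have h1 := (hsT _).comp r (((hasDerivAt_id r).div_const r₂).const_sub 2)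
    have h2 : deriv (fun r => Real.smoothTransition (2 - r / r₂)) r = _ := h1.deriv
    have h3 : r * deriv (fun r => Real.smoothTransition (2 - r / r₂)) r =
        -((2 - (2 - r / r₂)) * deriv Real.smoothTransition (2 - r / r₂)) := by
      rw [h2]; simp only [id]; ring
    rw [h3, abs_neg]
    exact (hc _).2.trans (by linarith)

theorem KerC0_xb_le (P : ℝ) (e z : R3) : |xb P e z| ≤ |P| * (1 + ‖e‖) * √‖z‖ := by
  rcases eq_or_ne z 0 with rfl | hz
  · simp [xb]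
  have hr : 0 < ‖z‖ := norm_pos_iff.2 hz
  have hs : 0 < √‖z‖ := Real.sqrt_pos.2 hr
  have h1 : |lam e z| ≤ (1 + ‖e‖) * ‖z‖ := by
    have h2 := abs_real_inner_le_norm e z
    have h3 : |lam e z| ≤ |‖z‖| + |⟪e, z⟫| := abs_sub _ _
    rw [abs_norm] at h3
    linarith
  rw [xb, abs_div, abs_mul, abs_of_pos hs, div_le_iff₀ hs, mul_assoc, mul_assoc,
    Real.mul_self_sqrt hr.le]
  exact mul_le_mul_of_nonneg_left h1 (abs_nonneg _)

theorem KerC0_contDiffAt_xb (P : ℝ) {a : R3 × R3} (ha : a.2 ≠ 0) :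
    ContDiffAt ℝ ∞ (fun a : R3 × R3 => xb P a.1 a.2) a := by
  have h1 : ContDiffAt ℝ ∞ (fun a : R3 × R3 => ‖a.2‖) a := contDiffAt_snd.norm ℝ ha
  exact (contDiffAt_const.mul (h1.sub (contDiffAt_fst.inner ℝ contDiffAt_snd))).div
    (h1.sqrt (norm_ne_zero_iff.2 ha)) (Real.sqrt_pos.2 (norm_pos_iff.2 ha)).ne'

theorem KerC0_continuous_xb (P : ℝ) : Continuous fun a : R3 × R3 => xb P a.1 a.2 := by
  refine continuous_iff_continuousAt.2 fun a => ?_
  by_cases ha : a.2 = 0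
  · have h1 : Continuous fun a : R3 × R3 => |P| * (1 + ‖a.1‖) * √‖a.2‖ := by fun_prop
    have h2 := h1.tendsto a
    have h3 : xb P a.1 a.2 = 0 := by simp [xb, ha]
    rw [ha, norm_zero, Real.sqrt_zero, mul_zero] at h2
    rw [ContinuousAt, h3]
    exact squeeze_zero_norm (fun b => KerC0_xb_le P b.1 b.2) h2
  · exact (KerC0_contDiffAt_xb P ha).continuousAt

theorem KerC0_chi_zero {P r₂ Cc : ℝ} {χ₀ χ₁ : ℝ → ℝ} (h : Cut P r₂ Cc χ₀ χ₁) {e z : R3}
    (hz : z ∉ RI P r₂ e) : ∀ᶠ a : R3 × R3 in 𝓝 (e, z), chi P χ₀ χ₁ a.1 a.2 = 0 := by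
  rcases not_and_or.1 hz with h1 | h1
  · filter_upwards [((KerC0_continuous_xb P).tendsto (e, z)).eventually
      (eventually_lt_nhds (not_le.1 h1))] with a ha
    rw [chi, h.z₀ _ ha.le, zero_mul]
  · filter_upwards [((continuous_snd (X := R3) (Y := R3)).norm.tendsto (e, z)).eventually
      (eventually_gt_nhds (not_le.1 h1))] with a ha
    rw [chi, h.z₁ _ ha.le, mul_zero]

section
variable {P r₂ Cc : ℝ} {χ₀ χ₁ : ℝ → ℝ}

theorem Cut.contDiff_chi (h : Cut P r₂ Cc χ₀ χ₁) (hP : 0 < P) :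
    ContDiff ℝ ∞ fun a : R3 × R3 => chi P χ₀ χ₁ a.1 a.2 := by
  refine contDiff_iff_contDiffAt.2 fun a => ?_
  by_cases ha : a.2 ∈ RI P r₂ a.1
  · have h0 := RI_ne_zero hP ha
    exact (h.s₀.contDiffAt.comp a (KerC0_contDiffAt_xb P h0)).mul
      (h.s₁.contDiffAt.comp a (contDiffAt_snd.norm ℝ h0))
  · exact contDiffAt_const.congr_of_eventuallyEq (KerC0_chi_zero h ha)

theorem Cut.contDiff_Gk (h : Cut P r₂ Cc χ₀ χ₁) (hP : 0 < P) : ContDiff ℝ ∞ (Gk P χ₀ χ₁) := by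
  refine contDiff_iff_contDiffAt.2 fun a => ?_
  have hπ : ContDiff ℝ ∞ fun a : R3 × R3 × R3 => (a.1, a.2.1) := by fun_prop
  by_cases ha : a.2.1 ∈ RI P r₂ a.1
  · have h0 := RI_ne_zero hP ha
    have h1 : 0 < qq a.1 a.2.1 := lt_of_lt_of_le
      (div_pos (Real.rpow_pos_of_pos hP _) (Real.sqrt_pos.2 (norm_pos_iff.2 h0))) (RI_qq hP ha)
    exact ((h.contDiff_chi hP).comp hπ).contDiffAt.smul (contDiffAt_psiU h0 h1.ne')
  · refine (contDiffAt_const (c := (0 : R3))).congr_of_eventuallyEq ?_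
    filter_upwards [(hπ.continuous.tendsto a).eventually (KerC0_chi_zero h ha)] with b hb
    rw [Gk, hb, zero_smul]

/-- `G` vanishes near the vertex, locally uniformly in `e` -/
theorem Cut.Gk_near (h : Cut P r₂ Cc χ₀ χ₁) (hP : 0 < P) (R : ℝ) : ∃ σ : ℝ, 0 < σ ∧
    ∀ e z v : R3, ‖e‖ ≤ R → ‖z‖ ≤ σ → Gk P χ₀ χ₁ (e, z, v) = 0 := by
  have h0 : 0 < P ^ (-(1 / 50 : ℝ)) := Real.rpow_pos_of_pos hP _
  have h1 : 0 < P * (1 + |R|) := by positivity
  refine ⟨(P ^ (-(1 / 50 : ℝ)) / (P * (1 + |R|))) ^ 2, by positivity, fun e z v he hz => ?_⟩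
  have h2 : √‖z‖ ≤ P ^ (-(1 / 50 : ℝ)) / (P * (1 + |R|)) :=
    Real.sqrt_le_iff.2 ⟨by positivity, hz⟩
  have h3 : xb P e z ≤ P ^ (-(1 / 50 : ℝ)) := by
    refine (le_abs_self _).trans ((KerC0_xb_le P e z).trans ?_)
    rw [abs_of_pos hP]
    calc P * (1 + ‖e‖) * √‖z‖ ≤ P * (1 + |R|) * (P ^ (-(1 / 50 : ℝ)) / (P * (1 + |R|))) := by
          gcongr
          exact he.trans (le_abs_self R)
      _ = _ := by field_simp
  simp only [Gk, chi, h.z₀ _ h3, zero_mul, zero_smul]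

theorem Cut.Gk_far (h : Cut P r₂ Cc χ₀ χ₁) (e z v : R3) (hz : 2 * r₂ ≤ ‖z‖) :
    Gk P χ₀ χ₁ (e, z, v) = 0 := by
  simp [Gk, chi, h.z₁ _ hz]

theorem Cut.chi_zero (h : Cut P r₂ Cc χ₀ χ₁) {e z : R3} (hz : z ∉ RI P r₂ e) :
    ∀ᶠ a : R3 × R3 in 𝓝 (e, z), chi P χ₀ χ₁ a.1 a.2 = 0 := KerC0_chi_zero h hz

theorem KerC0_line (e E : R3) : HasDerivAt (fun s : ℝ => e + s • E) E 0 := by
  simpa using ((hasDerivAt_id (0 : ℝ)).smul_const E).const_add e

theorem KerC0_dnorm {z : R3} (hz : z ≠ 0) (u : R3) :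
    HasDerivAt (fun s : ℝ => ‖z + s • u‖) ⟪nz z, u⟫ 0 := by
  have h1 : DifferentiableAt ℝ (fun z : R3 => ‖z‖) z :=
    (contDiffAt_norm ℝ (n := 1) hz).differentiableAt (by simp)
  rw [← fderiv_norm' hz]
  exact h1.hasFDerivAt.comp_hasDerivAt_of_eq (0 : ℝ) (KerC0_line z u) (by simp)

theorem KerC0_dquot {l r : ℝ → ℝ} {l' r' : ℝ} (P : ℝ) (hl : HasDerivAt l l' 0)
    (hr : HasDerivAt r r' 0) (h0 : 0 < r 0) (hl0 : l 0 ≠ 0) :
    HasDerivAt (fun s => P * l s / √(r s)) (P * l 0 / √(r 0) * (l' / l 0 - r' / (2 * r 0))) 0 := by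
  have hs : 0 < √(r 0) := Real.sqrt_pos.2 h0
  have h1 := (hl.const_mul P).div (hr.sqrt h0.ne') hs.ne'
  refine h1.congr_deriv ?_
  have h3 : r 0 = √(r 0) ^ 2 := (Real.sq_sqrt h0.le).symm
  generalize √(r 0) = σ at hs h3 ⊢
  rw [h3]
  field_simp

theorem KerC0_dxb (P : ℝ) {e z : R3} (hz : z ≠ 0) (hl : lam e z ≠ 0) (E u : R3) :
    HasDerivAt (fun s : ℝ => xb P (e + s • E) (z + s • u))
      (xb P e z * ((⟪nz z, u⟫ - (⟪e, u⟫ + ⟪E, z⟫)) / lam e z - ⟪nz z, u⟫ / (2 * ‖z‖))) 0 := by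
  have hi : HasDerivAt (fun s : ℝ => ⟪e + s • E, z + s • u⟫) (⟪e, u⟫ + ⟪E, z⟫) 0 := by
    simpa using (KerC0_line e E).inner ℝ (KerC0_line z u)
  have h1 : HasDerivAt (fun s : ℝ => lam (e + s • E) (z + s • u))
      (⟪nz z, u⟫ - (⟪e, u⟫ + ⟪E, z⟫)) 0 := (KerC0_dnorm hz u).sub hi
  have h2 := KerC0_dquot P h1 (KerC0_dnorm hz u) (by simpa using hz) (by simpa using hl)
  simp only [zero_smul, add_zero] at h2
  exact h2

/-- the derivative of the cut-off -/
theorem KerC0_fderiv (h : Cut P r₂ Cc χ₀ χ₁) (hP : 0 < P) {e z : R3} (hz : z ≠ 0)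
    (hl : lam e z ≠ 0) (E u : R3) :
    fderiv ℝ (fun a : R3 × R3 => chi P χ₀ χ₁ a.1 a.2) (e, z) (E, u) =
      xb P e z * deriv χ₀ (xb P e z) *
          ((⟪nz z, u⟫ - (⟪e, u⟫ + ⟪E, z⟫)) / lam e z - ⟪nz z, u⟫ / (2 * ‖z‖)) * χ₁ ‖z‖ +
        χ₀ (xb P e z) * (‖z‖ * deriv χ₁ ‖z‖ * (⟪nz z, u⟫ / ‖z‖)) := by
  have hr : 0 < ‖z‖ := norm_pos_iff.2 hz
  have h0 : DifferentiableAt ℝ (fun a : R3 × R3 => chi P χ₀ χ₁ a.1 a.2) (e, z) :=
    (h.contDiff_chi hP).differentiable (by simp) (e, z)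
  have h1 : HasDerivAt ((fun a : R3 × R3 => chi P χ₀ χ₁ a.1 a.2) ∘
      fun s : ℝ => (e + s • E, z + s • u))
      (fderiv ℝ (fun a : R3 × R3 => chi P χ₀ χ₁ a.1 a.2) (e, z) (E, u)) 0 :=
    h0.hasFDerivAt.comp_hasDerivAt_of_eq (0 : ℝ) ((KerC0_line e E).prodMk (KerC0_line z u))
      (by simp)
  have d0 : HasDerivAt χ₀ (deriv χ₀ (xb P e z)) (xb P e z) :=
    (h.s₀.differentiable (by simp) _).hasDerivAt
  have d1 : HasDerivAt χ₁ (deriv χ₁ ‖z‖) ‖z‖ := (h.s₁.differentiable (by simp) _).hasDerivAt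
  have h2 : HasDerivAt (fun s : ℝ => χ₀ (xb P (e + s • E) (z + s • u))) _ 0 :=
    d0.comp_of_eq (0 : ℝ) (KerC0_dxb P hz hl E u) (by simp)
  have h3 : HasDerivAt (fun s : ℝ => χ₁ ‖z + s • u‖) _ 0 :=
    d1.comp_of_eq (0 : ℝ) (KerC0_dnorm hz u) (by simp)
  have h4 := h1.unique (h2.fun_mul h3)
  rw [h4]
  simp only [zero_smul, add_zero]
  field_simp

end

/-- derivative of the cut-off along the particle motion -/
theorem chi_deriv (Cc : ℝ) : ∃ C P₀ : ℝ, 0 ≤ C ∧ ∀ P, P₀ ≤ P → ∀ (r₂ t δ : ℝ) (χ₀ χ₁ : ℝ → ℝ)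
    (e ed W z v : R3), 0 < r₂ → r₂ ≤ 1 / 4 → 2 * r₂ < t → Cut P r₂ Cc χ₀ χ₁ → Geo P δ e W →
    ⟪e, ed⟫ = 0 → z ≠ 0 →
    |fderiv ℝ (fun a : R3 × R3 => chi P χ₀ χ₁ a.1 a.2) (e, z)
        (pp z v • ed, pp z v • W - qq W z • relVel v)| ≤
      C * ((RI P r₂ e).indicator (fun z => pp z v * ‖ed‖ / √(qq e z)) z +
        (RI P r₂ e ∩ RD P r₂ e).indicator
          (fun z => (pp z v + qq e z) / (‖z‖ * Real.log P)) z +
        (RI P r₂ e ∩ RF r₂ t).indicator (fun z => (pp z v + qq e z) / ‖z‖) z) := by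
  obtain ⟨P₁, hP₁⟩ := exists_delta_small
  refine ⟨6 * |Cc|, max P₁ 3, by positivity,
    fun P hP r₂ t δ χ₀ χ₁ e ed W z v hr₂ hr₂' ht h hG hed hz => ?_⟩
  have hP3 : 3 ≤ P := (le_max_right _ _).trans hP
  have hP0 : 0 < P := by linarith
  have hN : 1 ≤ Real.log P := by
    rw [Real.le_log_iff_exp_le hP0]
    exact Real.exp_one_lt_d9.le.trans (by linarith)
  by_cases hI : z ∈ RI P r₂ e
  swap
  · have h0 : (fun a : R3 × R3 => chi P χ₀ χ₁ a.1 a.2) =ᶠ[𝓝 (e, z)] fun _ => 0 := h.chi_zero hI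
    rw [h0.fderiv_eq, indicator_of_notMem hI, indicator_of_notMem fun h' => hI h'.1,
      indicator_of_notMem fun h' => hI h'.1]
    simp
  have hCc : 0 ≤ Cc := (abs_nonneg _).trans (h.d₁ 0)
  rw [abs_of_nonneg hCc]
  have hr : 0 < ‖z‖ := norm_pos_iff.2 hz
  have hn1 : ‖nz z‖ = 1 := norm_nz hz
  have hv1 : ‖relVel v‖ ≤ 1 := (norm_relVel_lt_one v).le
  have hp : 0 < pp z v := pp_pos z v
  -- size of the angles
  have hq1 : P ^ (-(51 / 50 : ℝ)) ≤ qq e z := by
    refine le_trans ?_ (RI_qq hP0 hI)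
    refine le_div_self (Real.rpow_nonneg hP0.le _) (Real.sqrt_pos.2 hr) ?_
    exact Real.sqrt_le_one.2 (by linarith [hI.2])
  have hq : 0 < qq e z := (Real.rpow_pos_of_pos hP0 _).trans_le hq1
  have hδ : 64 * δ ^ 2 ≤ qq e z :=
    (hP₁ P ((le_max_left _ _).trans hP) δ e W hG).trans
      ((Real.rpow_le_rpow_of_exponent_le (by linarith) (by norm_num)).trans hq1)
  obtain ⟨hw1, hw2⟩ := hG.qq_cmp hz hδ
  have hw0 : 0 ≤ qq W z := by linarith
  have hμ0 : 0 ≤ ang e W := ang_nonneg hG.e1.le hG.W1.le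
  have hμ1 : ang e W ≤ qq e z := hG.mu.trans (by nlinarith [sq_nonneg δ])
  have hγ0 : 0 ≤ gg e v := ang_nonneg hv1 hG.e1.le
  have hγ1 : gg e v ≤ 2 * pp z v + 2 * qq e z := gg_le hG.e1 hz
  have hl : lam e z = ‖z‖ * qq e z := lam_eq e hz
  -- the derivatives of `r` and `λ̄`
  have hDr : ⟪nz z, pp z v • W - qq W z • relVel v⟫ = pp z v - qq W z := by
    rw [inner_sub_right, real_inner_smul_right, real_inner_smul_right,
      real_inner_comm W, real_inner_comm (relVel v)]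
    simp only [pp, qq, ang]
    ring
  have hDe : ⟪e, pp z v • W - qq W z • relVel v⟫ =
      pp z v * (1 - ang e W) - qq W z * (1 - gg e v) := by
    rw [inner_sub_right, real_inner_smul_right, real_inner_smul_right, real_inner_comm (relVel v)]
    simp only [gg, ang]
    ring
  have hEz : ⟪pp z v • ed, z⟫ = pp z v * (‖z‖ * ⟪ed, nz z - e⟫) := by
    rw [real_inner_smul_left, inner_sub_right, real_inner_comm e ed, hed, nz,
      real_inner_smul_right]
    field_simp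
    ring
  have hβ : |⟪ed, nz z - e⟫| ≤ ‖ed‖ * (2 * √(qq e z)) := by
    refine (abs_real_inner_le_norm _ _).trans (mul_le_mul_of_nonneg_left ?_ (norm_nonneg _))
    have h1 : ‖e - nz z‖ ^ 2 ≤ 2 * qq e z := norm_sub_sq_le_ang hG.e1.le hn1.le
    rw [norm_sub_rev]
    refine abs_le_of_sq_le_sq' ?_ (by positivity) |>.2
    rw [mul_pow, Real.sq_sqrt hq.le]
    linarith
  rw [KerC0_fderiv h hP0 hz (by rw [hl]; positivity), hDr, hDe, hEz, hl, indicator_of_mem hI]
  have hsq : 0 < √(qq e z) := Real.sqrt_pos.2 hq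
  have hA : |(pp z v - qq W z - (pp z v * (1 - ang e W) - qq W z * (1 - gg e v) +
        pp z v * (‖z‖ * ⟪ed, nz z - e⟫))) / (‖z‖ * qq e z) - (pp z v - qq W z) / (2 * ‖z‖)| ≤
      2 * (pp z v * ‖ed‖ / √(qq e z)) + 6 * ((pp z v + qq e z) / ‖z‖) := by
    have e1 : (pp z v - qq W z - (pp z v * (1 - ang e W) - qq W z * (1 - gg e v) +
        pp z v * (‖z‖ * ⟪ed, nz z - e⟫))) / (‖z‖ * qq e z) - (pp z v - qq W z) / (2 * ‖z‖) =
        -(pp z v * ⟪ed, nz z - e⟫ / qq e z) + ((pp z v * (ang e W / qq e z) -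
          qq W z / qq e z * gg e v) - (pp z v - qq W z) / 2) / ‖z‖ := by
      field_simp
      ring
    rw [e1]
    refine (abs_add_le _ _).trans (add_le_add ?_ ?_)
    · rw [abs_neg, abs_div, abs_mul, abs_of_pos hp, abs_of_pos hq]
      calc pp z v * |⟪ed, nz z - e⟫| / qq e z
          ≤ pp z v * (‖ed‖ * (2 * √(qq e z))) / qq e z := by gcongr
        _ = 2 * (pp z v * ‖ed‖ / √(qq e z)) := by
          have h3 : qq e z = √(qq e z) ^ 2 := (Real.sq_sqrt hq.le).symm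
          generalize √(qq e z) = σ at hsq h3 ⊢
          rw [h3]
          field_simp
    · rw [abs_div, abs_of_pos hr, ← mul_div_assoc 6]
      refine div_le_div_of_nonneg_right ?_ hr.le
      have a0 : 0 ≤ ang e W / qq e z := by positivity
      have a1 : ang e W / qq e z ≤ 1 := (div_le_one hq).2 hμ1
      have b0 : 0 ≤ qq W z / qq e z := by positivity
      have b1 : qq W z / qq e z ≤ 2 := (div_le_iff₀ hq).2 hw2
      have c0 : 0 ≤ pp z v * (ang e W / qq e z) := by positivity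
      have c1 : pp z v * (ang e W / qq e z) ≤ pp z v := mul_le_of_le_one_right hp.le a1
      have d0 : 0 ≤ qq W z / qq e z * gg e v := by positivity
      have d1 : qq W z / qq e z * gg e v ≤ 2 * (2 * pp z v + 2 * qq e z) :=
        mul_le_mul b1 hγ1 hγ0 (by norm_num)
      rw [abs_le]
      constructor <;> linarith
  have hT1 : 0 ≤ pp z v * ‖ed‖ / √(qq e z) := by positivity
  have hT2 : 0 ≤ (pp z v + qq e z) / ‖z‖ := by positivity
  have hT3 : 0 ≤ (pp z v + qq e z) / (‖z‖ * Real.log P) := by positivity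
  refine (abs_add_le _ _).trans ?_
  rw [mul_add]
  refine add_le_add ?_ ?_
  · by_cases hD : z ∈ RD P r₂ e
    · rw [indicator_of_mem (show z ∈ RI P r₂ e ∩ RD P r₂ e from ⟨hI, hD⟩), abs_mul, abs_mul,
        abs_of_nonneg (h.r₁ _).1]
      refine (mul_le_of_le_one_right (by positivity) (h.r₁ _).2).trans ?_
      refine (mul_le_mul (h.d₀ _) hA (abs_nonneg _) (by positivity)).trans ?_
      have h1 : Cc / Real.log P ≤ Cc := div_le_self hCc hN
      have h2 : Cc / Real.log P * (6 * ((pp z v + qq e z) / ‖z‖)) =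
          6 * Cc * ((pp z v + qq e z) / (‖z‖ * Real.log P)) := by
        field_simp
      have h3 : Cc / Real.log P * (2 * (pp z v * ‖ed‖ / √(qq e z))) ≤
          6 * Cc * (pp z v * ‖ed‖ / √(qq e z)) := by nlinarith [mul_nonneg hCc hT1]
      rw [mul_add, mul_add, h2]
      linarith
    · have h1 : P ^ (-(1 / 100 : ℝ)) < xb P e z := not_le.1 fun h' => hD ⟨h', hI.2⟩
      rw [KerC0_deriv_const ((eventually_gt_nhds h1).mono fun y hy => h.o₀ y hy.le),
        indicator_of_notMem fun h' => hD h'.2]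
      simp only [mul_zero, zero_mul, abs_zero, add_zero]
      positivity
  · by_cases hF : z ∈ RF r₂ t
    · rw [indicator_of_mem (show z ∈ RI P r₂ e ∩ RF r₂ t from ⟨hI, hF⟩), abs_mul, abs_mul,
        abs_of_nonneg (h.r₀ _).1]
      refine (mul_le_of_le_one_left (by positivity) (h.r₀ _).2).trans ?_
      have h1 : |(pp z v - qq W z) / ‖z‖| ≤ 6 * ((pp z v + qq e z) / ‖z‖) := by
        rw [abs_div, abs_of_pos hr, ← mul_div_assoc]
        gcongr
        rw [abs_le]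
        constructor <;> linarith
      refine (mul_le_mul (h.d₁ _) h1 (abs_nonneg _) hCc).trans (le_of_eq ?_)
      ring
    · have h1 : ‖z‖ < r₂ := not_le.1 fun h' => hF ⟨h', hI.2.trans_lt ht⟩
      rw [KerC0_deriv_const ((eventually_lt_nhds h1).mono fun y hy => h.o₁ y hy.le),
        indicator_of_notMem fun h' => hF h'.2]
      simp

end Crest.Agent.R106
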