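import Crest.Agent.R106.Energy

/-!
# Row 106: the fields are continuous in `L²`
-/

set_option autoImplicit false
set_option linter.unusedVariables false
set_option linter.unusedSectionVars false

open MeasureTheory Metric Set Filter Topology
open scoped ContDiff ENNReal RealInnerProductSpace
open Crest.AnalysisR.VecCalc3 Crest.AnalysisR.PDE.RVM

noncomputable section

namespace Crest.Agent.R106

/-- uniformly small tails give continuity in `L²` -/
theorem L2_abs {U : ST → R3} (hU : Continuous U) {I : Set ℝ}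
    (tail : ∀ ε : ℝ, 0 < ε → ∃ R : ℝ, ∀ s ∈ I, ∃ r : R3 → ℝ, Integrable r ∧ (∀ y, 0 ≤ r y) ∧
      ∫ y, r y ≤ ε ∧ ∀ y, R < ‖y‖ → ‖U (s, y)‖ ^ 2 ≤ r y) {t : ℝ} (ht : t ∈ I) :
    MemLp (fun x => U (t, x)) 2 ∧
    Tendsto (fun s => eLpNorm ((fun x => U (s, x)) - fun x => U (t, x)) 2 volume)
      (𝓝[I] t) (𝓝 0) := by
  have hc : ∀ s, Continuous fun x => U (s, x) := fun s => hU.comp (Continuous.prodMk_right s)
  have hm : ∀ s ∈ I, MemLp (fun x => U (s, x)) 2 := by
    intro s hs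
    obtain ⟨R, hR⟩ := tail 1 one_pos
    obtain ⟨r, hr, hr0, -, hr1⟩ := hR s hs
    rw [memLp_two_iff_integrable_sq_norm (hc s).aestronglyMeasurable]
    have h1 : Integrable ((closedBall (0 : R3) R).indicator fun x => ‖U (s, x)‖ ^ 2) :=
      (integrable_indicator_iff measurableSet_closedBall).2
        (((hc s).norm.pow 2).continuousOn.integrableOn_compact (isCompact_closedBall _ _))
    refine (h1.add hr).mono' ((hc s).norm.pow 2).aestronglyMeasurable
      (Eventually.of_forall fun y => ?_)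
    rw [Real.norm_eq_abs, abs_of_nonneg (sq_nonneg _), Pi.add_apply]
    by_cases hy : y ∈ closedBall (0 : R3) R
    · rw [indicator_of_mem hy]; linarith [hr0 y]
    · rw [indicator_of_notMem hy, zero_add]
      exact hr1 y (by simpa using hy)
  refine ⟨hm t ht, ?_⟩
  have key : Tendsto (fun s => ∫ y, ‖U (s, y) - U (t, y)‖ ^ 2) (𝓝[I] t) (𝓝 0) := by
    rw [Metric.tendsto_nhds]
    intro ε hε
    obtain ⟨R, hR⟩ := tail (ε / 8) (by positivity)
    obtain ⟨r, hr, hr0, hr1, hr2⟩ := hR t ht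
    have hcont : Continuous fun s => ∫ y in closedBall (0 : R3) R, ‖U (s, y) - U (t, y)‖ ^ 2 :=
      continuous_parametric_integral_of_continuous
        (f := fun s y => ‖U (s, y) - U (t, y)‖ ^ 2)
        (show Continuous fun p : ℝ × R3 => ‖U (p.1, p.2) - U (t, p.2)‖ ^ 2 by fun_prop)
        (isCompact_closedBall _ _)
    have h1 : ∀ᶠ s in 𝓝 t, ∫ y in closedBall (0 : R3) R, ‖U (s, y) - U (t, y)‖ ^ 2 < ε / 2 :=
      hcont.continuousAt.eventually_lt continuousAt_const (by simpa using hε)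
    filter_upwards [nhdsWithin_le_nhds h1, self_mem_nhdsWithin] with s hs hsI
    obtain ⟨r', hr', hr0', hr1', hr2'⟩ := hR s hsI
    have h2 : Integrable ((closedBall (0 : R3) R).indicator fun y => ‖U (s, y) - U (t, y)‖ ^ 2) :=
      (integrable_indicator_iff measurableSet_closedBall).2
        ((((hc s).sub (hc t)).norm.pow 2).continuousOn.integrableOn_compact
          (isCompact_closedBall _ _))
    have h3 : ∫ y, ‖U (s, y) - U (t, y)‖ ^ 2 ≤ ∫ y, (closedBall (0 : R3) R).indicator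
        (fun y => ‖U (s, y) - U (t, y)‖ ^ 2) y + (2 * r' y + 2 * r y) := by
      refine integral_mono_of_nonneg (Eventually.of_forall fun y => sq_nonneg _)
        (h2.add ((hr'.const_mul 2).add (hr.const_mul 2))) (Eventually.of_forall fun y => ?_)
      by_cases hy : y ∈ closedBall (0 : R3) R
      · simp only [indicator_of_mem hy]
        linarith [hr0 y, hr0' y]
      · simp only [indicator_of_notMem hy, zero_add]
        have hy' : R < ‖y‖ := by simpa using hy
        have h4 := pow_le_pow_left₀ (norm_nonneg _) (norm_sub_le (U (s, y)) (U (t, y))) 2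
        nlinarith [hr2 y hy', hr2' y hy', sq_nonneg (‖U (s, y)‖ - ‖U (t, y)‖)]
    have h5 : Integrable fun y => 2 * r' y + 2 * r y := (hr'.const_mul 2).add (hr.const_mul 2)
    rw [integral_add h2 h5,
      integral_add (hr'.const_mul 2) (hr.const_mul 2), integral_const_mul, integral_const_mul,
      integral_indicator measurableSet_closedBall] at h3
    rw [Real.dist_eq, sub_zero, abs_of_nonneg (integral_nonneg fun y => sq_nonneg _)]
    linarith
  have h2 := ENNReal.tendsto_ofReal (key.rpow_const (p := (2 : ℝ)⁻¹) (Or.inr (by norm_num)))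
  rw [Real.zero_rpow (by norm_num), ENNReal.ofReal_zero] at h2
  refine h2.congr' ?_
  filter_upwards [self_mem_nhdsWithin] with s hs
  rw [((hm s hs).sub (hm t ht)).eLpNorm_eq_integral_rpow_norm two_ne_zero ENNReal.ofNat_ne_top]
  simp

theorem L2_w_smooth (ρ : ℝ) :
    ContDiff ℝ 1 fun p : ST => Real.smoothTransition (ρ + p.1 - en p.2) :=
  (Real.smoothTransition.contDiff (n := 1)).comp ((contDiff_const.add contDiff_fst).sub
    ((contDiff_en.of_le (by exact_mod_cast le_top)).comp contDiff_snd))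

theorem L2_w_zero {ρ s : ℝ} {y : R3} (h : ρ + s ≤ ‖y‖) :
    Real.smoothTransition (ρ + s - en y) = 0 :=
  Real.smoothTransition.zero_of_nonpos (by linarith [norm_le_en y])

theorem L2_w_causal (ρ s : ℝ) (y : R3) :
    ‖-(gradient (fun y => Real.smoothTransition (ρ + s - en y)) y)‖ ≤
      fderiv ℝ (fun p : ST => Real.smoothTransition (ρ + p.1 - en p.2)) (s, y) (1, 0) := by
  have hd : HasDerivAt Real.smoothTransition (deriv Real.smoothTransition (ρ + s - en y))
      (ρ + s - en y) :=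
    ((Real.smoothTransition.contDiff (n := 1)).differentiable (by simp) _).hasDerivAt
  have hc : 0 ≤ deriv Real.smoothTransition (ρ + s - en y) :=
    Real.smoothTransition.monotone.deriv_nonneg
  have h1 := hd.comp_hasFDerivAt y ((CalcA_hasFDerivAt_en y).const_sub (ρ + s))
  have h4 := HasFDerivAt.comp (g := en) (f := fun p : ST => p.2) (s, y) (CalcA_hasFDerivAt_en y)
    hasFDerivAt_snd
  have h2 := hd.comp_hasFDerivAt (f := fun p : ST => ρ + p.1 - en p.2) (s, y)
    ((hasFDerivAt_fst.const_add ρ).sub h4)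
  have e1 : fderiv ℝ (fun y => Real.smoothTransition (ρ + s - en y)) y = _ := h1.fderiv
  have e2 : fderiv ℝ (fun p : ST => Real.smoothTransition (ρ + p.1 - en p.2)) (s, y) = _ :=
    h2.fderiv
  rw [norm_neg, gradient, LinearIsometryEquiv.norm_map, e1, e2, norm_smul, norm_neg,
    innerSL_apply_norm, Real.norm_eq_abs, abs_of_nonneg hc]
  have h3 := mul_le_of_le_one_right hc (norm_relVel_lt_one y).le
  simpa using h3

theorem L2_mono {T : ℝ} {f : PS → ℝ} {E B : ST → R3} (h : Sol T f E B)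
    (h0 : ∀ p : PS, p.1 ∈ Icc 0 T → 0 ≤ f p) (ρ : ℝ) {s : ℝ} (hs : s ∈ Icc 0 T) :
    ∫ y, Real.smoothTransition (ρ + 0 - en y) * TT f E B (0, y) 1 0 1 0 ≤
      ∫ y, Real.smoothTransition (ρ + s - en y) * TT f E B (s, y) 1 0 1 0 := by
  have h1 := h.energy_id (L2_w_smooth ρ) ⟨ρ + (T + 1), fun p hp hp' =>
    L2_w_zero (by linarith [le_abs_self p.1])⟩ hs
  refine le_of_le_of_eq (le_add_of_nonneg_right ?_) h1.symm
  refine intervalIntegral.integral_nonneg hs.1 fun u hu => integral_nonneg fun y => ?_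
  exact TT_nonneg (fun v => h0 _ ⟨hu.1, hu.2.trans hs.2⟩) (by simp) (L2_w_causal ρ u y)

theorem L2_tail {T : ℝ} {f : PS → ℝ} {E B : ST → R3} (h : Sol T f E B) (hT : 0 ≤ T)
    (h0 : ∀ p : PS, p.1 ∈ Icc 0 T → 0 ≤ f p) (hE : MemLp (fun x => E (0, x)) 2)
    (hB : MemLp (fun x => B (0, x)) 2) (ε : ℝ) (hε : 0 < ε) :
    ∃ R : ℝ, ∀ s ∈ Icc 0 T, ∃ r : R3 → ℝ, Integrable r ∧ (∀ y, 0 ≤ r y) ∧
      ∫ y, r y ≤ ε ∧ ∀ y, R < ‖y‖ → ‖E (s, y)‖ ^ 2 + ‖B (s, y)‖ ^ 2 ≤ r y := by
  have hz : (0 : ℝ) ∈ Icc 0 T := ⟨le_rfl, hT⟩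
  have hc : ∀ s : ℝ, Continuous fun y => TT f E B (s, y) 1 0 1 0 := fun s =>
    (contDiff_TT h.step.sf h.step.vf h.step.sE h.step.sB).continuous.comp
      (f := fun y : R3 => (((s, y), ((1 : ℝ), (0 : R3)), ((1 : ℝ), (0 : R3))) :
        ST × (ℝ × R3) × (ℝ × R3))) (by fun_prop)
  have hn : ∀ s ∈ Icc 0 T, ∀ y, 0 ≤ TT f E B (s, y) 1 0 1 0 := fun s hs y =>
    TT_nonneg (fun v => h0 _ hs) (by simp) (by simp)
  obtain ⟨𝓔, h𝓔, hb⟩ := energy_fin (h.dat hz) hE hB
  have hi0 := ((hb f E B ⟨fun _ => rfl, fun _ => rfl, fun _ => rfl⟩).integrable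
    (hc 0).aemeasurable (Eventually.of_forall (hn 0 hz)) h𝓔).1
  have hi : ∀ s ∈ Icc 0 T, Integrable (fun y => TT f E B (s, y) 1 0 1 0) ∧
      ∫ y, TT f E B (s, y) 1 0 1 0 ≤ ∫ y, TT f E B (0, y) 1 0 1 0 := fun s hs =>
    (h.slice_energy h0 (Bd.of_integrable hi0 (Eventually.of_forall (hn 0 hz)) le_rfl) s
      hs).integrable (hc s).aemeasurable (Eventually.of_forall (hn s hs))
      (integral_nonneg (hn 0 hz))
  have hw : ∀ ρ s : ℝ, Continuous fun y : R3 => Real.smoothTransition (ρ + s - en y) := fun ρ s =>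
    Real.smoothTransition.continuous.comp (continuous_const.sub contDiff_en.continuous)
  have hle : ∀ s ∈ Icc 0 T, ∀ (ρ : ℝ) (y : R3),
      ‖Real.smoothTransition (ρ + s - en y) * TT f E B (s, y) 1 0 1 0‖ ≤
        TT f E B (s, y) 1 0 1 0 := fun s hs ρ y => by
    rw [Real.norm_eq_abs, abs_of_nonneg (mul_nonneg (Real.smoothTransition.nonneg _) (hn s hs y))]
    exact mul_le_of_le_one_left (hn s hs y) (Real.smoothTransition.le_one _)
  have hlim : Tendsto (fun ρ : ℝ => ∫ y, Real.smoothTransition (ρ + 0 - en y) *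
      TT f E B (0, y) 1 0 1 0) atTop (𝓝 (∫ y, TT f E B (0, y) 1 0 1 0)) := by
    refine tendsto_integral_filter_of_dominated_convergence _
      (Eventually.of_forall fun ρ => ((hw ρ 0).mul (hc 0)).aestronglyMeasurable)
      (Eventually.of_forall fun ρ => Eventually.of_forall (hle 0 hz ρ)) hi0
      (Eventually.of_forall fun y => tendsto_const_nhds.congr' ?_)
    filter_upwards [eventually_ge_atTop (1 + en y)] with ρ hρ
    rw [Real.smoothTransition.one_of_one_le (by linarith), one_mul]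
  obtain ⟨ρ, hρ⟩ := (hlim.eventually (lt_mem_nhds
    (show (∫ y, TT f E B (0, y) 1 0 1 0) - ε / 2 < _ by linarith))).exists
  refine ⟨ρ + T, fun s hs => ?_⟩
  have hiw : Integrable fun y => Real.smoothTransition (ρ + s - en y) * TT f E B (s, y) 1 0 1 0 :=
    (hi s hs).1.mono' ((hw ρ s).mul (hc s)).aestronglyMeasurable
      (Eventually.of_forall (hle s hs ρ))
  refine ⟨fun y => 2 * (TT f E B (s, y) 1 0 1 0 -
    Real.smoothTransition (ρ + s - en y) * TT f E B (s, y) 1 0 1 0),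
    ((hi s hs).1.sub hiw).const_mul 2, fun y => ?_, ?_, fun y hy => ?_⟩
  · linarith [(le_abs_self _).trans (hle s hs ρ y)]
  · rw [integral_const_mul, integral_sub (hi s hs).1 hiw]
    linarith [(hi s hs).2, L2_mono h h0 ρ hs]
  · have h1 : 0 ≤ ∫ v, f (s, y, v) * Tw v 1 0 1 0 :=
      integral_nonneg fun v => mul_nonneg (h0 _ hs) (Tw_nonneg v (by simp) (by simp))
    have h2 : TT f E B (s, y) 1 0 1 0 =
        ef (E (s, y)) (B (s, y)) + ∫ v, f (s, y, v) * Tw v 1 0 1 0 := by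
      rw [TT, Tf_time]
    beta_reduce
    rw [L2_w_zero (by linarith [hs.2]), h2, ef]
    linarith

theorem Sol.l2 {T : ℝ} {f : PS → ℝ} {E B : ST → R3} (h : Sol T f E B)
    (h0 : ∀ p : PS, p.1 ∈ Icc 0 T → 0 ≤ f p) (hE : MemLp (fun x => E (0, x)) 2)
    (hB : MemLp (fun x => B (0, x)) 2) {t : ℝ} (ht : t ∈ Icc 0 T) :
    MemLp (fun x => E (t, x)) 2 ∧ MemLp (fun x => B (t, x)) 2 ∧
    Tendsto (fun s => eLpNorm ((fun x => E (s, x)) - fun x => E (t, x)) 2 volume)
      (𝓝[Icc 0 T] t) (𝓝 0) ∧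
    Tendsto (fun s => eLpNorm ((fun x => B (s, x)) - fun x => B (t, x)) 2 volume)
      (𝓝[Icc 0 T] t) (𝓝 0) := by
  have H := L2_tail h (ht.1.trans ht.2) h0 hE hB
  have h1 := L2_abs h.step.sE.continuous (I := Icc 0 T) (fun ε hε => (H ε hε).imp fun R hR s hs =>
    (hR s hs).imp fun r hr => ⟨hr.1, hr.2.1, hr.2.2.1, fun y hy =>
      (le_add_of_nonneg_right (sq_nonneg _)).trans (hr.2.2.2 y hy)⟩) ht
  have h2 := L2_abs h.step.sB.continuous (I := Icc 0 T) (fun ε hε => (H ε hε).imp fun R hR s hs =>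
    (hR s hs).imp fun r hr => ⟨hr.1, hr.2.1, hr.2.2.1, fun y hy =>
      (le_add_of_nonneg_left (sq_nonneg _)).trans (hr.2.2.2 y hy)⟩) ht
  exact ⟨h1.1, h2.1, h1.2, h2.2⟩

end Crest.Agent.R106
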