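import Crest.Agent.R106.Global
import Crest.Agent.R106.L2

/-!
# Row 106: the final statement
-/

set_option autoImplicit false
set_option linter.unusedVariables false
set_option linter.unusedSectionVars false

open MeasureTheory Metric Set Filter Topology
open scoped ContDiff ENNReal RealInnerProductSpace
open Crest.AnalysisR.VecCalc3 Crest.AnalysisR.PDE.RVM

noncomputable section

namespace Crest.Agent.R106

theorem Main_eqs {f f' : ℝ → R3 → R3 → ℝ} {E B E' B' : ℝ → R3 → R3} {t : ℝ} {x : R3}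
    (h : EquationsHoldAt f E B t x) (he : ∀ᶠ s in 𝓝 t, f' s = f s ∧ E' s = E s ∧ B' s = B s) :
    EquationsHoldAt f' E' B' t x := by
  obtain ⟨a, b, c⟩ := he.self_of_nhds
  have h1 : ∀ v, deriv (fun s => f' s x v) t = deriv (fun s => f s x v) t := fun v =>
    EventuallyEq.deriv_eq (he.mono fun s hs => by simp only [hs.1])
  have h2 : ∀ i, deriv (fun s => E' s x i) t = deriv (fun s => E s x i) t := fun i =>
    EventuallyEq.deriv_eq (he.mono fun s hs => by simp only [hs.2.1])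
  have h3 : ∀ i, deriv (fun s => B' s x i) t = deriv (fun s => B s x i) t := fun i =>
    EventuallyEq.deriv_eq (he.mono fun s hs => by simp only [hs.2.2])
  simp only [EquationsHoldAt, currentDensity, chargeDensity] at h ⊢
  simp only [h1, h2, h3, a, b, c]
  exact h

theorem Main_congr {T : ℝ} (hT : 0 < T) {f₀ : R3 → R3 → ℝ} {E₀ B₀ : R3 → R3}
    {f f' : ℝ → R3 → R3 → ℝ} {E B E' B' : ℝ → R3 → R3}
    (h : IsClassicalSolutionOn T f₀ E₀ B₀ f E B)
    (he : ∀ s ∈ Ico 0 T, f' s = f s ∧ E' s = E s ∧ B' s = B s) :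
    IsClassicalSolutionOn T f₀ E₀ B₀ f' E' B' := by
  obtain ⟨h1, h2, h3, h4, h5, h6, h7, h8, h9⟩ := h
  obtain ⟨a, b, c⟩ := he 0 ⟨le_rfl, hT⟩
  refine ⟨h1.congr fun p hp => by rw [(he _ hp.1).1], h2.congr fun p hp => by rw [(he _ hp.1).2.1],
    h3.congr fun p hp => by rw [(he _ hp.1).2.2], a.trans h4, b.trans h5, c.trans h6,
    fun t h0 ht x => Main_eqs (h7 t h0 ht x) ?_, fun T' h0 hT' => (h8 T' h0 hT').imp
      fun R hR t ht x v hx => ?_, fun t ht => ?_⟩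
  · filter_upwards [Ioo_mem_nhds h0 ht] with s hs using he s (Ioo_subset_Ico_self hs)
  · rw [(he t ⟨ht.1, ht.2.trans_lt hT'⟩).1]
    exact hR t ht x v hx
  · obtain ⟨-, b, c⟩ := he t ht
    obtain ⟨k1, k2, k3, k4⟩ := h9 t ht
    rw [b, c]
    exact ⟨k1, k2,
      k3.congr' (eventually_nhdsWithin_of_forall fun s hs => by simp only [(he s hs).2.1]),
      k4.congr' (eventually_nhdsWithin_of_forall fun s hs => by simp only [(he s hs).2.2])⟩

theorem Main_classical {T : ℝ} {f₀ : R3 → R3 → ℝ} {E₀ B₀ : R3 → R3}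
    (h : IsAdmissibleDatum f₀ E₀ B₀) {f : PS → ℝ} {E B : ST → R3} (hs : Sol T f E B)
    (hi : Init f E B (Function.uncurry f₀) E₀ B₀) :
    IsClassicalSolutionOn T f₀ E₀ B₀ (fun t x v => f (t, x, v)) (fun t x => E (t, x))
      (fun t x => B (t, x)) := by
  have hc := hs.cl
  have hE : (fun x => E (0, x)) = E₀ := funext hi.2.1
  have hB : (fun x => B (0, x)) = B₀ := funext hi.2.2
  obtain ⟨C, hC⟩ := h.2.1.continuous.bounded_above_of_compact_support h.2.2.1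
  have h0 : ∀ p : PS, p.1 ∈ Icc 0 T → 0 ≤ f p := fun p hp =>
    (Step.range hs.step (lo := 0) (hi := C) (fun y => by
      rw [hi.1 y]
      exact ⟨h.1 _ _, (le_abs_self _).trans (hC y)⟩) p hp).1
  refine ⟨hc.cf, hc.cE, hc.cB, funext fun x => funext fun v => hi.1 (x, v), hE, hB, hc.eqs,
    hc.supp, fun t ht => ?_⟩
  obtain ⟨k1, k2, k3, k4⟩ := hs.l2 h0 (hE ▸ h.2.2.2.2.2.2.1) (hB ▸ h.2.2.2.2.2.2.2.1)
    (Ico_subset_Icc_self ht)
  exact ⟨k1, k2, k3.mono_left (nhdsWithin_mono _ Ico_subset_Icc_self),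
    k4.mono_left (nhdsWithin_mono _ Ico_subset_Icc_self)⟩

theorem Main_smooth {X F : Type*} [NormedAddCommGroup X] [NormedSpace ℝ X] [NormedAddCommGroup F]
    [NormedSpace ℝ F] {u : ℝ → ℝ × X → F} (hu : ∀ T, ContDiff ℝ ∞ (u T))
    (he : ∀ T, ∀ t ∈ Icc 0 T, ∀ y, u t (t, y) = u T (t, y)) :
    ContDiffOn ℝ ∞ (fun p : ℝ × X => u p.1 p) (Ici 0 ×ˢ univ) := by
  intro p hp
  refine (hu (p.1 + 1)).contDiffAt.contDiffWithinAt.congr_of_eventuallyEq ?_
    (he _ _ ⟨hp.1, by linarith⟩ _)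
  have : ∀ᶠ q : ℝ × X in 𝓝 p, q.1 < p.1 + 1 :=
    continuous_fst.continuousAt.eventually_lt continuousAt_const (by linarith)
  filter_upwards [self_mem_nhdsWithin, mem_nhdsWithin_of_mem_nhds this] with q hq hq'
  exact he _ _ ⟨hq.1, le_of_lt hq'⟩ _

theorem Main_cl {T : ℝ} {f₀ : R3 → R3 → ℝ} {E₀ B₀ : R3 → R3} {f : ℝ → R3 → R3 → ℝ}
    {E B : ℝ → R3 → R3} (h : IsClassicalSolutionOn T f₀ E₀ B₀ f E B) : Cl T f E B :=
  ⟨h.1, h.2.1, h.2.2.1, h.2.2.2.2.2.2.1, h.2.2.2.2.2.2.2.1⟩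

theorem main (f₀ : R3 → R3 → ℝ) (E₀ B₀ : R3 → R3) (h : IsAdmissibleDatum f₀ E₀ B₀) :
    ∃ f : ℝ → R3 → R3 → ℝ, ∃ E B : ℝ → R3 → R3,
      (∀ T : ℝ, 0 < T → IsClassicalSolutionOn T f₀ E₀ B₀ f E B) ∧
      ContDiffOn ℝ ∞ (fun p : ℝ × R3 × R3 => f p.1 p.2.1 p.2.2) (Set.Ici 0 ×ˢ Set.univ) ∧
      ContDiffOn ℝ ∞ (fun p : ℝ × R3 => E p.1 p.2) (Set.Ici 0 ×ˢ Set.univ) ∧
      ContDiffOn ℝ ∞ (fun p : ℝ × R3 => B p.1 p.2) (Set.Ici 0 ×ˢ Set.univ) ∧
      ∀ T : ℝ, 0 < T → ∀ (f' : ℝ → R3 → R3 → ℝ) (E' B' : ℝ → R3 → R3),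
        IsClassicalSolutionOn T f₀ E₀ B₀ f' E' B' →
        ∀ t ∈ Set.Ico 0 T, f' t = f t ∧ E' t = E t ∧ B' t = B t := by
  choose F EE BB hs hi using global_exists (dat_of_admissible h) (fun y => h.1 y.1 y.2)
    h.2.2.2.2.2.2.1 h.2.2.2.2.2.2.2.1
  have hu : ∀ T, ∀ t ∈ Icc 0 T, (∀ y, F t (t, y) = F T (t, y)) ∧ (∀ x, EE t (t, x) = EE T (t, x)) ∧
      ∀ x, BB t (t, x) = BB T (t, x) := fun T t ht =>
    ((hs T).mono ht.2).unique (hs t) (fun y => ((hi t).1 y).trans ((hi T).1 y).symm)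
      (fun y => ((hi t).2.1 y).trans ((hi T).2.1 y).symm)
      (fun y => ((hi t).2.2 y).trans ((hi T).2.2 y).symm) ⟨ht.1, le_rfl⟩
  have hc : ∀ T : ℝ, 0 < T → IsClassicalSolutionOn T f₀ E₀ B₀ (fun t x v => F t (t, x, v))
      (fun t x => EE t (t, x)) (fun t x => BB t (t, x)) := fun T hT =>
    Main_congr hT (Main_classical h (hs T) (hi T)) fun s hs' =>
      have := hu T s (Ico_subset_Icc_self hs')
      ⟨funext fun x => funext fun v => this.1 (x, v), funext this.2.1, funext this.2.2⟩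
  refine ⟨fun t x v => F t (t, x, v), fun t x => EE t (t, x), fun t x => BB t (t, x), hc,
    Main_smooth (fun T => (hs T).step.sf) fun T t ht => (hu T t ht).1,
    Main_smooth (fun T => (hs T).step.sE) fun T t ht => (hu T t ht).2.1,
    Main_smooth (fun T => (hs T).step.sB) fun T t ht => (hu T t ht).2.2,
    fun T hT f' E' B' h' => ?_⟩
  have h1 := hc T hT
  exact (Main_cl h1).unique (Main_cl h') (h'.2.2.2.1.trans h1.2.2.2.1.symm)
    (h'.2.2.2.2.1.trans h1.2.2.2.2.1.symm) (h'.2.2.2.2.2.1.trans h1.2.2.2.2.2.1.symm)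

end Crest.Agent.R106
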