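import Crest.Agent.R106.ConeDer
import Crest.Agent.R106.StressB

/-!
# Row 106: the multiplier identity
-/

set_option autoImplicit false
set_option linter.unusedVariables false
set_option linter.unusedSectionVars false

open MeasureTheory Metric Set Filter Topology
open scoped ContDiff ENNReal RealInnerProductSpace
open Crest.AnalysisR.VecCalc3 Crest.AnalysisR.PDE.RVM

noncomputable section

namespace Crest.Agent.R106

theorem MultId_near {G : ℝ × ℝ → ℝ} {η : ℝ} (hη : 0 < η) (h₁ : ∀ l r, l ≤ η → G (l, r) = 0)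
    (R : ℝ) : ∃ σ : ℝ, 0 < σ ∧ ∀ e z : R3, ‖e‖ ≤ R → ‖z‖ ≤ σ → G (lam e z, ‖z‖) = 0 := by
  have hR : 0 < 1 + |R| := by positivity
  refine ⟨η / (1 + |R|), by positivity, fun e z he hz => h₁ _ _ ?_⟩
  have a1 := (abs_le.1 (abs_real_inner_le_norm e z)).1
  have a2 : ‖e‖ * ‖z‖ ≤ |R| * ‖z‖ :=
    mul_le_mul_of_nonneg_right (he.trans (le_abs_self R)) (norm_nonneg z)
  have a3 := (le_div_iff₀ hR).1 hz
  unfold lam
  linarith

theorem MultId_arg {q : R3 × R3} (hz : q.2 ≠ 0) :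
    ContDiffAt ℝ ∞ (fun q : R3 × R3 => (lam q.1 q.2, ‖q.2‖)) q := by
  have h1 : ContDiffAt ℝ ∞ (fun q : R3 × R3 => ‖q.2‖) q :=
    (contDiffAt_norm ℝ hz).comp q contDiffAt_snd
  exact (h1.sub (contDiffAt_fst.inner ℝ contDiffAt_snd)).prodMk h1

theorem MultId_shell {G : ℝ × ℝ → ℝ} (hG : ContDiff ℝ ∞ G) {η ρ : ℝ} (hη : 0 < η)
    (h₁ : ∀ l r, l ≤ η → G (l, r) = 0) (h₂ : ∀ l r, ρ ≤ r → G (l, r) = 0) :
    Shell ρ fun q : R3 × R3 => G (lam q.1 q.2, ‖q.2‖) := by
  refine ⟨contDiff_iff_contDiffAt.2 fun q => ?_, MultId_near hη h₁, fun e z hz => h₂ _ _ hz⟩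
  by_cases hz : q.2 = 0
  · obtain ⟨σ, hσ, h⟩ := MultId_near hη h₁ (‖q.1‖ + 1)
    refine (contDiffAt_const (c := (0 : ℝ))).congr_of_eventuallyEq ?_
    filter_upwards [(continuous_fst.norm.continuousAt (x := q)).eventually_lt_const (lt_add_one _),
      (continuous_snd.norm.continuousAt (x := q)).eventually_lt_const
        (show ‖q.2‖ < σ by rwa [hz, norm_zero])] with q' a1 a2
    exact h _ _ a1.le a2.le
  · exact hG.contDiffAt.comp q (MultId_arg hz)

theorem MultId_dshell {ρ : ℝ} {g : R3 × R3 → ℝ} (hg : Shell ρ g) (v : R3 × R3) :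
    Shell (ρ + 1) fun q => fderiv ℝ g q v := by
  refine ⟨(hg.sm.fderiv_right (m := ∞) le_rfl).clm_apply contDiff_const, fun R => ?_,
    fun e z hz => ?_⟩
  · obtain ⟨σ, hσ, h⟩ := hg.near (R + 1)
    refine ⟨σ / 2, by positivity, fun e z he hz => ?_⟩
    have h0 : g =ᶠ[𝓝 (e, z)] fun _ => 0 := by
      filter_upwards [(continuous_fst.norm.continuousAt (x := (e, z))).eventually_lt_const
        (show ‖e‖ < R + 1 by linarith),
        (continuous_snd.norm.continuousAt (x := (e, z))).eventually_lt_const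
          (show ‖z‖ < σ by linarith)] with q' a1 a2
      exact h _ _ a1.le a2.le
    simp [h0.fderiv_eq]
  · have h0 : g =ᶠ[𝓝 (e, z)] fun _ => 0 := by
      filter_upwards [(continuous_snd.norm.continuousAt (x := (e, z))).eventually_const_lt
        (show ρ < ‖z‖ by linarith)] with q' a1
      exact hg.far _ _ a1.le
    simp [h0.fderiv_eq]

theorem MultId_dg {G : ℝ × ℝ → ℝ} (hG : ContDiff ℝ ∞ G) (e : R3) {z : R3} (hz : z ≠ 0)
    (α β : R3) :
    fderiv ℝ (fun q : R3 × R3 => G (lam q.1 q.2, ‖q.2‖)) (e, z) (α, β) =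
      fderiv ℝ G (lam e z, ‖z‖) (1, 0) * (⟪nz z, β⟫ - (⟪e, β⟫ + ⟪α, z⟫)) +
        fderiv ℝ G (lam e z, ‖z‖) (0, 1) * ⟪nz z, β⟫ := by
  have h1 : HasFDerivAt (fun q : R3 × R3 => ‖q.2‖)
      ((innerSL ℝ (nz z)).comp (ContinuousLinearMap.snd ℝ R3 R3)) (e, z) :=
    (CalcA_hasFDerivAt_norm hz).comp (e, z) hasFDerivAt_snd
  have h2 := (h1.sub ((hasFDerivAt_fst (p := (e, z))).inner ℝ hasFDerivAt_snd)).prodMk h1
  have h3 := (hG.differentiable (by simp) (lam e z, ‖z‖)).hasFDerivAt.comp (e, z) h2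
  refine (congrArg (fun L : R3 × R3 →L[ℝ] ℝ => L (α, β)) h3.fderiv).trans ?_
  rw [mul_comm, mul_comm _ ⟪nz z, β⟫, ← smul_eq_mul, ← smul_eq_mul, ← map_smul, ← map_smul,
    ← map_add]
  simp [fderivInnerCLM_apply]

section
variable {f : PS → ℝ} {E B : ST → R3}

theorem MultId_exp (hf : Continuous f) (hv : VSupp f) (p : ST) (a₀ b₀ : ℝ) (a b u : R3) :
    TT f E B p a₀ a b₀ (b + u) =
      TT f E B p a₀ a b₀ b + ∑ i, u i * TT f E B p a₀ a 0 (EuclideanSpace.single i 1) := by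
  have h : ∀ (b c : R3) (β : ℝ), TT f E B p a₀ a b₀ (b + β • c) =
      TT f E B p a₀ a b₀ b + β * TT f E B p a₀ a 0 c := fun b c β => by
    simpa using TT_lin (E := E) (B := B) hf hv p a₀ b₀ 0 1 β a b c
  conv_lhs => rw [ConeDer_dec u, ← add_assoc, ← add_assoc]
  rw [h, h, h, Fin.sum_univ_three]
  ring

theorem MultId_zero (hf : Continuous f) (hv : VSupp f) (p : ST) (a₀ : ℝ) (a : R3) :
    TT f E B p a₀ a 0 0 = 0 := by
  simpa using TT_lin (E := E) (B := B) hf hv p a₀ 0 0 0 0 a 0 0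

/-- the spatial part of the current -/
def MultId_J (f : PS → ℝ) (E B : ST → R3) (a₀ : ℝ) (a : R3) (p : ST) : R3 :=
  ∑ i, (-TT f E B p a₀ a 0 (EuclideanSpace.single i 1)) • EuclideanSpace.single i 1

theorem MultId_J_apply (a₀ : ℝ) (a : R3) (p : ST) (i : Fin 3) :
    MultId_J f E B a₀ a p i = -TT f E B p a₀ a 0 (EuclideanSpace.single i 1) := by
  fin_cases i <;> simp [MultId_J, Fin.sum_univ_three]

theorem MultId_flux (hf : Continuous f) (hv : VSupp f) (a₀ : ℝ) (a : R3) (p : ST) (b : R3) :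
    TT f E B p a₀ a 1 0 - ⟪b, MultId_J f E B a₀ a p⟫ = TT f E B p a₀ a 1 b := by
  have h := MultId_exp (E := E) (B := B) hf hv p a₀ 1 a 0 b
  rw [zero_add] at h
  rw [h, ConeDer_inner, MultId_J_apply, MultId_J_apply, MultId_J_apply, Fin.sum_univ_three]
  ring

theorem MultId_TT {T : ℝ} (h : Sol T f E B) (a₀ b₀ : ℝ) (a b : R3) :
    ContDiff ℝ ∞ fun p => TT f E B p a₀ a b₀ b :=
  (contDiff_TT h.step.sf h.step.vf h.step.sE h.step.sB).comp
    (f := fun p : ST => (p, (a₀, a), (b₀, b))) (by fun_prop)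

theorem MultId_TT' {T : ℝ} (h : Sol T f E B) (a₀ : ℝ) (a : R3) :
    ContDiff ℝ ∞ fun q : ST × R3 × R3 => TT f E B q.1 a₀ a 1 q.2.2 :=
  (contDiff_TT h.step.sf h.step.vf h.step.sE h.step.sB).comp
    (f := fun q : ST × R3 × R3 => (q.1, (a₀, a), (1, q.2.2))) (by fun_prop)

theorem MultId_sJ {T : ℝ} (h : Sol T f E B) (a₀ : ℝ) (a : R3) :
    ContDiff ℝ ∞ (MultId_J f E B a₀ a) :=
  ContDiff.sum fun i _ => (MultId_TT h _ _ _ _).neg.smul contDiff_const

theorem MultId_div {T : ℝ} (h : Sol T f E B) (a₀ : ℝ) (a : R3) (p : ST) (hp : p.1 ∈ Icc 0 T) :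
    fderiv ℝ (fun q => TT f E B q a₀ a 1 0) p (1, 0) +
      div3 (fun y => MultId_J f E B a₀ a (p.1, y)) p.2 = 0 := by
  rw [← h.stress_div a₀ a p hp, sub_eq_add_neg, ← Finset.sum_neg_distrib]
  congr 1
  refine Finset.sum_congr rfl fun i _ => ?_
  simp only [pderiv, MultId_J_apply]
  rw [fderiv_fun_neg, ← CalcB_sliceX ((MultId_TT h _ _ _ _).differentiable (by simp))]
  rfl

/-- integrability of the integrand of `Shell.cone_deriv` -/
theorem MultId_int {ρ : ℝ} {g : R3 × R3 → ℝ} (hg : Shell ρ g) {J₀ : ST → ℝ} {J : ST → R3}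
    (h₀ : ContDiff ℝ ∞ J₀) (hJ : ContDiff ℝ ∞ J) (t : ℝ) (x e W ed : R3) :
    Integrable fun z => fderiv ℝ g (e, z) ((J₀ (cp t x z) - ⟪nz z, J (cp t x z)⟫) • ed,
      (J₀ (cp t x z) - ⟪nz z, J (cp t x z)⟫) • W - qq W z • J (cp t x z)) := by
  have c0 : ContDiff ℝ ∞ fun q : ST × R3 × R3 => J₀ q.1 - ⟪q.2.2, J q.1⟫ :=
    (h₀.comp contDiff_fst).sub ((contDiff_snd.comp contDiff_snd).inner ℝ (hJ.comp contDiff_fst))
  have c1 : ∀ i : Fin 3, ContDiff ℝ ∞ fun q : ST × R3 × R3 => (1 - ⟪W, q.2.2⟫) * J q.1 i :=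
    fun i => (contDiff_const.sub (contDiff_const.inner ℝ (contDiff_snd.comp contDiff_snd))).mul
      ((EuclideanSpace.proj (𝕜 := ℝ) i).contDiff.comp (hJ.comp contDiff_fst))
  have i0 := (ConeDer_loc (MultId_dshell hg (ed, W)) c0).integrable volume (t, x, e)
  have i1 := fun i : Fin 3 => (ConeDer_loc (MultId_dshell hg (0, EuclideanSpace.single i 1))
    (c1 i)).integrable volume (t, x, e)
  refine (((i0.sub (i1 0)).sub (i1 1)).sub (i1 2)).congr (Eventually.of_forall fun z => ?_)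
  simp only [Pi.sub_apply, qq, ang]
  generalize fderiv ℝ g (e, z) = L
  generalize J₀ (cp t x z) - ⟪nz z, J (cp t x z)⟫ = c
  generalize J (cp t x z) = j
  generalize 1 - ⟪W, nz z⟫ = w
  have e1 : ((c • ed, c • W - w • j) : R3 × R3) = c • (ed, W) - w • ((0 : ℝ) • (0 : R3), j) := by
    simp
  rw [e1, map_sub, map_smul, map_smul, ConeDer_lin']
  simp only [smul_eq_mul]
  ring

end

/-- the multiplier identity for the stress tensor, for test functions of `λ̄` and `r` and the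
multiplier `(1, κ e)` (`κ = 0`: energy, `κ = 1`: null multiplier) -/
theorem Sol.mult_id {T : ℝ} {f : PS → ℝ} {E B : ST → R3} (h : Sol T f E B) {G : ℝ × ℝ → ℝ}
    (hG : ContDiff ℝ ∞ G) {η ρ : ℝ} (hη : 0 < η) (h₁ : ∀ l r, l ≤ η → G (l, r) = 0)
    (h₂ : ∀ l r, ρ ≤ r → G (l, r) = 0) (κ : ℝ)
    {t₁ t₂ : ℝ} (hρ : ρ ≤ t₁) (h₁₂ : t₁ ≤ t₂) (hT : t₂ ≤ T) {X V e ed : ℝ → R3}
    (tr : Traj E B t₁ t₂ X V e ed) :
    ContinuousOn (fun t => ∫ z, G (lam (e t) z, ‖z‖) *
      TT f E B (cp t (X t) z) 1 (κ • e t) 1 (nz z)) (Icc t₁ t₂) ∧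
    ∀ t ∈ Ioo t₁ t₂, HasDerivAt (fun t => ∫ z, G (lam (e t) z, ‖z‖) *
        TT f E B (cp t (X t) z) 1 (κ • e t) 1 (nz z))
      (∫ z, (fderiv ℝ G (lam (e t) z, ‖z‖) (1, 0) *
          ((ang (e t) (relVel (V t)) - ⟪ed t, z⟫) * TT f E B (cp t (X t) z) 1 (κ • e t) 1 (nz z) -
            qq (relVel (V t)) z * TT f E B (cp t (X t) z) 1 (κ • e t) 1 (e t)) +
        fderiv ℝ G (lam (e t) z, ‖z‖) (0, 1) *
          (TT f E B (cp t (X t) z) 1 (κ • e t) 1 (nz z) -
            qq (relVel (V t)) z * TT f E B (cp t (X t) z) 1 (κ • e t) 1 0) +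
        G (lam (e t) z, ‖z‖) * TT f E B (cp t (X t) z) 0 (κ • ed t) 1 (nz z))) t := by
  have hg := MultId_shell hG hη h₁ h₂
  have hf := h.step.sf.continuous
  have hv := h.step.vf
  refine ⟨?_, fun t ht => ?_⟩
  · have hu : ContDiff ℝ ∞ fun q : ST × R3 × R3 => TT f E B q.1 1 (κ • q.2.1) 1 q.2.2 :=
      (contDiff_TT h.step.sf h.step.vf h.step.sE h.step.sB).comp
        (f := fun q : ST × R3 × R3 => (q.1, (1, κ • q.2.1), (1, q.2.2))) (by fun_prop)
    exact (hg.contDiff_cone hu).continuous.comp_continuousOn (f := fun t => (t, X t, e t))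
      (continuousOn_id.prodMk (tr.ch.cX.continuousOn.prodMk tr.ce))
  have hγ : HasDerivAt (fun s => (s, X s, e s)) (1, relVel (V t), ed t) t :=
    (hasDerivAt_id t).prodMk ((tr.ch.dX t ht).prodMk (tr.de t ht))
  have s0 := MultId_TT h 1 1 (κ • e t) 0
  have sJ := MultId_sJ h 1 (κ • e t)
  have c0 : ContDiff ℝ ∞ fun q : ST × R3 × R3 =>
      TT f E B q.1 1 (κ • e t) 1 0 - ⟪q.2.2, MultId_J f E B 1 (κ • e t) q.1⟫ :=
    (s0.comp contDiff_fst).sub ((contDiff_snd.comp contDiff_snd).inner ℝ (sJ.comp contDiff_fst))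
  have d0 := ((hg.contDiff_cone c0).differentiable (by simp)
    (t, X t, e t)).hasFDerivAt.comp_hasDerivAt t hγ
  have e0 := hg.cone_deriv s0 sJ t (X t) (e t) (relVel (V t)) (ed t) fun p hp =>
    MultId_div h 1 (κ • e t) p ⟨by linarith [hp.1, ht.1], by linarith [hp.2, ht.2]⟩
  have i0 := MultId_int hg s0 sJ t (X t) (e t) (relVel (V t)) (ed t)
  rw [e0] at d0
  have d1 := fun i : Fin 3 =>
    ((hg.contDiff_cone (MultId_TT' h 0 (EuclideanSpace.single i 1))).differentiable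
      (by simp) (t, X t, e t)).hasFDerivAt.comp_hasDerivAt t hγ
  have d2 : ∀ i : Fin 3, HasDerivAt (fun s => (κ • e s - κ • e t) i) ((κ • ed t) i) t := fun i =>
    (EuclideanSpace.proj (𝕜 := ℝ) i).hasFDerivAt.comp_hasDerivAt t
      (((tr.de t ht).const_smul κ).sub_const (κ • e t))
  have i1 := fun (s : ℝ) (i : Fin 3) =>
    (ConeDer_loc hg (MultId_TT' h 0 (EuclideanSpace.single i 1))).integrable volume (s, X s, e s)
  have i2 := fun s : ℝ => (ConeDer_loc hg c0).integrable volume (s, X s, e s)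
  have key : ∀ (s : ℝ) (u : R3), ∑ i, u i * ∫ z, G (lam (e s) z, ‖z‖) *
      TT f E B (cp s (X s) z) 0 (EuclideanSpace.single i 1) 1 (nz z) =
      ∫ z, ∑ i, u i * (G (lam (e s) z, ‖z‖) *
        TT f E B (cp s (X s) z) 0 (EuclideanSpace.single i 1) 1 (nz z)) := fun s u => by
    rw [integral_finsetSum _ fun i _ => (i1 s i).const_mul (u i)]
    simp only [integral_const_mul]
  have i3 : ∀ (s : ℝ) (u : R3), Integrable fun z => ∑ i, u i * (G (lam (e s) z, ‖z‖) *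
      TT f E B (cp s (X s) z) 0 (EuclideanSpace.single i 1) 1 (nz z)) := fun s u =>
    integrable_finsetSum _ fun i _ => (i1 s i).const_mul (u i)
  have lin : ∀ (p : ST) (a₀ : ℝ) (a u n : R3), TT f E B p a₀ (a + u) 1 n =
      TT f E B p a₀ a 1 n + ∑ i, u i * TT f E B p 0 (EuclideanSpace.single i 1) 1 n :=
    fun p a₀ a u n => by
      rw [TT_comm, MultId_exp hf hv, TT_comm]
      simp only [TT_comm p 1 0 n]
  have d3 := d0.fun_add (HasDerivAt.fun_sum (u := Finset.univ) fun i _ => (d2 i).fun_mul (d1 i))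
  refine (d3.congr_of_eventuallyEq (Eventually.of_forall fun s => ?_)).congr_deriv ?_
  · simp only [Function.comp_apply]
    rw [key, ← integral_add (i2 s) (i3 s _)]
    refine integral_congr_ae (Eventually.of_forall fun z => ?_)
    have := lin (cp s (X s) z) 1 (κ • e t) (κ • e s - κ • e t) (nz z)
    rw [add_sub_cancel] at this
    simp only [this, MultId_flux hf hv, mul_add, Finset.mul_sum]
    congr 1
    exact Finset.sum_congr rfl fun i _ => by ring
  · simp only [Function.comp_apply, sub_self, PiLp.zero_apply, zero_mul, add_zero]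
    rw [key, ← integral_add i0 (i3 t _)]
    refine integral_congr_ae ?_
    filter_upwards [compl_mem_ae_iff.2 (measure_singleton (0 : R3))] with z hz
    have hz' : z ≠ 0 := hz
    have a1 := lin (cp t (X t) z) 0 0 (κ • ed t) (nz z)
    rw [zero_add, TT_comm _ 0 1 0, MultId_zero hf hv, zero_add] at a1
    have a2 := MultId_flux (E := E) (B := B) hf hv 1 (κ • e t) (cp t (X t) z) (nz z)
    have a3 := MultId_flux (E := E) (B := B) hf hv 1 (κ • e t) (cp t (X t) z) (e t)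
    rw [MultId_dg hG _ hz', a1, ← a2, ← a3, Finset.mul_sum]
    simp only [inner_sub_right, inner_smul_right, inner_smul_left, qq, ang,
      real_inner_comm (relVel (V t)) (nz z), Fin.sum_univ_three, conj_trivial]
    ring

end Crest.Agent.R106
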