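import Crest.Agent.R106.BMain
import Crest.Agent.R106.Chr

/-!
# Row 106: the momentum support stays bounded
-/

set_option autoImplicit false
set_option linter.unusedVariables false
set_option linter.unusedSectionVars false

open MeasureTheory Metric Set Filter Topology
open scoped ContDiff ENNReal RealInnerProductSpace
open Crest.AnalysisR.VecCalc3 Crest.AnalysisR.PDE.RVM

noncomputable section

namespace Crest.Agent.R106

theorem PBound_mono {f : PS → ℝ} {s R R' : ℝ} (h : VS f s R) (hR : R ≤ R') : VS f s R' :=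
  fun y v hv => h y v (hR.trans_lt hv)

theorem vs_step (M 𝓔 T t₀ Cd : ℝ) (hM : 0 ≤ M) (h𝓔 : 0 ≤ 𝓔) (hT : 0 ≤ T) (h₀ : 0 < t₀) :
    ∃ c P₀ : ℝ, 0 < c ∧ 3 ≤ P₀ ∧ ∀ P, P₀ ≤ P → ∀ T' ≤ T, ∀ (f : PS → ℝ) (E B : ST → R3),
    Apri T' M 𝓔 f E B → GSRem T' Cd f (frc E B f) E B →
    ∀ t₁ : ℝ, t₀ ≤ t₁ → (∀ s ∈ Icc 0 T', s ≤ t₁ → VS f s (P / 2)) →
    ∀ s ∈ Icc 0 T', s ≤ t₁ + c / Real.log P → VS f s (3 * P / 4) := by
  obtain ⟨c, P₀, hc, hnd⟩ := no_doubling M 𝓔 T t₀ Cd hM h𝓔 hT h₀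
  refine ⟨c, max P₀ 8, hc, le_max_of_le_right (by norm_num), ?_⟩
  intro P hP T' hT' f E B hA hG t₁ ht₁ hvs
  have hP₀ : P₀ ≤ P := (le_max_left _ _).trans hP
  have hP8 : 8 ≤ P := (le_max_right _ _).trans hP
  obtain ⟨A₀, hA₀⟩ := Chr_bd hA.sol.step
  obtain ⟨A, hA1, hAb⟩ : ∃ A : ℝ, 1 ≤ A ∧ ∀ s ∈ Icc 0 T', Bx 0 E s A ∧ Bx 0 B s A :=
    ⟨max A₀ 1, le_max_right _ _, fun s hs =>
      ⟨fun y => ((hA₀ s hs).1 y).trans (le_max_left _ _),
        fun y => ((hA₀ s hs).2.1 y).trans (le_max_left _ _)⟩⟩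
  obtain ⟨ε, hε, hεA⟩ : ∃ ε : ℝ, 0 < ε ∧ 2 * A * ε = P / 8 :=
    ⟨P / (16 * A), by positivity, by field_simp; ring⟩
  have key : ∀ k : ℕ, ∀ s ∈ Icc 0 T', s ≤ t₁ + c / Real.log P → s ≤ t₁ + k * ε →
      VS f s (3 * P / 4) := by
    intro k
    induction k with
    | zero =>
      intro s hs _ h2
      exact PBound_mono (hvs s hs (by simpa using h2)) (by linarith)
    | succ k ih =>
      intro s hs h1 h2
      rcases le_or_gt s t₁ with hst | hst
      · exact PBound_mono (hvs s hs hst) (by linarith)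
      have hkε : 0 ≤ (k : ℝ) * ε := by positivity
      have h78 : ∀ s' ∈ Icc 0 s, VS f s' (7 * P / 8) := by
        intro s' hs'
        rcases le_or_gt s' (t₁ + k * ε) with h3 | h3
        · exact PBound_mono (ih s' ⟨hs'.1, hs'.2.trans hs.2⟩ (hs'.2.trans h1) h3) (by linarith)
        · have ha0 : 0 ≤ t₁ + k * ε := by linarith
          have haT : t₁ + k * ε ≤ T' := by linarith [hs'.2, hs.2]
          have h4 := hA.sol.step.vs ha0 h3.le (hs'.2.trans hs.2)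
            (ih _ ⟨ha0, haT⟩ (by linarith [hs'.2]) le_rfl)
            (fun r hr => hAb r ⟨ha0.trans hr.1, hr.2.trans (hs'.2.trans hs.2)⟩)
          refine PBound_mono h4 ?_
          have h5 : s' - (t₁ + k * ε) ≤ ε := by
            push_cast at h2
            linarith [hs'.2]
          have h6 := mul_le_mul_of_nonneg_left h5 (by linarith : 0 ≤ 2 * A)
          linarith
      have hz : ∀ p : PS, p.1 ∈ Icc 0 s → P < en p.2.2 → f p = 0 := by
        rintro ⟨s', y, v⟩ hp hv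
        refine h78 s' hp y v ?_
        have := en_le v
        simp only at hv
        linarith
      intro y v hv
      by_contra hne
      obtain ⟨X, V, hch, hX, hV, hf⟩ := hA.sol.step.exists_char hs y v
      have ht₁T : t₁ ∈ Icc 0 T' := ⟨by linarith, hst.le.trans hs.2⟩
      have hV1 : ‖V t₁‖ ≤ P / 2 := by
        by_contra hlt
        exact hne ((hf t₁ ht₁T).symm.trans (hvs t₁ ht₁T le_rfl _ _ (not_le.1 hlt)))
      obtain ⟨r, hr, hrV⟩ : P / 2 ∈ (fun r => ‖V r‖) '' Icc t₁ s :=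
        intermediate_value_Icc hst.le hch.cV.norm.continuousOn ⟨hV1, by simp only [hV]; linarith⟩
      simp only at hrV
      have h7 := hnd P hP₀ T' hT' f E B hA hG r s (ht₁.trans hr.1) hr.2 (by linarith [hr.1]) hs.2
        hz X V (hch.mono (by linarith [hr.1]) hs.2) hrV.ge s ⟨hr.2, le_rfl⟩
      have h8 := norm_sub_norm_le (V s) (V r)
      rw [hV] at h7 h8
      linarith
  intro s hs h1
  obtain ⟨k, hk⟩ := exists_nat_ge ((s - t₁) / ε)
  refine key k s hs h1 ?_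
  rw [div_le_iff₀ hε] at hk
  linarith

theorem vs_bound (M 𝓔 T t₀ Cd R₁ : ℝ) (hM : 0 ≤ M) (h𝓔 : 0 ≤ 𝓔) (hT : 0 ≤ T) (h₀ : 0 < t₀) :
    ∃ R : ℝ, ∀ T' ≤ T, ∀ (f : PS → ℝ) (E B : ST → R3),
    Apri T' M 𝓔 f E B → GSRem T' Cd f (frc E B f) E B →
    (∀ s ∈ Icc 0 T', s ≤ t₀ → VS f s R₁) → ∀ s ∈ Icc 0 T', VS f s R := by
  obtain ⟨c, P₀, hc, hP₀, hst⟩ := vs_step M 𝓔 T t₀ Cd hM h𝓔 hT h₀
  obtain ⟨Q, hQ₀, hQR⟩ : ∃ Q : ℝ, P₀ ≤ Q ∧ 2 * R₁ ≤ Q :=
    ⟨max P₀ (2 * R₁), le_max_left _ _, le_max_right _ _⟩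
  have hQ3 : 3 ≤ Q := hP₀.trans hQ₀
  have hlQ : 0 < Real.log Q := Real.log_pos (by linarith)
  have hPQ : ∀ i : ℕ, Q ≤ (3 / 2 : ℝ) ^ i * Q := fun i =>
    le_mul_of_one_le_left (by linarith) (one_le_pow₀ (by norm_num))
  have hlP : ∀ i : ℕ, 0 < Real.log ((3 / 2 : ℝ) ^ i * Q) := fun i =>
    Real.log_pos (by linarith [hPQ i])
  have hlP' : ∀ i : ℕ, Real.log ((3 / 2 : ℝ) ^ i * Q) ≤ (i + 1) * Real.log Q := by
    intro i
    rw [Real.log_mul (by positivity) (by linarith), Real.log_pow]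
    have h1 : Real.log (3 / 2) ≤ Real.log Q := Real.log_le_log (by norm_num) (by linarith)
    have h2 := mul_le_mul_of_nonneg_left h1 (Nat.cast_nonneg (α := ℝ) i)
    linarith
  obtain ⟨k, hk⟩ : ∃ k : ℕ, T ≤ ∑ i ∈ Finset.range k, c / Real.log ((3 / 2 : ℝ) ^ i * Q) := by
    obtain ⟨k, hk⟩ := (Real.tendsto_sum_range_one_div_nat_succ_atTop.eventually_ge_atTop
      (T / (c / Real.log Q))).exists
    refine ⟨k, ?_⟩
    rw [div_le_iff₀ (div_pos hc hlQ), Finset.sum_mul] at hk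
    refine hk.trans (Finset.sum_le_sum fun i _ => ?_)
    rw [div_mul_div_comm, one_mul]
    exact div_le_div_of_nonneg_left hc.le (hlP i) (hlP' i)
  refine ⟨(3 / 2 : ℝ) ^ k * Q / 2, fun T' hT' f E B hA hG h1 => ?_⟩
  have key : ∀ j : ℕ, ∀ s ∈ Icc 0 T',
      s ≤ t₀ + ∑ i ∈ Finset.range j, c / Real.log ((3 / 2 : ℝ) ^ i * Q) →
      VS f s ((3 / 2 : ℝ) ^ j * Q / 2) := by
    intro j
    induction j with
    | zero =>
      intro s hs h2
      exact PBound_mono (h1 s hs (by simpa using h2)) (by simp only [pow_zero]; linarith)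
    | succ j ih =>
      intro s hs h2
      rw [Finset.sum_range_succ, ← add_assoc] at h2
      have h3 : 0 ≤ ∑ i ∈ Finset.range j, c / Real.log ((3 / 2 : ℝ) ^ i * Q) :=
        Finset.sum_nonneg fun i _ => (div_pos hc (hlP i)).le
      refine PBound_mono (hst _ (hQ₀.trans (hPQ j)) T' hT' f E B hA hG _ (by linarith) ih s hs h2)
        (le_of_eq ?_)
      ring
  intro s hs
  exact key k s hs (by linarith [hs.2])

end Crest.Agent.R106
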