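/-!
# Row 106 (S0140): plan of the proof (helper64)

Notation.  `v₀ = en v`, `v̂ = relVel v`.  Backward cone with vertex `(t,x)`: `z ∈ ℝ³`, `r = |z|`,
`n = z/r`, point `cp t x z = (t - r, x - z)`.  For `u : ST → F` put `U(t,z) = u (t - r, X t - z)`;
then `∇_z U = - n ∂ₛu - ∇_y u` and `∂ₜU + W·∇_z U = φ² ∂ₛu` (`W = X'`, `φ² = 1 - W·n`).
`p = θ² = 1 - v̂·n = pp z v`, `q = φ̄² = 1 - e·n = qq e z`, `w = φ² = qq W z`,
`γ = ψ² = 1 - v̂·e = gg e v`, `μ = 1 - e·W`, `λ̄ = r q = lam e z`, `x̄ = P q √r = xb P e z`,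
`N = log P`.  With `α = n - v̂`, `β = n - e`: `|α|² ≤ 2p`, `|β|² = 2q`, `p = α·n`, `q = β·n`,
`γ = p + q - α·β`.

## Part A (classical Glassey–Strauss theory)
* `WaveA/B`, `Maxwell`: Duhamel operator, wave and Maxwell equations.  `Flow`, `Chr`, `TrEst`:
  transport.  `GSA`, `GS`: `4π(E + W×B) = data + ∬ (kT h + kS H)` (no loss of derivative).
* `IterA/B`, `TimeDer`, `LocalEx`: iteration on `(-T₀,T₀)` (negative times by reflection).
* `Unique`, `Bridge`, `Stress`, `Energy`, `L2`; `GradA`, `GradLog`, `Apri`: bounded momentum support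
  ⇒ all derivatives bounded.  `Global`: continuation and the final statement.

## Part B (the momentum support grows at most double exponentially)
Test characteristic `(X,V)` on an interval of length `τ = c/N`, `|V| ~ P`, all particles `v₀ ≤ P`.
* Normal form: `Ψ̃ = (γ n - q v̂ - p e)/(r p q)`; for the null vector `(1,e)` the GS kernel is the
  derivative of `Ψ̃` along the particle motion (`psi_null`), so with `Ψ = ∬ χ Ψ̃ p f`,
  `4π d/dt (V - Ψ/4π) = O(1) + ∬ f Hk`, where `Hk` consists of the direct kernels where `χ ≠ 1`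
  (`x̄ ≤ P^{-1/100}` or `r ≥ r₂`), mismatch terms `O(δ)`, `δ ~ |V̂ - e|`, a term `O(|ė|)`, and the
  cost of the cut-off (logarithmic cut-off: gain `1/N`).
* All terms are estimated by Hölder's inequality on the cone (`Est*`) from `f ≤ M`, the cone energy,
  the slice energy `s(t)`, and two flux densities: `y` (multiplier `(1,e)`, region `RL`,
  `∫ y ≲ N`) and `y₁, y₂` (multiplier `(1,0)`, lossy).  The only critical term is `est_kE_crit`.
* `e = U/|U|`, `U' = (W - U)/h`, `W = V - Ψ/4π`, `h = P^{-1.16}`: damped energy estimate gives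
  `∫|ė|² ≲ N`, `sup δ ≤ P^{-0.57}`, `‖δ‖₂ ≲ P^{-0.655}`, hence `|V(t) - V(t₁)| ≤ C √c P`.
-/
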