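import Crest.Agent.R106.BdLem

/-!
# Row 106: change of variables along a timelike curve
-/

set_option autoImplicit false
set_option linter.unusedVariables false
set_option linter.unusedSectionVars false

open MeasureTheory Metric Set Filter Topology
open scoped ContDiff ENNReal RealInnerProductSpace
open Crest.AnalysisR.VecCalc3 Crest.AnalysisR.PDE.RVM

noncomputable section

namespace Crest.Agent.R106

theorem sliceCV_lt {X W : ℝ → R3} (hW : Continuous W) {t₁ t₂ : ℝ}
    (hd : ∀ t ∈ Ioo t₁ t₂, HasDerivAt X (W t) t) (h1 : ∀ t, ‖W t‖ < 1) {a b : ℝ}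
    (ha : a ∈ Ioo t₁ t₂) (hb : b ∈ Ioo t₁ t₂) (hab : a < b) : ‖X b - X a‖ < b - a := by
  obtain ⟨c, -, hc⟩ := (isCompact_Icc (a := a) (b := b)).exists_isMaxOn (nonempty_Icc.2 hab.le)
    hW.norm.continuousOn
  have h := (convex_Icc a b).norm_image_sub_le_of_norm_hasDerivWithin_le (f := X) (f' := W)
    (fun t ht => (hd t ⟨ha.1.trans_le ht.1, ht.2.trans_lt hb.2⟩).hasDerivWithinAt)
    (fun t ht => hc ht) (left_mem_Icc.2 hab.le) (right_mem_Icc.2 hab.le)
  rw [Real.norm_of_nonneg (sub_pos.2 hab).le] at h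
  exact h.trans_lt (mul_lt_of_lt_one_left (sub_pos.2 hab) (h1 c))

theorem sliceCV_deriv {X : ℝ → R3} {w y : R3} {t : ℝ} (hd : HasDerivAt X w t) (hy : X t ≠ y) :
    HasDerivAt (fun s => s - ‖X s - y‖) (qq w (X t - y)) t := by
  have h0 : ‖X t - y‖ ≠ 0 := norm_ne_zero_iff.2 (sub_ne_zero.2 hy)
  have h := ((hd.sub_const y).norm_sq).sqrt (pow_ne_zero 2 h0)
  simp only [Real.sqrt_sq (norm_nonneg _)] at h
  refine ((hasDerivAt_id' t).sub h).congr_deriv ?_
  rw [qq, ang, nz, inner_smul_right, real_inner_comm]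
  field_simp

/-- change of variables `(t,z) ↦ (t - |z|, X t - z)`, Jacobian `φ²` -/
theorem slice_cv {X W : ℝ → R3} (hX : Continuous X) (hW : Continuous W) {t₁ t₂ : ℝ}
    (hd : ∀ t ∈ Ioo t₁ t₂, HasDerivAt X (W t) t) (h1 : ∀ t, ‖W t‖ < 1) {u : ST → ℝ≥0∞}
    (hu : Measurable u) :
    ∫⁻ t in Ioo t₁ t₂, ∫⁻ z, ENNReal.ofReal (qq (W t) z) * u (cp t (X t) z) ≤ ∫⁻ p, u p := by
  have hS : IsOpen {p : ℝ × R3 | X p.1 ≠ p.2} :=
    isOpen_ne_fun (hX.comp continuous_fst) continuous_snd
  have e1 : ∀ t, ∫⁻ z, ENNReal.ofReal (qq (W t) z) * u (cp t (X t) z) =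
      ∫⁻ y, {p : ℝ × R3 | X p.1 ≠ p.2}.indicator (fun p =>
        ENNReal.ofReal (qq (W p.1) (X p.1 - p.2)) * u (p.1 - ‖X p.1 - p.2‖, p.2)) (t, y) := by
    intro t
    rw [← lintegral_sub_left_eq_self _ (X t)]
    refine lintegral_congr_ae ?_
    filter_upwards [Measure.ae_ne volume (X t)] with y hy
    rw [indicator_of_mem (by exact hy.symm), cp, sub_sub_cancel]
  have hm : Measurable fun p : ℝ × R3 =>
      ENNReal.ofReal (qq (W p.1) (X p.1 - p.2)) * u (p.1 - ‖X p.1 - p.2‖, p.2) := by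
    have := hX.measurable
    have := hW.measurable
    refine Measurable.mul (Measurable.ennreal_ofReal ?_) (hu.comp (by fun_prop))
    unfold qq ang nz
    fun_prop
  simp only [e1]
  rw [← lintegral_prod _ (hm.indicator hS.measurableSet).aemeasurable,
    lintegral_prod_symm' _ (hm.indicator hS.measurableSet),
    Measure.volume_eq_prod, lintegral_prod_symm' _ hu]
  refine lintegral_mono fun y => ?_
  have hy : MeasurableSet {t | X t ≠ y} := (isOpen_ne_fun hX continuous_const).measurableSet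
  have e2 := lintegral_image_eq_lintegral_abs_deriv_mul (hy.inter (measurableSet_Ioo (a := t₁)
    (b := t₂))) (fun t ht => (sliceCV_deriv (hd t ht.2) ht.1).hasDerivWithinAt)
    (StrictMonoOn.injOn fun a ha b hb hab => by
      have := sliceCV_lt hW hd h1 ha.2 hb.2 hab
      have := norm_sub_norm_le (X b - y) (X a - y)
      rw [sub_sub_sub_cancel_right] at this
      linarith) fun s => u (s, y)
  refine le_trans ?_ (e2.symm.le.trans (setLIntegral_le_lintegral _ _))
  rw [← Measure.restrict_restrict hy, ← lintegral_indicator hy]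
  refine lintegral_mono fun t => ?_
  by_cases h : X t = y
  · simp [h]
  · rw [indicator_of_mem (by exact h), indicator_of_mem (by exact h)]
    exact mul_le_mul_left (ENNReal.ofReal_le_ofReal (le_abs_self _)) _

end Crest.Agent.R106
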