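import Crest.Agent.R106.IterB
import Crest.Agent.R106.CalcC

/-!
# Row 106: time derivatives of the iterates
-/

set_option autoImplicit false
set_option linter.unusedVariables false
set_option linter.unusedSectionVars false

open MeasureTheory Metric Set Filter Topology
open scoped ContDiff ENNReal RealInnerProductSpace
open Crest.AnalysisR.VecCalc3 Crest.AnalysisR.PDE.RVM

noncomputable section

namespace Crest.Agent.R106

section
variable {X Y F G H : Type} [NormedAddCommGroup X] [NormedSpace ℝ X] [NormedAddCommGroup Y]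
  [NormedSpace ℝ Y] [NormedAddCommGroup F] [NormedSpace ℝ F] [NormedAddCommGroup G]
  [NormedSpace ℝ G] [NormedAddCommGroup H] [NormedSpace ℝ H]

/-- smooth, all spatial derivatives uniformly bounded -/
def TimeDer_B0 (T₀ : ℝ) (u : ℕ → ℝ × X → F) : Prop :=
  (∀ n, ContDiff ℝ ∞ (u n)) ∧ ∀ k, ∃ C, ∀ n s, |s| < T₀ → Bx k (u n) s C

/-- the same for the time derivatives of order `≤ m` -/
def TimeDer_Tm (T₀ : ℝ) : ℕ → (ℕ → ℝ × X → F) → Prop
  | 0, u => TimeDer_B0 T₀ u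
  | m + 1, u => TimeDer_B0 T₀ u ∧ TimeDer_Tm T₀ m fun n p => fderiv ℝ (u n) p (1, 0)

/-- spatial derivative -/
def TimeDer_Dx (u : ℝ × X → F) (p : ℝ × X) : X →L[ℝ] F :=
  (fderiv ℝ u p).comp (ContinuousLinearMap.inr ℝ ℝ X)

variable {T₀ : ℝ}

theorem TimeDer_Tm.b0 {m : ℕ} {u : ℕ → ℝ × X → F} (h : TimeDer_Tm T₀ m u) : TimeDer_B0 T₀ u := by
  cases m with
  | zero => exact h
  | succ m => exact h.1

theorem TimeDer_Tm.df {m : ℕ} {u : ℕ → ℝ × X → F} (h : TimeDer_Tm T₀ m u) (n : ℕ) (p : ℝ × X) :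
    HasFDerivAt (u n) (fderiv ℝ (u n) p) p :=
  ((h.b0.1 n).differentiable (by simp) p).hasFDerivAt

theorem TimeDer_Tm.pred {m : ℕ} : ∀ {u : ℕ → ℝ × X → F}, TimeDer_Tm T₀ (m + 1) u →
    TimeDer_Tm T₀ m u := by
  induction m with
  | zero => exact fun h => h.1
  | succ m ih => exact fun h => ⟨h.1, ih h.2⟩

theorem TimeDer_Tm.congr {m : ℕ} {u w : ℕ → ℝ × X → F} (h : TimeDer_Tm T₀ m u)
    (e : ∀ n p, w n p = u n p) : TimeDer_Tm T₀ m w := by
  rwa [show w = u from funext fun n => funext (e n)]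

theorem TimeDer_Tm.reindex (σ : ℕ → ℕ) {m : ℕ} : ∀ {u : ℕ → ℝ × X → F}, TimeDer_Tm T₀ m u →
    TimeDer_Tm T₀ m fun n => u (σ n) := by
  have h0 : ∀ {u : ℕ → ℝ × X → F}, TimeDer_B0 T₀ u → TimeDer_B0 T₀ fun n => u (σ n) :=
    fun h => ⟨fun n => h.1 _, fun k => (h.2 k).imp fun C hC n => hC _⟩
  induction m with
  | zero => exact h0
  | succ m ih => exact fun h => ⟨h0 h.1, ih h.2⟩

theorem TimeDer_Tm.of_succ {m : ℕ} : ∀ {u : ℕ → ℝ × X → F}, (∀ p, u 0 p = 0) →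
    TimeDer_Tm T₀ m (fun n => u (n + 1)) → TimeDer_Tm T₀ m u := by
  have h0 : ∀ {u : ℕ → ℝ × X → F}, (∀ p, u 0 p = 0) → TimeDer_B0 T₀ (fun n => u (n + 1)) →
      TimeDer_B0 T₀ u := by
    intro u e h
    have e' : u 0 = fun _ => 0 := funext e
    refine ⟨fun n => ?_, fun k => (h.2 k).imp fun C hC n s hs => ?_⟩
    · cases n with
      | zero => rw [e']; exact contDiff_const
      | succ n => exact h.1 n
    · cases n with
      | zero =>
        intro y
        simp only [e]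
        rw [iteratedFDeriv_fun_zero]
        simpa using (hC 0 s hs).nonneg
      | succ n => exact hC n s hs
  induction m with
  | zero => exact h0
  | succ m ih =>
    intro u e h
    refine ⟨h0 e h.1, ih (fun p => ?_) h.2⟩
    rw [show u 0 = fun _ => 0 from funext e]
    simp

theorem TimeDer_Tm.add {m : ℕ} : ∀ {u w : ℕ → ℝ × X → F}, TimeDer_Tm T₀ m u →
    TimeDer_Tm T₀ m w → TimeDer_Tm T₀ m fun n p => u n p + w n p := by
  have h0 : ∀ {u w : ℕ → ℝ × X → F}, TimeDer_B0 T₀ u → TimeDer_B0 T₀ w →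
      TimeDer_B0 T₀ fun n p => u n p + w n p := by
    intro u w hu hw
    refine ⟨fun n => (hu.1 n).add (hw.1 n), fun k => ?_⟩
    obtain ⟨C, hC⟩ := hu.2 k
    obtain ⟨C', hC'⟩ := hw.2 k
    refine ⟨C + C', fun n s hs y => ?_⟩
    have h1 := iteratedFDeriv_add_apply (i := k) (x := y)
      ((CalcC_cd (hu.1 n) s).of_le (by exact_mod_cast le_top)).contDiffAt
      ((CalcC_cd (hw.1 n) s).of_le (by exact_mod_cast le_top)).contDiffAt
    exact (congrArg norm h1).trans_le ((norm_add_le _ _).trans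
      (add_le_add (hC n s hs y) (hC' n s hs y)))
  induction m with
  | zero => exact h0
  | succ m ih =>
    intro u w hu hw
    refine ⟨h0 hu.1 hw.1, (ih hu.2 hw.2).congr fun n p => ?_⟩
    exact congrArg (fun L : ℝ × X →L[ℝ] F => L (1, 0)) ((hu.df n p).add (hw.df n p)).fderiv

theorem TimeDer_Tm.clm (A : F →L[ℝ] G) {m : ℕ} : ∀ {u : ℕ → ℝ × X → F}, TimeDer_Tm T₀ m u →
    TimeDer_Tm T₀ m fun n p => A (u n p) := by
  have h0 : ∀ {u : ℕ → ℝ × X → F}, TimeDer_B0 T₀ u → TimeDer_B0 T₀ fun n p => A (u n p) := by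
    intro u hu
    refine ⟨fun n => A.contDiff.comp (hu.1 n), fun k => ?_⟩
    obtain ⟨C, hC⟩ := hu.2 k
    refine ⟨‖A‖ * C, fun n s hs y => ?_⟩
    exact (A.norm_iteratedFDeriv_comp_left (n := k) (CalcC_cd (hu.1 n) s).contDiffAt
      (by exact_mod_cast le_top)).trans (mul_le_mul_of_nonneg_left (hC n s hs y) (norm_nonneg _))
  induction m with
  | zero => exact h0
  | succ m ih =>
    intro u hu
    refine ⟨h0 hu.1, (ih hu.2).congr fun n p => ?_⟩
    exact congrArg (fun L : ℝ × X →L[ℝ] G => L (1, 0)) (A.hasFDerivAt.comp p (hu.df n p)).fderiv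

theorem TimeDer_Tm.bil (A : F →L[ℝ] G →L[ℝ] H) {m : ℕ} : ∀ {u : ℕ → ℝ × X → F}
    {w : ℕ → ℝ × X → G}, TimeDer_Tm T₀ m u → TimeDer_Tm T₀ m w →
    TimeDer_Tm T₀ m fun n p => A (u n p) (w n p) := by
  have h0 : ∀ {u : ℕ → ℝ × X → F} {w : ℕ → ℝ × X → G}, TimeDer_B0 T₀ u → TimeDer_B0 T₀ w →
      TimeDer_B0 T₀ fun n p => A (u n p) (w n p) := by
    intro u w hu hw
    refine ⟨fun n => (A.contDiff.comp (hu.1 n)).clm_apply (hw.1 n), fun k => ?_⟩
    obtain ⟨C, hC0, hC⟩ := CalcC_unif (P := fun k C => ∀ n s, |s| < T₀ → Bx k (u n) s C ∧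
        Bx k (w n) s C) (fun j => by
      obtain ⟨C, hC⟩ := hu.2 j
      obtain ⟨C', hC'⟩ := hw.2 j
      exact ⟨max 0 (max C C'), le_max_left _ _, fun n s hs =>
        ⟨(hC n s hs).mono ((le_max_left _ _).trans (le_max_right _ _)),
          (hC' n s hs).mono ((le_max_right _ _).trans (le_max_right _ _))⟩⟩)
      (fun j C C' h1 h2 n s hs => ⟨(h2 n s hs).1.mono h1, (h2 n s hs).2.mono h1⟩) k
    refine ⟨‖A‖ * (2 ^ k * (C * C)), fun n s hs y => ?_⟩
    exact (A.norm_iteratedFDeriv_le_of_bilinear (CalcC_cd (hu.1 n) s) (CalcC_cd (hw.1 n) s) y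
      (n := k) (by exact_mod_cast le_top)).trans (mul_le_mul_of_nonneg_left (CalcC_sum
        fun i hi => mul_le_mul ((hC i hi n s hs).1 y) ((hC (k - i) (Nat.sub_le _ _) n s hs).2 y)
          (norm_nonneg _) hC0) (norm_nonneg A))
  induction m with
  | zero => exact h0
  | succ m ih =>
    intro u w hu hw
    refine ⟨h0 hu.1 hw.1, ((ih hu.pred hw.2).add (ih hu.2 hw.pred)).congr fun n p => ?_⟩
    exact congrArg (fun L : ℝ × X →L[ℝ] H => L (1, 0))
      (A.hasFDerivAt_of_bilinear (hu.df n p) (hw.df n p)).fderiv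

theorem TimeDer_Tm.pull (L : Y →L[ℝ] X) (hL : ‖L‖ ≤ 1) {m : ℕ} : ∀ {u : ℕ → ℝ × X → F},
    TimeDer_Tm T₀ m u → TimeDer_Tm T₀ m fun n (p : ℝ × Y) => u n (p.1, L p.2) := by
  have h0 : ∀ {u : ℕ → ℝ × X → F}, TimeDer_B0 T₀ u →
      TimeDer_B0 T₀ fun n (p : ℝ × Y) => u n (p.1, L p.2) := by
    intro u hu
    exact ⟨fun n => (hu.1 n).comp (by fun_prop), fun k => (hu.2 k).imp fun C hC n s hs y =>
      (CalcC_comp L hL (CalcC_cd (hu.1 n) s) k y).trans (hC n s hs _)⟩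
  induction m with
  | zero => exact h0
  | succ m ih =>
    intro u hu
    refine ⟨h0 hu.1, (ih hu.2).congr fun n p => ?_⟩
    have h1 := ((hu.df n (p.1, L p.2)).comp p
      ((ContinuousLinearMap.id ℝ ℝ).prodMap L).hasFDerivAt).fderiv
    exact (congrArg (fun M : ℝ × Y →L[ℝ] F => M (1, 0)) h1).trans (by simp)

theorem TimeDer_const {m : ℕ} : ∀ {g : X → F}, ContDiff ℝ ∞ g →
    (∀ k, ∃ C, ∀ y, ‖iteratedFDeriv ℝ k g y‖ ≤ C) →
    TimeDer_Tm T₀ m fun (_ : ℕ) (p : ℝ × X) => g p.2 := by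
  have h0 : ∀ {g : X → F}, ContDiff ℝ ∞ g → (∀ k, ∃ C, ∀ y, ‖iteratedFDeriv ℝ k g y‖ ≤ C) →
      TimeDer_B0 T₀ fun (_ : ℕ) (p : ℝ × X) => g p.2 := fun hg hb =>
    ⟨fun _ => hg.comp contDiff_snd, fun k => (hb k).imp fun C hC _ _ _ => hC⟩
  induction m with
  | zero => exact h0
  | succ m ih =>
    intro g hg hb
    refine ⟨h0 hg hb, (ih (g := fun _ => 0) contDiff_const fun k => ⟨0, fun y => ?_⟩).congr
      fun n p => ?_⟩
    · rw [iteratedFDeriv_fun_zero]; simp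
    · have h1 := ((hg.differentiable (by simp) p.2).hasFDerivAt.comp p
        (hasFDerivAt_snd (𝕜 := ℝ))).fderiv
      exact (congrArg (fun M : ℝ × X →L[ℝ] F => M (1, 0)) h1).trans (by simp)

theorem TimeDer_Dx_slice {u : ℝ × X → F} (hu : ContDiff ℝ ∞ u) (s : ℝ) :
    (fun y => TimeDer_Dx u (s, y)) = fderiv ℝ fun y => u (s, y) := by
  funext y
  ext w
  exact congrFun (CalcC_slice hu s w) y

theorem TimeDer_Tm.dx {m : ℕ} : ∀ {u : ℕ → ℝ × X → F}, TimeDer_Tm T₀ m u →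
    TimeDer_Tm T₀ m fun n => TimeDer_Dx (u n) := by
  have h0 : ∀ {u : ℕ → ℝ × X → F}, TimeDer_B0 T₀ u → TimeDer_B0 T₀ fun n => TimeDer_Dx (u n) := by
    intro u hu
    refine ⟨fun n => ((hu.1 n).fderiv_right (m := ∞) (by simp)).clm_comp contDiff_const,
      fun k => (hu.2 (k + 1)).imp fun C hC n s hs y => ?_⟩
    rw [TimeDer_Dx_slice (hu.1 n), norm_iteratedFDeriv_fderiv]
    exact hC n s hs y
  induction m with
  | zero => exact h0
  | succ m ih =>
    intro u hu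
    refine ⟨h0 hu.1, (ih hu.2).congr fun n p => ?_⟩
    have hd : HasFDerivAt (fderiv ℝ (u n)) (fderiv ℝ (fderiv ℝ (u n)) p) p :=
      (((hu.1.1 n).fderiv_right (m := ∞) (by simp)).differentiable (by simp) p).hasFDerivAt
    have h1 := (hd.clm_comp (hasFDerivAt_const (ContinuousLinearMap.inr ℝ ℝ X) p)).fderiv
    have h2 := (hd.clm_apply (hasFDerivAt_const ((1, 0) : ℝ × X) p)).fderiv
    ext w
    have h3 := second_derivative_symmetric (hu.df n) hd (1, 0) (0, w)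
    unfold TimeDer_Dx
    rw [h1, h2]
    simpa using h3

theorem TimeDer_split {u : ℝ × X → F} (p : ℝ × X) (a : ℝ) (w : X) :
    fderiv ℝ u p (a, w) = a • fderiv ℝ u p (1, 0) + TimeDer_Dx u p w := by
  rw [← map_smul, TimeDer_Dx, ContinuousLinearMap.comp_apply, ← map_add]
  simp

end

theorem TimeDer_full {X : Type} [NormedAddCommGroup X] [NormedSpace ℝ X] {T₀ : ℝ} (k : ℕ) :
    ∀ {F : Type} [NormedAddCommGroup F] [NormedSpace ℝ F] {u : ℕ → ℝ × X → F},
    TimeDer_Tm T₀ k u → ∃ C, ∀ n p, |p.1| < T₀ → ‖iteratedFDeriv ℝ k (u n) p‖ ≤ C := by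
  induction k with
  | zero =>
    intro F _ _ u hu
    obtain ⟨C, hC⟩ := hu.2 0
    exact ⟨C, fun n p hp => by
      rw [norm_iteratedFDeriv_zero]; exact bx_zero.1 (hC n p.1 hp) p.2⟩
  | succ k ih =>
    intro F _ _ u hu
    have h1 := (hu.2.clm (ContinuousLinearMap.smulRightL ℝ (ℝ × X) F
      (ContinuousLinearMap.fst ℝ ℝ X))).add (hu.pred.dx.clm
        ((ContinuousLinearMap.compL ℝ (ℝ × X) X F).flip (ContinuousLinearMap.snd ℝ ℝ X)))
    obtain ⟨C, hC⟩ := ih (h1.congr (w := fun n => fderiv ℝ (u n)) fun n p =>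
      ContinuousLinearMap.ext fun w => by simpa using TimeDer_split p w.1 w.2)
    exact ⟨C, fun n p hp => by rw [← norm_iteratedFDeriv_fderiv]; exact hC n p hp⟩

theorem TimeDer_cur {T₀ R : ℝ} {m : ℕ} : ∀ {f : ℕ → PS → ℝ}, TimeDer_Tm T₀ m f →
    (∀ n, VSupp (f n)) → (∀ n s, |s| < T₀ → VS (f n) s R) →
    TimeDer_Tm T₀ m fun n => cur (f n) := by
  have h0 : ∀ {f : ℕ → PS → ℝ}, TimeDer_B0 T₀ f → (∀ n, VSupp (f n)) →
      (∀ n s, |s| < T₀ → VS (f n) s R) → TimeDer_B0 T₀ fun n => cur (f n) := by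
    intro f hf h1 h2
    refine ⟨fun n => contDiff_cur (hf.1 n) (h1 n), fun k => ?_⟩
    obtain ⟨C, -, hC⟩ := bx_cur k R
    obtain ⟨a, ha⟩ := hf.2 k
    exact ⟨C * a, fun n s hs => (hC _ (hf.1 n) (h1 n) s a (h2 n s hs) (ha n s hs)).2⟩
  induction m with
  | zero => exact h0
  | succ m ih =>
    intro f hf h1 h2
    refine ⟨h0 hf.1 h1 h2, (ih hf.2 (fun n => (h1 n).fderiv _) fun n s hs y v hv => ?_).congr
      fun n p => ?_⟩
    · have ho : IsOpen {p : PS | |p.1| < T₀ ∧ R < ‖p.2.2‖} :=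
        (isOpen_lt (f := fun p : PS => |p.1|) (by fun_prop) continuous_const).inter
          (isOpen_lt (g := fun p : PS => ‖p.2.2‖) continuous_const (by fun_prop))
      have he : f n =ᶠ[𝓝 (s, y, v)] fun _ => 0 :=
        Filter.eventually_of_mem (ho.mem_nhds ⟨hs, hv⟩) fun p hp => h2 n p.1 hp.1 p.2.1 p.2.2 hp.2
      simp only [he.fderiv_eq]
      simp
    · have hr : ContDiff ℝ ∞ fun z : PS => relVel z.2.2 := contDiff_relVel.comp (by fun_prop)
      have hv' : VSupp fun z : PS => f n z • relVel z.2.2 := fun T₁ =>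
        (h1 n T₁).imp fun R hR s y v h1 h2 => by simp only [hR s y v h1 h2, zero_smul]
      refine (fderiv_moment ((hf.1.1 n).smul hr) hv' p (1, 0)).trans ?_
      refine integral_congr_ae (Filter.Eventually.of_forall fun v => ?_)
      have h3 := HasFDerivAt.comp (f := fun z : PS => z.2.2) (p.1, p.2, v)
        (contDiff_relVel.differentiable (by simp) v).hasFDerivAt
        ((ContinuousLinearMap.snd ℝ R3 R3).comp
          (ContinuousLinearMap.snd ℝ ℝ (R3 × R3))).hasFDerivAt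
      exact (congrArg (fun M : PS →L[ℝ] R3 => M (1, 0, 0))
        ((hf.df n (p.1, p.2, v)).smul h3).fderiv).trans (by simp [Prod.mk_zero_zero])

theorem TimeDer_curl : ∃ Lc : (R3 →L[ℝ] R3) →L[ℝ] R3, ∀ {u : ST → R3}, ContDiff ℝ ∞ u →
    ∀ p : ST, curl3 (fun y => u (p.1, y)) p.2 = Lc (TimeDer_Dx u p) := by
  let c : Fin 3 → Fin 3 → (R3 →L[ℝ] R3) →L[ℝ] ℝ := fun i j =>
    (EuclideanSpace.proj j).comp (ContinuousLinearMap.apply ℝ R3 (EuclideanSpace.single i 1))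
  refine ⟨(c 1 2 - c 2 1).smulRight (EuclideanSpace.single 0 1) +
    (c 2 0 - c 0 2).smulRight (EuclideanSpace.single 1 1) +
    (c 0 1 - c 1 0).smulRight (EuclideanSpace.single 2 1), fun {u} hu p => ?_⟩
  have e : ∀ i j, pderiv (fun y => u (p.1, y) j) i p.2 = c i j (TimeDer_Dx u p) := by
    intro i j
    have h1 := ((EuclideanSpace.proj j : R3 →L[ℝ] ℝ).hasFDerivAt.comp p.2
      ((CalcC_cd hu p.1).differentiable (by simp) p.2).hasFDerivAt).fderiv
    rw [← TimeDer_Dx_slice hu] at h1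
    exact congrArg (fun M : R3 →L[ℝ] ℝ => M (EuclideanSpace.single i 1)) h1
  simp only [curl3, e]
  ext i
  fin_cases i <;> simp

theorem chain_full {f : ℕ → PS → ℝ} {E B : ℕ → ST → R3} (h : Chain f E B) {T₀ R : ℝ}
    (hv : ∀ n s, |s| < T₀ → VS (f n) s R)
    (hx : ∀ k, ∃ C, ∀ n s, |s| < T₀ → Bx k (f n) s C ∧ Bx k (E n) s C ∧ Bx k (B n) s C) (k : ℕ) :
    ∃ C, ∀ n, (∀ p : PS, |p.1| < T₀ → ‖iteratedFDeriv ℝ k (f n) p‖ ≤ C) ∧
      (∀ p : ST, |p.1| < T₀ → ‖iteratedFDeriv ℝ k (E n) p‖ ≤ C) ∧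
      ∀ p : ST, |p.1| < T₀ → ‖iteratedFDeriv ℝ k (B n) p‖ ≤ C := by
  obtain ⟨Lc, hLc⟩ := TimeDer_curl
  obtain ⟨Lx, hLx⟩ := exists_crossL
  have key : ∀ m, TimeDer_Tm T₀ m f ∧ TimeDer_Tm T₀ m E ∧ TimeDer_Tm T₀ m B := by
    intro m
    induction m with
    | zero =>
      exact ⟨⟨fun n => (h.st n).sf, fun k => (hx k).imp fun C hC n s hs => (hC n s hs).1⟩,
        ⟨fun n => (h.st n).sE', fun k => (hx k).imp fun C hC n s hs => (hC n s hs).2.1⟩,
        ⟨fun n => (h.st n).sB', fun k => (hx k).imp fun C hC n s hs => (hC n s hs).2.2⟩⟩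
    | succ m ih =>
      obtain ⟨hf, hE, hB⟩ := ih
      have hr := (TimeDer_const (T₀ := T₀) (m := m) contDiff_relVel relVel_bdd).pull
        (ContinuousLinearMap.snd ℝ R3 R3) (ContinuousLinearMap.norm_snd_le ..)
      have hE' := hE.pull (ContinuousLinearMap.fst ℝ R3 R3) (ContinuousLinearMap.norm_fst_le ..)
      have hB' := hB.pull (ContinuousLinearMap.fst ℝ R3 R3) (ContinuousLinearMap.norm_fst_le ..)
      have hW := (hr.clm (ContinuousLinearMap.inl ℝ R3 R3)).add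
        ((hE'.add (TimeDer_Tm.bil Lx hr hB')).clm (ContinuousLinearMap.inr ℝ R3 R3))
      refine ⟨⟨hf.b0, (TimeDer_Tm.bil (-ContinuousLinearMap.id ℝ (R3 × R3 →L[ℝ] ℝ)) hf.dx
        hW).congr fun n p => ?_⟩, ⟨hE.b0, TimeDer_Tm.of_succ (fun p => by simp [h.E0]) ?_⟩,
        ⟨hB.b0, TimeDer_Tm.of_succ (fun p => by simp [h.B0]) ?_⟩⟩
      · have h1 := (h.st n).vl p (mem_univ _)
        rw [VlAt, TimeDer_split, one_smul, add_eq_zero_iff_eq_neg] at h1
        rw [h1]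
        simp [lor, hLx]
      · refine (((hB.reindex (· + 1)).dx.clm Lc).add ((TimeDer_cur hf (fun n => (h.st n).vf)
          hv).clm (-ContinuousLinearMap.id ℝ R3))).congr fun n p => ?_
        rw [((h.st n).mx p (mem_univ _)).amp, hLc (h.st n).sB, sub_eq_add_neg]
        rfl
      · refine ((hE.reindex (· + 1)).dx.clm (-Lc)).congr fun n p => ?_
        rw [((h.st n).mx p (mem_univ _)).far, hLc (h.st n).sE]
        rfl
  obtain ⟨C1, h1⟩ := TimeDer_full k (key k).1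
  obtain ⟨C2, h2⟩ := TimeDer_full k (key k).2.1
  obtain ⟨C3, h3⟩ := TimeDer_full k (key k).2.2
  exact ⟨max C1 (max C2 C3), fun n => ⟨fun p hp => (h1 n p hp).trans (le_max_left _ _),
    fun p hp => (h2 n p hp).trans ((le_max_left _ _).trans (le_max_right _ _)),
    fun p hp => (h3 n p hp).trans ((le_max_right _ _).trans (le_max_right _ _))⟩⟩

end Crest.Agent.R106
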