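import Crest.Agent.R106.FrzOf
import Crest.Agent.R106.Flux2
import Crest.Agent.R106.Frozen
import Crest.Agent.R106.ForceId

/-!
# Row 106: estimates along a trajectory
-/

set_option autoImplicit false
set_option linter.unusedVariables false
set_option linter.unusedSectionVars false

open MeasureTheory Metric Set Filter Topology
open scoped ContDiff ENNReal RealInnerProductSpace
open Crest.AnalysisR.VecCalc3 Crest.AnalysisR.PDE.RVM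

noncomputable section

namespace Crest.Agent.R106

theorem TrajEst_proj (e : R3) {α : Type*} [MeasureSpace α] {c : α → ℝ} {H : α → R3}
    (h : Integrable fun a => c a • H a) :
    proj e (∫ a, c a • H a) = ∫ a, c a • proj e (H a) := by
  have := ((ContinuousLinearMap.id ℝ R3 - (innerSL ℝ e).smulRight e).integral_comp_comm h).symm
  simp only [← KerA_proj_smul]
  exact this

theorem TrajEst_flux {E B : ST → R3} {P a b c t₁ t₂ : ℝ} {X V e ed : ℝ → R3} {δ : ℝ → ℝ}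
    (hP : 1 ≤ P) (hl : 1 ≤ Real.log P) (hl' : Real.log P ≤ P ^ (1 / 100 : ℝ)) (hb : 0 ≤ b)
    (hab : a - b ≤ 2) (c₁ : 1 / 100 + b ≤ c) (c₂ : a - 57 / 50 ≤ c) (c₃ : (a - b) / 2 ≤ c)
    (h₁₂ : t₁ ≤ t₂) (hτ : t₂ - t₁ ≤ 1) (tr : Traj E B t₁ t₂ X V e ed)
    (hg : ∀ t ∈ Icc t₁ t₂, Geo P (δ t) (e t) (relVel (V t))) :
    (1 + Real.log (P ^ (-b) / P ^ (-a))) * (1 + (t₂ - t₁) / P ^ (-b)) +
      ∫ t in t₁..t₂, (ang (e t) (relVel (V t)) / P ^ (-a) + ‖ed t‖ * √(P ^ (-b) / P ^ (-a))) ≤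
      8 * (P ^ c * (1 + ∫ t in t₁..t₂, ‖ed t‖ ^ 2)) := by
  have h0 : 0 < P := one_pos.trans_le hP
  have hc : 0 < P ^ c := Real.rpow_pos_of_pos h0 c
  have hI : 0 ≤ ∫ t in t₁..t₂, ‖ed t‖ ^ 2 :=
    intervalIntegral.integral_nonneg h₁₂ fun _ _ => sq_nonneg _
  have hb1 : 1 ≤ P ^ b := Real.one_le_rpow hP hb
  have e1 : P ^ (-b) / P ^ (-a) = P ^ (a - b) := by
    rw [← Real.rpow_sub h0]
    ring_nf
  have A : (1 + Real.log (P ^ (-b) / P ^ (-a))) * (1 + (t₂ - t₁) / P ^ (-b)) ≤ 6 * P ^ c := by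
    rw [e1, Real.log_rpow h0, Real.rpow_neg h0.le, div_inv_eq_mul]
    have := (Real.rpow_add h0 _ _).ge.trans (Real.rpow_le_rpow_of_exponent_le hP c₁)
    calc _ ≤ (3 * P ^ (1 / 100 : ℝ)) * (2 * P ^ b) := by
          refine mul_le_mul (by nlinarith) (by nlinarith) ?_ (by positivity)
          have := sub_nonneg.2 h₁₂
          positivity
      _ ≤ _ := by linarith
  have ced : ContinuousOn (fun t => ‖ed t‖) (uIcc t₁ t₂) := uIcc_of_le h₁₂ ▸ tr.ced.norm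
  have i2 : IntervalIntegrable (fun t => ‖ed t‖ ^ 2) volume t₁ t₂ := (ced.pow 2).intervalIntegrable
  have Bq : ∫ t in t₁..t₂, (ang (e t) (relVel (V t)) / P ^ (-a) +
      ‖ed t‖ * √(P ^ (-b) / P ^ (-a))) ≤ ∫ t in t₁..t₂, P ^ c * (2 + ‖ed t‖ ^ 2) := by
    refine intervalIntegral.integral_mono_on h₁₂ (ContinuousOn.intervalIntegrable ?_)
      ((intervalIntegrable_const.add i2).const_mul _) fun t ht => ?_
    · refine ContinuousOn.add (ContinuousOn.div_const (continuousOn_const.sub ?_) _)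
        (ced.mul continuousOn_const)
      exact ContinuousOn.inner (𝕜 := ℝ) (uIcc_of_le h₁₂ ▸ tr.ce)
        (contDiff_relVel.continuous.comp tr.ch.cV).continuousOn
    have g := hg t ht
    have h1 : ang (e t) (relVel (V t)) / P ^ (-a) ≤ P ^ c := by
      rw [div_le_iff₀ (by positivity), ← Real.rpow_add h0]
      refine (g.mu.trans (pow_le_pow_left₀ ((norm_nonneg _).trans g.dW) g.dP 2)).trans ?_
      rw [← Real.rpow_mul_natCast h0.le]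
      exact Real.rpow_le_rpow_of_exponent_le hP (by push_cast; linarith)
    have h2 : √(P ^ (-b) / P ^ (-a)) ≤ P ^ c := by
      rw [e1, Real.sqrt_eq_rpow, ← Real.rpow_mul h0.le]
      exact Real.rpow_le_rpow_of_exponent_le hP (by linarith)
    have h3 := mul_le_mul_of_nonneg_left h2 (norm_nonneg (ed t))
    nlinarith [mul_nonneg hc.le (sq_nonneg (‖ed t‖ - 1)), mul_nonneg hc.le (norm_nonneg (ed t))]
  rw [intervalIntegral.integral_const_mul, intervalIntegral.integral_add intervalIntegrable_const i2,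
    intervalIntegral.integral_const, smul_eq_mul] at Bq
  nlinarith [mul_nonneg hc.le hI]

/-- the pointwise-in-time estimates for `W = V - Ψ/4π` along a trajectory, with time-integrable
densities -/
theorem traj_est (M 𝓔 T r₂ Cc Cd : ℝ) (hM : 0 ≤ M) (h𝓔 : 0 ≤ 𝓔) (hT : 0 ≤ T) (h₀ : 0 < r₂)
    (h₁ : r₂ ≤ 1 / 4) : ∃ C P₀ : ℝ, 0 ≤ C ∧ ∀ P, P₀ ≤ P → ∀ T' ≤ T,
    ∀ (f : PS → ℝ) (E B : ST → R3) (χ₀ χ₁ : ℝ → ℝ), Apri T' M 𝓔 f E B →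
    GSRem T' Cd f (frc E B f) E B → Cut P r₂ Cc χ₀ χ₁ →
    ∀ (τ t₁ t₂ : ℝ), P ^ (-(1 / 100 : ℝ)) ≤ τ → τ ≤ r₂ → 4 * r₂ ≤ t₁ → t₁ ≤ t₂ → t₂ - t₁ ≤ τ →
    t₂ ≤ T' → (∀ p : PS, p.1 ∈ Icc 0 t₂ → P < en p.2.2 → f p = 0) →
    ∀ (X V e ed : ℝ → R3) (δ : ℝ → ℝ), Traj E B t₁ t₂ X V e ed →
    (∀ t ∈ Icc t₁ t₂, Geo P (δ t) (e t) (relVel (V t))) →
    ∃ s y y₁ y₂ : ℝ → ℝ, IntervalIntegrable s volume t₁ t₂ ∧ ContinuousOn y (Icc t₁ t₂) ∧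
      ContinuousOn y₁ (Icc t₁ t₂) ∧ ContinuousOn y₂ (Icc t₁ t₂) ∧
      (∫ t in t₁..t₂, s t ≤ C) ∧
      (∫ t in t₁..t₂, y t ≤ C * (Real.log P * (1 + τ * ∫ t in t₁..t₂, ‖ed t‖ ^ 2) +
        P ^ (-(1 / 5 : ℝ)) * ∫ t in t₁..t₂, ‖ed t‖ ^ 2)) ∧
      (∫ t in t₁..t₂, y₁ t ≤ C * (P ^ (91 / 100 : ℝ) * (1 + ∫ t in t₁..t₂, ‖ed t‖ ^ 2))) ∧
      (∫ t in t₁..t₂, y₂ t ≤ C * (P ^ (48 / 100 : ℝ) * (1 + ∫ t in t₁..t₂, ‖ed t‖ ^ 2))) ∧
      ∀ t ∈ Icc t₁ t₂, 0 ≤ s t ∧ 0 ≤ y t ∧ 0 ≤ y₁ t ∧ 0 ≤ y₂ t ∧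
        ‖proj (e t) ((4 * Real.pi) • lor (E (t, X t)) (B (t, X t)) (V t) -
          fderiv ℝ (PsiH P χ₀ χ₁ f) (t, X t, e t) (1, relVel (V t), ed t))‖ ≤
            C * fz1 P (s t) (y t) (y₂ t) (δ t) ‖ed t‖ ∧
        ‖(4 * Real.pi) • lor (E (t, X t)) (B (t, X t)) (V t) -
          fderiv ℝ (PsiH P χ₀ χ₁ f) (t, X t, e t) (1, relVel (V t), ed t)‖ ≤
            C * (fz1 P (s t) (y t) (y₂ t) (δ t) ‖ed t‖ + fz2 P (s t) (y t) (y₁ t)) ∧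
        ‖proj (e t) (PsiH P χ₀ χ₁ f (t, X t, e t))‖ ≤
          C * (P ^ (31 / 100 : ℝ) * √(y t) + P ^ (69 / 200 : ℝ)) := by
  obtain ⟨C₁, hC₁, f1⟩ := flux_one
  obtain ⟨C₂, P₂, hC₂, f2⟩ := flux_two
  obtain ⟨C₃, P₃, hC₃, f3⟩ := frozen M 𝓔 T r₂ Cc hM h𝓔 hT h₀ h₁
  obtain ⟨P₄, f4⟩ := log_pow_le 1 (ε := 1 / 100) (by norm_num)
  have n1 := mul_nonneg h𝓔 hT
  have n2 := mul_nonneg hC₂ h𝓔
  have n3 := mul_nonneg hC₁ h𝓔
  have n4 := abs_nonneg Cd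
  set C := 𝓔 * T + C₂ * 𝓔 + C₁ * 𝓔 * 8 + (C₃ + |Cd|) with hC
  refine ⟨C, max (max P₂ P₃) (max P₄ 1), by positivity,
    fun P hP T' hT' f E B χ₀ χ₁ h hG hc τ t₁ t₂ τ0 τ1 h4 h₁₂ hτ h₂ hs X V e ed δ tr hg => ?_⟩
  simp only [max_le_iff] at hP
  obtain ⟨⟨p2, p3⟩, p4, p1⟩ := hP
  have h0 : 0 < P := one_pos.trans_le p1
  obtain ⟨l1, l2⟩ := f4 P p4
  rw [Real.rpow_one] at l2
  have hI : 0 ≤ ∫ t in t₁..t₂, ‖ed t‖ ^ 2 :=
    intervalIntegral.integral_nonneg h₁₂ fun _ _ => sq_nonneg _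
  have τp : 0 ≤ τ := (Real.rpow_nonneg h0.le _).trans τ0
  have hr : ∀ b : ℝ, 1 / 100 ≤ b → P ^ (-b) ≤ τ := fun b hb =>
    (Real.rpow_le_rpow_of_exponent_le p1 (neg_le_neg hb)).trans τ0
  obtain ⟨s, si, s0, sB, sI⟩ := h.slice h𝓔 (ρ := t₂) (by linarith) h₁₂ h₂ (by linarith) tr.ch
  obtain ⟨y, cy, hy, iy⟩ := f2 P p2 T' M 𝓔 f E B h h𝓔 τ t₁ t₂ τ0 (by linarith) (by linarith) h₁₂ hτ
    h₂ X V e ed tr fun t ht => ⟨_, hg t ht⟩
  obtain ⟨y₁, cy₁, hy₁, iy₁⟩ := f1 T' M 𝓔 f E B h h𝓔 (P ^ (-(41 / 20 : ℝ))) (P ^ (-(2 / 3 : ℝ)))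
    t₁ t₂ (by positivity) (Real.rpow_le_rpow_of_exponent_le p1 (by norm_num))
    (by linarith [hr (2 / 3) (by norm_num)]) h₁₂ h₂ X V e ed tr
  obtain ⟨y₂, cy₂, hy₂, iy₂⟩ := f1 T' M 𝓔 f E B h h𝓔 (P ^ (-(7 / 5 : ℝ))) (P ^ (-(9 / 20 : ℝ)))
    t₁ t₂ (by positivity) (Real.rpow_le_rpow_of_exponent_le p1 (by norm_num))
    (by linarith [hr (9 / 20) (by norm_num)]) h₁₂ h₂ X V e ed tr
  have key : ∀ {a b c z : ℝ}, 0 ≤ b → a - b ≤ 2 → 1 / 100 + b ≤ c → a - 57 / 50 ≤ c →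
      (a - b) / 2 ≤ c → z ≤ C₁ * 𝓔 * ((1 + Real.log (P ^ (-b) / P ^ (-a))) *
        (1 + (t₂ - t₁) / P ^ (-b)) + ∫ t in t₁..t₂, (ang (e t) (relVel (V t)) / P ^ (-a) +
          ‖ed t‖ * √(P ^ (-b) / P ^ (-a)))) → z ≤ C * (P ^ c * (1 + ∫ t in t₁..t₂, ‖ed t‖ ^ 2)) :=
    fun hb hab c₁ c₂ c₃ hz => (hz.trans (mul_le_mul_of_nonneg_left
      (TrajEst_flux p1 l1 l2 hb hab c₁ c₂ c₃ h₁₂ (by linarith) tr hg) n3)).trans
        ((mul_assoc _ _ _).ge.trans (mul_le_mul_of_nonneg_right (by linarith) (by positivity)))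
  refine ⟨s, y, y₁, y₂, si, cy, cy₁, cy₂, ?_,
    iy.trans (mul_le_mul_of_nonneg_right (by linarith) (by positivity)),
    key (by norm_num) (by norm_num) (by norm_num) (by norm_num) (by norm_num) iy₁,
    key (by norm_num) (by norm_num) (by norm_num) (by norm_num) (by norm_num) iy₂,
    fun t ht => ⟨s0 t, (hy t ht).1, (hy₁ t ht).1, (hy₂ t ht).1, ?_⟩⟩
  · linarith [mul_le_mul_of_nonneg_left ((min_le_left _ (t₂ - t₁ + t₂)).trans (h₂.trans hT')) h𝓔]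
  have t0 : 2 * r₂ < t := by linarith [ht.1]
  have tT := ht.2.trans h₂
  obtain ⟨a1, a2, a3⟩ := f3 P p3 τ t (δ t) (e t) (ed t) _ _ _ _ _ _ _ _ χ₀ χ₁
    (h.frz (T := T) p1 (hg t ht) τ0 (by linarith) h₀ t0 (tT.trans hT') tT (by linarith)
      (by linarith [hr (9 / 20) (by norm_num)]) (fun p hp => hs p ⟨hp.1, hp.2.trans ht.2⟩) h𝓔
      (s0 t) (hy t ht).1 (hy₁ t ht).1 (hy₂ t ht).1 (by simpa only [min_eq_right ht.2] using sB t ht) (hy t ht).2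
      (hy₁ t ht).2 (hy₂ t ht).2) hc (tr.orth t ht)
  obtain ⟨b1, b2⟩ := force_id hc h0 h.sol hG h₀ t0 tT (X t) (e t) (V t) (ed t)
  rw [← TrajEst_proj _ b1] at a1
  have z1 : 1 ≤ fz1 P (s t) (y t) (y₂ t) (δ t) ‖ed t‖ := by
    have := (norm_nonneg _).trans (hg t ht).dW
    have := one_le_mul_of_one_le_of_one_le p1 l1
    unfold fz1
    simp only [add_assoc]
    exact le_add_of_le_of_nonneg this (by positivity)
  have z2 : 0 ≤ fz2 P (s t) (y t) (y₁ t) := by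
    have := s0 t
    have := (hy t ht).1
    unfold fz2
    positivity
  have fin : ∀ {u v : R3} {z : ℝ}, 1 ≤ z → ‖u‖ ≤ Cd → ‖v‖ ≤ C₃ * z → ‖u + v‖ ≤ C * z :=
    fun {u v z} hz hu hv => (norm_add_le_of_le hu hv).trans (by
      nlinarith [le_abs_self Cd, mul_nonneg (add_nonneg (add_nonneg n1 n2) n3) (zero_le_one.trans hz),
        mul_nonneg n3 (zero_le_one.trans hz)])
  refine ⟨?_, by simpa only [sub_add_cancel] using fin (by linarith) b2 a2, ?_⟩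
  · have := fin z1 ((norm_proj_le (tr.e1 t ht) _).trans b2) a1
    rwa [← KerA_proj_add, sub_add_cancel] at this
  · rw [PsiH, TrajEst_proj _ (integrable_Psi hc h0 h.sol.step.sf h.sol.step.vf _ _ _)]
    refine le_trans (le_of_eq (congrArg _ (integral_congr_ae (.of_forall fun q => ?_))))
      (a3.trans (mul_le_mul_of_nonneg_right (by linarith) (by positivity)))
    by_cases hq : q.1 ∈ ball (0 : R3) t
    · simp only [Fc, indicator_of_mem hq]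
    · simp [hc.Gk_far _ _ _ (t0.le.trans (not_lt.1 (mt mem_ball_zero_iff.2 hq))), proj]

end Crest.Agent.R106
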