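import Crest.Agent.R106.UniqueAuxB

/-!
# Row 106: uniqueness of classical solutions
-/

set_option autoImplicit false
set_option linter.unusedVariables false
set_option linter.unusedSectionVars false

open MeasureTheory Metric Set Filter Topology
open scoped ContDiff ENNReal RealInnerProductSpace
open Crest.AnalysisR.VecCalc3 Crest.AnalysisR.PDE.RVM

noncomputable section

namespace Crest.Agent.R106

theorem Unique_cs {g : R3 → ℝ} (hg : Continuous g) {R : ℝ} (h0 : ∀ v, R < ‖v‖ → g v = 0) {a : ℝ}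
    (ha : 0 ≤ a) : 2 * a * ‖∫ v, g v • relVel v‖ ≤
      volume.real (closedBall (0 : R3) R) * a ^ 2 + ∫ v, g v ^ 2 := by
  have i1 : Integrable g := hg.integrable_of_hasCompactSupport (Unique_supp h0)
  have i2 : Integrable fun v => g v ^ 2 := (hg.pow 2).integrable_of_hasCompactSupport
    (Unique_supp (R := R) fun v hv => by simp [h0 v hv])
  have i3 : Integrable ((closedBall (0 : R3) R).indicator fun _ => a ^ 2) :=
    (integrableOn_const (measure_closedBall_lt_top).ne).integrable_indicator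
      measurableSet_closedBall
  have h1 : ‖∫ v, g v • relVel v‖ ≤ ∫ v, ‖g v‖ :=
    norm_integral_le_of_norm_le i1.norm (Eventually.of_forall fun v => by
      rw [norm_smul]
      exact mul_le_of_le_one_right (norm_nonneg _) (norm_relVel_lt_one v).le)
  refine (mul_le_mul_of_nonneg_left h1 (by positivity)).trans ?_
  rw [← integral_const_mul, ← smul_eq_mul (volume.real _), ← integral_indicator_const _
    measurableSet_closedBall, ← integral_add i3 i2]
  refine integral_mono (i1.norm.const_mul _) (i3.add i2) fun v => ?_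
  by_cases hv : v ∈ closedBall (0 : R3) R
  · simp only [indicator_of_mem hv, Real.norm_eq_abs]
    nlinarith [sq_nonneg (a - |g v|), sq_abs (g v)]
  · simp [indicator_of_notMem hv, h0 v (by simpa using hv)]

theorem Unique_lor_sub (E B E' B' v : R3) : lor E' B' v - lor E B v = lor (E' - E) (B' - B) v := by
  obtain ⟨L, hL⟩ := exists_crossL
  simp only [lor, ← hL, map_sub]
  abel

section main

variable {T t₁ R ρ s : ℝ} {f f' : ℝ → R3 → R3 → ℝ} {E B E' B' : ℝ → R3 → R3}

/-- the field energy of the difference -/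
def Unique_U (ρ : ℝ) (E B E' B' : ℝ → R3 → R3) (p : ST) : ℝ :=
  Unique_w ρ p * (‖E' p.1 p.2 - E p.1 p.2‖ ^ 2 + ‖B' p.1 p.2 - B p.1 p.2‖ ^ 2)

/-- the square of the difference of the densities -/
def Unique_Q (f f' : ℝ → R3 → R3 → ℝ) (p : PS) : ℝ := (f' p.1 p.2.1 p.2.2 - f p.1 p.2.1 p.2.2) ^ 2

theorem Unique_U_smooth (h : Cl T f E B) (h' : Cl T f' E' B') (ρ : ℝ) :
    ContDiffOn ℝ 1 (Unique_U ρ E B E' B') (Ico 0 T ×ˢ univ) :=
  (Unique_w_smooth ρ).contDiffOn.mul
    (((h'.cE.sub h.cE).norm_sq ℝ).add ((h'.cB.sub h.cB).norm_sq ℝ))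

theorem Unique_Q_smooth (h : Cl T f E B) (h' : Cl T f' E' B') :
    ContDiffOn ℝ 1 (Unique_Q f f') (Ico 0 T ×ˢ univ) :=
  (h'.cf.sub h.cf).pow 2

theorem Unique_U_zero (t₁ : ℝ) : ∀ s ∈ Icc 0 t₁, ∀ x, ρ < ‖x‖ → Unique_U ρ E B E' B' (s, x) = 0 :=
  fun s hs x hx => by rw [Unique_U, Unique_w_zero hs.1 hx, zero_mul]

theorem Unique_U_nonneg (p : ST) : 0 ≤ Unique_U ρ E B E' B' p :=
  mul_nonneg (Unique_w_nonneg ρ p) (by positivity)

theorem Unique_Q_zero (hR : ∀ s ∈ Icc 0 t₁, ∀ x v : R3, (R < ‖x‖ ∨ R < ‖v‖) →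
    f s x v = 0 ∧ f' s x v = 0) : ∀ s ∈ Icc 0 t₁, ∀ y, R < ‖y‖ → Unique_Q f f' (s, y) = 0 :=
  fun s hs y hy => by
    obtain ⟨h1, h2⟩ := hR s hs y.1 y.2 (lt_max_iff.1 hy)
    simp [Unique_Q, h1, h2]

theorem Unique_maxwell (h : Cl T f E B) (h' : Cl T f' E' B') (ht : t₁ < T)
    (hR : ∀ s ∈ Icc 0 t₁, ∀ x v : R3, (R < ‖x‖ ∨ R < ‖v‖) → f s x v = 0 ∧ f' s x v = 0)
    (hs : s ∈ Ioo 0 t₁) :
    ∫ x, fderiv ℝ (Unique_U ρ E B E' B') (s, x) (1, 0) ≤
      volume.real (closedBall (0 : R3) R) * (∫ x, Unique_U ρ E B E' B' (s, x)) +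
        ∫ y, Unique_Q f f' (s, y) ∂(volume.prod volume) := by
  have hs' : s ∈ Ioo 0 T := ⟨hs.1, hs.2.trans ht⟩
  have hs1 : s ∈ Ico 0 T := Ioo_subset_Ico_self hs'
  have hs2 : s ∈ Icc 0 t₁ := Ioo_subset_Icc_self hs
  have iU := Unique_int volume (Unique_U_smooth h h' ρ) ht (Unique_U_zero t₁) hs2
  have iQ := Unique_int (volume.prod volume) (Unique_Q_smooth h h') ht (Unique_Q_zero hR) hs2
  obtain ⟨L, hL⟩ := exists_crossL
  let P : Fin 3 → ST → ℝ := fun i q =>
    2 * Unique_w ρ q * cross3 (E' q.1 q.2 - E q.1 q.2) (B' q.1 q.2 - B q.1 q.2) i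
  have hP : ∀ i, ContDiffOn ℝ 1 (P i) (Ico 0 T ×ˢ univ) := fun i => by
    simp only [P, ← hL]
    exact (contDiffOn_const.mul (Unique_w_smooth ρ).contDiffOn).mul
      ((EuclideanSpace.proj i : R3 →L[ℝ] ℝ).contDiff.comp_contDiffOn
        ((L.contDiff.comp_contDiffOn (h'.cE.sub h.cE)).clm_apply (h'.cB.sub h.cB)))
  obtain ⟨d1, d2⟩ := Unique_div volume (P := fun i x => P i (s, x))
    (fun i => Unique_slice (hP i) hs1)
    (fun i => Unique_supp (R := ρ) fun x hx => by simp [P, Unique_w_zero hs.1.le hx])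
    (fun i => EuclideanSpace.single i 1)
  rw [integral_prod _ iQ, ← integral_const_mul, ← integral_add (iU.const_mul _)
    iQ.integral_prod_left]
  refine Unique_le (Unique_deriv volume (Unique_U_smooth h h' ρ) ht (Unique_U_zero t₁) hs).1 d1
    ((iU.const_mul _).add iQ.integral_prod_left) d2 fun x => ?_
  simp only [fun i => Unique_slice_fderiv (Unique_at (hP i) hs' x)]
  have hE := Unique_at h.cE hs' x
  have hB := Unique_at h.cB hs' x
  have hE' := Unique_at h'.cE hs' x
  have hB' := Unique_at h'.cB hs' x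
  obtain ⟨q1, q2⟩ := Unique_eqs (h.eqs s hs'.1 hs'.2 x) hE hB
  obtain ⟨q1', q2'⟩ := Unique_eqs (h'.eqs s hs'.1 hs'.2 x) hE' hB'
  have key := Unique_mx (hE'.sub hE) (hB'.sub hB)
    ((Unique_w_smooth ρ).differentiable one_ne_zero (s, x)).hasFDerivAt
    (J := currentDensity f' s x - currentDensity f s x)
    (by rw [sub_apply, q1, q1', Unique_curl_sub]; abel)
    (by rw [sub_apply, q2, q2', Unique_curl_sub]; abel)
  refine (le_of_eq key).trans ?_
  have c1 : Continuous fun v => f s x v :=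
    (Unique_slice h.cf hs1).continuous.comp (Continuous.prodMk_right x)
  have c2 : Continuous fun v => f' s x v :=
    (Unique_slice h'.cf hs1).continuous.comp (Continuous.prodMk_right x)
  have hJ : currentDensity f' s x - currentDensity f s x =
      ∫ v, (f' s x v - f s x v) • relVel v := by
    simp only [currentDensity, sub_smul]
    rw [integral_sub]
    · exact (c2.smul contDiff_relVel.continuous).integrable_of_hasCompactSupport
        (Unique_supp (R := R) fun v hv => by simp [(hR s hs2 x v (Or.inr hv)).2])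
    · exact (c1.smul contDiff_relVel.continuous).integrable_of_hasCompactSupport
        (Unique_supp (R := R) fun v hv => by simp [(hR s hs2 x v (Or.inr hv)).1])
  have w0 := Unique_w_nonneg ρ (s, x)
  have w1 := Unique_w_le ρ (s, x)
  have k1 := Unique_cs (c2.sub c1) (R := R)
    (fun v hv => by simp [(hR s hs2 x v (Or.inr hv)).1, (hR s hs2 x v (Or.inr hv)).2])
    (mul_nonneg w0 (norm_nonneg (E' s x - E s x)))
  have k2 := Unique_w_sign ρ (s, x) (E' s x - E s x) (B' s x - B s x)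
  have k3 := (abs_le.1 (abs_real_inner_le_norm (E' s x - E s x)
    (∫ v, (f' s x v - f s x v) • relVel v))).1
  have k4 : (Unique_w ρ (s, x) * ‖E' s x - E s x‖) ^ 2 ≤ Unique_U ρ E B E' B' (s, x) := by
    simp only [Unique_U]
    nlinarith [mul_nonneg w0 (sq_nonneg ‖B' s x - B s x‖), mul_nonneg (mul_nonneg w0
      (sub_nonneg.2 w1)) (sq_nonneg ‖E' s x - E s x‖)]
  have k5 := mul_le_mul_of_nonneg_left k4 (measureReal_nonneg (μ := volume)
    (s := closedBall (0 : R3) R))
  have k6 := mul_le_mul_of_nonneg_left k3 w0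
  simp only [Pi.sub_apply, hJ, Unique_Q] at k1 ⊢
  linarith

theorem Unique_vlasov (h : Cl T f E B) (h' : Cl T f' E' B') (ht : t₁ < T)
    (hR : ∀ s ∈ Icc 0 t₁, ∀ x v : R3, (R < ‖x‖ ∨ R < ‖v‖) → f s x v = 0 ∧ f' s x v = 0)
    (hρ : t₁ + R + 2 ≤ ρ) {C : ℝ} (hC : ∀ s ∈ Ioo 0 t₁, ∀ y : R3 × R3, ‖y‖ ≤ R →
      ‖fderiv ℝ (fun p : PS => f p.1 p.2.1 p.2.2) (s, y)‖ ≤ C) (hs : s ∈ Ioo 0 t₁) :
    ∫ y, fderiv ℝ (Unique_Q f f') (s, y) (1, 0) ∂(volume.prod volume) ≤
      (∫ y, Unique_Q f f' (s, y) ∂(volume.prod volume)) + 2 * C ^ 2 *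
        (∫ x, Unique_U ρ E B E' B' (s, x)) * volume.real (closedBall (0 : R3) R) := by
  have hs' : s ∈ Ioo 0 T := ⟨hs.1, hs.2.trans ht⟩
  have hs1 : s ∈ Ico 0 T := Ioo_subset_Ico_self hs'
  have hs2 : s ∈ Icc 0 t₁ := Ioo_subset_Icc_self hs
  have iU := Unique_int volume (Unique_U_smooth h h' ρ) ht (Unique_U_zero t₁) hs2
  have iQ := Unique_int (volume.prod volume) (Unique_Q_smooth h h') ht (Unique_Q_zero hR) hs2
  have i3 : Integrable ((closedBall (0 : R3) R).indicator fun _ => (1 : ℝ)) :=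
    (integrableOn_const (measure_closedBall_lt_top).ne).integrable_indicator
      measurableSet_closedBall
  have hu := Unique_slice (Unique_Q_smooth h h') hs1
  have hc := Unique_supp (Unique_Q_zero hR s hs2)
  have hv : ContDiff ℝ 1 relVel := contDiff_relVel.of_le (by exact_mod_cast le_top)
  have hK : ContDiff ℝ 1 fun y : R3 × R3 => lor (E' s y.1) (B' s y.1) y.2 :=
    (contDiff_lor.of_le (by exact_mod_cast le_top)).comp
      (((Unique_slice h'.cE hs1).comp contDiff_fst).prodMk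
        (((Unique_slice h'.cB hs1).comp contDiff_fst).prodMk contDiff_snd))
  have hc1 : ∀ i, ContDiff ℝ 1 fun y : R3 × R3 => relVel y.2 i := fun i =>
    (EuclideanSpace.proj i : R3 →L[ℝ] ℝ).contDiff.comp (hv.comp contDiff_snd)
  have hc2 : ∀ i, ContDiff ℝ 1 fun y : R3 × R3 => lor (E' s y.1) (B' s y.1) y.2 i := fun i =>
    (EuclideanSpace.proj i : R3 →L[ℝ] ℝ).contDiff.comp hK
  obtain ⟨d1, d2⟩ := Unique_divfree (volume.prod volume) hu hc hc1
    (fun i => (EuclideanSpace.single i 1, 0)) fun y => Finset.sum_eq_zero fun i _ => by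
      have : HasFDerivAt (fun y : R3 × R3 => relVel y.2 i) _ y := Unique_coord
        ((hv.differentiable one_ne_zero y.2).hasFDerivAt.comp y hasFDerivAt_snd) i
      rw [this.fderiv]
      simp
  obtain ⟨d3, d4⟩ := Unique_divfree (volume.prod volume) hu hc hc2
    (fun i => (0, EuclideanSpace.single i 1)) fun y => by
      rw [← div3_lor (E' s y.1) (B' s y.1) y.2, div3]
      refine Finset.sum_congr rfl fun i _ => ?_
      have : HasFDerivAt (fun w => lor (E' s y.1) (B' s y.1) w i) _ y.2 :=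
        ((hc2 i).differentiable one_ne_zero y).hasFDerivAt.comp (f := fun w => (y.1, w)) y.2
          (hasFDerivAt_prodMk_right y.1 y.2)
      rw [pderiv, this.fderiv]
      simp
  have i4 := (iU.const_mul (2 * C ^ 2)).mul_prod i3
  have e4 : 2 * C ^ 2 * (∫ x, Unique_U ρ E B E' B' (s, x)) * volume.real (closedBall (0 : R3) R) =
      ∫ y : R3 × R3, (2 * C ^ 2 * Unique_U ρ E B E' B' (s, y.1)) *
        (closedBall (0 : R3) R).indicator (fun _ => (1 : ℝ)) y.2 ∂(volume.prod volume) := by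
    rw [integral_prod_mul (fun x => 2 * C ^ 2 * Unique_U ρ E B E' B' (s, x)), integral_const_mul,
      integral_indicator_const _ measurableSet_closedBall, smul_eq_mul, mul_one]
  rw [e4, ← integral_add iQ i4]
  refine Unique_le (Unique_deriv _ (Unique_Q_smooth h h') ht (Unique_Q_zero hR) hs).1 (d1.add d3)
    (iQ.add i4) (by rw [integral_add' d1 d3, d2, d4, add_zero]) fun y => ?_
  obtain ⟨x, v⟩ := y
  have hf := Unique_at h.cf hs' (x, v)
  have hf' := Unique_at h'.cf hs' (x, v)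
  have q := Unique_vl (h.eqs s hs'.1 hs'.2 x) v hf
  have q' := Unique_vl (h'.eqs s hs'.1 hs'.2 x) v hf'
  have hb := hC s hs (x, v)
  generalize fderiv ℝ (fun p : PS => f p.1 p.2.1 p.2.2) (s, x, v) = D at hf q hb
  generalize fderiv ℝ (fun p : PS => f' p.1 p.2.1 p.2.2) (s, x, v) = D' at hf' q'
  have hQ : HasFDerivAt (Unique_Q f f') ((2 * (f' s x v - f s x v)) • (D' - D)) (s, x, v) := by
    have := (hf'.sub hf).pow 2
    simp only [Nat.add_one_sub_one, pow_one, nsmul_eq_mul, Nat.cast_ofNat, Pi.sub_apply] at this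
    exact this
  have e1 : ∑ i, relVel v i • ((EuclideanSpace.single i 1, 0) : R3 × R3) = (relVel v, 0) :=
    Prod.ext (by simp [Prod.fst_sum, Unique_vec]) (by simp [Prod.snd_sum])
  have e2 : ∑ i, lor (E' s x) (B' s x) v i • ((0, EuclideanSpace.single i 1) : R3 × R3) =
      (0, lor (E' s x) (B' s x) v) :=
    Prod.ext (by simp [Prod.fst_sum]) (by simp [Prod.snd_sum, Unique_vec])
  have e3 : D (1, relVel v, lor (E' s x) (B' s x) v) =
      D (0, 0, lor (E' s x - E s x) (B' s x - B s x) v) := by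
    have e : ((0, 0, lor (E' s x - E s x) (B' s x - B s x) v) : PS) =
        (1, relVel v, lor (E' s x) (B' s x) v) - (1, relVel v, lor (E s x) (B s x) v) := by
      simp [Unique_lor_sub]
    rw [e, map_sub, q, sub_zero]
  simp only [Pi.add_apply, Unique_slice_fderiv hQ, hQ.fderiv, e1, e2, ← map_add]
  simp only [Prod.mk_add_mk, add_zero, zero_add, smul_apply,
    sub_apply, q', e3, smul_eq_mul, Unique_Q]
  by_cases hy : R < ‖x‖ ∨ R < ‖v‖
  · obtain ⟨z1, z2⟩ := hR s hs2 x v hy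
    have := Unique_U_nonneg (ρ := ρ) (E := E) (B := B) (E' := E') (B' := B') (s, x)
    have : 0 ≤ (closedBall (0 : R3) R).indicator (fun _ => (1 : ℝ)) v :=
      indicator_nonneg (fun _ _ => zero_le_one) v
    rw [z1, z2, sub_self, mul_zero, zero_mul]
    positivity
  · obtain ⟨z1, z2⟩ := not_or.1 hy
    rw [not_lt] at z1 z2
    have hb' := hb (max_le z1 z2)
    rw [indicator_of_mem (by simpa using z2), Unique_U, Unique_w_one (by linarith [hs.2])]
    have k1 : |D (0, 0, lor (E' s x - E s x) (B' s x - B s x) v)| ≤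
        C * (‖E' s x - E s x‖ + ‖B' s x - B s x‖) := by
      refine (D.le_opNorm _).trans (mul_le_mul hb' ?_ (norm_nonneg _) ((norm_nonneg _).trans hb'))
      simpa [Prod.norm_def] using norm_lor_le (E' s x - E s x) (B' s x - B s x) v
    have k2 := sq_le_sq' (abs_le.1 k1).1 (abs_le.1 k1).2
    nlinarith [sq_nonneg (f' s x v - f s x v + D (0, 0, lor (E' s x - E s x) (B' s x - B s x) v)),
      mul_nonneg (sq_nonneg C) (sq_nonneg (‖E' s x - E s x‖ - ‖B' s x - B s x‖))]

end main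

theorem Cl.unique {T : ℝ} {f f' : ℝ → R3 → R3 → ℝ} {E B E' B' : ℝ → R3 → R3}
    (h : Cl T f E B) (h' : Cl T f' E' B') (hf : f' 0 = f 0) (hE : E' 0 = E 0) (hB : B' 0 = B 0) :
    ∀ t ∈ Ico 0 T, f' t = f t ∧ E' t = E t ∧ B' t = B t := by
  intro t ht
  obtain ⟨R₁, h₁⟩ := h.supp t ht.1 ht.2
  obtain ⟨R₂, h₂⟩ := h'.supp t ht.1 ht.2
  have hR : ∀ s ∈ Icc 0 t, ∀ x v : R3, (max R₁ R₂ < ‖x‖ ∨ max R₁ R₂ < ‖v‖) →
      f s x v = 0 ∧ f' s x v = 0 := fun s hs x v hx =>
    ⟨h₁ s hs x v (hx.imp (le_max_left _ _).trans_lt (le_max_left _ _).trans_lt),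
      h₂ s hs x v (hx.imp (le_max_right _ _).trans_lt (le_max_right _ _).trans_lt)⟩
  generalize max R₁ R₂ = R at hR
  obtain ⟨C, -, hC⟩ := Unique_bound h.cf ht.2 R
  have ht2 : t ∈ Icc 0 t := right_mem_Icc.2 ht.1
  have key : ∀ ρ, t + R + 2 ≤ ρ → (∀ x, Unique_U ρ E B E' B' (t, x) = 0) ∧
      ∀ y, Unique_Q f f' (t, y) = 0 := by
    intro ρ hρ
    have sU := Unique_U_smooth h h' ρ
    have sQ := Unique_Q_smooth h h'
    have n1 : ∀ s, 0 ≤ ∫ x, Unique_U ρ E B E' B' (s, x) := fun s =>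
      integral_nonneg fun x => Unique_U_nonneg _
    have n2 : ∀ s, 0 ≤ ∫ y, Unique_Q f f' (s, y) ∂(volume.prod volume) := fun s =>
      integral_nonneg fun x => sq_nonneg _
    have hV : 0 ≤ volume.real (closedBall (0 : R3) R) := measureReal_nonneg
    have k := Unique_gron (C := (1 + 2 * C ^ 2) * volume.real (closedBall (0 : R3) R) + 2) ht.1
      ((Unique_cont volume sU ht.2 (Unique_U_zero t)).add
        (Unique_cont (volume.prod volume) sQ ht.2 (Unique_Q_zero hR)))
      (fun s hs => (Unique_deriv volume sU ht.2 (Unique_U_zero t) hs).2.add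
        (Unique_deriv (volume.prod volume) sQ ht.2 (Unique_Q_zero hR) hs).2)
      (fun s hs => by
        have a1 := Unique_maxwell (ρ := ρ) h h' ht.2 hR hs
        have a2 := Unique_vlasov h h' ht.2 hR hρ hC hs
        have a3 : 0 ≤ (1 + 2 * C ^ 2) * volume.real (closedBall (0 : R3) R) := by positivity
        simp only [Pi.add_apply]
        nlinarith [mul_nonneg a3 (n2 s), n1 s])
      (by simp [Unique_U, Unique_Q, hf, hE, hB])
    simp only [Pi.add_apply] at k
    constructor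
    · have z : ∫ x, Unique_U ρ E B E' B' (t, x) = 0 := by linarith [n1 t, n2 t]
      rw [integral_eq_zero_iff_of_nonneg (fun x => Unique_U_nonneg _)
        (Unique_int volume sU ht.2 (Unique_U_zero t) ht2)] at z
      exact congrFun (((Unique_slice sU ht).continuous.ae_eq_iff_eq _ continuous_zero).1 z)
    · have z : ∫ y, Unique_Q f f' (t, y) ∂(volume.prod volume) = 0 := by linarith [n1 t, n2 t]
      rw [integral_eq_zero_iff_of_nonneg (f := fun y => Unique_Q f f' (t, y)) (fun x => sq_nonneg _)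
        (Unique_int _ sQ ht.2 (Unique_Q_zero hR) ht2)] at z
      exact congrFun (((Unique_slice sQ ht).continuous.ae_eq_iff_eq _ continuous_zero).1 z)
  have key2 : ∀ x, E' t x = E t x ∧ B' t x = B t x := fun x => by
    have := (key (max (t + R + 2) (t + ‖x‖ + 2)) (le_max_left _ _)).1 x
    rw [Unique_U, Unique_w_one (le_max_right _ _), one_mul, add_eq_zero_iff_of_nonneg
      (sq_nonneg _) (sq_nonneg _)] at this
    simpa [sub_eq_zero] using this
  refine ⟨funext fun x => funext fun v => ?_, funext fun x => (key2 x).1,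
    funext fun x => (key2 x).2⟩
  simpa [Unique_Q, sub_eq_zero] using (key _ le_rfl).2 (x, v)

end Crest.Agent.R106
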