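import Crest.Agent.R106.CalcC

/-!
# Row 106: calculus on a time slab (auxiliary file for `Unique`)
-/

set_option autoImplicit false
set_option linter.unusedVariables false
set_option linter.unusedSectionVars false

open MeasureTheory Metric Set Filter Topology
open scoped ContDiff ENNReal RealInnerProductSpace
open Crest.AnalysisR.VecCalc3 Crest.AnalysisR.PDE.RVM

noncomputable section

namespace Crest.Agent.R106

section gen

variable {X : Type*} [NormedAddCommGroup X] [NormedSpace ℝ X]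
  {F : Type*} [NormedAddCommGroup F] [NormedSpace ℝ F] {T t₁ s R : ℝ}

theorem Unique_at {U : ℝ × X → F} (hU : ContDiffOn ℝ 1 U (Ico 0 T ×ˢ univ)) (hs : s ∈ Ioo 0 T)
    (x : X) : HasFDerivAt U (fderiv ℝ U (s, x)) (s, x) :=
  ((hU.contDiffAt (prod_mem_nhds (Ico_mem_nhds hs.1 hs.2) univ_mem)).differentiableAt
    one_ne_zero).hasFDerivAt

theorem Unique_slice {U : ℝ × X → F} (hU : ContDiffOn ℝ 1 U (Ico 0 T ×ˢ univ)) (hs : s ∈ Ico 0 T) :
    ContDiff ℝ 1 fun x => U (s, x) := by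
  rw [← contDiffOn_univ]
  exact hU.comp (contDiff_const.prodMk contDiff_id).contDiffOn fun x _ => ⟨hs, trivial⟩

theorem Unique_slice_fderiv {U : ℝ × X → F} {x : X} {D : ℝ × X →L[ℝ] F}
    (h : HasFDerivAt U D (s, x)) (w : X) : fderiv ℝ (fun x => U (s, x)) x w = D (0, w) := by
  have h1 : HasFDerivAt (fun x => U (s, x)) (D.comp (ContinuousLinearMap.inr ℝ ℝ X)) x :=
    h.comp x (hasFDerivAt_prodMk_right s x)
  rw [h1.fderiv]
  simp

theorem Unique_time {U : ℝ × X → F} {x : X} {D : ℝ × X →L[ℝ] F}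
    (h : HasFDerivAt U D (s, x)) : HasDerivAt (fun s => U (s, x)) (D (1, 0)) s :=
  h.comp_hasDerivAt s ((hasDerivAt_id s).prodMk (hasDerivAt_const s x))

theorem Unique_cont_fderiv {U : ℝ × X → F} (hU : ContDiffOn ℝ 1 U (Ico 0 T ×ˢ univ))
    (hs : s ∈ Ioo 0 T) : Continuous fun x => fderiv ℝ U (s, x) := by
  have h1 : ContinuousOn (fderiv ℝ U) (Ioo 0 T ×ˢ univ) :=
    (hU.mono (prod_mono Ioo_subset_Ico_self le_rfl)).continuousOn_fderiv_of_isOpen
      (isOpen_Ioo.prod isOpen_univ) le_rfl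
  exact h1.comp_continuous (continuous_const.prodMk continuous_id) fun x => ⟨hs, trivial⟩

theorem Unique_supp {u : X → F} [ProperSpace X] (h : ∀ x, R < ‖x‖ → u x = 0) :
    HasCompactSupport u :=
  HasCompactSupport.intro (isCompact_closedBall 0 R) fun x hx => h x (by simpa using hx)

variable [FiniteDimensional ℝ X]

theorem Unique_bound {U : ℝ × X → F} (hU : ContDiffOn ℝ 1 U (Ico 0 T ×ˢ univ)) (ht : t₁ < T)
    (R : ℝ) : ∃ C, 0 ≤ C ∧ ∀ s ∈ Ioo 0 t₁, ∀ x, ‖x‖ ≤ R → ‖fderiv ℝ U (s, x)‖ ≤ C := by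
  have := FiniteDimensional.proper_real X
  have h1 := hU.continuousOn_fderivWithin ((uniqueDiffOn_Ico 0 T).prod uniqueDiffOn_univ) le_rfl
  obtain ⟨C, hC⟩ := ((isCompact_Icc (a := 0) (b := t₁)).prod
    (isCompact_closedBall (0 : X) R)).exists_bound_of_continuousOn
    (h1.mono (prod_mono (Icc_subset_Ico_right ht) (subset_univ _)))
  refine ⟨max C 0, le_max_right _ _, fun s hs x hx => le_max_of_le_left ?_⟩
  rw [← fderivWithin_of_mem_nhds (prod_mem_nhds (Ico_mem_nhds hs.1 (hs.2.trans ht)) univ_mem)]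
  exact hC _ ⟨Ioo_subset_Icc_self hs, by simpa using hx⟩

variable [MeasurableSpace X] [BorelSpace X] (μ : Measure X) [μ.IsAddHaarMeasure]

theorem Unique_int {U : ℝ × X → F} (hU : ContDiffOn ℝ 1 U (Ico 0 T ×ˢ univ)) (ht : t₁ < T)
    (h0 : ∀ s ∈ Icc 0 t₁, ∀ x, R < ‖x‖ → U (s, x) = 0) (hs : s ∈ Icc 0 t₁) :
    Integrable (fun x => U (s, x)) μ := by
  have := FiniteDimensional.proper_real X
  exact (Unique_slice hU (Icc_subset_Ico_right ht hs)).continuous.integrable_of_hasCompactSupport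
    (Unique_supp (h0 s hs))

theorem Unique_cont {U : ℝ × X → ℝ} (hU : ContDiffOn ℝ 1 U (Ico 0 T ×ˢ univ)) (ht : t₁ < T)
    (h0 : ∀ s ∈ Icc 0 t₁, ∀ x, R < ‖x‖ → U (s, x) = 0) :
    ContinuousOn (fun s => ∫ x, U (s, x) ∂μ) (Icc 0 t₁) := by
  have := FiniteDimensional.proper_real X
  exact continuousOn_integral_of_compact_support (f := fun s x => U (s, x))
    (isCompact_closedBall (0 : X) R)
    (hU.continuousOn.mono (prod_mono (Icc_subset_Ico_right ht) le_rfl))
    fun s x hs hx => h0 s hs x (by simpa using hx)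

theorem Unique_deriv {U : ℝ × X → ℝ} (hU : ContDiffOn ℝ 1 U (Ico 0 T ×ˢ univ)) (ht : t₁ < T)
    (h0 : ∀ s ∈ Icc 0 t₁, ∀ x, R < ‖x‖ → U (s, x) = 0) (hs : s ∈ Ioo 0 t₁) :
    Integrable (fun x => fderiv ℝ U (s, x) (1, 0)) μ ∧
      HasDerivAt (fun s => ∫ x, U (s, x) ∂μ) (∫ x, fderiv ℝ U (s, x) (1, 0) ∂μ) s := by
  have := FiniteDimensional.proper_real X
  obtain ⟨C, hC0, hC⟩ := Unique_bound hU ht R
  have hn : Ioo 0 t₁ ∈ 𝓝 s := Ioo_mem_nhds hs.1 hs.2
  have hd : ∀ x, ∀ r ∈ Ioo 0 t₁, HasDerivAt (fun s => U (s, x)) (fderiv ℝ U (r, x) (1, 0)) r :=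
    fun x r hr => Unique_time (Unique_at hU ⟨hr.1, hr.2.trans ht⟩ x)
  refine hasDerivAt_integral_of_dominated_loc_of_deriv_le (F := fun s x => U (s, x))
    (F' := fun s x => fderiv ℝ U (s, x) (1, 0))
    (bound := (closedBall (0 : X) R).indicator fun _ => C * ‖((1, 0) : ℝ × X)‖) hn ?_
    (Unique_int μ hU ht h0 (Ioo_subset_Icc_self hs)) ?_ (Eventually.of_forall fun x r hr => ?_) ?_
    (Eventually.of_forall hd)
  · filter_upwards [hn] with r hr
    exact (Unique_int μ hU ht h0 (Ioo_subset_Icc_self hr)).aestronglyMeasurable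
  · exact ((Unique_cont_fderiv hU ⟨hs.1, hs.2.trans ht⟩).clm_apply
      continuous_const).aestronglyMeasurable
  · by_cases hx : x ∈ closedBall (0 : X) R
    · rw [indicator_of_mem hx]
      exact (ContinuousLinearMap.le_opNorm _ _).trans
        (mul_le_mul_of_nonneg_right (hC r hr x (by simpa using hx)) (norm_nonneg _))
    · rw [indicator_of_notMem hx]
      have h1 : HasDerivAt (fun s => U (s, x)) 0 r := by
        refine (hasDerivAt_const r (0 : ℝ)).congr_of_eventuallyEq ?_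
        filter_upwards [Ioo_mem_nhds hr.1 hr.2] with q hq
        exact h0 q (Ioo_subset_Icc_self hq) x (by simpa using hx)
      rw [(hd x r hr).unique h1, norm_zero]
  · exact (integrableOn_const (measure_closedBall_lt_top).ne).integrable_indicator
      measurableSet_closedBall

theorem Unique_div {ι : Type*} [Fintype ι] {P : ι → X → ℝ} (hP : ∀ i, ContDiff ℝ 1 (P i))
    (hc : ∀ i, HasCompactSupport (P i)) (w : ι → X) :
    Integrable (fun x => ∑ i, fderiv ℝ (P i) x (w i)) μ ∧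
      ∫ x, ∑ i, fderiv ℝ (P i) x (w i) ∂μ = 0 := by
  have hi : ∀ i, Integrable (fun x => fderiv ℝ (P i) x (w i)) μ := fun i =>
    (((hP i).continuous_fderiv one_ne_zero).clm_apply
      continuous_const).integrable_of_hasCompactSupport ((hc i).fderiv_apply ℝ (w i))
  refine ⟨integrable_finsetSum _ fun i _ => hi i, ?_⟩
  rw [integral_finsetSum _ fun i _ => hi i]
  exact Finset.sum_eq_zero fun i _ => integral_fderiv_eq_zero' μ (hP i) (hc i) (w i)

/-- transport by a divergence free field -/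
theorem Unique_divfree {ι : Type*} [Fintype ι] {u : X → ℝ} (hu : ContDiff ℝ 1 u)
    (hc : HasCompactSupport u) {c : ι → X → ℝ} (hcc : ∀ i, ContDiff ℝ 1 (c i)) (w : ι → X)
    (h0 : ∀ x, ∑ i, fderiv ℝ (c i) x (w i) = 0) :
    Integrable (fun x => fderiv ℝ u x (∑ i, c i x • w i)) μ ∧
      ∫ x, fderiv ℝ u x (∑ i, c i x • w i) ∂μ = 0 := by
  have e : ∀ x, fderiv ℝ u x (∑ i, c i x • w i) = ∑ i, fderiv ℝ (fun y => u y * c i y) x (w i) := by
    intro x
    have h1 : ∀ i, fderiv ℝ (fun y => u y * c i y) x (w i) =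
        u x * fderiv ℝ (c i) x (w i) + c i x * fderiv ℝ u x (w i) := fun i => by
      rw [fderiv_fun_mul (hu.differentiable one_ne_zero x) ((hcc i).differentiable one_ne_zero x)]
      simp
    simp only [h1, Finset.sum_add_distrib, ← Finset.mul_sum, h0, mul_zero, zero_add, map_sum,
      map_smul, smul_eq_mul]
  simp only [e]
  exact Unique_div μ (fun i => hu.mul (hcc i)) (fun i => hc.mul_right) w

end gen

theorem Unique_le {α : Type*} [MeasurableSpace α] {μ : Measure α} {a d G : α → ℝ}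
    (ha : Integrable a μ) (hd : Integrable d μ) (hG : Integrable G μ) (h0 : ∫ x, d x ∂μ = 0)
    (h : ∀ x, a x + d x ≤ G x) : ∫ x, a x ∂μ ≤ ∫ x, G x ∂μ := by
  rw [← add_zero (∫ x, a x ∂μ), ← h0, ← integral_add ha hd]
  exact integral_mono (ha.add hd) hG h

theorem Unique_gron {Φ Φ' : ℝ → ℝ} {t₁ C : ℝ} (ht : 0 ≤ t₁) (hc : ContinuousOn Φ (Icc 0 t₁))
    (hd : ∀ s ∈ Ioo 0 t₁, HasDerivAt Φ (Φ' s) s) (hle : ∀ s ∈ Ioo 0 t₁, Φ' s ≤ C * Φ s)
    (h0 : Φ 0 = 0) : Φ t₁ ≤ 0 := by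
  have hd' : ∀ s ∈ Ioo 0 t₁, HasDerivAt (fun s => Real.exp (-C * s) * Φ s)
      (Real.exp (-C * s) * (Φ' s - C * Φ s)) s := fun s hs => by
    have h1 := (((hasDerivAt_id' s).const_mul (-C)).exp.mul (hd s hs))
    refine h1.congr_deriv ?_
    ring
  have h1 : AntitoneOn (fun s => Real.exp (-C * s) * Φ s) (Icc 0 t₁) := by
    refine antitoneOn_of_deriv_nonpos (convex_Icc _ _) (ContinuousOn.mul (by fun_prop) hc) ?_ ?_
    · rw [interior_Icc]
      exact fun s hs => (hd' s hs).differentiableAt.differentiableWithinAt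
    · rw [interior_Icc]
      intro s hs
      rw [(hd' s hs).deriv]
      exact mul_nonpos_of_nonneg_of_nonpos (Real.exp_pos _).le (sub_nonpos.2 (hle s hs))
  have h2 := h1 (left_mem_Icc.2 ht) (right_mem_Icc.2 ht) ht
  simp only [h0, mul_zero] at h2
  exact nonpos_of_mul_nonpos_right h2 (Real.exp_pos _)

theorem Unique_vec (v : R3) : ∑ i, v i • (EuclideanSpace.single i (1 : ℝ) : R3) = v := by
  ext j
  simp [Pi.single_apply]

end Crest.Agent.R106
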