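import Crest.Agent.R106.UniqueAuxA

/-!
# Row 106: pointwise identities for the uniqueness proof
-/

set_option autoImplicit false
set_option linter.unusedVariables false
set_option linter.unusedSectionVars false

open MeasureTheory Metric Set Filter Topology
open scoped ContDiff ENNReal RealInnerProductSpace
open Crest.AnalysisR.VecCalc3 Crest.AnalysisR.PDE.RVM

noncomputable section

namespace Crest.Agent.R106

/-- the curl read off from a space-time derivative -/
def Unique_curl (A : ST →L[ℝ] R3) : R3 :=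
  WithLp.toLp 2 ![A (0, EuclideanSpace.single 1 1) 2 - A (0, EuclideanSpace.single 2 1) 1,
    A (0, EuclideanSpace.single 2 1) 0 - A (0, EuclideanSpace.single 0 1) 2,
    A (0, EuclideanSpace.single 0 1) 1 - A (0, EuclideanSpace.single 1 1) 0]

theorem Unique_curl_sub (A A' : ST →L[ℝ] R3) :
    Unique_curl (A - A') = Unique_curl A - Unique_curl A' := by
  ext i
  fin_cases i <;> simp [Unique_curl] <;> ring

theorem Unique_coord {X : Type*} [NormedAddCommGroup X] [NormedSpace ℝ X] {U : X → R3}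
    {A : X →L[ℝ] R3} {p : X} (h : HasFDerivAt U A p) (i : Fin 3) :
    HasFDerivAt (fun q => U q i) ((EuclideanSpace.proj i : R3 →L[ℝ] ℝ).comp A) p :=
  (EuclideanSpace.proj i : R3 →L[ℝ] ℝ).hasFDerivAt.comp p h

theorem Unique_curl_eq {E : ℝ → R3 → R3} {A : ST →L[ℝ] R3} {s : ℝ} {x : R3}
    (h : HasFDerivAt (fun p : ST => E p.1 p.2) A (s, x)) : curl3 (E s) x = Unique_curl A := by
  have e : ∀ i j, pderiv (fun y => E s y i) j x = A (0, EuclideanSpace.single j 1) i := fun i j =>
    Unique_slice_fderiv (Unique_coord h i) _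
  simp only [curl3, e, Unique_curl]

theorem Unique_dt {E : ℝ → R3 → R3} {A : ST →L[ℝ] R3} {s : ℝ} {x : R3}
    (h : HasFDerivAt (fun p : ST => E p.1 p.2) A (s, x)) (i : Fin 3) :
    deriv (fun s => E s x i) s = A (1, 0) i :=
  (Unique_time (Unique_coord h i)).deriv

theorem Unique_eqs {f : ℝ → R3 → R3 → ℝ} {E B : ℝ → R3 → R3} {s : ℝ} {x : R3}
    (h : EquationsHoldAt f E B s x) {A A' : ST →L[ℝ] R3}
    (hE : HasFDerivAt (fun p : ST => E p.1 p.2) A (s, x))
    (hB : HasFDerivAt (fun p : ST => B p.1 p.2) A' (s, x)) :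
    A (1, 0) = Unique_curl A' - currentDensity f s x ∧ A' (1, 0) = -Unique_curl A := by
  constructor
  · ext i
    have := h.2.1 i
    rw [Unique_dt hE, Unique_curl_eq hB] at this
    simp only [PiLp.sub_apply]
    linarith
  · ext i
    have := h.2.2.1 i
    rw [Unique_dt hB, Unique_curl_eq hE] at this
    simp only [PiLp.neg_apply]
    linarith

theorem Unique_vl {f : ℝ → R3 → R3 → ℝ} {E B : ℝ → R3 → R3} {s : ℝ} {x : R3}
    (h : EquationsHoldAt f E B s x) (v : R3) {D : PS →L[ℝ] ℝ}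
    (hf : HasFDerivAt (fun p : PS => f p.1 p.2.1 p.2.2) D (s, x, v)) :
    D (1, relVel v, lor (E s x) (B s x) v) = 0 := by
  have h1 : deriv (fun s => f s x v) s = D (1, 0) := (Unique_time hf).deriv
  have h0 : HasFDerivAt (fun y : R3 × R3 => f s y.1 y.2)
      (D.comp (ContinuousLinearMap.inr ℝ ℝ (R3 × R3))) (x, v) :=
    hf.comp (x, v) (hasFDerivAt_prodMk_right s (x, v))
  have h2 : ∀ i, pderiv (fun y => f s y v) i x = D (0, EuclideanSpace.single i 1, 0) := fun i => by
    have : HasFDerivAt (fun y => f s y v) _ x :=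
      h0.comp (f := fun y => (y, v)) x (hasFDerivAt_prodMk_left x v)
    rw [pderiv, this.fderiv]
    simp
  have h3 : ∀ i, pderiv (fun w => f s x w) i v = D (0, 0, EuclideanSpace.single i 1) := fun i => by
    have : HasFDerivAt (fun w => f s x w) _ v := h0.comp v (hasFDerivAt_prodMk_right x v)
    rw [pderiv, this.fderiv]
    simp
  have := h.1 v
  simp only [h1, h2, h3] at this
  rw [← this]
  have e : ((1, relVel v, lor (E s x) (B s x) v) : PS) = (1, 0) +
      ∑ i, relVel v i • ((0, EuclideanSpace.single i 1, 0) : PS) +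
      ∑ i, (E s x i + cross3 (relVel v) (B s x) i) • ((0, 0, EuclideanSpace.single i 1) : PS) := by
    refine Prod.ext (by simp [Prod.fst_sum]) (Prod.ext ?_ ?_)
    · simp [Prod.fst_sum, Prod.snd_sum, Unique_vec]
    · simpa [Prod.fst_sum, Prod.snd_sum, lor] using (Unique_vec (lor (E s x) (B s x) v)).symm
  rw [e]
  simp only [map_add, map_sum, map_smul, smul_eq_mul]

theorem Unique_mx {e b : ST → R3} {w : ST → ℝ} {p : ST} {A A' : ST →L[ℝ] R3} {W : ST →L[ℝ] ℝ}
    (he : HasFDerivAt e A p) (hb : HasFDerivAt b A' p) (hw : HasFDerivAt w W p) {J : R3}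
    (h1 : A (1, 0) = Unique_curl A' - J) (h2 : A' (1, 0) = -Unique_curl A) :
    fderiv ℝ (fun q => w q * (‖e q‖ ^ 2 + ‖b q‖ ^ 2)) p (1, 0) +
      ∑ i, fderiv ℝ (fun q => 2 * w q * cross3 (e q) (b q) i) p (0, EuclideanSpace.single i 1) =
      W (1, 0) * (‖e p‖ ^ 2 + ‖b p‖ ^ 2) + 2 * W (0, cross3 (e p) (b p)) -
        2 * w p * ⟪e p, J⟫ := by
  obtain ⟨L, hL⟩ := exists_crossL
  have d1 : HasFDerivAt (fun q => w q * (‖e q‖ ^ 2 + ‖b q‖ ^ 2)) _ p :=
    hw.mul (he.norm_sq.add hb.norm_sq)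
  have d2 : ∀ i, fderiv ℝ (fun q => 2 * w q * cross3 (e q) (b q) i) p
      (0, EuclideanSpace.single i 1) = 2 * w p * (cross3 (e p) (A' (0, EuclideanSpace.single i 1)) i
        + cross3 (A (0, EuclideanSpace.single i 1)) (b p) i) +
          cross3 (e p) (b p) i * (2 * W (0, EuclideanSpace.single i 1)) := fun i => by
    have : HasFDerivAt (fun q => 2 * w q * L (e q) (b q) i) _ p :=
      (hw.const_mul 2).mul (Unique_coord ((L.hasFDerivAt.comp p he).clm_apply hb) i)
    simp only [← hL]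
    rw [this.fderiv]
    simp [mul_add]
  have d3 : W (0, cross3 (e p) (b p)) =
      ∑ i, cross3 (e p) (b p) i * W (0, EuclideanSpace.single i 1) := by
    have : ((0, cross3 (e p) (b p)) : ST) =
        ∑ i, cross3 (e p) (b p) i • ((0, EuclideanSpace.single i 1) : ST) :=
      Prod.ext (by simp [Prod.fst_sum]) (by simp [Prod.snd_sum, Unique_vec])
    rw [this]
    simp only [map_sum, map_smul, smul_eq_mul]
  rw [d1.fderiv, d3]
  simp only [d2]
  simp [h1, h2, Unique_curl, cross3, Fin.sum_univ_three, PiLp.inner_apply]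
  ring

/-- the weight -/
def Unique_w (ρ : ℝ) (p : ST) : ℝ := Real.smoothTransition (ρ - p.1 - en p.2)

theorem Unique_w_smooth (ρ : ℝ) : ContDiff ℝ 1 (Unique_w ρ) :=
  Real.smoothTransition.contDiff.comp ((contDiff_const.sub contDiff_fst).sub
    ((contDiff_en.of_le (by exact_mod_cast le_top)).comp contDiff_snd))

theorem Unique_w_nonneg (ρ : ℝ) (p : ST) : 0 ≤ Unique_w ρ p := Real.smoothTransition.nonneg _

theorem Unique_w_le (ρ : ℝ) (p : ST) : Unique_w ρ p ≤ 1 := Real.smoothTransition.le_one _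

theorem Unique_w_zero {ρ s : ℝ} (hs : 0 ≤ s) {x : R3} (hx : ρ < ‖x‖) : Unique_w ρ (s, x) = 0 :=
  Real.smoothTransition.zero_of_nonpos (by have := norm_le_en x; dsimp only; linarith)

theorem Unique_w_one {ρ s : ℝ} {x : R3} (hx : s + ‖x‖ + 2 ≤ ρ) : Unique_w ρ (s, x) = 1 :=
  Real.smoothTransition.one_of_one_le (by have := en_le x; dsimp only; linarith)

theorem Unique_w_sign (ρ : ℝ) (p : ST) (e b : R3) :
    fderiv ℝ (Unique_w ρ) p (1, 0) * (‖e‖ ^ 2 + ‖b‖ ^ 2) +
      2 * fderiv ℝ (Unique_w ρ) p (0, cross3 e b) ≤ 0 := by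
  have h1 : HasFDerivAt en (fderiv ℝ en p.2) p.2 :=
    (contDiff_en.differentiable (by simp) _).hasFDerivAt
  have h2 : HasDerivAt Real.smoothTransition (deriv Real.smoothTransition (ρ - p.1 - en p.2))
      (ρ - p.1 - en p.2) :=
    ((Real.smoothTransition.contDiff (n := 1)).differentiable one_ne_zero _).hasDerivAt
  have h3 : HasFDerivAt (Unique_w ρ) _ p := h2.comp_hasFDerivAt p
    ((hasFDerivAt_fst.const_sub ρ).sub (h1.comp p hasFDerivAt_snd))
  have h4 : 0 ≤ deriv Real.smoothTransition (ρ - p.1 - en p.2) :=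
    Real.smoothTransition.monotone.deriv_nonneg
  have h5 : -(‖e‖ * ‖b‖) ≤ ⟪relVel p.2, cross3 e b⟫ := by
    refine (abs_le.1 ((abs_real_inner_le_norm _ _).trans ?_)).1
    exact (mul_le_of_le_one_left (norm_nonneg _) (norm_relVel_lt_one _).le).trans
      (norm_cross3_le e b)
  rw [h3.fderiv]
  simp [fderiv_en]
  nlinarith [mul_nonneg h4 (sq_nonneg (‖e‖ - ‖b‖)), mul_nonneg h4 (sub_nonneg.2 h5)]

end Crest.Agent.R106
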