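import Crest.Agent.R106.BdLem
import Crest.Agent.R106.Axi
import Crest.Agent.R106.Geom

/-!
# Row 106: integrals over the momentum ball
-/

set_option autoImplicit false
set_option linter.unusedVariables false
set_option linter.unusedSectionVars false

open MeasureTheory Metric Set Filter Topology
open scoped ContDiff ENNReal RealInnerProductSpace
open Crest.AnalysisR.VecCalc3 Crest.AnalysisR.PDE.RVM

noncomputable section

namespace Crest.Agent.R106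

/-- the integrand `v₀^a (1 - v̂·ν)^b` on `v₀ ≤ P` -/
def velI (P a b : ℝ) (ν v : R3) : ℝ :=
  {v : R3 | en v ≤ P}.indicator (fun v => en v ^ a * ang (relVel v) ν ^ b) v

theorem Vel_cont_ang : Continuous fun q : R3 × R3 => ang (relVel q.2) q.1 :=
  continuous_const.sub ((contDiff_relVel.continuous.comp continuous_snd).inner continuous_fst)

theorem measurable_velI (P a b : ℝ) :
    Measurable fun q : R3 × R3 => velI P a b q.1 q.2 := by
  have h1 : Measurable fun q : R3 × R3 => en q.2 := measurable_en.comp measurable_snd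
  have h2 := Vel_cont_ang.measurable
  have h3 : (fun q : R3 × R3 => velI P a b q.1 q.2) = {q : R3 × R3 | en q.2 ≤ P}.indicator
      fun q => en q.2 ^ a * ang (relVel q.2) q.1 ^ b := rfl
  rw [h3]
  exact ((h1.pow_const a).mul (h2.pow_const b)).indicator (measurableSet_le h1 measurable_const)

/-- the basic product bound: a function of `z` times a velocity integrand -/
theorem Bd.prod_vel {c : R3 → ℝ} {ν : R3 → R3} {P a b Cz V : ℝ} (mc : Measurable c)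
    (mν : Measurable ν) (c0 : ∀ z, 0 ≤ c z) (hν : ∀ᵐ z, ‖ν z‖ = 1) (hc : Bd c Cz) (hV0 : 0 ≤ V)
    (hV : ∀ ν : R3, ‖ν‖ = 1 → Bd (velI P a b ν) V) :
    Bd (fun q : R3 × R3 => c q.1 * velI P a b (ν q.1) q.2) (V * Cz) := by
  refine Bd.of_inner (G := fun z => V * c z) ?_ ?_ (hc.const_mul hV0)
  · exact ((mc.comp measurable_fst).mul ((measurable_velI P a b).comp
      ((mν.comp measurable_fst).prodMk measurable_snd))).aemeasurable
  · filter_upwards [hν] with z hz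
    rw [mul_comm V]
    exact (hV _ hz).const_mul (c0 z)

theorem Vel_cmul {S : Set ℝ} {g : ℝ → ℝ} {c C : ℝ} (hc : 0 ≤ c)
    (h : ∫⁻ x in S, ENNReal.ofReal (g x) ≤ ENNReal.ofReal C) :
    ∫⁻ x in S, ENNReal.ofReal (c * g x) ≤ ENNReal.ofReal (c * C) := by
  simp only [ENNReal.ofReal_mul hc]
  rw [lintegral_const_mul' _ _ ENNReal.ofReal_ne_top]
  gcongr

theorem Vel_const {c ε : ℝ} (hc : 0 ≤ c) :
    ∫⁻ _ in Ioc (0 : ℝ) ε, ENNReal.ofReal c ≤ ENNReal.ofReal (c * ε) := by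
  rw [setLIntegral_const, Real.volume_Ioc, sub_zero, ENNReal.ofReal_mul hc]

theorem Vel_one {S S₁ : Set ℝ} {f g₁ : ℝ → ℝ} {C₁ : ℝ} (hS : MeasurableSet S)
    (h₁ : MeasurableSet S₁) (h : ∀ x ∈ S, f x ≤ 0 ∨ (x ∈ S₁ ∧ f x ≤ g₁ x))
    (i₁ : ∫⁻ x in S₁, ENNReal.ofReal (g₁ x) ≤ ENNReal.ofReal C₁) :
    ∫⁻ x in S, ENNReal.ofReal (f x) ≤ ENNReal.ofReal C₁ := by
  refine le_trans ?_ i₁
  rw [← lintegral_indicator h₁]
  refine (setLIntegral_mono' hS fun x hx => ?_).trans (setLIntegral_le_lintegral _ _)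
  rcases h x hx with h0 | ⟨h1, h2⟩
  · rw [ENNReal.ofReal_of_nonpos h0]; exact zero_le
  · rw [indicator_of_mem h1]; exact ENNReal.ofReal_le_ofReal h2

theorem Vel_split {S S₁ S₂ : Set ℝ} {f g₁ g₂ : ℝ → ℝ} {C₁ C₂ : ℝ} (hS : MeasurableSet S)
    (h₁ : MeasurableSet S₁) (h₂ : MeasurableSet S₂) (m₁ : Measurable g₁) (hC₁ : 0 ≤ C₁)
    (hC₂ : 0 ≤ C₂)
    (h : ∀ x ∈ S, f x ≤ 0 ∨ (x ∈ S₁ ∧ f x ≤ g₁ x) ∨ (x ∈ S₂ ∧ f x ≤ g₂ x))
    (i₁ : ∫⁻ x in S₁, ENNReal.ofReal (g₁ x) ≤ ENNReal.ofReal C₁)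
    (i₂ : ∫⁻ x in S₂, ENNReal.ofReal (g₂ x) ≤ ENNReal.ofReal C₂) :
    ∫⁻ x in S, ENNReal.ofReal (f x) ≤ ENNReal.ofReal (C₁ + C₂) := by
  rw [ENNReal.ofReal_add hC₁ hC₂]
  refine le_trans ?_ (add_le_add i₁ i₂)
  rw [← lintegral_indicator h₁, ← lintegral_indicator h₂,
    ← lintegral_add_left (m₁.ennreal_ofReal.indicator h₁)]
  refine (setLIntegral_mono' hS fun x hx => ?_).trans (setLIntegral_le_lintegral _ _)
  rcases h x hx with h0 | ⟨h1, h2⟩ | ⟨h1, h2⟩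
  · rw [ENNReal.ofReal_of_nonpos h0]; exact zero_le
  · rw [indicator_of_mem h1]; exact (ENNReal.ofReal_le_ofReal h2).trans le_self_add
  · rw [indicator_of_mem h1]; exact (ENNReal.ofReal_le_ofReal h2).trans le_add_self

theorem Vel_ang_eq (ν v : R3) :
    ang (relVel v) ν = 1 - ‖v‖ / √(1 + ‖v‖ ^ 2) * (1 - qq ν v) := by
  simp only [ang, qq, nz, relVel, real_inner_smul_right, sub_sub_cancel,
    real_inner_comm]
  by_cases hv : v = 0
  · simp [hv]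
  · have : ‖v‖ ≠ 0 := norm_ne_zero_iff.2 hv
    field_simp

theorem Vel_Q {r : ℝ} (hr : 0 ≤ r) : 1 ≤ √(1 + r ^ 2) ∧ r ≤ √(1 + r ^ 2) ∧ √(1 + r ^ 2) ≤ 1 + r :=
  ⟨Real.one_le_sqrt.2 (by nlinarith), Real.le_sqrt_of_sq_le (by linarith),
    Real.sqrt_le_iff.2 ⟨by linarith, by nlinarith⟩⟩

theorem Vel_A {r q : ℝ} (hr : 0 ≤ r) (hq : q ∈ Ioo (0 : ℝ) 2) :
    q / 2 ≤ 1 - r / √(1 + r ^ 2) * (1 - q) ∧
      (2 * √(1 + r ^ 2) ^ 2)⁻¹ ≤ 1 - r / √(1 + r ^ 2) * (1 - q) ∧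
      1 - r / √(1 + r ^ 2) * (1 - q) ≤ 2 := by
  obtain ⟨h1, h2, -⟩ := Vel_Q hr
  have h3 : √(1 + r ^ 2) ^ 2 = 1 + r ^ 2 := Real.sq_sqrt (by positivity)
  generalize √(1 + r ^ 2) = Q at h1 h2 h3
  have hQ : 0 < Q := by linarith
  have s0 : 0 ≤ r / Q := by positivity
  have s1 : r / Q ≤ 1 := (div_le_one hQ).2 h2
  have s2 : (2 * Q ^ 2)⁻¹ ≤ 1 - r / Q := by
    rw [inv_eq_one_div, one_sub_div hQ.ne', div_le_div_iff₀ (by positivity) hQ]
    have : (Q - r) * (Q + r) = 1 := by linarith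
    nlinarith [mul_nonneg (mul_nonneg hQ.le (sub_nonneg.2 h2)) (sub_nonneg.2 h2)]
  generalize r / Q = s at s0 s1 s2
  obtain ⟨q0, q2⟩ := hq
  refine ⟨by nlinarith, by nlinarith, by nlinarith⟩

/-- Reduction to an angular and a radial integral. -/
theorem Vel_red {ν : R3} (hν : ‖ν‖ = 1) {h : ℝ × ℝ → ℝ} (hm : Measurable h) {c K P R : ℝ}
    (hK : 0 ≤ K)
    (hang : ∀ Q, 1 ≤ Q → Q ≤ P → ∀ A : ℝ → ℝ,
      (∀ q ∈ Ioo (0 : ℝ) 2, q / 2 ≤ A q ∧ (2 * Q ^ 2)⁻¹ ≤ A q ∧ A q ≤ 2) →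
      ∫⁻ q in Ioo (0 : ℝ) 2, ENNReal.ofReal (h (Q, A q)) ≤ ENNReal.ofReal (K * Q ^ c))
    (hrad : ∫⁻ r in Ioi (0 : ℝ), ENNReal.ofReal
      (r ^ 2 * if √(1 + r ^ 2) ≤ P then √(1 + r ^ 2) ^ c else 0) ≤ ENNReal.ofReal R) :
    Bd ({v : R3 | en v ≤ P}.indicator fun v => h (en v, ang (relVel v) ν))
      (2 * Real.pi * (K * R)) := by
  have hQ : Measurable fun p : ℝ × ℝ => √(1 + p.1 ^ 2) := by fun_prop
  have key := Bd.cone hν (g := fun p : ℝ × ℝ => if √(1 + p.1 ^ 2) ≤ P then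
      h (√(1 + p.1 ^ 2), 1 - p.1 / √(1 + p.1 ^ 2) * (1 - p.2)) else 0)
    (Measurable.ite (measurableSet_le hQ measurable_const) (hm.comp (hQ.prodMk (by fun_prop)))
      measurable_const)
    (G := fun r => K * if √(1 + r ^ 2) ≤ P then √(1 + r ^ 2) ^ c else 0) (C := K * R) ?_ ?_
  · refine key.mono (Eventually.of_forall fun v => le_of_eq ?_) le_rfl
    simp only [indicator_apply, mem_ofPred_eq, Vel_ang_eq, en]
  · intro r hr
    by_cases hP : √(1 + r ^ 2) ≤ P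
    · simp only [hP, if_true]
      exact hang _ (Vel_Q hr.le).1 hP _ fun q hq => Vel_A hr.le hq
    · simp [hP]
  · simp only [mul_left_comm _ K]
    exact Vel_cmul hK hrad

theorem Vel_rad_pt (c : ℝ) {P r : ℝ} (hr : 0 < r) :
    (r ^ 2 * if √(1 + r ^ 2) ≤ P then √(1 + r ^ 2) ^ c else 0) ≤ 0 ∨
      (r ∈ Ioc (0 : ℝ) 1 ∧
        (r ^ 2 * if √(1 + r ^ 2) ≤ P then √(1 + r ^ 2) ^ c else 0) ≤ 2 ^ |c|) ∨
      (r ∈ Icc 1 P ∧
        (r ^ 2 * if √(1 + r ^ 2) ≤ P then √(1 + r ^ 2) ^ c else 0) ≤ 2 ^ |c| * r ^ (c + 2)) := by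
  obtain ⟨h1, h2, h3⟩ := Vel_Q hr.le
  generalize √(1 + r ^ 2) = Q at h1 h2 h3
  by_cases hP : Q ≤ P
  swap
  · left; simp [hP]
  right
  simp only [hP, if_true]
  have key : ∀ x : ℝ, 1 ≤ x → x ≤ 2 → x ^ c ≤ 2 ^ |c| := fun x hx hx2 =>
    (Real.rpow_le_rpow_of_exponent_le hx (le_abs_self c)).trans
      (Real.rpow_le_rpow (by linarith) hx2 (abs_nonneg c))
  rcases le_total r 1 with h | h
  · left
    refine ⟨⟨hr, h⟩, ?_⟩
    have h4 : r ^ 2 ≤ 1 := by nlinarith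
    calc r ^ 2 * Q ^ c ≤ 1 * 2 ^ |c| := by
          have := key Q h1 (by linarith)
          gcongr
      _ = _ := one_mul _
  · right
    refine ⟨⟨h, h2.trans hP⟩, ?_⟩
    have h4 := key (Q / r) ((one_le_div hr).2 h2) ((div_le_iff₀ hr).2 (by linarith))
    rw [Real.div_rpow (by linarith) hr.le, div_le_iff₀ (Real.rpow_pos_of_pos hr c)] at h4
    rw [Real.rpow_add hr, Real.rpow_two]
    nlinarith [sq_nonneg r]

theorem Vel_rad (c : ℝ) (hc : -3 < c) : ∃ K : ℝ, 0 ≤ K ∧ ∀ P, 1 ≤ P →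
    ∫⁻ r in Ioi (0 : ℝ), ENNReal.ofReal
      (r ^ 2 * if √(1 + r ^ 2) ≤ P then √(1 + r ^ 2) ^ c else 0) ≤
      ENNReal.ofReal (K * P ^ (c + 3)) := by
  have h3 : 0 < c + 3 := by linarith
  refine ⟨2 ^ |c| * (1 + 1 / (c + 3)), by positivity, fun P hP => ?_⟩
  have i₂ := Vel_cmul (c := 2 ^ |c|) (by positivity)
    (lint_rpow_gt (β := c + 2) (b := P) (by linarith) (by linarith))
  rw [show c + 2 + 1 = c + 3 by ring] at i₂
  refine (Vel_split (S₂ := Ioc 0 P) measurableSet_Ioi measurableSet_Ioc measurableSet_Ioc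
    measurable_const (by positivity) (by positivity) (fun r hr => ?_)
    (Vel_const (c := 2 ^ |c|) (ε := 1) (by positivity)) i₂).trans (ENNReal.ofReal_le_ofReal ?_)
  · rcases Vel_rad_pt c (P := P) hr with h | h | h
    · exact Or.inl h
    · exact Or.inr (Or.inl h)
    · exact Or.inr (Or.inr ⟨⟨hr, h.1.2⟩, h.2⟩)
  · have h1 : 1 ≤ P ^ (c + 3) := Real.one_le_rpow hP h3.le
    rw [← mul_add, mul_assoc]
    gcongr
    rw [add_mul, one_div_mul_eq_div]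
    linarith

theorem Vel_rad3 : ∃ K : ℝ, 0 ≤ K ∧ ∀ P, 3 ≤ P →
    ∫⁻ r in Ioi (0 : ℝ), ENNReal.ofReal
      (r ^ 2 * if √(1 + r ^ 2) ≤ P then √(1 + r ^ 2) ^ (-3 : ℝ) else 0) ≤
      ENNReal.ofReal (K * Real.log P) := by
  refine ⟨2 ^ |(-3 : ℝ)| * 2, by positivity, fun P hP => ?_⟩
  have i₂ := Vel_cmul (c := 2 ^ |(-3 : ℝ)|) (by positivity)
    (lint_inv (a := 1) (b := P) one_pos (by linarith))
  rw [div_one] at i₂
  have hl : 1 ≤ Real.log P := by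
    rw [Real.le_log_iff_exp_le (by linarith)]
    linarith [Real.exp_one_lt_d9]
  refine (Vel_split measurableSet_Ioi measurableSet_Ioc measurableSet_Icc
    measurable_const (by positivity) (by positivity) (fun r hr => ?_)
    (Vel_const (c := 2 ^ |(-3 : ℝ)|) (ε := 1) (by positivity)) i₂).trans
    (ENNReal.ofReal_le_ofReal ?_)
  · have := Vel_rad_pt (-3) (P := P) hr
    rwa [show (-3 : ℝ) + 2 = -1 by norm_num, Real.rpow_neg_one] at this
  · rw [← mul_add, mul_assoc]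
    gcongr
    linarith

theorem Vel_half {b q A : ℝ} (hb : b ≤ 0) (hq : 0 < q) (h : q / 2 ≤ A) :
    A ^ b ≤ 2 ^ (-b) * q ^ b := by
  refine (Real.rpow_le_rpow_of_nonpos (by positivity) h hb).trans (le_of_eq ?_)
  rw [Real.div_rpow hq.le (by norm_num), Real.rpow_neg (by norm_num), div_eq_inv_mul]

theorem Vel_ang_gt (b : ℝ) (hb : -1 < b) : ∃ K : ℝ, 0 ≤ K ∧ ∀ A : ℝ → ℝ,
    (∀ q ∈ Ioo (0 : ℝ) 2, q / 2 ≤ A q ∧ A q ≤ 2) →
    ∫⁻ q in Ioo (0 : ℝ) 2, ENNReal.ofReal (A q ^ b) ≤ ENNReal.ofReal K := by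
  rcases le_total b 0 with h0 | h0
  · have h1 : 0 < b + 1 := by linarith
    refine ⟨2 ^ (-b) * (2 ^ (b + 1) / (b + 1)), by positivity, fun A hA => ?_⟩
    exact Vel_one measurableSet_Ioo measurableSet_Ioc
      (fun q hq => Or.inr ⟨Ioo_subset_Ioc_self hq, Vel_half h0 hq.1 (hA q hq).1⟩)
      (Vel_cmul (by positivity) (lint_rpow_gt hb (by norm_num)))
  · refine ⟨2 ^ b * 2, by positivity, fun A hA => ?_⟩
    exact Vel_one measurableSet_Ioo measurableSet_Ioc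
      (fun q hq => Or.inr ⟨Ioo_subset_Ioc_self hq, Real.rpow_le_rpow
        (le_trans (by linarith [hq.1]) (hA q hq).1) (hA q hq).2 h0⟩)
      (Vel_const (by positivity))

theorem Vel_ang_log {P Q : ℝ} (hP : 3 ≤ P) (hQ : 1 ≤ Q) (hQP : Q ≤ P) (A : ℝ → ℝ)
    (hA : ∀ q ∈ Ioo (0 : ℝ) 2, q / 2 ≤ A q ∧ (2 * Q ^ 2)⁻¹ ≤ A q ∧ A q ≤ 2) :
    ∫⁻ q in Ioo (0 : ℝ) 2, ENNReal.ofReal (A q ^ (-1 : ℝ)) ≤ ENNReal.ofReal (9 * Real.log P) := by
  have hε : 0 < (2 * Q ^ 2)⁻¹ := by positivity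
  have hε2 : (2 * Q ^ 2)⁻¹ ≤ 2 := (inv_le_one_of_one_le₀ (by nlinarith)).trans (by norm_num)
  have hl : 1 ≤ Real.log P := by
    rw [Real.le_log_iff_exp_le (by linarith)]
    linarith [Real.exp_one_lt_d9]
  have hlog : Real.log (2 / (2 * Q ^ 2)⁻¹) ≤ 4 * Real.log P := by
    rw [show (4 : ℝ) = (4 : ℕ) by norm_num, ← Real.log_pow]
    refine Real.log_le_log (by positivity) ?_
    rw [div_inv_eq_mul]
    have h1 : Q ^ 2 ≤ P ^ 2 := by gcongr
    have h2 : 4 ≤ P ^ 2 := by nlinarith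
    nlinarith [mul_le_mul_of_nonneg_right h2 (sq_nonneg P)]
  refine (Vel_split measurableSet_Ioo measurableSet_Ioc measurableSet_Icc measurable_const
    (by positivity) (mul_nonneg (by norm_num) (Real.log_nonneg ((one_le_div hε).2 hε2)))
    (fun q hq => Or.inr ?_) (Vel_const (c := 2 * Q ^ 2) (ε := (2 * Q ^ 2)⁻¹) (by positivity))
    (Vel_cmul (c := 2) (by norm_num) (lint_inv hε hε2))).trans (ENNReal.ofReal_le_ofReal ?_)
  · obtain ⟨h1, h2, -⟩ := hA q hq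
    rw [Real.rpow_neg_one]
    rcases le_total q (2 * Q ^ 2)⁻¹ with h | h
    · exact Or.inl ⟨⟨hq.1, h⟩, inv_le_of_inv_le₀ (by positivity) h2⟩
    · refine Or.inr ⟨⟨h, hq.2.le⟩, ?_⟩
      have := hq.1
      refine (inv_anti₀ (by positivity) h1).trans (le_of_eq ?_)
      rw [inv_div, div_eq_mul_inv]
  · rw [mul_inv_cancel₀ (by positivity)]
    linarith

theorem Vel_ang_lt (b : ℝ) (hb : b < -1) : ∃ K : ℝ, 0 ≤ K ∧ ∀ Q : ℝ, 1 ≤ Q → ∀ A : ℝ → ℝ,
    (∀ q ∈ Ioo (0 : ℝ) 2, q / 2 ≤ A q ∧ (2 * Q ^ 2)⁻¹ ≤ A q) →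
    ∫⁻ q in Ioo (0 : ℝ) 2, ENNReal.ofReal (A q ^ b) ≤
      ENNReal.ofReal (K * Q ^ (-2 * (b + 1))) := by
  have h1 : 0 < -(b + 1) := by linarith
  refine ⟨(1 + 2 ^ (-b) / (-(b + 1))) * 2 ^ (-(b + 1)), by positivity, fun Q hQ A hA => ?_⟩
  have hε : 0 < (2 * Q ^ 2)⁻¹ := by positivity
  refine (Vel_split measurableSet_Ioo measurableSet_Ioc measurableSet_Ici measurable_const
    (by positivity) (by positivity) (fun q hq => Or.inr ?_)
    (Vel_const (c := (2 * Q ^ 2)⁻¹ ^ b) (ε := (2 * Q ^ 2)⁻¹) (by positivity))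
    (Vel_cmul (c := 2 ^ (-b)) (by positivity) (lint_rpow_lt hb hε))).trans
    (ENNReal.ofReal_le_ofReal (le_of_eq ?_))
  · obtain ⟨h1, h2⟩ := hA q hq
    rcases le_total q (2 * Q ^ 2)⁻¹ with h | h
    · exact Or.inl ⟨⟨hq.1, h⟩, Real.rpow_le_rpow_of_nonpos hε h2 (by linarith)⟩
    · exact Or.inr ⟨h, Vel_half (by linarith) hq.1 h1⟩
  · have h2 : (2 * Q ^ 2)⁻¹ ^ (b + 1) = 2 ^ (-(b + 1)) * Q ^ (-2 * (b + 1)) := by
      rw [Real.inv_rpow (by positivity), ← Real.rpow_neg (by positivity),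
        Real.mul_rpow (by norm_num) (by positivity), ← Real.rpow_two,
        ← Real.rpow_mul (by linarith)]
      congr 2
      ring
    rw [← Real.rpow_add_one hε.ne', h2]
    ring

theorem Vel_meas (a b : ℝ) : Measurable fun p : ℝ × ℝ => p.1 ^ a * p.2 ^ b :=
  (measurable_fst.pow_const a).mul (measurable_snd.pow_const b)

theorem vel_gt (a b : ℝ) (ha : -3 < a) (hb : -1 < b) : ∃ C : ℝ, 0 ≤ C ∧ ∀ P, 1 ≤ P →
    ∀ ν : R3, ‖ν‖ = 1 → Bd (velI P a b ν) (C * P ^ (a + 3)) := by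
  obtain ⟨K, hK, h1⟩ := Vel_ang_gt b hb
  obtain ⟨K', hK', h2⟩ := Vel_rad a ha
  refine ⟨2 * Real.pi * (K * K'), by positivity, fun P hP ν hν => ?_⟩
  refine (Vel_red hν (Vel_meas a b) hK (fun Q hQ _ A hA => ?_) (h2 P hP)).mono
    (Eventually.of_forall fun v => le_rfl) (le_of_eq (by ring))
  rw [mul_comm K]
  exact Vel_cmul (by positivity) (h1 A fun q hq => ⟨(hA q hq).1, (hA q hq).2.2⟩)

theorem vel_log (a : ℝ) (ha : -3 < a) : ∃ C : ℝ, 0 ≤ C ∧ ∀ P, 3 ≤ P →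
    ∀ ν : R3, ‖ν‖ = 1 → Bd (velI P a (-1) ν) (C * (P ^ (a + 3) * Real.log P)) := by
  obtain ⟨K', hK', h2⟩ := Vel_rad a ha
  refine ⟨2 * Real.pi * (9 * K'), by positivity, fun P hP ν hν => ?_⟩
  have hl : 0 ≤ Real.log P := Real.log_nonneg (by linarith)
  refine (Vel_red hν (Vel_meas a (-1)) (K := 9 * Real.log P) (by positivity)
    (fun Q hQ hQP A hA => ?_) (h2 P (by linarith))).mono
    (Eventually.of_forall fun v => le_rfl) (le_of_eq (by ring))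
  rw [mul_comm (9 * _)]
  exact Vel_cmul (by positivity) (Vel_ang_log hP hQ hQP A hA)

theorem vel_log2 : ∃ C : ℝ, 0 ≤ C ∧ ∀ P, 3 ≤ P →
    ∀ ν : R3, ‖ν‖ = 1 → Bd (velI P (-3) (-1) ν) (C * Real.log P ^ 2) := by
  obtain ⟨K', hK', h2⟩ := Vel_rad3
  refine ⟨2 * Real.pi * (9 * K'), by positivity, fun P hP ν hν => ?_⟩
  have hl : 0 ≤ Real.log P := Real.log_nonneg (by linarith)
  refine (Vel_red hν (Vel_meas (-3) (-1)) (K := 9 * Real.log P) (by positivity)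
    (fun Q hQ hQP A hA => ?_) (h2 P hP)).mono
    (Eventually.of_forall fun v => le_rfl) (le_of_eq (by ring))
  rw [mul_comm (9 * _)]
  exact Vel_cmul (by positivity) (Vel_ang_log hP hQ hQP A hA)

theorem vel_lt (a b : ℝ) (hb : b < -1) (ha : -1 < a - 2 * b) : ∃ C : ℝ, 0 ≤ C ∧ ∀ P, 1 ≤ P →
    ∀ ν : R3, ‖ν‖ = 1 → Bd (velI P a b ν) (C * P ^ (a - 2 * b + 1)) := by
  obtain ⟨K, hK, h1⟩ := Vel_ang_lt b hb
  obtain ⟨K', hK', h2⟩ := Vel_rad (a + -2 * (b + 1)) (by linarith)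
  refine ⟨2 * Real.pi * (K * K'), by positivity, fun P hP ν hν => ?_⟩
  refine (Vel_red hν (Vel_meas a b) hK (fun Q hQ _ A hA => ?_) (h2 P hP)).mono
    (Eventually.of_forall fun v => le_rfl) (le_of_eq ?_)
  · rw [Real.rpow_add (by linarith), mul_left_comm]
    exact Vel_cmul (by positivity) (h1 Q hQ A fun q hq => ⟨(hA q hq).1, (hA q hq).2.1⟩)
  · rw [show a + -2 * (b + 1) + 3 = a - 2 * b + 1 by ring]
    ring

/-- a cap `θ² ≤ α` -/
theorem vel_cap : ∃ C : ℝ, 0 ≤ C ∧ ∀ P, 1 ≤ P → ∀ ν : R3, ‖ν‖ = 1 → ∀ α, 0 ≤ α →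
    Bd (fun v => {v : R3 | ang (relVel v) ν ≤ α}.indicator (velI P 0 (-(1 / 2)) ν) v)
      (C * (P ^ 3 * √α)) := by
  obtain ⟨K', hK', h2⟩ := Vel_rad 0 (by norm_num)
  refine ⟨2 * Real.pi * (4 * K'), by positivity, fun P hP ν hν α hα => ?_⟩
  refine (Vel_red hν (h := fun p : ℝ × ℝ => if p.2 ≤ α then p.2 ^ (-(1 / 2) : ℝ) else 0)
    (Measurable.ite (measurableSet_le measurable_snd measurable_const)
      (measurable_snd.pow_const _) measurable_const) (K := 4 * √α) (by positivity)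
    (fun Q hQ _ A hA => ?_) (h2 P hP)).mono
    (Eventually.of_forall fun v => le_of_eq ?_) (le_of_eq ?_)
  · refine (Vel_one measurableSet_Ioo measurableSet_Ioc (fun q hq => ?_)
      (Vel_cmul (c := 2 ^ (-(-(1 / 2) : ℝ))) (by positivity)
        (lint_rpow_gt (β := -(1 / 2)) (b := 2 * α) (by norm_num) (by positivity)))).trans
      (ENNReal.ofReal_le_ofReal (le_of_eq ?_))
    · by_cases h : A q ≤ α
      · simp only [h, if_true]
        exact Or.inr ⟨⟨hq.1, by linarith [(hA q hq).1]⟩, Vel_half (by norm_num) hq.1 (hA q hq).1⟩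
      · simp [h]
    · rw [neg_neg, show (-(1 / 2) + 1 : ℝ) = 1 / 2 by norm_num, ← Real.sqrt_eq_rpow,
        ← Real.sqrt_eq_rpow, Real.sqrt_mul (by norm_num), Real.rpow_zero]
      have : √2 * √2 = 2 := Real.mul_self_sqrt (by norm_num)
      linear_combination 2 * √α * this
  · simp only [velI, indicator_apply, mem_ofPred_eq, Real.rpow_zero, one_mul]
    split_ifs <;> rfl
  · rw [zero_add, show (3 : ℝ) = (3 : ℕ) by norm_num, Real.rpow_natCast]
    ring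

theorem Vel_crit1 : ∃ C : ℝ, 0 ≤ C ∧ ∀ P, 1 ≤ P → ∀ e : R3, ‖e‖ = 1 → ∀ L, 0 ≤ L →
    Bd ({v : R3 | en v ≤ P}.indicator fun v =>
      if en v * √(gg e v) ^ 3 ≤ L then √(gg e v) else 0) (C * (L * P ^ 2)) := by
  obtain ⟨K', hK', h2⟩ := Vel_rad (-1) (by norm_num)
  refine ⟨2 * Real.pi * (2 * K'), by positivity, fun P hP e he L hL => ?_⟩
  refine (Vel_red he (h := fun p : ℝ × ℝ => if p.1 * √p.2 ^ 3 ≤ L then √p.2 else 0)
    (Measurable.ite (measurableSet_le (by fun_prop) measurable_const) (by fun_prop)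
      measurable_const) (K := 2 * L) (by positivity)
    (fun Q hQ _ A hA => ?_) (h2 P hP)).mono
    (Eventually.of_forall fun v => le_rfl) (le_of_eq ?_)
  · have hQ0 : 0 < Q := by linarith
    obtain ⟨s, hs0, hs⟩ : ∃ s : ℝ, 0 ≤ s ∧ s ^ 3 = L / Q :=
      ⟨(L / Q) ^ ((3 : ℕ) : ℝ)⁻¹, by positivity,
        Real.rpow_inv_natCast_pow (by positivity) (by norm_num)⟩
    refine (Vel_one measurableSet_Ioo measurableSet_Ioc (fun q hq => ?_)
      (Vel_const (c := s) (ε := 2 * s ^ 2) hs0)).trans (ENNReal.ofReal_le_ofReal (le_of_eq ?_))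
    · by_cases h : Q * √(A q) ^ 3 ≤ L
      · simp only [h, if_true]
        have h1 : √(A q) ≤ s := by
          refine le_of_pow_le_pow_left₀ (n := 3) (by norm_num) hs0 ?_
          rw [hs, le_div_iff₀ hQ0, mul_comm]
          exact h
        have h3 : A q ≤ s ^ 2 := (Real.sqrt_le_iff.1 h1).2
        exact Or.inr ⟨⟨hq.1, by linarith [(hA q hq).1]⟩, h1⟩
      · simp [h]
    · rw [Real.rpow_neg_one, mul_assoc 2 L, ← div_eq_mul_inv, ← hs]
      ring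
  · rw [show (-1 + 3 : ℝ) = 2 by norm_num, Real.rpow_two]
    ring

/-- the sharp (logarithm-free) interpolation `∫ F ψ ≤ C P (∫ F v₀ ψ⁴)^{1/2}` -/
theorem vel_crit (M : ℝ) : ∃ C : ℝ, 0 ≤ C ∧ ∀ P, 1 ≤ P → ∀ e : R3, ‖e‖ = 1 →
    ∀ F : R3 → ℝ, Measurable F → (∀ v, 0 ≤ F v ∧ F v ≤ M) → (∀ v, P < en v → F v = 0) →
    ∀ β, 0 ≤ β → Bd (fun v => F v * (en v * gg e v ^ 2)) β →
    Bd (fun v => F v * √(gg e v)) (C * (P * √β)) := by
  obtain ⟨C, hC, h1⟩ := Vel_crit1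
  refine ⟨1 + |M| * C, by positivity, fun P hP e he F mF hF hFP β hβ h => ?_⟩
  have hP0 : 0 < P := by linarith
  have mg : Measurable fun v => F v * (en v * gg e v ^ 2) :=
    mF.mul (measurable_en.mul ((measurable_gg e).pow_const 2))
  have g0 : ∀ v, 0 ≤ gg e v := fun v => ang_nonneg (norm_relVel_lt_one v).le he.le
  rcases hβ.eq_or_lt with rfl | hβ
  · refine h.mono ?_ (by positivity)
    have h0 : ∫⁻ v, ENNReal.ofReal (F v * (en v * gg e v ^ 2)) = 0 := by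
      simpa [Bd] using h
    rw [lintegral_eq_zero_iff mg.ennreal_ofReal] at h0
    filter_upwards [h0] with v hv
    have h2 : F v * (en v * gg e v ^ 2) = 0 := le_antisymm (ENNReal.ofReal_eq_zero.1 hv)
      (mul_nonneg (hF v).1 (mul_nonneg (en_pos v).le (sq_nonneg _)))
    rw [h2]
    rcases mul_eq_zero.1 h2 with h3 | h3
    · rw [h3, zero_mul]
    · rw [pow_eq_zero_iff (by norm_num) |>.1 ((mul_eq_zero.1 h3).resolve_left (en_pos v).ne'),
        Real.sqrt_zero, mul_zero]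
  · have hs : 0 < √β := Real.sqrt_pos.2 hβ
    have hL : 0 < √β / P := by positivity
    refine ((h.const_mul (inv_pos.2 hL).le).add ((h1 P hP e he _ hL.le).const_mul (abs_nonneg M))
      (mg.const_mul _).aemeasurable (by positivity) (by positivity)).mono
      (Eventually.of_forall fun v => ?_) (le_of_eq ?_)
    · have e0 := en_pos v
      have t1 : 0 ≤ (√β / P)⁻¹ * (F v * (en v * gg e v ^ 2)) := by
        have := (hF v).1
        positivity
      by_cases hv : en v ≤ P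
      · rw [indicator_of_mem (show v ∈ {v : R3 | en v ≤ P} from hv)]
        split_ifs with h2
        · have := mul_le_mul_of_nonneg_right ((hF v).2.trans (le_abs_self M))
            (Real.sqrt_nonneg (gg e v))
          linarith
        · rw [mul_zero, add_zero, ← div_eq_inv_mul, le_div_iff₀ hL]
          have h3 : gg e v ^ 2 = √(gg e v) ^ 4 := by
            rw [show 4 = 2 * 2 from rfl, pow_mul, Real.sq_sqrt (g0 v)]
          rw [h3]
          have := mul_le_mul_of_nonneg_left (not_le.1 h2).le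
            (mul_nonneg (hF v).1 (Real.sqrt_nonneg (gg e v)))
          linarith
      · rw [indicator_of_notMem (show v ∉ {v : R3 | en v ≤ P} from hv), hFP v (not_le.1 hv)]
        simp
    · have h3 : √β * √β = β := Real.mul_self_sqrt hβ.le
      generalize √β = s at hs h3
      subst h3
      field_simp

end Crest.Agent.R106
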