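import Crest.Agent.R106.Div

/-!
# Row 106: the Duhamel operator
-/

set_option autoImplicit false
set_option linter.unusedVariables false
set_option linter.unusedSectionVars false

open MeasureTheory Metric Set Filter Topology
open scoped ContDiff ENNReal RealInnerProductSpace
open Crest.AnalysisR.VecCalc3 Crest.AnalysisR.PDE.RVM

noncomputable section

namespace Crest.Agent.R106

section
variable {F : Type*} [NormedAddCommGroup F] [NormedSpace ℝ F] [CompleteSpace F]

theorem WaveA_integrableOn {g : R3 → F} (hg : Continuous g) (r : ℝ) :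
    IntegrableOn (fun z : R3 => (4 * Real.pi * ‖z‖)⁻¹ • g z) (ball 0 r) := by
  obtain ⟨C, hC⟩ := (isCompact_closedBall (0 : R3) r).exists_bound_of_continuousOn hg.continuousOn
  refine integrableOn_ball_of_norm_le_rpow (by simp) (C := (4 * Real.pi)⁻¹ * C) (α := 1) (by simp)
    ((ae_restrict_mem measurableSet_ball).mono fun z hz => ?_)
    ((Measurable.aestronglyMeasurable (by fun_prop)).smul hg.aestronglyMeasurable)
  rw [norm_smul, Real.norm_of_nonneg (by positivity), Real.rpow_neg_one, mul_inv, mul_right_comm,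
    mul_assoc, mul_assoc]
  gcongr
  exact hC z (ball_subset_closedBall hz)

/-- the measure `(4π|ζ|)⁻¹ dζ` on the graph of the norm over the unit ball -/
def WaveA_nu : Measure (R3 × ℝ) :=
  ((volume.restrict (ball (0 : R3) 1)).withDensity
    fun ζ => ENNReal.ofReal (4 * Real.pi * ‖ζ‖)⁻¹).map fun ζ => (ζ, ‖ζ‖)

theorem WaveA_fin : IsFiniteMeasure WaveA_nu := by
  have h := WaveA_integrableOn (F := ℝ) (g := fun _ => 1) continuous_const 1
  simp only [smul_eq_mul, mul_one] at h
  have := isFiniteMeasure_withDensity_ofReal h.2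
  unfold WaveA_nu
  infer_instance

theorem WaveA_ae : ∀ᵐ y ∂WaveA_nu, y ∈ closedBall (0 : R3 × ℝ) 1 := by
  refine (ae_map_iff (by fun_prop) measurableSet_closedBall).2
    ((withDensity_absolutelyContinuous _ _).ae_le
      ((ae_restrict_mem measurableSet_ball).mono fun z hz => ?_))
  simpa [Prod.norm_def] using (mem_ball_zero_iff.1 hz).le

theorem WaveA_int {g : R3 × ℝ → F} (hg : Continuous g) :
    ∫ y, g y ∂WaveA_nu = ∫ ζ in ball (0 : R3) 1, (4 * Real.pi * ‖ζ‖)⁻¹ • g (ζ, ‖ζ‖) := by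
  rw [WaveA_nu, integral_map (by fun_prop) hg.aestronglyMeasurable,
    integral_withDensity_eq_integral_toReal_smul (by fun_prop)
      (.of_forall fun _ => ENNReal.ofReal_lt_top)]
  refine integral_congr_ae (.of_forall fun z => ?_)
  beta_reduce
  rw [ENNReal.toReal_ofReal (by positivity)]

/-- the smooth integrand -/
def WaveA_Phi (G : ST → F) (z : ST × (R3 × ℝ)) : F :=
  G (z.1.1 * (1 - z.2.2), z.1.2 - z.1.1 • z.2.1)

theorem WaveA_locT {G : ST → F} (hG : ContDiff ℝ ∞ G) :
    R240.LocT (closedBall (0 : R3 × ℝ) 1) (WaveA_Phi G) :=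
  ⟨hG.comp (by fun_prop), fun _ =>
    ⟨_, isCompact_closedBall _ _, .of_forall fun _ _ h1 h2 => absurd h1 h2⟩⟩

theorem WaveA_eq {G : ST → F} (hG : Continuous G) :
    duh G = fun p => p.1 ^ 2 • ∫ y, WaveA_Phi G (p, y) ∂WaveA_nu := by
  funext p
  rw [WaveA_int (g := fun y => WaveA_Phi G (p, y)) (hG.comp (by fun_prop))]
  rfl

theorem WaveA_fderiv {G : ST → F} (hG : ContDiff ℝ ∞ G) (p v : ST) :
    fderiv ℝ (duh G) p v = p.1 ^ 2 • ∫ y, fderiv ℝ (WaveA_Phi G) (p, y) (v, 0) ∂WaveA_nu +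
      (2 * p.1 * v.1) • ∫ y, WaveA_Phi G (p, y) ∂WaveA_nu := by
  have := WaveA_fin
  have h1 : HasFDerivAt (fun p : ST => p.1 ^ 2) _ p := (hasFDerivAt_fst (𝕜 := ℝ)).pow 2
  rw [WaveA_eq hG.continuous, fderiv_fun_smul h1.differentiableAt
    ((WaveA_locT hG).hasFDerivAt WaveA_ae p).differentiableAt, h1.fderiv,
    ← (WaveA_locT hG).fderiv_integral WaveA_ae]
  simp

theorem WaveA_time {G : ST → F} {p : ST} (hG : DifferentiableAt ℝ G p) :
    HasDerivAt (fun τ => G (τ, p.2)) (fderiv ℝ G p (1, 0)) p.1 :=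
  hG.hasFDerivAt.comp_hasDerivAt p.1 ((hasDerivAt_id p.1).prodMk (hasDerivAt_const p.1 p.2))

theorem contDiff_duh {G : ST → F} (hG : ContDiff ℝ ∞ G) : ContDiff ℝ ∞ (duh G) := by
  have := WaveA_fin
  rw [WaveA_eq hG.continuous]
  exact (contDiff_fst.pow 2).smul ((WaveA_locT hG).contDiff_integral WaveA_ae)

theorem duh_eq {G : ST → F} (hG : Continuous G) {t : ℝ} (ht : 0 ≤ t) (x : R3) :
    IntegrableOn (fun z : R3 => (4 * Real.pi * ‖z‖)⁻¹ • G (cp t x z)) (ball 0 t) ∧
    duh G (t, x) = ∫ z in ball (0 : R3) t, (4 * Real.pi * ‖z‖)⁻¹ • G (cp t x z) := by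
  refine ⟨WaveA_integrableOn (hG.comp (by unfold cp; fun_prop)) t, ?_⟩
  rcases ht.eq_or_lt with rfl | ht
  · simp [duh]
  have h := Measure.setIntegral_comp_smul_of_pos (volume : Measure R3)
    (fun z : R3 => (4 * Real.pi * ‖z‖)⁻¹ • G (cp t x z)) (ball 0 1) ht
  rw [smul_unitBall_of_pos ht, finrank_euclideanSpace_fin,
    eq_inv_smul_iff₀ (pow_ne_zero _ ht.ne')] at h
  rw [← h, duh, ← integral_smul, ← integral_smul]
  refine integral_congr_ae (.of_forall fun ζ => ?_)
  simp only [cp, norm_smul, Real.norm_of_nonneg ht.le, smul_smul, mul_sub, mul_one]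
  congr 1
  by_cases h0 : ‖ζ‖ = 0
  · simp [h0]
  · field_simp

theorem duh_refl (G : ST → F) (p : ST) :
    duh (fun q => G (-q.1, q.2)) p = duh G (-p.1, p.2) := by
  have h := (Measure.measurePreserving_neg (volume : Measure R3)).setIntegral_preimage_emb
    (MeasurableEquiv.neg R3).measurableEmbedding
    (fun ζ => (4 * Real.pi * ‖ζ‖)⁻¹ • G (-p.1 * (1 - ‖ζ‖), p.2 - -p.1 • ζ)) (ball 0 1)
  have e : Neg.neg ⁻¹' ball (0 : R3) 1 = ball 0 1 := by
    ext z
    simp
  rw [e] at h
  simp only [duh, neg_sq]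
  rw [← h]
  simp

theorem duh_zero (G : ST → F) (x : R3) : duh G (0, x) = 0 := by
  simp [duh]

theorem fderiv_duh_zero {G : ST → F} (hG : ContDiff ℝ ∞ G) (x : R3) :
    fderiv ℝ (duh G) (0, x) (1, 0) = 0 := by
  simp [WaveA_fderiv hG]

theorem fderiv_duh_space {G : ST → F} (hG : ContDiff ℝ ∞ G) (w : R3) (p : ST) :
    fderiv ℝ (duh G) p (0, w) = duh (fun q => fderiv ℝ G q (0, w)) p := by
  have h1 : Continuous fun q => fderiv ℝ G q (0, w) :=
    (hG.continuous_fderiv (by simp)).clm_apply continuous_const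
  rw [WaveA_fderiv hG, WaveA_eq h1]
  simp only [mul_zero, zero_smul, add_zero]
  congr 1
  refine integral_congr_ae (.of_forall fun y => ?_)
  simp only [WaveA_Phi]
  rw [← ((WaveA_locT hG).smooth.differentiable (by simp) _).lineDeriv_eq_fderiv,
    ← (hG.differentiable (by simp) _).lineDeriv_eq_fderiv, lineDeriv, lineDeriv]
  congr 1
  funext s
  simp [WaveA_Phi, add_sub_right_comm]

theorem WaveA_pos {G : ST → F} (hG : ContDiff ℝ ∞ G) (h0 : ∀ y, G (0, y) = 0) {t : ℝ} (ht : 0 < t)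
    (x : R3) : fderiv ℝ (duh G) (t, x) (1, 0) = duh (fun q => fderiv ℝ G q (1, 0)) (t, x) := by
  have h1 : Continuous fun q => fderiv ℝ G q (1, 0) :=
    (hG.continuous_fderiv (by simp)).clm_apply continuous_const
  have hc := hG.continuous
  obtain ⟨K, hK⟩ := hG.contDiffOn.exists_lipschitzOnWith (by simp)
    ((convex_Icc 0 (t + 1)).prod (convex_closedBall x (t + 1)))
    (isCompact_Icc.prod (isCompact_closedBall _ _))
  have hs : Ioo 0 (t + 1) ∈ 𝓝 t := Ioo_mem_nhds ht (by linarith)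
  have hi := fun τ => WaveA_integrableOn (g := fun z : R3 => G (max (τ - ‖z‖) 0, x - z))
    (by fun_prop) (t + 1)
  have h2 := (hasDerivAt_integral_of_dominated_loc_of_lip (μ := volume.restrict (ball 0 (t + 1)))
    (F := fun (τ : ℝ) (z : R3) => (4 * Real.pi * ‖z‖)⁻¹ • G (max (τ - ‖z‖) 0, x - z))
    (F' := (ball 0 t).indicator fun z => (4 * Real.pi * ‖z‖)⁻¹ • fderiv ℝ G (cp t x z) (1, 0))
    (bound := fun z => (4 * Real.pi * ‖z‖)⁻¹ • (K : ℝ)) hs
    (.of_forall fun τ => (hi τ).aestronglyMeasurable) (hi t)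
    ((WaveA_integrableOn (h1.comp (by unfold cp; fun_prop)) (t + 1)).aestronglyMeasurable.indicator
      measurableSet_ball)
    ((ae_restrict_mem measurableSet_ball).mono fun z hz => ?_)
    (WaveA_integrableOn continuous_const _) (ae_restrict_of_ae ?_)).2
  · rw [integral_indicator measurableSet_ball, Measure.restrict_restrict measurableSet_ball,
      inter_eq_left.2 (ball_subset_ball (by linarith)), ← (duh_eq h1 ht.le x).2] at h2
    refine (WaveA_time ((contDiff_duh hG).differentiable (by simp) (t, x))).unique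
      (h2.congr_of_eventuallyEq ?_)
    filter_upwards [hs] with τ hτ
    rw [(duh_eq hc hτ.1.le x).2]
    refine ((setIntegral_eq_of_subset_of_forall_sdiff_eq_zero measurableSet_ball
      (ball_subset_ball hτ.2.le) fun z hz => ?_).trans
      (setIntegral_congr_fun measurableSet_ball fun z hz => ?_)).symm
    · have h3 : τ ≤ ‖z‖ := by simpa using hz.2
      rw [max_eq_right (by linarith), h0, smul_zero]
    · simp only [cp, max_eq_left (sub_pos.2 (mem_ball_zero_iff.1 hz)).le]
  · refine LipschitzOnWith.of_dist_le_mul fun a ha b hb => ?_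
    have hm : ∀ τ ∈ Ioo 0 (t + 1), (max (τ - ‖z‖) 0, x - z) ∈
        Icc 0 (t + 1) ×ˢ closedBall x (t + 1) := fun τ hτ =>
      ⟨⟨le_max_right _ _, max_le (by linarith [hτ.2, norm_nonneg z]) (by linarith)⟩,
        by simpa using (mem_ball_zero_iff.1 hz).le⟩
    have h3 := hK.dist_le_mul _ (hm a ha) _ (hm b hb)
    have h4 := abs_max_sub_max_le_abs (a - ‖z‖) (b - ‖z‖) 0
    rw [Prod.dist_eq, dist_self, max_eq_left dist_nonneg, Real.dist_eq] at h3
    rw [sub_sub_sub_cancel_right] at h4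
    rw [dist_smul₀, Real.coe_nnabs, Real.dist_eq, smul_eq_mul, abs_mul, NNReal.abs_eq, mul_assoc _ (K : ℝ)]
    exact mul_le_mul_of_nonneg_left (h3.trans (mul_le_mul_of_nonneg_left h4 K.2)) (abs_nonneg _)
  · filter_upwards [compl_mem_ae_iff.2 (Measure.addHaar_sphere volume (0 : R3) t)] with z hz
    rcases lt_or_gt_of_ne (show ‖z‖ ≠ t by simpa using hz) with h3 | h3
    · rw [indicator_of_mem (mem_ball_zero_iff.2 h3)]
      refine (((WaveA_time (hG.differentiable (by simp) (cp t x z))).comp_sub_const t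
        ‖z‖).const_smul _).congr_of_eventuallyEq ?_
      filter_upwards [Ioi_mem_nhds h3] with τ (hτ : ‖z‖ < τ)
      simp only [cp, max_eq_left (sub_pos.2 hτ).le, Pi.smul_apply]
    · rw [indicator_of_notMem (by simpa using h3.le)]
      refine (hasDerivAt_const t (0 : F)).congr_of_eventuallyEq ?_
      filter_upwards [Iio_mem_nhds h3] with τ hτ
      rw [max_eq_right (sub_neg.2 hτ).le, h0, smul_zero]

theorem WaveA_refl {G : ST → F} (hG : Differentiable ℝ G) (p : ST) :
    fderiv ℝ (fun q : ST => G (-q.1, q.2)) p (1, 0) = -fderiv ℝ G (-p.1, p.2) (1, 0) :=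
  (WaveA_time (G := fun q : ST => G (-q.1, q.2)) (by fun_prop)).unique
    (((WaveA_time (hG (-p.1, p.2))).scomp (h := fun τ : ℝ => -τ) p.1
      (hasDerivAt_neg' p.1)).congr_deriv (neg_one_smul ℝ _))

theorem fderiv_duh_time {G : ST → F} (hG : ContDiff ℝ ∞ G) (h0 : ∀ y, G (0, y) = 0) (p : ST) :
    fderiv ℝ (duh G) p (1, 0) = duh (fun q => fderiv ℝ G q (1, 0)) p := by
  obtain ⟨t, x⟩ := p
  rcases lt_trichotomy t 0 with ht | rfl | ht
  · have hG' : ContDiff ℝ ∞ fun q : ST => G (-q.1, q.2) := hG.comp (by fun_prop)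
    have h1 := WaveA_pos hG' (fun y => by simpa using h0 y) (neg_pos.2 ht) x
    rw [funext (duh_refl G), WaveA_refl ((contDiff_duh hG).differentiable (by simp)),
      funext (WaveA_refl (hG.differentiable (by simp))),
      duh_refl fun q => -fderiv ℝ G q (1, 0)] at h1
    simpa [duh, integral_neg] using h1
  · rw [fderiv_duh_zero hG, duh_zero]
  · exact WaveA_pos hG h0 ht x

end

end Crest.Agent.R106
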